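/- Packed by merge_tool.py (helper293): 7 modules of Claimed.Agent.R315 in one file, same declarations.
   Old modules, in this order: Core.Basic, IfParam, IfLC, If.Coord, If.Smooth, If.Curv, If.Pull -/
import Claimed.Prelude.Def_0499
import Mathlib

/- ===== packed: Claimed.Agent.R315.Core.Basic ===== -/
section
/-!
# Row 315 (S0571): core definitions

Model ("candidate A, locally closed"): a `d`-manifold is a SET `M` in a finite dimensional real
normed space `V` which is covered by local parametrisations (`IsMfd d M`); it need not be closed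
in `V`.  All geometric data are AMBIENT objects:

* scalar functions `u : V → ℝ`; only the values on `M` matter; smooth = `SmoothAlong d M u`
  (`u ∘ ψ` smooth for every parametrisation `ψ`); `SmoothNear M u` (smooth on an open
  neighbourhood of `M` in `V`) is the stronger ambient notion (extension lemma: package IF);
* metrics `g : V → V →L[ℝ] V →L[ℝ] ℝ` (`Ten V`); only the values on tangent vectors of `M`
  matter: `IsMetricOn d M g` only speaks about the coordinate matrices `cm g ψ`;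
* differentials along `M`: `tder d M F x : V →L[ℝ] F'` (meaningful on tangent vectors only);
* restriction to a submanifold or to an open subset = the same function;
* all local geometry is computed in a parametrisation `ψ` from the coordinate matrix `cm g ψ`
  with the formulas of `Def_0499` (`christoffel`, `scalarCoord`, ...) and globalised by `pv`.

For `V = EuclideanSpace ℝ (Fin N)` the definitions `IsParam`, `cm`, `pv`, `rdist` are literally
`IsLocalParam`, `coordMetric`, `paramValue`, `riemDist` of `Def_0499`.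
-/

set_option autoImplicit false
open scoped ContDiff
open MeasureTheory Claims.C0499

namespace Claimed.Agent.R315

/-- the model space. -/
abbrev E (d : ℕ) := EuclideanSpace ℝ (Fin d)

/-- coordinate vector. -/
noncomputable abbrev eb {d : ℕ} (i : Fin d) : E d := EuclideanSpace.single i 1

variable {V : Type} [NormedAddCommGroup V] [NormedSpace ℝ V]

/-- ambient `(0,2)` tensor fields. -/
abbrev Ten (V : Type) [NormedAddCommGroup V] [NormedSpace ℝ V] := V → V →L[ℝ] V →L[ℝ] ℝ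

/-- local parametrisation of the set `M` (as `Def_0499.IsLocalParam`, any ambient space). -/
def IsParam {d : ℕ} (M : Set V) (ψ : E d → V) (U : Set (E d)) : Prop :=
  IsOpen U ∧ ContDiffOn ℝ ∞ ψ U ∧ (∀ u ∈ U, Function.Injective (fderiv ℝ ψ u)) ∧
    Set.InjOn ψ U ∧ (∃ O : Set V, IsOpen O ∧ ψ '' U = M ∩ O) ∧
    ContinuousOn (Function.invFunOn ψ U) (ψ '' U)

/-- `M` is an embedded `d`-dimensional submanifold of `V` (not necessarily closed). -/
def IsMfd (d : ℕ) (M : Set V) : Prop :=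
  ∀ p ∈ M, ∃ (ψ : E d → V) (U : Set (E d)), IsParam M ψ U ∧ p ∈ ψ '' U

/-- coordinate matrix of the ambient tensor `g` in the parametrisation `ψ`. -/
noncomputable def cm {d : ℕ} (g : Ten V) (ψ : E d → V) : E d → Matrix (Fin d) (Fin d) ℝ :=
  fun u => Matrix.of fun i j => g (ψ u) (fderiv ℝ ψ u (eb i)) (fderiv ℝ ψ u (eb j))

/-- value at `x ∈ M` of a quantity `Φ ψ u` which is computed in parametrisations
(meaningful when `Φ` is invariant). -/
noncomputable def pv {d : ℕ} (M : Set V) (Φ : (E d → V) → E d → ℝ) (x : V) : ℝ :=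
  sSup {r | ∃ (ψ : E d → V) (U : Set (E d)) (u : E d),
    IsParam M ψ U ∧ u ∈ U ∧ ψ u = x ∧ r = Φ ψ u}

/-- Riemannian distance (as `Def_0499.riemDist`). -/
noncomputable def rdist (M : Set V) (g : Ten V) (x y : V) : ℝ :=
  sInf {L | ∃ c : ℝ → V, ContDiff ℝ 1 c ∧ (∀ t ∈ Set.Icc (0 : ℝ) 1, c t ∈ M) ∧
    c 0 = x ∧ c 1 = y ∧ L = ∫ t in (0 : ℝ)..1, Real.sqrt (g (c t) (deriv c t) (deriv c t))}

theorem isParam_iff {d N : ℕ} (M : Set (E N)) (ψ : E d → E N) (U : Set (E d)) :
    IsParam M ψ U ↔ IsLocalParam M ψ U := Iff.rfl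

theorem cm_eq {d N : ℕ} (g : Ten (E N)) (ψ : E d → E N) : cm g ψ = coordMetric g ψ := rfl

theorem pv_eq {d N : ℕ} (M : Set (E N)) (Φ : (E d → E N) → E d → ℝ) (x : E N) :
    pv M Φ x = paramValue M Φ x := rfl

theorem rdist_eq {N : ℕ} (M : Set (E N)) (g : Ten (E N)) (x y : E N) :
    rdist M g x y = riemDist M g x y := rfl

/-- `u` is smooth on an open neighbourhood of `M`. -/
def SmoothNear {F : Type} [NormedAddCommGroup F] [NormedSpace ℝ F] (M : Set V) (u : V → F) :
    Prop :=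
  ∃ O : Set V, IsOpen O ∧ M ⊆ O ∧ ContDiffOn ℝ ∞ u O

/-- `u` is smooth along `M` in the intrinsic (chartwise) sense. -/
def SmoothAlong {F : Type} [NormedAddCommGroup F] [NormedSpace ℝ F] (d : ℕ) (M : Set V)
    (u : V → F) : Prop :=
  ∀ (ψ : E d → V) (U : Set (E d)), IsParam M ψ U → ContDiffOn ℝ ∞ (u ∘ ψ) U

/-- `g` is a smooth `(0,2)` tensor on the `d`-manifold `M`: smooth coordinate matrices. -/
def IsTenOn (d : ℕ) (M : Set V) (g : Ten V) : Prop :=
  ∀ (ψ : E d → V) (U : Set (E d)), IsParam M ψ U →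
    ∀ i j : Fin d, ContDiffOn ℝ ∞ (fun u => cm g ψ u i j) U

/-- `g` is a smooth Riemannian metric on the `d`-manifold `M` (only the coordinate matrices
are involved: no condition on `g` off the tangent vectors of `M`). -/
def IsMetricOn (d : ℕ) (M : Set V) (g : Ten V) : Prop :=
  ∀ (ψ : E d → V) (U : Set (E d)), IsParam M ψ U →
    (∀ i j : Fin d, ContDiffOn ℝ ∞ (fun u => cm g ψ u i j) U) ∧ ∀ u ∈ U, (cm g ψ u).PosDef

/-- completeness in the Heine-Borel form: closed balls are compact. -/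
def IsProperOn (M : Set V) (g : Ten V) : Prop :=
  ∀ x ∈ M, ∀ R : ℝ, IsCompact {y | y ∈ M ∧ rdist M g x y ≤ R}

/-- distance between two sets. -/
noncomputable def sdist (M : Set V) (g : Ten V) (A B : Set V) : ℝ :=
  sInf {r | ∃ x ∈ A, ∃ y ∈ B, r = rdist M g x y}

/-- `g ≤ h` on tangent vectors of `M`. -/
def MetLE (d : ℕ) (M : Set V) (g h : Ten V) : Prop :=
  ∀ (ψ : E d → V) (U : Set (E d)), IsParam M ψ U → ∀ u ∈ U, (cm h ψ u - cm g ψ u).PosSemidef

/-! ### coordinate operators for a metric matrix `G` on an open set of `E d` -/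

/-- `|df|²_G = G^{ij} ∂_i f ∂_j f`. -/
noncomputable def gradSqC {d : ℕ} (G : E d → Matrix (Fin d) (Fin d) ℝ) (f : E d → ℝ) (u : E d) :
    ℝ :=
  ∑ i : Fin d, ∑ j : Fin d, (G u)⁻¹ i j * pdiff f i u * pdiff f j u

/-- `⟨df, dk⟩_G`. -/
noncomputable def gradIpC {d : ℕ} (G : E d → Matrix (Fin d) (Fin d) ℝ) (f k : E d → ℝ) (u : E d) :
    ℝ :=
  ∑ i : Fin d, ∑ j : Fin d, (G u)⁻¹ i j * pdiff f i u * pdiff k j u

/-- Laplace-Beltrami operator `(det G)^{-1/2} ∂_i ((det G)^{1/2} G^{ij} ∂_j f)`. -/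
noncomputable def lapC {d : ℕ} (G : E d → Matrix (Fin d) (Fin d) ℝ) (f : E d → ℝ) (u : E d) : ℝ :=
  (Real.sqrt (G u).det)⁻¹ * ∑ i : Fin d,
    pdiff (fun w => Real.sqrt (G w).det * ∑ j : Fin d, (G w)⁻¹ i j * pdiff f j w) i u

/-- Hessian `∂_i∂_j f - Γ^k_{ij} ∂_k f`. -/
noncomputable def hessC {d : ℕ} (G : E d → Matrix (Fin d) (Fin d) ℝ) (f : E d → ℝ) (u : E d)
    (i j : Fin d) : ℝ :=
  pdiff (fun w => pdiff f j w) i u - ∑ k : Fin d, christoffel G u k i j * pdiff f k u

/-- `tr_G H = G^{ij} H_{ij}`. -/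
noncomputable def trC {d : ℕ} (G H : E d → Matrix (Fin d) (Fin d) ℝ) (u : E d) : ℝ :=
  ((G u)⁻¹ * H u).trace

/-! ### global scalar quantities on `(M, g)` -/

/-- scalar curvature. -/
noncomputable def scal (d : ℕ) (M : Set V) (g : Ten V) : V → ℝ :=
  pv (d := d) M fun ψ u => scalarCoord (cm g ψ) u

/-- `|du|²_g`. -/
noncomputable def gradSq (d : ℕ) (M : Set V) (g : Ten V) (f : V → ℝ) : V → ℝ :=
  pv (d := d) M fun ψ u => gradSqC (cm g ψ) (f ∘ ψ) u

/-- `⟨df, dk⟩_g`. -/
noncomputable def gradIp (d : ℕ) (M : Set V) (g : Ten V) (f k : V → ℝ) : V → ℝ :=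
  pv (d := d) M fun ψ u => gradIpC (cm g ψ) (f ∘ ψ) (k ∘ ψ) u

/-- Laplace-Beltrami operator. -/
noncomputable def lap (d : ℕ) (M : Set V) (g : Ten V) (f : V → ℝ) : V → ℝ :=
  pv (d := d) M fun ψ u => lapC (cm g ψ) (f ∘ ψ) u

/-- `tr_g h`. -/
noncomputable def trM (d : ℕ) (M : Set V) (g h : Ten V) : V → ℝ :=
  pv (d := d) M fun ψ u => trC (cm g ψ) (cm h ψ) u

/-- drift scalar curvature `D(g,t) = Scal_g + 2 Δ_g t - |dt|²_g`. -/
noncomputable def Dsc (d : ℕ) (M : Set V) (g : Ten V) (t : V → ℝ) (x : V) : ℝ :=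
  scal d M g x + 2 * lap d M g t x - gradSq d M g t x

/-- the tensor `du ⊗ du` for an ambient differentiable `u`. -/
noncomputable def dsq (u : V → ℝ) : Ten V := fun x => (fderiv ℝ u x).smulRight (fderiv ℝ u x)

open Classical in
/-- differential along `M` of a function which is only smooth along `M`: computed in a chosen
parametrisation, composed with a chosen left inverse of `dψ`.  Only the values on tangent vectors
of `M` are meaningful: `tder d M F (ψ u) (fderiv ℝ ψ u a) = fderiv ℝ (F ∘ ψ) u a`. -/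
noncomputable def tder {F : Type} [NormedAddCommGroup F] [NormedSpace ℝ F] (d : ℕ) (M : Set V)
    (f : V → F) (x : V) : V →L[ℝ] F :=
  if H : ∃ (ψ : E d → V) (U : Set (E d)) (u : E d) (L : V →L[ℝ] E d),
      IsParam M ψ U ∧ u ∈ U ∧ ψ u = x ∧ L.comp (fderiv ℝ ψ u) = ContinuousLinearMap.id ℝ (E d)
  then (fderiv ℝ (f ∘ H.choose) H.choose_spec.choose_spec.choose).comp
    H.choose_spec.choose_spec.choose_spec.choose
  else 0

/-- the tensor `du ⊗ du` for a function which is smooth along `M`. -/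
noncomputable def dsqT (d : ℕ) (M : Set V) (u : V → ℝ) : Ten V :=
  fun x => (tder d M u x).smulRight (tder d M u x)

/-- pull-back of the tensor `h` by a map `κ` which is smooth along `M`. -/
noncomputable def pullT (d : ℕ) (M : Set V) (κ : V → V) (h : Ten V) : Ten V :=
  fun x => (h (κ x)).bilinearComp (tder d M κ x) (tder d M κ x)

/-! ### volume -/

variable [MeasurableSpace V] [BorelSpace V]

/-- `μ` is the Riemannian volume measure of `(M, g)`. -/
def IsVol (d : ℕ) (M : Set V) (g : Ten V) (μ : Measure V) : Prop :=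
  μ Mᶜ = 0 ∧
  ∀ (ψ : E d → V) (U : Set (E d)), IsParam M ψ U → ∀ A ⊆ U, MeasurableSet A →
    μ (ψ '' A) = ∫⁻ u in A, ENNReal.ofReal (Real.sqrt (cm g ψ u).det)

open Classical in
/-- the Riemannian volume measure. -/
noncomputable def vol (d : ℕ) (M : Set V) (g : Ten V) : Measure V :=
  if H : ∃ μ : Measure V, IsVol d M g μ then H.choose else 0

/-- the spectral hypothesis `∫ φ² ≤ ∫ 4|dφ|² + Scal φ²` for all test functions. -/
def Spectral (d : ℕ) (M : Set V) (g : Ten V) : Prop :=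
  ∀ φ : V → ℝ, ContDiff ℝ ∞ φ → HasCompactSupport φ →
    ∫ x, φ x ^ 2 ∂(vol d M g) ≤
      ∫ x, (4 * gradSq d M g φ x + scal d M g x * φ x ^ 2) ∂(vol d M g)

/-- the standing hypotheses of S0571 in the internal language. -/
structure Good (d : ℕ) (M : Set V) (g : Ten V) : Prop where
  mfd : IsMfd d M
  closed : IsClosed M
  conn : IsConnected M
  met : IsMetricOn d M g
  proper : IsProperOn M g
  spec : Spectral d M g

end Claimed.Agent.R315
end

/- ===== packed: Claimed.Agent.R315.IfParam ===== -/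
section
/-!
# Row 315 (S0571), interface, part 1: local parametrisations (prefix `if_`)

API of `IsParam` (= `Claims.C0499.IsLocalParam` for `V = E N`): projections, restriction to open subsets, reparametrisation by a
local diffeomorphism, and the TRANSITION MAPS `if_tr ψ' U' ψ = (ψ')⁻¹ ∘ ψ`, which are smooth with
invertible derivative on the open set `if_trDom ψ U ψ' U' = U ∩ ψ⁻¹ (ψ' '' U')`.
Owner: helper274.
-/

set_option autoImplicit false
set_option linter.unusedSectionVars false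

open scoped ContDiff Topology
open Set Function Claims.C0499

namespace Claimed.Agent.R315

variable {V : Type} [NormedAddCommGroup V] [NormedSpace ℝ V]
variable {d : ℕ} {M : Set V} {ψ ψ' : E d → V} {U U' W : Set (E d)}

/-! ## projections -/

theorem if_open (h : IsParam M ψ U) : IsOpen U := h.1

theorem if_smooth (h : IsParam M ψ U) : ContDiffOn ℝ ∞ ψ U := h.2.1

theorem if_imm (h : IsParam M ψ U) {u : E d} (hu : u ∈ U) : Injective (fderiv ℝ ψ u) :=
  h.2.2.1 u hu

theorem if_injOn (h : IsParam M ψ U) : InjOn ψ U := h.2.2.2.1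

theorem if_image (h : IsParam M ψ U) : ∃ V : Set V, IsOpen V ∧ ψ '' U = M ∩ V :=
  h.2.2.2.2.1

theorem if_contInv (h : IsParam M ψ U) : ContinuousOn (invFunOn ψ U) (ψ '' U) :=
  h.2.2.2.2.2

theorem if_mem (h : IsParam M ψ U) {u : E d} (hu : u ∈ U) : ψ u ∈ M := by
  obtain ⟨V, -, hV⟩ := if_image h
  have : ψ u ∈ M ∩ V := hV ▸ mem_image_of_mem ψ hu
  exact this.1

theorem if_leftInv (h : IsParam M ψ U) {u : E d} (hu : u ∈ U) : invFunOn ψ U (ψ u) = u :=
  (if_injOn h).leftInvOn_invFunOn hu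

theorem if_inv_mem {x : V} (hx : x ∈ ψ '' U) : invFunOn ψ U x ∈ U := invFunOn_mem hx

theorem if_rightInv {x : V} (hx : x ∈ ψ '' U) : ψ (invFunOn ψ U x) = x := invFunOn_eq hx

theorem if_contDiffAt (h : IsParam M ψ U) {u : E d} (hu : u ∈ U) : ContDiffAt ℝ ∞ ψ u :=
  (if_smooth h).contDiffAt ((if_open h).mem_nhds hu)

theorem if_differentiableAt (h : IsParam M ψ U) {u : E d} (hu : u ∈ U) :
    DifferentiableAt ℝ ψ u :=
  (if_contDiffAt h hu).differentiableAt (by simp)

theorem if_continuousOn (h : IsParam M ψ U) : ContinuousOn ψ U := (if_smooth h).continuousOn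

/-! ## restriction, congruence -/

theorem if_invFunOn_eq_of_subset (h : IsParam M ψ U) (hWU : W ⊆ U) {x : V}
    (hx : x ∈ ψ '' W) : invFunOn ψ W x = invFunOn ψ U x := by
  obtain ⟨w, hw, rfl⟩ := hx
  rw [if_leftInv h (hWU hw), ((if_injOn h).mono hWU).leftInvOn_invFunOn hw]

/-- the image of an open subset of the domain is relatively open in `M` -/
theorem if_image_open (h : IsParam M ψ U) (hW : IsOpen W) (hWU : W ⊆ U) :
    ∃ V : Set V, IsOpen V ∧ ψ '' W = M ∩ V := by
  obtain ⟨V, hV, hUV⟩ := if_image h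
  obtain ⟨O, hO, hOe⟩ := (continuousOn_iff'.1 (if_contInv h)) W hW
  refine ⟨V ∩ O, hV.inter hO, ?_⟩
  have h1 : ψ '' W = invFunOn ψ U ⁻¹' W ∩ ψ '' U := by
    ext x
    constructor
    · rintro ⟨w, hw, rfl⟩
      exact ⟨by rw [mem_preimage, if_leftInv h (hWU hw)]; exact hw, mem_image_of_mem ψ (hWU hw)⟩
    · rintro ⟨hx1, hx2⟩
      exact ⟨_, hx1, if_rightInv hx2⟩
  rw [h1, hOe, hUV]
  ext x
  simp only [mem_inter_iff]
  tauto

theorem if_mono (h : IsParam M ψ U) (hW : IsOpen W) (hWU : W ⊆ U) : IsParam M ψ W := by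
  refine ⟨hW, (if_smooth h).mono hWU, fun u hu => if_imm h (hWU hu), (if_injOn h).mono hWU,
    if_image_open h hW hWU, ?_⟩
  exact ((if_contInv h).mono (image_mono hWU)).congr fun x hx => if_invFunOn_eq_of_subset h hWU hx

theorem if_congr (h : IsParam M ψ U) (he : EqOn ψ' ψ U) : IsParam M ψ' U := by
  have himg : ψ' '' U = ψ '' U := image_congr he
  have hinv : ∀ x ∈ ψ' '' U, invFunOn ψ' U x = invFunOn ψ U x := by
    rintro _ ⟨u, hu, rfl⟩
    have hinj : InjOn ψ' U := (if_injOn h).congr he.symm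
    rw [hinj.leftInvOn_invFunOn hu, he hu, if_leftInv h hu]
  refine ⟨if_open h, (if_smooth h).congr he, fun u hu => ?_, (if_injOn h).congr he.symm, ?_, ?_⟩
  · have : ψ' =ᶠ[𝓝 u] ψ := he.eventuallyEq_of_mem ((if_open h).mem_nhds hu)
    rw [this.fderiv_eq]
    exact if_imm h hu
  · rw [himg]
    exact if_image h
  · rw [himg]
    exact (if_contInv h).congr fun x hx => hinv x (himg ▸ hx)

/-! ## local diffeomorphisms of the model space -/

/-- an injective endomorphism of `E d` as a continuous linear equivalence -/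
noncomputable def if_equiv (A : E d →L[ℝ] E d) (hA : Injective A) : E d ≃L[ℝ] E d :=
  (LinearEquiv.ofInjectiveEndo (A : E d →ₗ[ℝ] E d) hA).toContinuousLinearEquiv

theorem if_equiv_coe (A : E d →L[ℝ] E d) (hA : Injective A) :
    ((if_equiv A hA : E d ≃L[ℝ] E d) : E d →L[ℝ] E d) = A := by
  ext1 x
  rfl

/-- an immersion between open sets of the same dimension is an open map -/
theorem if_isOpen_image {τ : E d → E d} (hW : IsOpen W) (hτ : ContDiffOn ℝ ∞ τ W)
    (himm : ∀ w ∈ W, Injective (fderiv ℝ τ w)) : IsOpen (τ '' W) := by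
  rw [isOpen_iff_mem_nhds]
  rintro _ ⟨w, hw, rfl⟩
  have h1 : ContDiffAt ℝ ∞ τ w := hτ.contDiffAt (hW.mem_nhds hw)
  have h2 : HasStrictFDerivAt τ ((if_equiv _ (himm w hw) : E d ≃L[ℝ] E d) : E d →L[ℝ] E d) w := by
    rw [if_equiv_coe]
    exact h1.hasStrictFDerivAt (by simp)
  rw [← h2.map_nhds_eq_of_equiv]
  exact Filter.image_mem_map (hW.mem_nhds hw)

theorem if_continuousOn_invFunOn {τ : E d → E d} (hW : IsOpen W) (hτ : ContDiffOn ℝ ∞ τ W)
    (hinj : InjOn τ W) (himm : ∀ w ∈ W, Injective (fderiv ℝ τ w)) :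
    ContinuousOn (invFunOn τ W) (τ '' W) := by
  rw [continuousOn_iff']
  intro O hO
  refine ⟨τ '' (O ∩ W), if_isOpen_image (hO.inter hW) (hτ.mono inter_subset_right)
    fun w hw => himm w hw.2, ?_⟩
  ext x
  constructor
  · rintro ⟨hx1, w, hw, rfl⟩
    rw [mem_preimage, hinj.leftInvOn_invFunOn hw] at hx1
    exact ⟨⟨w, ⟨hx1, hw⟩, rfl⟩, mem_image_of_mem τ hw⟩
  · rintro ⟨⟨w, ⟨hw1, hw2⟩, rfl⟩, -⟩
    exact ⟨by rw [mem_preimage, hinj.leftInvOn_invFunOn hw2]; exact hw1, mem_image_of_mem τ hw2⟩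

/-- reparametrisation -/
theorem if_comp (h : IsParam M ψ U) {τ : E d → E d} (hW : IsOpen W)
    (hτ : ContDiffOn ℝ ∞ τ W) (hinj : InjOn τ W) (himm : ∀ w ∈ W, Injective (fderiv ℝ τ w))
    (hmaps : MapsTo τ W U) : IsParam M (ψ ∘ τ) W := by
  have hopen : IsOpen (τ '' W) := if_isOpen_image hW hτ himm
  have hsub : τ '' W ⊆ U := hmaps.image_subset
  have hinj' : InjOn (ψ ∘ τ) W := (if_injOn h).comp hinj hmaps
  refine ⟨hW, (if_smooth h).comp hτ hmaps, fun w hw => ?_, hinj', ?_, ?_⟩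
  · have h1 : DifferentiableAt ℝ τ w :=
      (hτ.contDiffAt (hW.mem_nhds hw)).differentiableAt (by simp)
    rw [fderiv_comp w (if_differentiableAt h (hmaps hw)) h1]
    exact (if_imm h (hmaps hw)).comp (himm w hw)
  · rw [image_comp]
    exact if_image_open h hopen hsub
  · have h1 : ContinuousOn (invFunOn τ W ∘ invFunOn ψ U) ((ψ ∘ τ) '' W) := by
      refine (if_continuousOn_invFunOn hW hτ hinj himm).comp
        ((if_contInv h).mono (by rw [image_comp]; exact image_mono hsub)) ?_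
      rintro _ ⟨w, hw, rfl⟩
      show invFunOn ψ U (ψ (τ w)) ∈ τ '' W
      rw [if_leftInv h (hmaps hw)]
      exact mem_image_of_mem τ hw
    refine h1.congr ?_
    rintro _ ⟨w, hw, rfl⟩
    show invFunOn (ψ ∘ τ) W ((ψ ∘ τ) w) = invFunOn τ W (invFunOn ψ U (ψ (τ w)))
    rw [hinj'.leftInvOn_invFunOn hw, if_leftInv h (hmaps hw), hinj.leftInvOn_invFunOn hw]

/-! ## transition maps -/

/-- the transition map `(ψ')⁻¹ ∘ ψ` -/
noncomputable def if_tr (ψ' : E d → V) (U' : Set (E d)) (ψ : E d → V) : E d → E d :=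
  invFunOn ψ' U' ∘ ψ

/-- the domain of the transition map -/
def if_trDom (ψ : E d → V) (U : Set (E d)) (ψ' : E d → V) (U' : Set (E d)) : Set (E d) :=
  U ∩ ψ ⁻¹' (ψ' '' U')

theorem if_trDom_subset : if_trDom ψ U ψ' U' ⊆ U := inter_subset_left

theorem if_mem_trDom {u u' : E d} (hu : u ∈ U) (hu' : u' ∈ U') (he : ψ u = ψ' u') :
    u ∈ if_trDom ψ U ψ' U' := ⟨hu, u', hu', he.symm⟩

theorem if_isOpen_trDom (h : IsParam M ψ U) (h' : IsParam M ψ' U') :
    IsOpen (if_trDom ψ U ψ' U') := by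
  obtain ⟨V', hV', he⟩ := if_image h'
  have : if_trDom ψ U ψ' U' = U ∩ ψ ⁻¹' V' := by
    ext u
    unfold if_trDom
    rw [he]
    constructor
    · rintro ⟨h1, h2⟩
      exact ⟨h1, h2.2⟩
    · rintro ⟨h1, h2⟩
      exact ⟨h1, if_mem h h1, h2⟩
  rw [this]
  exact (if_continuousOn h).isOpen_inter_preimage (if_open h) hV'

theorem if_tr_mem {u : E d} (hu : u ∈ if_trDom ψ U ψ' U') : if_tr ψ' U' ψ u ∈ U' :=
  if_inv_mem hu.2

theorem if_tr_spec {u : E d} (hu : u ∈ if_trDom ψ U ψ' U') : ψ' (if_tr ψ' U' ψ u) = ψ u :=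
  if_rightInv hu.2

theorem if_tr_eq (h' : IsParam M ψ' U') {u u' : E d} (hu' : u' ∈ U') (he : ψ u = ψ' u') :
    if_tr ψ' U' ψ u = u' := by
  unfold if_tr
  rw [comp_apply, he, if_leftInv h' hu']

theorem if_tr_mapsTo : MapsTo (if_tr ψ' U' ψ) (if_trDom ψ U ψ' U') (if_trDom ψ' U' ψ U) :=
  fun _ hu => ⟨if_tr_mem hu, by rw [mem_preimage, if_tr_spec hu]; exact mem_image_of_mem ψ hu.1⟩

theorem if_tr_tr (h : IsParam M ψ U) {u : E d} (hu : u ∈ if_trDom ψ U ψ' U') :
    if_tr ψ U ψ' (if_tr ψ' U' ψ u) = u :=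
  if_tr_eq h hu.1 (if_tr_spec hu)

theorem if_tr_continuousOn (h : IsParam M ψ U) (h' : IsParam M ψ' U') :
    ContinuousOn (if_tr ψ' U' ψ) (if_trDom ψ U ψ' U') :=
  (if_contInv h').comp ((if_continuousOn h).mono if_trDom_subset) fun _ hu => hu.2

/-- **the transition maps are smooth** -/
theorem if_tr_contDiffAt [FiniteDimensional ℝ V] (h : IsParam M ψ U) (h' : IsParam M ψ' U') {u : E d}
    (hu : u ∈ if_trDom ψ U ψ' U') : ContDiffAt ℝ ∞ (if_tr ψ' U' ψ) u := by
  set u' := if_tr ψ' U' ψ u with hu'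
  have hu'U : u' ∈ U' := if_tr_mem hu
  -- a left inverse of the derivative of `ψ'`
  obtain ⟨P, hP⟩ := ContinuousLinearMap.HasLeftInverse.of_injective_of_finiteDimensional
    (if_imm h' hu'U)
  have hF : ContDiffAt ℝ ∞ (fun w => P (ψ' w)) u' := P.contDiff.contDiffAt.comp u'
    (if_contDiffAt h' hu'U)
  have hF' : HasFDerivAt (fun w => P (ψ' w))
      ((ContinuousLinearEquiv.refl ℝ (E d) : E d ≃L[ℝ] E d) : E d →L[ℝ] E d) u' := by
    have h1 := P.hasFDerivAt.comp u' (if_differentiableAt h' hu'U).hasFDerivAt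
    have h2 : P.comp (fderiv ℝ ψ' u') =
        ((ContinuousLinearEquiv.refl ℝ (E d) : E d ≃L[ℝ] E d) : E d →L[ℝ] E d) := by
      ext1 x
      exact hP x
    rw [h2] at h1
    exact h1
  have hn : (∞ : WithTop ℕ∞) ≠ 0 := by simp
  set σ := hF.localInverse hF' hn with hσ
  have hσs : ContDiffAt ℝ ∞ σ (P (ψ' u')) := hF.to_localInverse hF' hn
  have hleft : ∀ᶠ w in 𝓝 u', σ (P (ψ' w)) = w :=
    (hF.hasStrictFDerivAt' hF' hn).eventually_left_inverse
  have hcont : ContinuousAt (if_tr ψ' U' ψ) u :=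
    (if_tr_continuousOn h h').continuousAt ((if_isOpen_trDom h h').mem_nhds hu)
  have hev : if_tr ψ' U' ψ =ᶠ[𝓝 u] fun w => σ (P (ψ w)) := by
    filter_upwards [hcont.eventually hleft, (if_isOpen_trDom h h').mem_nhds hu] with w hw1 hw2
    rw [if_tr_spec hw2] at hw1
    exact hw1.symm
  refine ContDiffAt.congr_of_eventuallyEq ?_ hev
  have h3 : ContDiffAt ℝ ∞ (fun w => P (ψ w)) u :=
    P.contDiff.contDiffAt.comp u (if_contDiffAt h hu.1)
  have h4 : P (ψ u) = P (ψ' u') := by rw [hu', if_tr_spec hu]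
  exact ContDiffAt.comp u (h4 ▸ hσs) h3

theorem if_tr_contDiffOn [FiniteDimensional ℝ V] (h : IsParam M ψ U) (h' : IsParam M ψ' U') :
    ContDiffOn ℝ ∞ (if_tr ψ' U' ψ) (if_trDom ψ U ψ' U') :=
  fun _ hu => (if_tr_contDiffAt h h' hu).contDiffWithinAt

theorem if_tr_differentiableAt [FiniteDimensional ℝ V] (h : IsParam M ψ U) (h' : IsParam M ψ' U') {u : E d}
    (hu : u ∈ if_trDom ψ U ψ' U') : DifferentiableAt ℝ (if_tr ψ' U' ψ) u :=
  (if_tr_contDiffAt h h' hu).differentiableAt (by simp)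

/-- `ψ = ψ' ∘ τ` near every point of the domain of the transition map -/
theorem if_eventuallyEq_comp_tr (h : IsParam M ψ U) (h' : IsParam M ψ' U') {u : E d}
    (hu : u ∈ if_trDom ψ U ψ' U') : ψ =ᶠ[𝓝 u] ψ' ∘ if_tr ψ' U' ψ := by
  filter_upwards [(if_isOpen_trDom h h').mem_nhds hu] with w hw
  exact (if_tr_spec hw).symm

/-- chain rule: `Dψ = Dψ' ∘ Dτ` -/
theorem if_fderiv_eq [FiniteDimensional ℝ V] (h : IsParam M ψ U) (h' : IsParam M ψ' U') {u : E d}
    (hu : u ∈ if_trDom ψ U ψ' U') :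
    fderiv ℝ ψ u = (fderiv ℝ ψ' (if_tr ψ' U' ψ u)).comp (fderiv ℝ (if_tr ψ' U' ψ) u) := by
  rw [(if_eventuallyEq_comp_tr h h' hu).fderiv_eq]
  exact fderiv_comp u (if_differentiableAt h' (if_tr_mem hu)) (if_tr_differentiableAt h h' hu)

/-- the derivatives of the two transition maps are inverse to each other -/
theorem if_fderiv_tr_comp [FiniteDimensional ℝ V] (h : IsParam M ψ U) (h' : IsParam M ψ' U') {u : E d}
    (hu : u ∈ if_trDom ψ U ψ' U') :
    (fderiv ℝ (if_tr ψ U ψ') (if_tr ψ' U' ψ u)).comp (fderiv ℝ (if_tr ψ' U' ψ) u) =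
      ContinuousLinearMap.id ℝ (E d) := by
  have h1 : (if_tr ψ U ψ') ∘ (if_tr ψ' U' ψ) =ᶠ[𝓝 u] id := by
    filter_upwards [(if_isOpen_trDom h h').mem_nhds hu] with w hw
    exact if_tr_tr h hw
  have h2 := fderiv_comp u (if_tr_differentiableAt h' h (if_tr_mapsTo hu))
    (if_tr_differentiableAt h h' hu)
  rw [← h2, h1.fderiv_eq, fderiv_id]

theorem if_fderiv_tr_injective [FiniteDimensional ℝ V] (h : IsParam M ψ U) (h' : IsParam M ψ' U') {u : E d}
    (hu : u ∈ if_trDom ψ U ψ' U') : Injective (fderiv ℝ (if_tr ψ' U' ψ) u) := by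
  intro x y hxy
  have := if_fderiv_tr_comp h h' hu
  have hx := congrArg (fun L : E d →L[ℝ] E d => L x) this
  have hy := congrArg (fun L : E d →L[ℝ] E d => L y) this
  simp only [ContinuousLinearMap.comp_apply, ContinuousLinearMap.id_apply] at hx hy
  rw [← hx, ← hy, hxy]

end Claimed.Agent.R315
end

/- ===== packed: Claimed.Agent.R315.IfLC ===== -/
section
/-!
# Row 315 (S0571), interface, part 2: connections in one chart, coordinate free (prefix `if_`)

`F` a real normed space.  A metric is `g : F → F →L F →L ℝ`, a connection form is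
`Γ : F → F →L F →L F` (`∇_X Y = D_X Y + Γ(X,Y)`).

* `if_LC g Γ x`   : Koszul formula at `x` (`Γ` = Levi-Civita connection form of `g`);
* `if_curv Γ`     : curvature operator `R(X,Y)Z`;   `if_hess Γ f` : Hessian;
* `if_fderiv_pull`: derivative of a pulled back metric `g = τ^* g'`;
* `if_LC_pull`    : `Dτ Γ(X,Y) = Γ'(Dτ X, Dτ Y) + D²τ(X,Y)`;
* `if_curv_pull`  : `Dτ R(X,Y)Z = R'(Dτ X, Dτ Y) Dτ Z`;
* `if_hess_pull`  : `Hess (f' ∘ τ)(X,Y) = Hess' f' (Dτ X, Dτ Y)`.
Owner: helper274.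
-/

set_option autoImplicit false

open scoped Topology ContDiff

namespace Claimed.Agent.R315

variable {F : Type} [NormedAddCommGroup F] [NormedSpace ℝ F]

/-- Koszul formula at `x`. -/
def if_LC (g : F → F →L[ℝ] F →L[ℝ] ℝ) (Γ : F → F →L[ℝ] F →L[ℝ] F) (x : F) : Prop :=
  ∀ X Y Z : F, g x (Γ x X Y) Z =
    (1 / 2) * (fderiv ℝ g x X Y Z + fderiv ℝ g x Y X Z - fderiv ℝ g x Z X Y)

/-- curvature operator `R(X,Y)Z` of a connection form. -/
noncomputable def if_curv (Γ : F → F →L[ℝ] F →L[ℝ] F) (x X Y Z : F) : F :=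
  fderiv ℝ Γ x X Y Z - fderiv ℝ Γ x Y X Z + Γ x X (Γ x Y Z) - Γ x Y (Γ x X Z)

/-- Hessian of a function with respect to a connection form. -/
noncomputable def if_hess (Γ : F → F →L[ℝ] F →L[ℝ] F) (f : F → ℝ) (x X Y : F) : ℝ :=
  fderiv ℝ (fderiv ℝ f) x X Y - fderiv ℝ f x (Γ x X Y)

section calculus

variable {H K : Type} [NormedAddCommGroup H] [NormedSpace ℝ H] [NormedAddCommGroup K]
  [NormedSpace ℝ K]

/-- product rule for `y ↦ B y (v y) (w y)`. -/
theorem if_hasFDerivAt_bil {B : F → H →L[ℝ] H →L[ℝ] K} {v w : F → H}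
    {B' : F →L[ℝ] H →L[ℝ] H →L[ℝ] K} {v' w' : F →L[ℝ] H} {x : F} (hB : HasFDerivAt B B' x)
    (hv : HasFDerivAt v v' x) (hw : HasFDerivAt w w' x) :
    ∃ L : F →L[ℝ] K, HasFDerivAt (fun y => B y (v y) (w y)) L x ∧
      ∀ X, L X = B' X (v x) (w x) + B x (v' X) (w x) + B x (v x) (w' X) := by
  refine ⟨_, (hB.clm_apply hv).clm_apply hw, fun X => ?_⟩
  simp only [add_apply, ContinuousLinearMap.comp_apply,
    ContinuousLinearMap.flip_apply]
  abel

/-- product rule for `y ↦ A y (v y)`. -/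
theorem if_hasFDerivAt_lin {A : F → H →L[ℝ] K} {v : F → H}
    {A' : F →L[ℝ] H →L[ℝ] K} {v' : F →L[ℝ] H} {x : F} (hA : HasFDerivAt A A' x)
    (hv : HasFDerivAt v v' x) :
    ∃ L : F →L[ℝ] K, HasFDerivAt (fun y => A y (v y)) L x ∧
      ∀ X, L X = A' X (v x) + A x (v' X) := by
  refine ⟨_, hA.clm_apply hv, fun X => ?_⟩
  simp only [add_apply, ContinuousLinearMap.comp_apply,
    ContinuousLinearMap.flip_apply]
  abel

theorem if_fderiv_apply₂ {B : F → H →L[ℝ] H →L[ℝ] K} {x : F} (hB : DifferentiableAt ℝ B x)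
    (X : F) (Y Z : H) : fderiv ℝ (fun y => B y Y Z) x X = fderiv ℝ B x X Y Z := by
  obtain ⟨L, hL, hLX⟩ := if_hasFDerivAt_bil hB.hasFDerivAt (hasFDerivAt_const Y x)
    (hasFDerivAt_const Z x)
  rw [hL.fderiv, hLX]
  simp

theorem if_fderiv_apply₁ {A : F → H →L[ℝ] K} {x : F} (hA : DifferentiableAt ℝ A x)
    (X : F) (Y : H) : fderiv ℝ (fun y => A y Y) x X = fderiv ℝ A x X Y := by
  obtain ⟨L, hL, hLX⟩ := if_hasFDerivAt_lin hA.hasFDerivAt (hasFDerivAt_const Y x)
  rw [hL.fderiv, hLX]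
  simp

end calculus

section pull

variable {τ : F → F} {x : F}

theorem if_hasFDerivAt_dτ (hτ : ContDiffAt ℝ 2 τ x) (Y : F) :
    HasFDerivAt (fun y => fderiv ℝ τ y Y) ((fderiv ℝ (fderiv ℝ τ) x).flip Y) x := by
  have h1 : DifferentiableAt ℝ (fderiv ℝ τ) x :=
    (hτ.fderiv_right (m := 1) (by norm_num)).differentiableAt (by norm_num)
  have := h1.hasFDerivAt.clm_apply (hasFDerivAt_const Y x)
  simpa using this

theorem if_d2_symm (hτ : ContDiffAt ℝ 2 τ x) (X Y : F) :
    fderiv ℝ (fderiv ℝ τ) x X Y = fderiv ℝ (fderiv ℝ τ) x Y X :=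
  hτ.isSymmSndFDerivAt (by simp) X Y

/-- derivative of a pulled back metric -/
theorem if_fderiv_pull {g g' : F → F →L[ℝ] F →L[ℝ] ℝ} (hτ : ContDiffAt ℝ 2 τ x)
    (hg : DifferentiableAt ℝ g x) (hg' : DifferentiableAt ℝ g' (τ x))
    (he : ∀ᶠ y in 𝓝 x, ∀ Y Z, g y Y Z = g' (τ y) (fderiv ℝ τ y Y) (fderiv ℝ τ y Z)) (X Y Z : F) :
    fderiv ℝ g x X Y Z =
      fderiv ℝ g' (τ x) (fderiv ℝ τ x X) (fderiv ℝ τ x Y) (fderiv ℝ τ x Z) +
        g' (τ x) (fderiv ℝ (fderiv ℝ τ) x X Y) (fderiv ℝ τ x Z) +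
        g' (τ x) (fderiv ℝ τ x Y) (fderiv ℝ (fderiv ℝ τ) x X Z) := by
  have hτd : HasFDerivAt τ (fderiv ℝ τ x) x := (hτ.differentiableAt (by norm_num)).hasFDerivAt
  have hB : HasFDerivAt (g' ∘ τ) ((fderiv ℝ g' (τ x)).comp (fderiv ℝ τ x)) x :=
    HasFDerivAt.comp (g := g') x hg'.hasFDerivAt hτd
  obtain ⟨L, hL, hLX⟩ := if_hasFDerivAt_bil hB (if_hasFDerivAt_dτ hτ Y) (if_hasFDerivAt_dτ hτ Z)
  have h1 : (fun y => g y Y Z) =ᶠ[𝓝 x] fun y => (g' ∘ τ) y (fderiv ℝ τ y Y) (fderiv ℝ τ y Z) := by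
    filter_upwards [he] with y hy
    exact hy Y Z
  rw [← if_fderiv_apply₂ hg, h1.fderiv_eq, hL.fderiv, hLX]
  simp only [ContinuousLinearMap.comp_apply, ContinuousLinearMap.flip_apply, Function.comp_apply]

/-- **transformation law of the Levi-Civita connection form** -/
theorem if_LC_pull {g g' : F → F →L[ℝ] F →L[ℝ] ℝ} {Γ Γ' : F → F →L[ℝ] F →L[ℝ] F}
    (hτ : ContDiffAt ℝ 2 τ x)
    (hg : DifferentiableAt ℝ g x) (hg' : DifferentiableAt ℝ g' (τ x))
    (he : ∀ᶠ y in 𝓝 x, ∀ Y Z, g y Y Z = g' (τ y) (fderiv ℝ τ y Y) (fderiv ℝ τ y Z))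
    (hLC : if_LC g Γ x) (hLC' : if_LC g' Γ' (τ x))
    (hsymm : ∀ Y Z, g' (τ x) Y Z = g' (τ x) Z Y)
    (hnd : ∀ v, (∀ w, g' (τ x) v w = 0) → v = 0)
    (hsurj : Function.Surjective (fderiv ℝ τ x)) (X Y : F) :
    fderiv ℝ τ x (Γ x X Y) =
      Γ' (τ x) (fderiv ℝ τ x X) (fderiv ℝ τ x Y) + fderiv ℝ (fderiv ℝ τ) x X Y := by
  rw [← sub_eq_zero]
  refine hnd _ fun w => ?_
  obtain ⟨Z, rfl⟩ := hsurj w
  have h0 : g x (Γ x X Y) Z = g' (τ x) (fderiv ℝ τ x (Γ x X Y)) (fderiv ℝ τ x Z) :=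
    he.self_of_nhds _ _
  have h1 := hLC X Y Z
  rw [if_fderiv_pull hτ hg hg' he X Y Z, if_fderiv_pull hτ hg hg' he Y X Z,
    if_fderiv_pull hτ hg hg' he Z X Y, h0] at h1
  have h2 := hLC' (fderiv ℝ τ x X) (fderiv ℝ τ x Y) (fderiv ℝ τ x Z)
  have s1 := if_d2_symm hτ Y X
  have s2 := if_d2_symm hτ Z X
  have s3 := if_d2_symm hτ Z Y
  have s4 := hsymm (fderiv ℝ (fderiv ℝ τ) x X Z) (fderiv ℝ τ x Y)
  rw [s1, s2, s3, s4] at h1
  simp only [map_sub, map_add, sub_apply, add_apply]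
  rw [h1, h2]
  ring

/-- the transformation law of the connection forms, differentiated -/
theorem if_conn_pull_deriv {Γ Γ' : F → F →L[ℝ] F →L[ℝ] F} (hτ : ContDiffAt ℝ 3 τ x)
    (hΓ : DifferentiableAt ℝ Γ x) (hΓ' : DifferentiableAt ℝ Γ' (τ x))
    (hT : ∀ᶠ y in 𝓝 x, ∀ Y Z, fderiv ℝ τ y (Γ y Y Z) =
      Γ' (τ y) (fderiv ℝ τ y Y) (fderiv ℝ τ y Z) + fderiv ℝ (fderiv ℝ τ) y Y Z) (X Y Z : F) :
    fderiv ℝ (fderiv ℝ τ) x X (Γ x Y Z) + fderiv ℝ τ x (fderiv ℝ Γ x X Y Z) =
      fderiv ℝ Γ' (τ x) (fderiv ℝ τ x X) (fderiv ℝ τ x Y) (fderiv ℝ τ x Z) +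
        Γ' (τ x) (fderiv ℝ (fderiv ℝ τ) x X Y) (fderiv ℝ τ x Z) +
        Γ' (τ x) (fderiv ℝ τ x Y) (fderiv ℝ (fderiv ℝ τ) x X Z) +
        fderiv ℝ (fderiv ℝ (fderiv ℝ τ)) x X Y Z := by
  have hτ2 : ContDiffAt ℝ 2 τ x := hτ.of_le (by norm_num)
  have hτd : HasFDerivAt τ (fderiv ℝ τ x) x := (hτ.differentiableAt (by norm_num)).hasFDerivAt
  have hd1 : DifferentiableAt ℝ (fderiv ℝ τ) x :=
    (hτ.fderiv_right (m := 2) (by norm_num)).differentiableAt (by norm_num)
  have hd2 : DifferentiableAt ℝ (fderiv ℝ (fderiv ℝ τ)) x :=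
    ((hτ.fderiv_right (m := 2) (by norm_num)).fderiv_right (m := 1) (by norm_num)).differentiableAt
      (by norm_num)
  -- left side
  obtain ⟨v', hv, hvX⟩ := if_hasFDerivAt_bil hΓ.hasFDerivAt (hasFDerivAt_const Y x)
    (hasFDerivAt_const Z x)
  obtain ⟨L, hL, hLX⟩ := if_hasFDerivAt_lin hd1.hasFDerivAt hv
  -- right side
  have hB : HasFDerivAt (Γ' ∘ τ) ((fderiv ℝ Γ' (τ x)).comp (fderiv ℝ τ x)) x :=
    HasFDerivAt.comp (g := Γ') x hΓ'.hasFDerivAt hτd
  obtain ⟨R1, hR1, hR1X⟩ := if_hasFDerivAt_bil hB (if_hasFDerivAt_dτ hτ2 Y)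
    (if_hasFDerivAt_dτ hτ2 Z)
  obtain ⟨R2, hR2, hR2X⟩ := if_hasFDerivAt_bil hd2.hasFDerivAt (hasFDerivAt_const Y x)
    (hasFDerivAt_const Z x)
  have heq : (fun y => fderiv ℝ τ y (Γ y Y Z)) =ᶠ[𝓝 x] fun y =>
      (Γ' ∘ τ) y (fderiv ℝ τ y Y) (fderiv ℝ τ y Z) + fderiv ℝ (fderiv ℝ τ) y Y Z := by
    filter_upwards [hT] with y hy
    exact hy Y Z
  have h1 : L = R1 + R2 := (hL.congr_of_eventuallyEq heq.symm).unique (hR1.add hR2)
  have h2 := congrArg (fun T : F →L[ℝ] F => T X) h1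
  simp only [add_apply] at h2
  rw [hLX, hvX, hR1X, hR2X] at h2
  simpa using h2

/-- **transformation law of the curvature operator** (no metric involved) -/
theorem if_curv_pull {Γ Γ' : F → F →L[ℝ] F →L[ℝ] F} (hτ : ContDiffAt ℝ 3 τ x)
    (hΓ : DifferentiableAt ℝ Γ x) (hΓ' : DifferentiableAt ℝ Γ' (τ x))
    (hT : ∀ᶠ y in 𝓝 x, ∀ Y Z, fderiv ℝ τ y (Γ y Y Z) =
      Γ' (τ y) (fderiv ℝ τ y Y) (fderiv ℝ τ y Z) + fderiv ℝ (fderiv ℝ τ) y Y Z) (X Y Z : F) :
    fderiv ℝ τ x (if_curv Γ x X Y Z) =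
      if_curv Γ' (τ x) (fderiv ℝ τ x X) (fderiv ℝ τ x Y) (fderiv ℝ τ x Z) := by
  have hτ2 : ContDiffAt ℝ 2 τ x := hτ.of_le (by norm_num)
  have k1 := if_conn_pull_deriv hτ hΓ hΓ' hT X Y Z
  have k2 := if_conn_pull_deriv hτ hΓ hΓ' hT Y X Z
  have hx := hT.self_of_nhds
  have s3 : fderiv ℝ (fderiv ℝ (fderiv ℝ τ)) x X Y = fderiv ℝ (fderiv ℝ (fderiv ℝ τ)) x Y X :=
    (hτ.fderiv_right (m := 2) (by norm_num)).isSymmSndFDerivAt (by simp) X Y
  have s2 := if_d2_symm hτ2 X Y
  have e1 : fderiv ℝ τ x (fderiv ℝ Γ x X Y Z) = _ := eq_sub_of_add_eq' k1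
  have e2 : fderiv ℝ τ x (fderiv ℝ Γ x Y X Z) = _ := eq_sub_of_add_eq' k2
  unfold if_curv
  simp only [map_sub, map_add]
  rw [e1, e2, hx X (Γ x Y Z), hx Y (Γ x X Z), hx Y Z, hx X Z, s3, s2]
  simp only [map_add]
  abel

/-- **tensoriality of the Hessian** -/
theorem if_hess_pull {Γ Γ' : F → F →L[ℝ] F →L[ℝ] F} {f' : F → ℝ} (hτ : ContDiffAt ℝ 2 τ x)
    (hf' : ContDiffAt ℝ 2 f' (τ x))
    (hT : ∀ Y Z, fderiv ℝ τ x (Γ x Y Z) =
      Γ' (τ x) (fderiv ℝ τ x Y) (fderiv ℝ τ x Z) + fderiv ℝ (fderiv ℝ τ) x Y Z) (X Y : F) :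
    if_hess Γ (f' ∘ τ) x X Y = if_hess Γ' f' (τ x) (fderiv ℝ τ x X) (fderiv ℝ τ x Y) := by
  have hτd : HasFDerivAt τ (fderiv ℝ τ x) x := (hτ.differentiableAt (by norm_num)).hasFDerivAt
  have hf1 : DifferentiableAt ℝ (fderiv ℝ f') (τ x) :=
    (hf'.fderiv_right (m := 1) (by norm_num)).differentiableAt (by norm_num)
  have hd1 : DifferentiableAt ℝ (fderiv ℝ τ) x :=
    (hτ.fderiv_right (m := 1) (by norm_num)).differentiableAt (by norm_num)
  -- the first derivative of the composition, near `x`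
  have hev : fderiv ℝ (f' ∘ τ) =ᶠ[𝓝 x] fun y => (fderiv ℝ f' (τ y)).comp (fderiv ℝ τ y) := by
    have h1 : ∀ᶠ y in 𝓝 x, DifferentiableAt ℝ τ y :=
      (hτ.eventually (by simp)).mono fun y hy => hy.differentiableAt (by norm_num)
    have h2 : ∀ᶠ z in 𝓝 (τ x), DifferentiableAt ℝ f' z :=
      (hf'.eventually (by simp)).mono fun y hy => hy.differentiableAt (by norm_num)
    filter_upwards [h1, hτd.continuousAt.eventually h2] with y hy1 hy2
    exact fderiv_comp y hy2 hy1
  have hB : HasFDerivAt (fderiv ℝ f' ∘ τ) ((fderiv ℝ (fderiv ℝ f') (τ x)).comp (fderiv ℝ τ x)) x :=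
    HasFDerivAt.comp (g := fderiv ℝ f') x hf1.hasFDerivAt hτd
  have hcomp := hB.clm_comp hd1.hasFDerivAt
  have h3 : fderiv ℝ (fderiv ℝ (f' ∘ τ)) x X Y =
      fderiv ℝ (fderiv ℝ f') (τ x) (fderiv ℝ τ x X) (fderiv ℝ τ x Y) +
        fderiv ℝ f' (τ x) (fderiv ℝ (fderiv ℝ τ) x X Y) := by
    rw [hev.fderiv_eq]
    have : fderiv ℝ (fun y => (fderiv ℝ f' (τ y)).comp (fderiv ℝ τ y)) x = _ := hcomp.fderiv
    rw [this]
    simp [add_comm]
  unfold if_hess
  rw [h3, fderiv_comp x (hf'.differentiableAt (by norm_num)) hτd.differentiableAt]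
  simp only [ContinuousLinearMap.comp_apply]
  rw [hT X Y, map_add]
  ring

end pull

end Claimed.Agent.R315
end

/- ===== packed: Claimed.Agent.R315.If.Coord ===== -/
section
/-!
# Row 315 (S0571), interface, part 3: index notation versus coordinate free notation (prefix `if_`)

Bridge between the index formulas of `Def_0499` (`christoffel`, `riemannCoord`, `ricciCoord`,
`scalarCoord`) for a matrix valued function `G` on `E d` and the coordinate free objects of
`IfLC.lean`: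

* `if_bil A`    : the bilinear form of a matrix;   `if_Gam G` : the connection form of `christoffel G`;
* `if_LC_Gam`   : `if_Gam G` satisfies the Koszul formula for `if_bil ∘ G`;
* `if_curv_Gam` : the components of `if_curv (if_Gam G)` are `riemannCoord G`.
Owner: helper274.
-/

set_option autoImplicit false
set_option linter.unusedSectionVars false

open scoped Topology ContDiff
open Claims.C0499

namespace Claimed.Agent.R315

variable {d : ℕ}

/-- (stated for abstract spaces: instance search fails for iterated spaces of linear maps) -/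
theorem if_hasFDerivAt_smul_const {F K : Type} [NormedAddCommGroup F] [NormedSpace ℝ F]
    [NormedAddCommGroup K] [NormedSpace ℝ K] {c : F → ℝ} {c' : F →L[ℝ] ℝ} {x : F}
    (h : HasFDerivAt c c' x) (C : K) : HasFDerivAt (fun y => c y • C) (c'.smulRight C) x :=
  h.smul_const C

theorem if_hasFDerivAt_sum₂ {F K ι κ : Type} [NormedAddCommGroup F] [NormedSpace ℝ F]
    [NormedAddCommGroup K] [NormedSpace ℝ K] [Fintype ι] [Fintype κ] {c : ι → κ → F → ℝ} {x : F}
    (h : ∀ i j, DifferentiableAt ℝ (c i j) x) (C : ι → κ → K) :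
    HasFDerivAt (fun y => ∑ i, ∑ j, c i j y • C i j)
      (∑ i, ∑ j, (fderiv ℝ (c i j) x).smulRight (C i j)) x :=
  HasFDerivAt.fun_sum fun i _ => HasFDerivAt.fun_sum fun j _ =>
    (h i j).hasFDerivAt.smul_const (C i j)

theorem if_hasFDerivAt_sum₃ {F K ι κ μ : Type} [NormedAddCommGroup F] [NormedSpace ℝ F]
    [NormedAddCommGroup K] [NormedSpace ℝ K] [Fintype ι] [Fintype κ] [Fintype μ]
    {c : ι → κ → μ → F → ℝ} {x : F}
    (h : ∀ i j k, DifferentiableAt ℝ (c i j k) x) (C : ι → κ → μ → K) :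
    HasFDerivAt (fun y => ∑ i, ∑ j, ∑ k, c i j k y • C i j k)
      (∑ i, ∑ j, ∑ k, (fderiv ℝ (c i j k) x).smulRight (C i j k)) x :=
  HasFDerivAt.fun_sum fun i _ => HasFDerivAt.fun_sum fun j _ => HasFDerivAt.fun_sum fun k _ =>
    (h i j k).hasFDerivAt.smul_const (C i j k)

/-! ## linear algebra in `E d` -/

/-- coordinate functional -/
noncomputable def if_pr (i : Fin d) : E d →L[ℝ] ℝ := EuclideanSpace.proj i

@[simp] theorem if_pr_apply (i : Fin d) (X : E d) : if_pr i X = X i := rfl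

theorem if_eb_apply (i j : Fin d) : (eb i : E d) j = if j = i then 1 else 0 := by
  simp [eb]

theorem if_sum_eb (X : E d) : ∑ i, X i • (eb i : E d) = X := by
  ext j
  simp [Pi.single_apply]

/-- a linear function which vanishes on the coordinate vectors vanishes -/
theorem if_lin_ext {W : Type} [AddCommGroup W] [Module ℝ W] {f : E d → W}
    (hadd : ∀ X Y, f (X + Y) = f X + f Y) (hsmul : ∀ (c : ℝ) X, f (c • X) = c • f X)
    (h : ∀ i, f (eb i) = 0) (X : E d) : f X = 0 := by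
  let L : E d →ₗ[ℝ] W := { toFun := f, map_add' := hadd, map_smul' := fun c X => hsmul c X }
  have h1 : L X = ∑ i, X i • L (eb i) := by
    conv_lhs => rw [← if_sum_eb X]
    rw [map_sum]
    exact Finset.sum_congr rfl fun i _ => map_smul L _ _
  have h2 : L X = 0 := by
    rw [h1]
    exact Finset.sum_eq_zero fun i _ => by
      show X i • f (eb i) = 0
      rw [h i, smul_zero]
  exact h2

/-- bilinear form of a matrix -/
noncomputable def if_bil (A : Matrix (Fin d) (Fin d) ℝ) : E d →L[ℝ] E d →L[ℝ] ℝ :=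
  ∑ i, ∑ j, A i j • (if_pr i).smulRight (if_pr j)

theorem if_bil_apply (A : Matrix (Fin d) (Fin d) ℝ) (X Y : E d) :
    if_bil A X Y = ∑ i, ∑ j, A i j * (X i * Y j) := by
  simp [if_bil]

theorem if_bil_eb_right (A : Matrix (Fin d) (Fin d) ℝ) (X : E d) (j : Fin d) :
    if_bil A X (eb j) = ∑ i, A i j * X i := by
  rw [if_bil_apply]
  refine Finset.sum_congr rfl fun i _ => ?_
  simp

theorem if_bil_eb (A : Matrix (Fin d) (Fin d) ℝ) (i j : Fin d) : if_bil A (eb i) (eb j) = A i j := by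
  rw [if_bil_eb_right]
  simp

theorem if_bil_symm {A : Matrix (Fin d) (Fin d) ℝ} (hA : A.IsSymm) (X Y : E d) :
    if_bil A X Y = if_bil A Y X := by
  rw [if_bil_apply, if_bil_apply, Finset.sum_comm]
  refine Finset.sum_congr rfl fun i _ => Finset.sum_congr rfl fun j _ => ?_
  rw [hA.apply, mul_comm (X j)]

theorem if_bil_eq_dot (A : Matrix (Fin d) (Fin d) ℝ) (X Y : E d) :
    if_bil A X Y = (X : Fin d → ℝ) ⬝ᵥ A.mulVec (Y : Fin d → ℝ) := by
  rw [if_bil_apply]
  simp only [dotProduct, Matrix.mulVec, Finset.mul_sum]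
  refine Finset.sum_congr rfl fun i _ => Finset.sum_congr rfl fun j _ => ?_
  ring

theorem if_bil_nondeg {A : Matrix (Fin d) (Fin d) ℝ} (hA : IsUnit A.det) (hs : A.IsSymm) (v : E d)
    (h : ∀ w, if_bil A v w = 0) : v = 0 := by
  have h1 : A.mulVec (v : Fin d → ℝ) = 0 := by
    funext j
    have := h (eb j)
    rw [if_bil_eb_right] at this
    simp only [Matrix.mulVec, dotProduct, Pi.zero_apply]
    rw [← this]
    exact Finset.sum_congr rfl fun i _ => by rw [hs.apply]
  have h2 : (v : Fin d → ℝ) = 0 := by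
    have := congrArg (A⁻¹).mulVec h1
    rwa [Matrix.mulVec_mulVec, Matrix.nonsing_inv_mul A hA, Matrix.one_mulVec,
      Matrix.mulVec_zero] at this
  ext i
  exact congrFun h2 i

/-- a bilinear form which is given on the coordinate vectors by a pull-back is a pull-back -/
theorem if_bil_of_basis {S S' : Matrix (Fin d) (Fin d) ℝ} {A : E d →L[ℝ] E d}
    (h : ∀ i j, S i j = if_bil S' (A (eb i)) (A (eb j))) (Y Z : E d) :
    if_bil S Y Z = if_bil S' (A Y) (A Z) := by
  rw [← sub_eq_zero]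
  refine if_lin_ext (f := fun Y => if_bil S Y Z - if_bil S' (A Y) (A Z)) ?_ ?_ ?_ Y
  · intro Y Y'
    simp only [map_add, add_apply]
    ring
  · intro c Y
    simp only [map_smul, smul_apply, smul_eq_mul]
    ring
  intro i
  refine if_lin_ext (f := fun Z => if_bil S (eb i) Z - if_bil S' (A (eb i)) (A Z)) ?_ ?_ ?_ Z
  · intro Z Z'
    simp only [map_add]
    ring
  · intro c Z
    simp only [map_smul, smul_eq_mul]
    ring
  intro j
  rw [if_bil_eb, h i j, sub_self]

/-- the bilinear form of a product of two linear forms -/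
theorem if_bil_mul (φ χ : E d →L[ℝ] ℝ) (X Y : E d) :
    if_bil (Matrix.of fun a b => φ (eb a) * χ (eb b)) X Y = φ X * χ Y := by
  rw [if_bil_apply]
  conv_rhs => rw [← if_sum_eb X, ← if_sum_eb Y]
  simp only [map_sum, map_smul, smul_eq_mul, Finset.sum_mul, Finset.mul_sum, Matrix.of_apply]
  rw [Finset.sum_comm]
  refine Finset.sum_congr rfl fun i _ => Finset.sum_congr rfl fun j _ => ?_
  ring

/-- expansion of a linear form -/
theorem if_clm_expand (φ : E d →L[ℝ] ℝ) (X : E d) : φ X = ∑ k, X k * φ (eb k) := by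
  conv_lhs => rw [← if_sum_eb X]
  simp only [map_sum, map_smul, smul_eq_mul]

/-! ## derivative of `u ↦ if_bil (G u)` -/

variable {G : E d → Matrix (Fin d) (Fin d) ℝ} {x : E d}

theorem if_bil_hasFDerivAt (hG : ∀ i j, DifferentiableAt ℝ (fun u => G u i j) x) :
    HasFDerivAt (fun u => if_bil (G u))
      (∑ i, ∑ j, (fderiv ℝ (fun u => G u i j) x).smulRight ((if_pr i).smulRight (if_pr j))) x := by
  unfold if_bil
  exact if_hasFDerivAt_sum₂ (c := fun i j u => G u i j) hG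
    fun i j => (if_pr i).smulRight (if_pr j)

theorem if_bil_fderiv (hG : ∀ i j, DifferentiableAt ℝ (fun u => G u i j) x) (X : E d) :
    fderiv ℝ (fun u => if_bil (G u)) x X =
      if_bil (Matrix.of fun i j => fderiv ℝ (fun u => G u i j) x X) := by
  rw [(if_bil_hasFDerivAt hG).fderiv]
  simp [if_bil]

theorem if_bil_fderiv_eb (hG : ∀ i j, DifferentiableAt ℝ (fun u => G u i j) x) (a i j : Fin d) :
    fderiv ℝ (fun u => if_bil (G u)) x (eb a) (eb i) (eb j) = pdiff (fun w => G w i j) a x := by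
  rw [if_bil_fderiv hG, if_bil_eb]
  rfl

/-! ## the connection form of the Christoffel symbols -/

/-- the bilinear map with the components `c k i j` -/
noncomputable def if_tri (c : Fin d → Fin d → Fin d → ℝ) : E d →L[ℝ] E d →L[ℝ] E d :=
  ∑ k, ∑ i, ∑ j, c k i j • (if_pr i).smulRight ((if_pr j).smulRight (eb k))

theorem if_tri_apply (c : Fin d → Fin d → Fin d → ℝ) (X Y : E d) (l : Fin d) :
    if_tri c X Y l = ∑ i, ∑ j, c l i j * (X i * Y j) := by
  simp only [if_tri]
  simp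
  rw [Finset.sum_eq_single l]
  · simp
  · intro k _ hk
    simp [Ne.symm hk]
  · simp

theorem if_tri_eb (c : Fin d → Fin d → Fin d → ℝ) (i j l : Fin d) :
    if_tri c (eb i) (eb j) l = c l i j := by
  rw [if_tri_apply]
  simp

theorem if_tri_eb_left (c : Fin d → Fin d → Fin d → ℝ) (Y : E d) (i l : Fin d) :
    if_tri c (eb i) Y l = ∑ p, c l i p * Y p := by
  rw [if_tri_apply]
  simp

/-- the connection form built from the Christoffel symbols -/
noncomputable def if_Gam (G : E d → Matrix (Fin d) (Fin d) ℝ) (u : E d) :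
    E d →L[ℝ] E d →L[ℝ] E d :=
  if_tri (christoffel G u)

theorem if_Gam_apply (G : E d → Matrix (Fin d) (Fin d) ℝ) (u X Y : E d) (l : Fin d) :
    if_Gam G u X Y l = ∑ i, ∑ j, christoffel G u l i j * (X i * Y j) := if_tri_apply _ X Y l

theorem if_Gam_eb (G : E d → Matrix (Fin d) (Fin d) ℝ) (u : E d) (i j l : Fin d) :
    if_Gam G u (eb i) (eb j) l = christoffel G u l i j := if_tri_eb _ i j l

theorem if_Gam_eb_left (G : E d → Matrix (Fin d) (Fin d) ℝ) (u Y : E d) (i l : Fin d) :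
    if_Gam G u (eb i) Y l = ∑ p, christoffel G u l i p * Y p := if_tri_eb_left _ Y i l

/-- lowering the index of the Christoffel symbols -/
theorem if_christoffel_lower (hs : (G x).IsSymm) (hu : IsUnit (G x).det) (i j k : Fin d) :
    ∑ a, G x a k * christoffel G x a i j =
      (1 / 2) * (pdiff (fun w => G w j k) i x + pdiff (fun w => G w i k) j x -
        pdiff (fun w => G w i j) k x) := by
  unfold christoffel
  have h1 : ∀ l, ∑ a, G x a k * (G x)⁻¹ a l = if k = l then 1 else 0 := by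
    intro l
    have := congrFun (congrFun (Matrix.mul_nonsing_inv (G x) hu) k) l
    rw [Matrix.mul_apply, Matrix.one_apply] at this
    rw [← this]
    exact Finset.sum_congr rfl fun a _ => by rw [hs.apply]
  calc ∑ a, G x a k * (1 / 2 * ∑ l, (G x)⁻¹ a l *
        (pdiff (fun w => G w j l) i x + pdiff (fun w => G w i l) j x - pdiff (fun w => G w i j) l x))
      = 1 / 2 * ∑ l, (∑ a, G x a k * (G x)⁻¹ a l) *
        (pdiff (fun w => G w j l) i x + pdiff (fun w => G w i l) j x -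
          pdiff (fun w => G w i j) l x) := by
        simp only [Finset.mul_sum, Finset.sum_mul]
        rw [Finset.sum_comm]
        refine Finset.sum_congr rfl fun l _ => Finset.sum_congr rfl fun a _ => ?_
        ring
    _ = _ := by
        simp only [h1]
        simp

/-- **`if_Gam G` is the Levi-Civita connection form of `if_bil ∘ G`.** -/
theorem if_LC_Gam (hG : ∀ i j, DifferentiableAt ℝ (fun u => G u i j) x) (hs : (G x).IsSymm)
    (hu : IsUnit (G x).det) : if_LC (fun u => if_bil (G u)) (if_Gam G) x := by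
  set g : E d → E d →L[ℝ] E d →L[ℝ] ℝ := fun u => if_bil (G u) with hg
  have key : ∀ i j k, g x (if_Gam G x (eb i) (eb j)) (eb k) -
      (1 / 2) * (fderiv ℝ g x (eb i) (eb j) (eb k) + fderiv ℝ g x (eb j) (eb i) (eb k) -
        fderiv ℝ g x (eb k) (eb i) (eb j)) = 0 := by
    intro i j k
    rw [hg, if_bil_fderiv_eb hG, if_bil_fderiv_eb hG, if_bil_fderiv_eb hG, if_bil_eb_right]
    simp only [if_Gam_eb]
    rw [if_christoffel_lower hs hu, sub_self]
  intro X Y Z
  rw [← sub_eq_zero]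
  refine if_lin_ext (f := fun X => g x (if_Gam G x X Y) Z -
      (1 / 2) * (fderiv ℝ g x X Y Z + fderiv ℝ g x Y X Z - fderiv ℝ g x Z X Y)) ?_ ?_ ?_ X
  · intro X X'
    simp only [map_add, add_apply]
    ring
  · intro c X
    simp only [map_smul, smul_apply, smul_eq_mul]
    ring
  intro i
  refine if_lin_ext (f := fun Y => g x (if_Gam G x (eb i) Y) Z -
      (1 / 2) * (fderiv ℝ g x (eb i) Y Z + fderiv ℝ g x Y (eb i) Z - fderiv ℝ g x Z (eb i) Y))
      ?_ ?_ ?_ Y
  · intro Y Y'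
    simp only [map_add, add_apply]
    ring
  · intro c Y
    simp only [map_smul, smul_apply, smul_eq_mul]
    ring
  intro j
  refine if_lin_ext (f := fun Z => g x (if_Gam G x (eb i) (eb j)) Z -
      (1 / 2) * (fderiv ℝ g x (eb i) (eb j) Z + fderiv ℝ g x (eb j) (eb i) Z -
        fderiv ℝ g x Z (eb i) (eb j))) ?_ ?_ ?_ Z
  · intro Z Z'
    simp only [map_add, add_apply]
    ring
  · intro c Z
    simp only [map_smul, smul_apply, smul_eq_mul]
    ring
  intro k
  exact key i j k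

end Claimed.Agent.R315
end

/- ===== packed: Claimed.Agent.R315.If.Smooth ===== -/
section
/-!
# Row 315 (S0571), interface, part 4: smoothness of the coordinate expressions (prefix `if_`)

`G : E d → Matrix` with smooth entries on the open set `U` and invertible there:
determinant, inverse, partial derivatives, Christoffel symbols, curvature are smooth on `U`.
Owner: helper274.
-/

set_option autoImplicit false
set_option linter.unusedSectionVars false

open scoped Topology ContDiff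
open Claims.C0499

namespace Claimed.Agent.R315

variable {d : ℕ}

/-- smooth matrix valued function on `U` -/
def if_SmOn (U : Set (E d)) (G : E d → Matrix (Fin d) (Fin d) ℝ) : Prop :=
  ∀ i j, ContDiffOn ℝ ∞ (fun u => G u i j) U

theorem if_pdiff_contDiffOn {U : Set (E d)} (hU : IsOpen U) {f : E d → ℝ}
    (hf : ContDiffOn ℝ ∞ f U) (i : Fin d) : ContDiffOn ℝ ∞ (fun u => pdiff f i u) U := by
  unfold pdiff
  exact (hf.fderiv_of_isOpen hU (by simp)).clm_apply contDiffOn_const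

theorem if_det_contDiffOn {U : Set (E d)} {G : E d → Matrix (Fin d) (Fin d) ℝ}
    (hG : if_SmOn U G) : ContDiffOn ℝ ∞ (fun u => (G u).det) U := by
  simp only [Matrix.det_apply]
  refine ContDiffOn.sum fun σ _ => ?_
  exact (contDiffOn_prod fun i _ => hG (σ i) i).const_smul _

theorem if_adj_contDiffOn {U : Set (E d)} {G : E d → Matrix (Fin d) (Fin d) ℝ}
    (hG : if_SmOn U G) : if_SmOn U fun u => (G u).adjugate := by
  intro i j
  simp only [Matrix.adjugate_apply]
  refine if_det_contDiffOn fun a b => ?_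
  by_cases h : a = j
  · subst h
    simp only [Matrix.updateRow_self]
    exact contDiffOn_const
  · simp only [Matrix.updateRow_ne h]
    exact hG a b

theorem if_inv_contDiffOn {U : Set (E d)} {G : E d → Matrix (Fin d) (Fin d) ℝ}
    (hG : if_SmOn U G) (hu : ∀ u ∈ U, (G u).det ≠ 0) : if_SmOn U fun u => (G u)⁻¹ := by
  intro i j
  simp only [Matrix.inv_def, Ring.inverse_eq_inv', Matrix.smul_apply, smul_eq_mul]
  exact ((if_det_contDiffOn hG).inv hu).mul (if_adj_contDiffOn hG i j)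

theorem if_christoffel_contDiffOn {U : Set (E d)} (hU : IsOpen U)
    {G : E d → Matrix (Fin d) (Fin d) ℝ} (hG : if_SmOn U G) (hu : ∀ u ∈ U, (G u).det ≠ 0)
    (k i j : Fin d) : ContDiffOn ℝ ∞ (fun u => christoffel G u k i j) U := by
  unfold christoffel
  refine contDiffOn_const.mul (ContDiffOn.sum fun l _ => ?_)
  exact (if_inv_contDiffOn hG hu k l).mul
    (((if_pdiff_contDiffOn hU (hG j l) i).add (if_pdiff_contDiffOn hU (hG i l) j)).sub
      (if_pdiff_contDiffOn hU (hG i j) l))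

theorem if_riemann_contDiffOn {U : Set (E d)} (hU : IsOpen U)
    {G : E d → Matrix (Fin d) (Fin d) ℝ} (hG : if_SmOn U G) (hu : ∀ u ∈ U, (G u).det ≠ 0)
    (l i j k : Fin d) : ContDiffOn ℝ ∞ (fun u => riemannCoord G u l i j k) U := by
  unfold riemannCoord
  have hc := if_christoffel_contDiffOn hU hG hu
  refine ((if_pdiff_contDiffOn hU (hc l j k) i).sub (if_pdiff_contDiffOn hU (hc l i k) j)).add
    (ContDiffOn.sum fun p _ => ?_)
  exact ((hc l i p).mul (hc p j k)).sub ((hc l j p).mul (hc p i k))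

theorem if_ricci_contDiffOn {U : Set (E d)} (hU : IsOpen U)
    {G : E d → Matrix (Fin d) (Fin d) ℝ} (hG : if_SmOn U G) (hu : ∀ u ∈ U, (G u).det ≠ 0)
    (j k : Fin d) : ContDiffOn ℝ ∞ (fun u => ricciCoord G u j k) U := by
  unfold ricciCoord
  exact ContDiffOn.sum fun i _ => if_riemann_contDiffOn hU hG hu i i j k

theorem if_scalar_contDiffOn {U : Set (E d)} (hU : IsOpen U)
    {G : E d → Matrix (Fin d) (Fin d) ℝ} (hG : if_SmOn U G) (hu : ∀ u ∈ U, (G u).det ≠ 0) :
    ContDiffOn ℝ ∞ (fun u => scalarCoord G u) U := by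
  unfold scalarCoord
  exact ContDiffOn.sum fun j _ => ContDiffOn.sum fun k _ =>
    (if_inv_contDiffOn hG hu j k).mul (if_ricci_contDiffOn hU hG hu j k)

theorem if_gradIpC_contDiffOn {U : Set (E d)} (hU : IsOpen U)
    {G : E d → Matrix (Fin d) (Fin d) ℝ} (hG : if_SmOn U G) (hu : ∀ u ∈ U, (G u).det ≠ 0)
    {f k : E d → ℝ} (hf : ContDiffOn ℝ ∞ f U) (hk : ContDiffOn ℝ ∞ k U) :
    ContDiffOn ℝ ∞ (fun u => gradIpC G f k u) U := by
  unfold gradIpC
  exact ContDiffOn.sum fun i _ => ContDiffOn.sum fun j _ =>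
    ((if_inv_contDiffOn hG hu i j).mul (if_pdiff_contDiffOn hU hf i)).mul
      (if_pdiff_contDiffOn hU hk j)

theorem if_gradSqC_eq (G : E d → Matrix (Fin d) (Fin d) ℝ) (f : E d → ℝ) (u : E d) :
    gradSqC G f u = gradIpC G f f u := rfl

theorem if_gradSqC_contDiffOn {U : Set (E d)} (hU : IsOpen U)
    {G : E d → Matrix (Fin d) (Fin d) ℝ} (hG : if_SmOn U G) (hu : ∀ u ∈ U, (G u).det ≠ 0)
    {f : E d → ℝ} (hf : ContDiffOn ℝ ∞ f U) :
    ContDiffOn ℝ ∞ (fun u => gradSqC G f u) U :=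
  if_gradIpC_contDiffOn hU hG hu hf hf

theorem if_hessC_contDiffOn {U : Set (E d)} (hU : IsOpen U)
    {G : E d → Matrix (Fin d) (Fin d) ℝ} (hG : if_SmOn U G) (hu : ∀ u ∈ U, (G u).det ≠ 0)
    {f : E d → ℝ} (hf : ContDiffOn ℝ ∞ f U) (i j : Fin d) :
    ContDiffOn ℝ ∞ (fun u => hessC G f u i j) U := by
  unfold hessC
  exact (if_pdiff_contDiffOn hU (if_pdiff_contDiffOn hU hf j) i).sub
    (ContDiffOn.sum fun k _ => (if_christoffel_contDiffOn hU hG hu k i j).mul
      (if_pdiff_contDiffOn hU hf k))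

theorem if_trC_contDiffOn {U : Set (E d)}
    {G H : E d → Matrix (Fin d) (Fin d) ℝ} (hG : if_SmOn U G) (hu : ∀ u ∈ U, (G u).det ≠ 0)
    (hH : if_SmOn U H) : ContDiffOn ℝ ∞ (fun u => trC G H u) U := by
  unfold trC
  simp only [Matrix.trace, Matrix.diag_apply, Matrix.mul_apply]
  exact ContDiffOn.sum fun i _ => ContDiffOn.sum fun j _ =>
    (if_inv_contDiffOn hG hu i j).mul (hH j i)

theorem if_sqrt_det_contDiffOn {U : Set (E d)}
    {G : E d → Matrix (Fin d) (Fin d) ℝ} (hG : if_SmOn U G) (hu : ∀ u ∈ U, (G u).det ≠ 0) :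
    ContDiffOn ℝ ∞ (fun u => Real.sqrt (G u).det) U :=
  (if_det_contDiffOn hG).sqrt hu

theorem if_lapC_contDiffOn {U : Set (E d)} (hU : IsOpen U)
    {G : E d → Matrix (Fin d) (Fin d) ℝ} (hG : if_SmOn U G) (hu : ∀ u ∈ U, 0 < (G u).det)
    {f : E d → ℝ} (hf : ContDiffOn ℝ ∞ f U) :
    ContDiffOn ℝ ∞ (fun u => lapC G f u) U := by
  unfold lapC
  have hu' : ∀ u ∈ U, (G u).det ≠ 0 := fun u h => (hu u h).ne'
  have hs := if_sqrt_det_contDiffOn hG hu'
  refine (hs.inv fun u h => (Real.sqrt_pos.2 (hu u h)).ne').mul (ContDiffOn.sum fun i _ => ?_)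
  refine if_pdiff_contDiffOn hU (hs.mul (ContDiffOn.sum fun j _ => ?_)) i
  exact (if_inv_contDiffOn hG hu' i j).mul (if_pdiff_contDiffOn hU hf j)

end Claimed.Agent.R315
end

/- ===== packed: Claimed.Agent.R315.If.Curv ===== -/
section
/-!
# Row 315 (S0571), interface, part 5: invariance of the coordinate expressions (prefix `if_`)

* `if_curv_Gam` : the components of `if_curv (if_Gam G)` are `riemannCoord G`;
* `if_ric`, `if_ctr` : Ricci form, contraction with the inverse metric;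
* `if_MetC U G` : `G` is a smooth positive definite matrix function on the open set `U`;
* `if_PullC T U' τ G G'` : `G = τ^* G'` on `T`, `τ : T → U'` a local diffeomorphism;
* `if_PullC.scalar`, `.gradIp`, `.gradSq`, `.tr`, `.hess`, `.det` : transformation laws.
Owner: helper274.
-/

set_option autoImplicit false
set_option linter.unusedSectionVars false

open scoped Topology ContDiff Matrix
open Claims.C0499

namespace Claimed.Agent.R315

variable {d : ℕ}

section curv

variable {G : E d → Matrix (Fin d) (Fin d) ℝ} {x : E d}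

theorem if_Gam_hasFDerivAt (h : ∀ k i j, DifferentiableAt ℝ (fun u => christoffel G u k i j) x) :
    HasFDerivAt (if_Gam G)
      (∑ k, ∑ i, ∑ j, (fderiv ℝ (fun u => christoffel G u k i j) x).smulRight
        ((if_pr i).smulRight ((if_pr j).smulRight (eb k)))) x := by
  unfold if_Gam if_tri
  exact if_hasFDerivAt_sum₃ (c := fun k i j u => christoffel G u k i j) h
    fun k i j => (if_pr i).smulRight ((if_pr j).smulRight (eb k))

theorem if_Gam_fderiv (h : ∀ k i j, DifferentiableAt ℝ (fun u => christoffel G u k i j) x)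
    (X : E d) : fderiv ℝ (if_Gam G) x X =
      if_tri fun k i j => fderiv ℝ (fun u => christoffel G u k i j) x X := by
  rw [(if_Gam_hasFDerivAt h).fderiv]
  simp [if_tri]

theorem if_Gam_fderiv_eb (h : ∀ k i j, DifferentiableAt ℝ (fun u => christoffel G u k i j) x)
    (a i j l : Fin d) : fderiv ℝ (if_Gam G) x (eb a) (eb i) (eb j) l =
      pdiff (fun w => christoffel G w l i j) a x := by
  rw [if_Gam_fderiv h, if_tri_eb]
  rfl

/-- the components of the curvature operator -/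
theorem if_curv_Gam (h : ∀ k i j, DifferentiableAt ℝ (fun u => christoffel G u k i j) x)
    (i j k l : Fin d) :
    if_curv (if_Gam G) x (eb i) (eb j) (eb k) l = riemannCoord G x l i j k := by
  unfold if_curv riemannCoord
  simp only [PiLp.add_apply, PiLp.sub_apply]
  rw [if_Gam_fderiv_eb h, if_Gam_fderiv_eb h, if_Gam_eb_left, if_Gam_eb_left]
  simp only [if_Gam_eb, Finset.sum_sub_distrib]
  ring

end curv

/-! ## Ricci form -/

section ric

variable {Γ Γ' : E d → E d →L[ℝ] E d →L[ℝ] E d}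

/-- Ricci form of a connection form: trace of `X ↦ R(X,Y)Z` -/
noncomputable def if_ric (Γ : E d → E d →L[ℝ] E d →L[ℝ] E d) (x Y Z : E d) : ℝ :=
  ∑ i, if_curv Γ x (eb i) Y Z i

/-- `X ↦ R(X,Y)Z` -/
noncomputable def if_curvL (Γ : E d → E d →L[ℝ] E d →L[ℝ] E d) (x Y Z : E d) :
    E d →ₗ[ℝ] E d where
  toFun X := if_curv Γ x X Y Z
  map_add' X X' := by
    simp only [if_curv, map_add, add_apply]
    abel
  map_smul' c X := by
    simp only [if_curv, map_smul, smul_apply, RingHom.id_apply, smul_sub, smul_add]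

theorem if_trace_eq (L : E d →ₗ[ℝ] E d) : LinearMap.trace ℝ (E d) L = ∑ i, L (eb i) i := by
  rw [LinearMap.trace_eq_matrix_trace ℝ (EuclideanSpace.basisFun (Fin d) ℝ).toBasis L]
  simp [Matrix.trace, LinearMap.toMatrix_apply]

theorem if_ric_eq_trace (x Y Z : E d) :
    if_ric Γ x Y Z = LinearMap.trace ℝ (E d) (if_curvL Γ x Y Z) := by
  rw [if_trace_eq]
  rfl

theorem if_ric_pull {A : E d →L[ℝ] E d} (hA : Function.Injective A) {x x' : E d}
    (h : ∀ X Y Z, A (if_curv Γ x X Y Z) = if_curv Γ' x' (A X) (A Y) (A Z)) (Y Z : E d) :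
    if_ric Γ x Y Z = if_ric Γ' x' (A Y) (A Z) := by
  rw [if_ric_eq_trace, if_ric_eq_trace]
  let e : E d ≃ₗ[ℝ] E d := LinearEquiv.ofInjectiveEndo (A : E d →ₗ[ℝ] E d) hA
  have he : ∀ X, e X = A X := fun X => rfl
  have h1 : if_curvL Γ' x' (A Y) (A Z) = e.conj (if_curvL Γ x Y Z) := by
    ext1 W
    obtain ⟨X, rfl⟩ := e.surjective W
    rw [LinearEquiv.conj_apply_apply, LinearEquiv.symm_apply_apply, he, he]
    exact (h X Y Z).symm
  rw [h1, LinearMap.trace_conj']

theorem if_ric_eb {G : E d → Matrix (Fin d) (Fin d) ℝ} {x : E d}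
    (h : ∀ k i j, DifferentiableAt ℝ (fun u => christoffel G u k i j) x) (j k : Fin d) :
    if_ric (if_Gam G) x (eb j) (eb k) = ricciCoord G x j k := by
  unfold if_ric ricciCoord
  exact Finset.sum_congr rfl fun i _ => if_curv_Gam h i j k i

/-- a bilinear function is the bilinear form of its matrix -/
theorem if_bil_of_bilin {B : E d → E d → ℝ} (hal : ∀ X X' Y, B (X + X') Y = B X Y + B X' Y)
    (hsl : ∀ (c : ℝ) X Y, B (c • X) Y = c * B X Y) (har : ∀ X Y Y', B X (Y + Y') = B X Y + B X Y')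
    (hsr : ∀ (c : ℝ) X Y, B X (c • Y) = c * B X Y) (Y Z : E d) :
    if_bil (Matrix.of fun a b => B (eb a) (eb b)) Y Z = B Y Z := by
  rw [← sub_eq_zero]
  refine if_lin_ext (f := fun Y => if_bil (Matrix.of fun a b => B (eb a) (eb b)) Y Z - B Y Z)
    ?_ ?_ ?_ Y
  · intro Y Y'
    simp only [map_add, add_apply, hal]
    ring
  · intro c Y
    simp only [map_smul, smul_apply, smul_eq_mul, hsl]
    ring
  intro i
  refine if_lin_ext (f := fun Z => if_bil (Matrix.of fun a b => B (eb a) (eb b)) (eb i) Z -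
    B (eb i) Z) ?_ ?_ ?_ Z
  · intro Z Z'
    simp only [map_add, har]
    ring
  · intro c Z
    simp only [map_smul, smul_eq_mul, hsr]
    ring
  intro j
  rw [if_bil_eb, Matrix.of_apply, sub_self]

theorem if_ric_bil (x Y Z : E d) :
    if_bil (Matrix.of fun a b => if_ric Γ x (eb a) (eb b)) Y Z = if_ric Γ x Y Z := by
  refine if_bil_of_bilin (B := fun Y Z => if_ric Γ x Y Z) ?_ ?_ ?_ ?_ Y Z
  · intro X X' Y
    simp only [if_ric, if_curv, map_add, add_apply, PiLp.add_apply, PiLp.sub_apply,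
      ← Finset.sum_add_distrib]
    exact Finset.sum_congr rfl fun i _ => by ring
  · intro c X Y
    simp only [if_ric, if_curv, map_smul, smul_apply, PiLp.add_apply, PiLp.sub_apply,
      PiLp.smul_apply, smul_eq_mul, Finset.mul_sum]
    exact Finset.sum_congr rfl fun i _ => by ring
  · intro X Y Y'
    simp only [if_ric, if_curv, map_add, PiLp.add_apply, PiLp.sub_apply,
      ← Finset.sum_add_distrib]
    exact Finset.sum_congr rfl fun i _ => by ring
  · intro c X Y
    simp only [if_ric, if_curv, map_smul, PiLp.add_apply, PiLp.sub_apply,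
      PiLp.smul_apply, smul_eq_mul, Finset.mul_sum]
    exact Finset.sum_congr rfl fun i _ => by ring

end ric

/-! ## contraction with the inverse metric -/

section ctr

/-- matrix of a linear map -/
noncomputable def if_jac (A : E d →L[ℝ] E d) : Matrix (Fin d) (Fin d) ℝ :=
  Matrix.of fun a i => A (eb i) a

theorem if_bil_jac (S' : Matrix (Fin d) (Fin d) ℝ) (A : E d →L[ℝ] E d) (i j : Fin d) :
    if_bil S' (A (eb i)) (A (eb j)) = ((if_jac A)ᵀ * S' * if_jac A) i j := by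
  rw [if_bil_apply]
  simp only [Matrix.mul_apply, Matrix.transpose_apply, if_jac, Matrix.of_apply, Finset.sum_mul]
  rw [Finset.sum_comm]
  refine Finset.sum_congr rfl fun a _ => Finset.sum_congr rfl fun b _ => ?_
  ring

theorem if_jac_mulVec (A : E d →L[ℝ] E d) (X : E d) (a : Fin d) :
    (if_jac A).mulVec (X : Fin d → ℝ) a = A X a := by
  conv_rhs => rw [← if_sum_eb X]
  simp only [Matrix.mulVec, dotProduct, if_jac, Matrix.of_apply, map_sum, map_smul]
  simp [mul_comm]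

theorem if_jac_isUnit {A : E d →L[ℝ] E d} (hA : Function.Injective A) :
    IsUnit (if_jac A).det := by
  rw [← Matrix.isUnit_iff_isUnit_det, ← Matrix.mulVec_injective_iff_isUnit]
  intro v w hvw
  have h1 : A (WithLp.toLp 2 v) = A (WithLp.toLp 2 w) := by
    ext a
    rw [← if_jac_mulVec, ← if_jac_mulVec]
    exact congrFun hvw a
  have h2 := hA h1
  exact (WithLp.toLp_injective 2) h2

/-- contraction `G^{ij} S_{ij}` -/
noncomputable def if_ctr (G S : Matrix (Fin d) (Fin d) ℝ) : ℝ := ∑ i, ∑ j, G⁻¹ i j * S i j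

theorem if_ctr_eq_trace (G S : Matrix (Fin d) (Fin d) ℝ) : if_ctr G S = (G⁻¹ * Sᵀ).trace := by
  simp [if_ctr, Matrix.trace, Matrix.mul_apply]

theorem if_ctr_congr {J : Matrix (Fin d) (Fin d) ℝ} (hJ : IsUnit J.det)
    (G' S' : Matrix (Fin d) (Fin d) ℝ) : if_ctr (Jᵀ * G' * J) (Jᵀ * S' * J) = if_ctr G' S' := by
  have hJt : IsUnit (Jᵀ).det := by rwa [Matrix.det_transpose]
  rw [if_ctr_eq_trace, if_ctr_eq_trace, Matrix.mul_inv_rev, Matrix.mul_inv_rev]
  simp only [Matrix.transpose_mul, Matrix.transpose_transpose]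
  calc (J⁻¹ * (G'⁻¹ * Jᵀ⁻¹) * (Jᵀ * (S'ᵀ * J))).trace
      = (J⁻¹ * (G'⁻¹ * (Jᵀ⁻¹ * Jᵀ) * S'ᵀ) * J).trace := by
        simp only [Matrix.mul_assoc]
    _ = (J⁻¹ * (G'⁻¹ * S'ᵀ) * J).trace := by
        rw [Matrix.nonsing_inv_mul _ hJt, Matrix.mul_one]
    _ = (J * J⁻¹ * (G'⁻¹ * S'ᵀ)).trace := Matrix.trace_mul_cycle _ _ _
    _ = _ := by rw [Matrix.mul_nonsing_inv _ hJ, Matrix.one_mul]

theorem if_ctr_pull {G G' S S' : Matrix (Fin d) (Fin d) ℝ} {A : E d →L[ℝ] E d}
    (hA : Function.Injective A) (hG : ∀ i j, G i j = if_bil G' (A (eb i)) (A (eb j)))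
    (hS : ∀ i j, S i j = if_bil S' (A (eb i)) (A (eb j))) : if_ctr G S = if_ctr G' S' := by
  have h1 : G = (if_jac A)ᵀ * G' * if_jac A := by
    ext i j
    rw [hG, if_bil_jac]
  have h2 : S = (if_jac A)ᵀ * S' * if_jac A := by
    ext i j
    rw [hS, if_bil_jac]
  rw [h1, h2, if_ctr_congr (if_jac_isUnit hA)]

theorem if_det_pull {G G' : Matrix (Fin d) (Fin d) ℝ} {A : E d →L[ℝ] E d}
    (hG : ∀ i j, G i j = if_bil G' (A (eb i)) (A (eb j))) :
    G.det = (if_jac A).det ^ 2 * G'.det := by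
  have h1 : G = (if_jac A)ᵀ * G' * if_jac A := by
    ext i j
    rw [hG, if_bil_jac]
  rw [h1, Matrix.det_mul, Matrix.det_mul, Matrix.det_transpose]
  ring

end ctr

end Claimed.Agent.R315
end

/- ===== packed: Claimed.Agent.R315.If.Pull ===== -/
section
/-!
# Row 315 (S0571), interface, part 6: transformation laws under a change of coordinates

* `if_MetC U G` : `G` is a smooth positive definite matrix function on the open set `U`;
* `if_PullC T U' τ G G'` : `G = τ^* G'` on `T`, `τ : T → U'` a local diffeomorphism;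
* `if_PullC.scalar`, `.gradIp`, `.gradSq`, `.tr`, `.hess`, `.det` : transformation laws.
Owner: helper274.
-/

set_option autoImplicit false
set_option linter.unusedSectionVars false

open scoped Topology ContDiff Matrix
open Claims.C0499

namespace Claimed.Agent.R315

variable {d : ℕ}

/-- `G` is a smooth Riemannian metric (in coordinates) on the open set `U` -/
structure if_MetC (U : Set (E d)) (G : E d → Matrix (Fin d) (Fin d) ℝ) : Prop where
  isOpen : IsOpen U
  smooth : if_SmOn U G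
  posDef : ∀ u ∈ U, (G u).PosDef

namespace if_MetC

variable {U : Set (E d)} {G : E d → Matrix (Fin d) (Fin d) ℝ}

theorem det_pos (h : if_MetC U G) {u : E d} (hu : u ∈ U) : 0 < (G u).det := (h.posDef u hu).det_pos

theorem det_ne (h : if_MetC U G) : ∀ u ∈ U, (G u).det ≠ 0 := fun _ hu => (h.det_pos hu).ne'

theorem isUnit (h : if_MetC U G) {u : E d} (hu : u ∈ U) : IsUnit (G u).det :=
  isUnit_iff_ne_zero.2 (h.det_ne u hu)

theorem isSymm (h : if_MetC U G) {u : E d} (hu : u ∈ U) : (G u).IsSymm := by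
  have := (h.posDef u hu).isHermitian
  rwa [Matrix.IsHermitian, Matrix.conjTranspose_eq_transpose_of_trivial] at this

theorem diff (h : if_MetC U G) {u : E d} (hu : u ∈ U) (i j : Fin d) :
    DifferentiableAt ℝ (fun u => G u i j) u :=
  ((h.smooth i j).contDiffAt (h.isOpen.mem_nhds hu)).differentiableAt (by simp)

theorem diff_bil (h : if_MetC U G) {u : E d} (hu : u ∈ U) :
    DifferentiableAt ℝ (fun u => if_bil (G u)) u :=
  (if_bil_hasFDerivAt (h.diff hu)).differentiableAt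

theorem diff_chr (h : if_MetC U G) {u : E d} (hu : u ∈ U) (k i j : Fin d) :
    DifferentiableAt ℝ (fun u => christoffel G u k i j) u :=
  ((if_christoffel_contDiffOn h.isOpen h.smooth h.det_ne k i j).contDiffAt
    (h.isOpen.mem_nhds hu)).differentiableAt (by simp)

theorem diff_Gam (h : if_MetC U G) {u : E d} (hu : u ∈ U) : DifferentiableAt ℝ (if_Gam G) u :=
  (if_Gam_hasFDerivAt (h.diff_chr hu)).differentiableAt

theorem LC (h : if_MetC U G) {u : E d} (hu : u ∈ U) :
    if_LC (fun u => if_bil (G u)) (if_Gam G) u :=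
  if_LC_Gam (h.diff hu) (h.isSymm hu) (h.isUnit hu)

theorem mono (h : if_MetC U G) {T : Set (E d)} (hT : IsOpen T) (hTU : T ⊆ U) : if_MetC T G :=
  ⟨hT, fun i j => (h.smooth i j).mono hTU, fun u hu => h.posDef u (hTU hu)⟩

theorem scalar_eq (h : if_MetC U G) {u : E d} (hu : u ∈ U) :
    scalarCoord G u = if_ctr (G u) (Matrix.of fun a b => if_ric (if_Gam G) u (eb a) (eb b)) := by
  unfold scalarCoord if_ctr
  simp only [Matrix.of_apply, if_ric_eb (h.diff_chr hu)]

end if_MetC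

/-- `G = τ^* G'` on `T`, where `τ : T → U'` is a local diffeomorphism -/
structure if_PullC (T U' : Set (E d)) (τ : E d → E d) (G G' : E d → Matrix (Fin d) (Fin d) ℝ) :
    Prop where
  metT : if_MetC T G
  metU : if_MetC U' G'
  smooth : ContDiffOn ℝ ∞ τ T
  mapsTo : Set.MapsTo τ T U'
  inj : ∀ u ∈ T, Function.Injective (fderiv ℝ τ u)
  rel : ∀ u ∈ T, ∀ i j, G u i j = if_bil (G' (τ u)) (fderiv ℝ τ u (eb i)) (fderiv ℝ τ u (eb j))

namespace if_PullC

variable {T U' : Set (E d)} {τ : E d → E d} {G G' : E d → Matrix (Fin d) (Fin d) ℝ}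

theorem contDiffAt (h : if_PullC T U' τ G G') {u : E d} (hu : u ∈ T) : ContDiffAt ℝ ∞ τ u :=
  h.smooth.contDiffAt (h.metT.isOpen.mem_nhds hu)

theorem surj (h : if_PullC T U' τ G G') {u : E d} (hu : u ∈ T) :
    Function.Surjective (fderiv ℝ τ u) :=
  (LinearMap.injective_iff_surjective (f := (fderiv ℝ τ u : E d →ₗ[ℝ] E d))).1 (h.inj u hu)

theorem rel_bil (h : if_PullC T U' τ G G') {u : E d} (hu : u ∈ T) (Y Z : E d) :
    if_bil (G u) Y Z = if_bil (G' (τ u)) (fderiv ℝ τ u Y) (fderiv ℝ τ u Z) :=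
  if_bil_of_basis (h.rel u hu) Y Z

/-- transformation law of the Christoffel symbols -/
theorem conn (h : if_PullC T U' τ G G') {u : E d} (hu : u ∈ T) (Y Z : E d) :
    fderiv ℝ τ u (if_Gam G u Y Z) =
      if_Gam G' (τ u) (fderiv ℝ τ u Y) (fderiv ℝ τ u Z) + fderiv ℝ (fderiv ℝ τ) u Y Z := by
  have hu' := h.mapsTo hu
  refine if_LC_pull (g := fun u => if_bil (G u)) (g' := fun u => if_bil (G' u))
    ((h.contDiffAt hu).of_le (by decide)) (h.metT.diff_bil hu) (h.metU.diff_bil hu') ?_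
    (h.metT.LC hu) (h.metU.LC hu') (if_bil_symm (h.metU.isSymm hu'))
    (if_bil_nondeg (h.metU.isUnit hu') (h.metU.isSymm hu')) (h.surj hu) Y Z
  filter_upwards [h.metT.isOpen.mem_nhds hu] with y hy
  exact h.rel_bil hy

/-- transformation law of the curvature operator -/
theorem curv (h : if_PullC T U' τ G G') {u : E d} (hu : u ∈ T) (X Y Z : E d) :
    fderiv ℝ τ u (if_curv (if_Gam G) u X Y Z) =
      if_curv (if_Gam G') (τ u) (fderiv ℝ τ u X) (fderiv ℝ τ u Y) (fderiv ℝ τ u Z) := by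
  refine if_curv_pull ((h.contDiffAt hu).of_le (by decide)) (h.metT.diff_Gam hu)
    (h.metU.diff_Gam (h.mapsTo hu)) ?_ X Y Z
  filter_upwards [h.metT.isOpen.mem_nhds hu] with y hy
  exact h.conn hy

theorem ric (h : if_PullC T U' τ G G') {u : E d} (hu : u ∈ T) (Y Z : E d) :
    if_ric (if_Gam G) u Y Z = if_ric (if_Gam G') (τ u) (fderiv ℝ τ u Y) (fderiv ℝ τ u Z) :=
  if_ric_pull (h.inj u hu) (h.curv hu) Y Z

/-- **invariance of the scalar curvature** -/
theorem scalar (h : if_PullC T U' τ G G') {u : E d} (hu : u ∈ T) :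
    scalarCoord G u = scalarCoord G' (τ u) := by
  rw [h.metT.scalar_eq hu, h.metU.scalar_eq (h.mapsTo hu)]
  refine if_ctr_pull (h.inj u hu) (h.rel u hu) fun i j => ?_
  rw [Matrix.of_apply, if_ric_bil, h.ric hu]

theorem pdiff_comp (h : if_PullC T U' τ G G') {u : E d} (hu : u ∈ T) {f' : E d → ℝ}
    (hf : DifferentiableAt ℝ f' (τ u)) (i : Fin d) :
    pdiff (f' ∘ τ) i u = fderiv ℝ f' (τ u) (fderiv ℝ τ u (eb i)) := by
  unfold pdiff
  rw [fderiv_comp u hf ((h.contDiffAt hu).differentiableAt (by simp))]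
  rfl

theorem if_gradIpC_eq_ctr (G : E d → Matrix (Fin d) (Fin d) ℝ) (f k : E d → ℝ) (u : E d) :
    gradIpC G f k u = if_ctr (G u) (Matrix.of fun a b => fderiv ℝ f u (eb a) * fderiv ℝ k u (eb b)) := by
  unfold gradIpC if_ctr pdiff
  simp only [Matrix.of_apply, mul_assoc]

/-- **invariance of `⟨df, dk⟩`** -/
theorem gradIp (h : if_PullC T U' τ G G') {u : E d} (hu : u ∈ T) {f' k' : E d → ℝ}
    (hf : DifferentiableAt ℝ f' (τ u)) (hk : DifferentiableAt ℝ k' (τ u)) :
    gradIpC G (f' ∘ τ) (k' ∘ τ) u = gradIpC G' f' k' (τ u) := by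
  rw [if_gradIpC_eq_ctr, if_gradIpC_eq_ctr]
  refine if_ctr_pull (h.inj u hu) (h.rel u hu) fun i j => ?_
  rw [Matrix.of_apply, if_bil_mul]
  have h1 := h.pdiff_comp hu hf i
  have h2 := h.pdiff_comp hu hk j
  unfold pdiff at h1 h2
  rw [h1, h2]

/-- **invariance of `|df|²`** -/
theorem gradSq (h : if_PullC T U' τ G G') {u : E d} (hu : u ∈ T) {f' : E d → ℝ}
    (hf : DifferentiableAt ℝ f' (τ u)) :
    gradSqC G (f' ∘ τ) u = gradSqC G' f' (τ u) := h.gradIp hu hf hf

/-- **invariance of `tr_G H`** -/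
theorem tr (h : if_PullC T U' τ G G') {u : E d} (hu : u ∈ T)
    {H H' : E d → Matrix (Fin d) (Fin d) ℝ}
    (hH : ∀ i j, H u i j = if_bil (H' (τ u)) (fderiv ℝ τ u (eb i)) (fderiv ℝ τ u (eb j))) :
    trC G H u = trC G' H' (τ u) := by
  have e : ∀ (G H : E d → Matrix (Fin d) (Fin d) ℝ) (u : E d), trC G H u = if_ctr (G u) (H u)ᵀ := by
    intro G H u
    rw [if_ctr_eq_trace, Matrix.transpose_transpose]
    rfl
  rw [e, e]
  refine if_ctr_pull (h.inj u hu) (h.rel u hu) fun i j => ?_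
  rw [Matrix.transpose_apply, hH, if_bil_apply, if_bil_apply, Finset.sum_comm]
  refine Finset.sum_congr rfl fun a _ => Finset.sum_congr rfl fun b _ => ?_
  rw [Matrix.transpose_apply]
  ring

/-- transformation law of the determinant -/
theorem det (h : if_PullC T U' τ G G') {u : E d} (hu : u ∈ T) :
    (G u).det = (if_jac (fderiv ℝ τ u)).det ^ 2 * (G' (τ u)).det :=
  if_det_pull (h.rel u hu)

end if_PullC

/-! ## Hessian -/

theorem if_hessC_eq {G : E d → Matrix (Fin d) (Fin d) ℝ} {f : E d → ℝ} {u : E d}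
    (hf : ContDiffAt ℝ 2 f u) (i j : Fin d) :
    hessC G f u i j = if_hess (if_Gam G) f u (eb i) (eb j) := by
  have h1 : DifferentiableAt ℝ (fderiv ℝ f) u :=
    (hf.fderiv_right (m := 1) (by norm_num)).differentiableAt (by norm_num)
  unfold hessC if_hess
  congr 1
  · unfold pdiff
    exact if_fderiv_apply₁ h1 (eb i) (eb j)
  · rw [if_clm_expand (fderiv ℝ f u)]
    simp only [if_Gam_eb]
    rfl

theorem if_hess_bil (Γ : E d → E d →L[ℝ] E d →L[ℝ] E d) (f : E d → ℝ) (u Y Z : E d) :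
    if_bil (Matrix.of fun a b => if_hess Γ f u (eb a) (eb b)) Y Z = if_hess Γ f u Y Z := by
  refine if_bil_of_bilin (B := fun Y Z => if_hess Γ f u Y Z) ?_ ?_ ?_ ?_ Y Z
  · intro X X' Y
    simp only [if_hess, map_add, add_apply]
    ring
  · intro c X Y
    simp only [if_hess, map_smul, smul_apply, smul_eq_mul]
    ring
  · intro X Y Y'
    simp only [if_hess, map_add]
    ring
  · intro c X Y
    simp only [if_hess, map_smul, smul_eq_mul]
    ring

namespace if_PullC

variable {T U' : Set (E d)} {τ : E d → E d} {G G' : E d → Matrix (Fin d) (Fin d) ℝ}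

/-- **tensoriality of the Hessian** -/
theorem hess (h : if_PullC T U' τ G G') {u : E d} (hu : u ∈ T) {f' : E d → ℝ}
    (hf : ContDiffAt ℝ 2 f' (τ u)) (i j : Fin d) :
    hessC G (f' ∘ τ) u i j = if_bil (Matrix.of fun a b => hessC G' f' (τ u) a b)
      (fderiv ℝ τ u (eb i)) (fderiv ℝ τ u (eb j)) := by
  have hτ : ContDiffAt ℝ 2 τ u := (h.contDiffAt hu).of_le (by decide)
  rw [if_hessC_eq (hf.comp u hτ), if_hess_pull hτ hf (h.conn hu)]
  simp only [if_hessC_eq hf]
  rw [if_hess_bil]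

/-- invariance of the trace of the Hessian -/
theorem trHess (h : if_PullC T U' τ G G') {u : E d} (hu : u ∈ T) {f' : E d → ℝ}
    (hf : ContDiffAt ℝ 2 f' (τ u)) :
    if_ctr (G u) (Matrix.of fun a b => hessC G (f' ∘ τ) u a b) =
      if_ctr (G' (τ u)) (Matrix.of fun a b => hessC G' f' (τ u) a b) :=
  if_ctr_pull (h.inj u hu) (h.rel u hu) fun i j => by rw [Matrix.of_apply, h.hess hu hf]

end if_PullC

end Claimed.Agent.R315
end
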