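/- Packed by merge_tool.py (helper293): 8 modules of Claimed.Agent.R315 in one file, same declarations.
   Old modules, in this order: If.Top, If.Retr, If.Pv, If.Curve, If.Concat, If.Pou, If.Ext, If.GlueMeas -/
import Mathlib
import Claimed.Agent.R315.Pack001

/- ===== packed: Claimed.Agent.R315.If.Top ===== -/
section
/-!
# Row 315 (S0571), interface, part 8: topology and measurability of manifolds (prefix `if_`)

* `if_param_empty`, `if_exists_atlas` : countable atlas;
* `if_measurableSet_image`, `if_measurableSet`, `if_measurableSet_preimage`;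
* `if_continuousOn_of_along` : chartwise continuity gives continuity on `M`.
Owner: helper274.
-/

set_option autoImplicit false
set_option linter.unusedSectionVars false

open scoped Topology ContDiff
open Set Function

namespace Claimed.Agent.R315

variable {V : Type} [NormedAddCommGroup V] [NormedSpace ℝ V]
variable {d : ℕ} {M : Set V} {ψ ψ' : E d → V} {U U' : Set (E d)}

theorem if_param_empty (M : Set V) (ψ : E d → V) : IsParam M ψ ∅ := by
  refine ⟨isOpen_empty, contDiffOn_empty, fun u hu => hu.elim, injOn_empty _,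
    ⟨∅, isOpen_empty, by simp⟩, ?_⟩
  rw [image_empty]
  exact continuousOn_empty _

theorem if_image_mem_nhdsWithin (h : IsParam M ψ U) {u : E d} (hu : u ∈ U) :
    ψ '' U ∈ 𝓝[M] (ψ u) := by
  obtain ⟨O, hO, he⟩ := if_image h
  rw [he]
  have : ψ u ∈ M ∩ O := he ▸ mem_image_of_mem ψ hu
  exact Filter.inter_mem self_mem_nhdsWithin (mem_nhdsWithin_of_mem_nhds (hO.mem_nhds this.2))

theorem if_image_subset (h : IsParam M ψ U) : ψ '' U ⊆ M := by
  rintro _ ⟨u, hu, rfl⟩
  exact if_mem h hu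

/-- countable atlas -/
theorem if_exists_atlas [SecondCountableTopology V] (hM : IsMfd d M) :
    ∃ (ψ : ℕ → E d → V) (U : ℕ → Set (E d)), (∀ k, IsParam M (ψ k) (U k)) ∧
      M = ⋃ k, ψ k '' U k := by
  classical
  choose! ψ U hp hmem using hM
  have h1 : ∀ x ∈ M, ψ x '' U x ∈ 𝓝[M] x := by
    intro x hx
    obtain ⟨u, hu, he⟩ := hmem x hx
    have := if_image_mem_nhdsWithin (hp x hx) hu
    rwa [he] at this
  obtain ⟨t, htM, htc, hcov⟩ := TopologicalSpace.countable_cover_nhdsWithin h1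
  rcases t.eq_empty_or_nonempty with rfl | hne
  · have hM0 : M = ∅ := by
      simpa using hcov
    refine ⟨fun _ => 0, fun _ => ∅, fun _ => if_param_empty M _, ?_⟩
    simp [hM0]
  · obtain ⟨f, hf⟩ := htc.exists_eq_range hne
    have hfM : ∀ k, f k ∈ M := fun k => htM (hf ▸ mem_range_self k)
    refine ⟨fun k => ψ (f k), fun k => U (f k), fun k => hp _ (hfM k), ?_⟩
    apply Subset.antisymm
    · intro x hx
      obtain ⟨y, hy, hxy⟩ := mem_iUnion₂.1 (hcov hx)
      rw [hf] at hy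
      obtain ⟨k, rfl⟩ := hy
      exact mem_iUnion.2 ⟨k, hxy⟩
    · exact iUnion_subset fun k => if_image_subset (hp _ (hfM k))

/-- chartwise continuity gives continuity on `M` -/
theorem if_continuousOn_of_along {X : Type} [TopologicalSpace X] (hM : IsMfd d M) {f : V → X}
    (hf : ∀ (ψ : E d → V) (U : Set (E d)), IsParam M ψ U → ContinuousOn (f ∘ ψ) U) :
    ContinuousOn f M := by
  intro x hx
  obtain ⟨ψ, U, h, u, hu, rfl⟩ := hM x hx
  have h1 : ContinuousOn ((f ∘ ψ) ∘ invFunOn ψ U) (ψ '' U) :=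
    (hf ψ U h).comp (if_contInv h) fun y hy => if_inv_mem hy
  have h2 : ContinuousOn f (ψ '' U) := h1.congr fun y hy => by
    simp only [comp_apply]
    rw [if_rightInv hy]
  have h3 : ContinuousWithinAt f (ψ '' U) (ψ u) := h2 _ (mem_image_of_mem ψ hu)
  exact h3.mono_of_mem_nhdsWithin (if_image_mem_nhdsWithin h hu)

theorem if_smoothAlong_continuousOn {F : Type} [NormedAddCommGroup F] [NormedSpace ℝ F]
    (hM : IsMfd d M) {f : V → F} (hf : SmoothAlong d M f) : ContinuousOn f M :=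
  if_continuousOn_of_along hM fun ψ U h => (hf ψ U h).continuousOn

section meas

variable [MeasurableSpace V] [BorelSpace V]

theorem if_measurableSet_image (h : IsParam M ψ U) {A : Set (E d)} (hA : MeasurableSet A)
    (hAU : A ⊆ U) : MeasurableSet (ψ '' A) :=
  hA.image_of_continuousOn_injOn ((if_continuousOn h).mono hAU) ((if_injOn h).mono hAU)

theorem if_measurableSet [SecondCountableTopology V] (hM : IsMfd d M) : MeasurableSet M := by
  obtain ⟨ψ, U, hp, he⟩ := if_exists_atlas hM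
  rw [he]
  exact MeasurableSet.iUnion fun k =>
    if_measurableSet_image (hp k) (if_open (hp k)).measurableSet Subset.rfl

theorem if_measurableSet_preimage (h : IsParam M ψ U) {B : Set V} (hB : MeasurableSet B) :
    MeasurableSet (U ∩ ψ ⁻¹' B) := by
  classical
  have h1 : Measurable (U.piecewise ψ fun _ => (0 : V)) :=
    (if_continuousOn h).measurable_piecewise continuousOn_const (if_open h).measurableSet
  have h2 : U ∩ ψ ⁻¹' B = U ∩ (U.piecewise ψ fun _ => (0 : V)) ⁻¹' B := by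
    ext u
    simp only [mem_inter_iff, mem_preimage]
    constructor
    · rintro ⟨hu, hB⟩
      exact ⟨hu, by rwa [piecewise_eq_of_mem _ _ _ hu]⟩
    · rintro ⟨hu, hB⟩
      exact ⟨hu, by rwa [piecewise_eq_of_mem _ _ _ hu] at hB⟩
  rw [h2]
  exact (if_open h).measurableSet.inter (h1 hB)

theorem if_image_inter_preimage (ψ : E d → V) (U : Set (E d)) (B : Set V) :
    ψ '' (U ∩ ψ ⁻¹' B) = ψ '' U ∩ B := image_inter_preimage ψ U B

end meas

end Claimed.Agent.R315
end

/- ===== packed: Claimed.Agent.R315.If.Retr ===== -/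
section
/-!
# Row 315 (S0571), interface, part 11: local smooth retractions (prefix `if_`)

`if_exists_retr` : near every point of a parametrised piece of `M` the inverse of the
parametrisation is the restriction of a smooth map `ρ` which is defined on an open set of the
ambient space.
Owner: helper274.
-/

set_option autoImplicit false
set_option linter.unusedSectionVars false

open scoped Topology ContDiff
open Set Function

namespace Claimed.Agent.R315

variable {V : Type} [NormedAddCommGroup V] [NormedSpace ℝ V]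
variable {d : ℕ} {M : Set V} {ψ ψ' : E d → V} {U U' : Set (E d)}

/-- inverse function theorem with a smooth inverse on an open set -/
theorem if_exists_local_inverse {F : E d → E d} (hU : IsOpen U) (hF : ContDiffOn ℝ ∞ F U)
    {u₀ : E d} (hu : u₀ ∈ U) (hd : fderiv ℝ F u₀ = ContinuousLinearMap.id ℝ (E d)) :
    ∃ (σ : E d → E d) (O : Set (E d)) (W : Set (E d)), IsOpen O ∧ F u₀ ∈ O ∧
      ContDiffOn ℝ ∞ σ O ∧ IsOpen W ∧ u₀ ∈ W ∧ W ⊆ U ∧ MapsTo σ O W ∧
      ∀ w ∈ W, F w ∈ O ∧ σ (F w) = w := by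
  have hFa : ContDiffAt ℝ ∞ F u₀ := hF.contDiffAt (hU.mem_nhds hu)
  have hF' : HasFDerivAt F
      ((ContinuousLinearEquiv.refl ℝ (E d) : E d ≃L[ℝ] E d) : E d →L[ℝ] E d) u₀ := by
    have h1 := (hFa.differentiableAt (by simp)).hasFDerivAt
    rw [hd] at h1
    exact h1
  have hs := hFa.hasStrictFDerivAt' hF' (by simp)
  set e := HasStrictFDerivAt.toOpenPartialHomeomorph F hs with he
  have hecoe : (e : E d → E d) = F := HasStrictFDerivAt.toOpenPartialHomeomorph_coe hs
  have hsrc : u₀ ∈ e.source := HasStrictFDerivAt.mem_toOpenPartialHomeomorph_source hs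
  -- the set of good points
  set S : Set (E d) := U ∩ fderiv ℝ F ⁻¹'
    (range (ContinuousLinearEquiv.toContinuousLinearMap : (E d ≃L[ℝ] E d) → E d →L[ℝ] E d))
    with hS
  have hSo : IsOpen S :=
    (hF.continuousOn_fderiv_of_isOpen hU (by simp)).isOpen_inter_preimage hU
      ContinuousLinearEquiv.isOpen
  have hu₀S : u₀ ∈ S := ⟨hu, ContinuousLinearEquiv.refl ℝ (E d), by rw [hd]; rfl⟩
  refine ⟨e.symm, e.target ∩ e.symm ⁻¹' S, e.source ∩ S, e.isOpen_inter_preimage_symm hSo, ?_, ?_,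
    e.open_source.inter hSo, ⟨hsrc, hu₀S⟩, fun w hw => hw.2.1, ?_, ?_⟩
  · rw [← hecoe]
    exact ⟨e.map_source hsrc, by rw [mem_preimage, e.left_inv hsrc]; exact hu₀S⟩
  · intro a ha
    obtain ⟨f₀', hf₀'⟩ := ha.2.2
    have hUa : e.symm a ∈ U := ha.2.1
    have h1 : ContDiffAt ℝ ∞ F (e.symm a) := hF.contDiffAt (hU.mem_nhds hUa)
    have h2 : HasFDerivAt F (f₀' : E d →L[ℝ] E d) (e.symm a) := by
      have := (h1.differentiableAt (by simp)).hasFDerivAt
      rwa [← hf₀'] at this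
    exact (e.contDiffAt_symm ha.1 (hecoe ▸ h2) (hecoe ▸ h1)).contDiffWithinAt
  · intro a ha
    exact ⟨e.map_target ha.1, ha.2⟩
  · intro w hw
    rw [← hecoe]
    exact ⟨⟨e.map_source hw.1, by rw [mem_preimage, e.left_inv hw.1]; exact hw.2⟩,
      e.left_inv hw.1⟩

/-- **local smooth retraction**: the inverse of a parametrisation is locally the restriction of a
smooth map defined on an open subset of the ambient space. -/
theorem if_exists_retr [FiniteDimensional ℝ V] (h : IsParam M ψ U) {u₀ : E d} (hu : u₀ ∈ U) :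
    ∃ (ρ : V → E d) (O : Set V), IsOpen O ∧ ψ u₀ ∈ O ∧ ContDiffOn ℝ ∞ ρ O ∧ MapsTo ρ O U ∧
      ∀ x ∈ M ∩ O, x ∈ ψ '' U ∧ ρ x = invFunOn ψ U x := by
  obtain ⟨P, hP⟩ := ContinuousLinearMap.HasLeftInverse.of_injective_of_finiteDimensional
    (if_imm h hu)
  have hF : ContDiffOn ℝ ∞ (fun w => P (ψ w)) U := P.contDiff.comp_contDiffOn (if_smooth h)
  have hd : fderiv ℝ (fun w => P (ψ w)) u₀ = ContinuousLinearMap.id ℝ (E d) := by
    have h1 := (P.hasFDerivAt.comp u₀ (if_differentiableAt h hu).hasFDerivAt).fderiv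
    have h2 : P.comp (fderiv ℝ ψ u₀) = ContinuousLinearMap.id ℝ (E d) := by
      ext1 x
      exact hP x
    rw [h2] at h1
    exact h1
  obtain ⟨σ, O', W, hO', hmem, hσ, hW, hu₀W, hWU, hmaps, hinv⟩ :=
    if_exists_local_inverse (if_open h) hF hu hd
  -- points of `M` near `ψ u₀` are of the form `ψ w`, `w ∈ W`
  obtain ⟨O₁, hO₁, he₁⟩ := if_image_open h hW hWU
  have hmem₁ : ψ u₀ ∈ O₁ := by
    have : ψ u₀ ∈ M ∩ O₁ := he₁ ▸ mem_image_of_mem ψ hu₀W
    exact this.2
  refine ⟨fun x => σ (P x), P ⁻¹' O' ∩ O₁, (hO'.preimage P.continuous).inter hO₁, ⟨hmem, hmem₁⟩,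
    ?_, ?_, ?_⟩
  · exact hσ.comp (P.contDiff.contDiffOn) fun x hx => hx.1
  · intro x hx
    exact hWU (hmaps hx.1)
  · rintro x ⟨hxM, -, hx₁⟩
    have : x ∈ ψ '' W := he₁ ▸ (⟨hxM, hx₁⟩ : x ∈ M ∩ O₁)
    obtain ⟨w, hw, rfl⟩ := this
    refine ⟨mem_image_of_mem ψ (hWU hw), ?_⟩
    rw [if_leftInv h (hWU hw)]
    exact (hinv w hw).2

end Claimed.Agent.R315
end

/- ===== packed: Claimed.Agent.R315.If.Pv ===== -/
section
/-!
# Row 315 (S0571), interface, part 7: evaluation of `pv` (prefix `if_`)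

* `if_Inv M Φ` : the chart quantity `Φ` is invariant; `if_pv_eq : pv M Φ (ψ u) = Φ ψ u`;
* `if_cm_bil`, `if_cm_tr`, `if_metC`, `if_pullC` : coordinate matrices under transition maps;
* `if_inv_scal`, `if_inv_gradIp`, `if_inv_gradSq`, `if_inv_tr`, `if_inv_detRatio`;
* `if_scal_eq`, `if_gradSq_eq`, `if_gradIp_eq`, `if_trM_eq` : values in a parametrisation;
* smoothness along `M` of these quantities.
Owner: helper274.
-/

set_option autoImplicit false
set_option linter.unusedSectionVars false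

open scoped Topology ContDiff Matrix
open Claims.C0499 Set

namespace Claimed.Agent.R315

variable {V : Type} [NormedAddCommGroup V] [NormedSpace ℝ V]
variable {d : ℕ} {M : Set V} {ψ ψ' : E d → V} {U U' : Set (E d)}

/-! ## `pv` -/

/-- the chart quantity `Φ` does not depend on the parametrisation -/
def if_Inv (M : Set V) (Φ : (E d → V) → E d → ℝ) : Prop :=
  ∀ (ψ ψ' : E d → V) (U U' : Set (E d)) (u u' : E d), IsParam M ψ U → IsParam M ψ' U' →
    u ∈ U → u' ∈ U' → ψ u = ψ' u' → Φ ψ u = Φ ψ' u'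

theorem if_pv_eq {Φ : (E d → V) → E d → ℝ} (hΦ : if_Inv M Φ) (h : IsParam M ψ U) {u : E d}
    (hu : u ∈ U) : pv M Φ (ψ u) = Φ ψ u := by
  unfold pv
  have : {r | ∃ (ψ' : E d → V) (U' : Set (E d)) (u' : E d),
      IsParam M ψ' U' ∧ u' ∈ U' ∧ ψ' u' = ψ u ∧ r = Φ ψ' u'} = {Φ ψ u} := by
    ext r
    simp only [Set.mem_ofPred_eq, mem_singleton_iff]
    constructor
    · rintro ⟨ψ', U', u', h', hu', he, rfl⟩
      exact hΦ ψ' ψ U' U u' u h' h hu' hu he
    · rintro rfl
      exact ⟨ψ, U, u, h, hu, rfl, rfl⟩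
  rw [this, csSup_singleton]

theorem if_pv_comp_eqOn {Φ : (E d → V) → E d → ℝ} (hΦ : if_Inv M Φ) (h : IsParam M ψ U) :
    EqOn (pv M Φ ∘ ψ) (Φ ψ) U := fun _ hu => if_pv_eq hΦ h hu

theorem if_inv_fun (f : V → ℝ) : if_Inv (d := d) M fun ψ u => f (ψ u) := by
  intro ψ ψ' U U' u u' _ _ _ _ he
  simp only [he]

theorem if_Inv.map {Φ : (E d → V) → E d → ℝ} (hΦ : if_Inv M Φ) (F : ℝ → ℝ) :
    if_Inv M fun ψ u => F (Φ ψ u) := by
  intro ψ ψ' U U' u u' h h' hu hu' he
  simp only [hΦ ψ ψ' U U' u u' h h' hu hu' he]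

theorem if_Inv.map₂ {Φ Φ' : (E d → V) → E d → ℝ} (hΦ : if_Inv M Φ) (hΦ' : if_Inv M Φ')
    (F : ℝ → ℝ → ℝ) : if_Inv M fun ψ u => F (Φ ψ u) (Φ' ψ u) := by
  intro ψ ψ' U U' u u' h h' hu hu' he
  simp only [hΦ ψ ψ' U U' u u' h h' hu hu' he, hΦ' ψ ψ' U U' u u' h h' hu hu' he]

theorem if_pv_map {Φ : (E d → V) → E d → ℝ} (hM : IsMfd d M) (hΦ : if_Inv M Φ) (F : ℝ → ℝ)
    {x : V} (hx : x ∈ M) : pv M (fun ψ u => F (Φ ψ u)) x = F (pv M Φ x) := by
  obtain ⟨ψ, U, h, u, hu, rfl⟩ := hM x hx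
  rw [if_pv_eq (hΦ.map F) h hu, if_pv_eq hΦ h hu]

theorem if_pv_map₂ {Φ Φ' : (E d → V) → E d → ℝ} (hM : IsMfd d M) (hΦ : if_Inv M Φ)
    (hΦ' : if_Inv M Φ') (F : ℝ → ℝ → ℝ) {x : V} (hx : x ∈ M) :
    pv M (fun ψ u => F (Φ ψ u) (Φ' ψ u)) x = F (pv M Φ x) (pv M Φ' x) := by
  obtain ⟨ψ, U, h, u, hu, rfl⟩ := hM x hx
  rw [if_pv_eq (hΦ.map₂ hΦ' F) h hu, if_pv_eq hΦ h hu, if_pv_eq hΦ' h hu]

theorem if_pv_fun (hM : IsMfd d M) (f : V → ℝ) {x : V} (hx : x ∈ M) :
    pv (d := d) M (fun ψ u => f (ψ u)) x = f x := by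
  obtain ⟨ψ, U, h, u, hu, rfl⟩ := hM x hx
  rw [if_pv_eq (if_inv_fun f) h hu]

/-- smoothness along `M` of an invariant quantity -/
theorem if_pv_smoothAlong {Φ : (E d → V) → E d → ℝ} (hΦ : if_Inv M Φ)
    (hs : ∀ (ψ : E d → V) (U : Set (E d)), IsParam M ψ U → ContDiffOn ℝ ∞ (Φ ψ) U) :
    SmoothAlong d M (pv M Φ) :=
  fun ψ U h => (hs ψ U h).congr (if_pv_comp_eqOn hΦ h)

/-! ## smoothness notions -/

section smooth

variable {F : Type} [NormedAddCommGroup F] [NormedSpace ℝ F]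

theorem if_smoothNear_of_contDiff {f : V → F} (hf : ContDiff ℝ ∞ f) : SmoothNear M f :=
  ⟨univ, isOpen_univ, subset_univ _, hf.contDiffOn⟩

theorem if_smoothAlong_of_near {f : V → F} (hf : SmoothNear M f) : SmoothAlong d M f := by
  obtain ⟨O, -, hMO, hfO⟩ := hf
  intro ψ U h
  exact hfO.comp (if_smooth h) fun u hu => hMO (if_mem h hu)

theorem if_smoothAlong_of_contDiff {f : V → F} (hf : ContDiff ℝ ∞ f) : SmoothAlong d M f :=
  if_smoothAlong_of_near (if_smoothNear_of_contDiff hf)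

theorem if_smoothAlong_contDiffAt {f : V → F} (hf : SmoothAlong d M f) (h : IsParam M ψ U)
    {u : E d} (hu : u ∈ U) : ContDiffAt ℝ ∞ (f ∘ ψ) u :=
  (hf ψ U h).contDiffAt ((if_open h).mem_nhds hu)

theorem if_smoothAlong_differentiableAt {f : V → F} (hf : SmoothAlong d M f) (h : IsParam M ψ U)
    {u : E d} (hu : u ∈ U) : DifferentiableAt ℝ (f ∘ ψ) u :=
  (if_smoothAlong_contDiffAt hf h hu).differentiableAt (by simp)

/-- `f ∘ ψ = (f ∘ ψ') ∘ τ` near every point of the domain of the transition map -/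
theorem if_comp_eventuallyEq (f : V → F) (h : IsParam M ψ U) (h' : IsParam M ψ' U') {u : E d}
    (hu : u ∈ if_trDom ψ U ψ' U') : f ∘ ψ =ᶠ[𝓝 u] (f ∘ ψ') ∘ if_tr ψ' U' ψ := by
  filter_upwards [if_eventuallyEq_comp_tr h h' hu] with w hw
  simp only [Function.comp_apply] at hw ⊢
  rw [hw]

end smooth

/-! ## coordinate matrices -/

theorem if_cm_bil (g : Ten V) (ψ : E d → V) (u X Y : E d) :
    if_bil (cm g ψ u) X Y = g (ψ u) (fderiv ℝ ψ u X) (fderiv ℝ ψ u Y) := by
  refine if_bil_of_bilin (B := fun X Y => g (ψ u) (fderiv ℝ ψ u X) (fderiv ℝ ψ u Y))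
    ?_ ?_ ?_ ?_ X Y
  · intro X X' Y
    simp only [map_add, add_apply]
  · intro c X Y
    simp only [map_smul, smul_apply, smul_eq_mul]
  · intro X Y Y'
    simp only [map_add]
  · intro c X Y
    simp only [map_smul, smul_eq_mul]

theorem if_cm_tr [FiniteDimensional ℝ V] (g : Ten V) (h : IsParam M ψ U) (h' : IsParam M ψ' U')
    {u : E d} (hu : u ∈ if_trDom ψ U ψ' U') (i j : Fin d) :
    cm g ψ u i j = if_bil (cm g ψ' (if_tr ψ' U' ψ u)) (fderiv ℝ (if_tr ψ' U' ψ) u (eb i))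
      (fderiv ℝ (if_tr ψ' U' ψ) u (eb j)) := by
  rw [if_cm_bil, if_tr_spec hu]
  show g (ψ u) (fderiv ℝ ψ u (eb i)) (fderiv ℝ ψ u (eb j)) = _
  rw [if_fderiv_eq h h' hu]
  rfl

theorem if_isTenOn_of_near {g : Ten V} (hg : SmoothNear M g) : IsTenOn d M g := by
  intro ψ U h i j
  have h1 : ContDiffOn ℝ ∞ (g ∘ ψ) U := if_smoothAlong_of_near hg ψ U h
  have h2 : ContDiffOn ℝ ∞ (fderiv ℝ ψ) U := (if_smooth h).fderiv_of_isOpen (if_open h) (by simp)
  exact (h1.clm_apply (h2.clm_apply contDiffOn_const)).clm_apply (h2.clm_apply contDiffOn_const)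

theorem if_isMetricOn_iff {g : Ten V} : IsMetricOn d M g ↔ IsTenOn d M g ∧
    ∀ (ψ : E d → V) (U : Set (E d)), IsParam M ψ U → ∀ u ∈ U, (cm g ψ u).PosDef :=
  ⟨fun h => ⟨fun ψ U hp => (h ψ U hp).1, fun ψ U hp => (h ψ U hp).2⟩,
    fun h ψ U hp => ⟨h.1 ψ U hp, h.2 ψ U hp⟩⟩

theorem if_metC {g : Ten V} (hg : IsMetricOn d M g) (h : IsParam M ψ U) : if_MetC U (cm g ψ) :=
  ⟨if_open h, (hg ψ U h).1, (hg ψ U h).2⟩

theorem if_pullC [FiniteDimensional ℝ V] {g : Ten V} (hg : IsMetricOn d M g) (h : IsParam M ψ U)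
    (h' : IsParam M ψ' U') :
    if_PullC (if_trDom ψ U ψ' U') U' (if_tr ψ' U' ψ) (cm g ψ) (cm g ψ') where
  metT := (if_metC hg h).mono (if_isOpen_trDom h h') if_trDom_subset
  metU := if_metC hg h'
  smooth := if_tr_contDiffOn h h'
  mapsTo := fun _ hu => if_tr_mem hu
  inj := fun _ hu => if_fderiv_tr_injective h h' hu
  rel := fun _ hu i j => if_cm_tr g h h' hu i j

/-! ## invariance -/

section inv

variable [FiniteDimensional ℝ V] {g : Ten V}

theorem if_inv_scal (hg : IsMetricOn d M g) : if_Inv (d := d) M fun ψ u => scalarCoord (cm g ψ) u := by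
  intro ψ ψ' U U' u u' h h' hu hu' he
  have := (if_pullC hg h h').scalar (if_mem_trDom hu hu' he)
  rwa [if_tr_eq h' hu' he] at this

theorem if_gradIpC_congr (G : E d → Matrix (Fin d) (Fin d) ℝ) {f f₁ k k₁ : E d → ℝ} {u : E d}
    (hf : f =ᶠ[𝓝 u] f₁) (hk : k =ᶠ[𝓝 u] k₁) : gradIpC G f k u = gradIpC G f₁ k₁ u := by
  unfold gradIpC pdiff
  rw [hf.fderiv_eq, hk.fderiv_eq]

theorem if_inv_gradIp (hg : IsMetricOn d M g) {f k : V → ℝ} (hf : SmoothAlong d M f)
    (hk : SmoothAlong d M k) : if_Inv (d := d) M fun ψ u => gradIpC (cm g ψ) (f ∘ ψ) (k ∘ ψ) u := by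
  intro ψ ψ' U U' u u' h h' hu hu' he
  have hT := if_mem_trDom hu hu' he
  have e := if_tr_eq h' hu' he
  have := (if_pullC hg h h').gradIp hT (f' := f ∘ ψ') (k' := k ∘ ψ')
    (by rw [e]; exact if_smoothAlong_differentiableAt hf h' hu')
    (by rw [e]; exact if_smoothAlong_differentiableAt hk h' hu')
  rw [e] at this
  refine Eq.trans ?_ this
  exact if_gradIpC_congr _ (if_comp_eventuallyEq f h h' hT) (if_comp_eventuallyEq k h h' hT)

theorem if_inv_gradSq (hg : IsMetricOn d M g) {f : V → ℝ} (hf : SmoothAlong d M f) :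
    if_Inv (d := d) M fun ψ u => gradSqC (cm g ψ) (f ∘ ψ) u := if_inv_gradIp hg hf hf

theorem if_inv_tr (hg : IsMetricOn d M g) (k : Ten V) :
    if_Inv (d := d) M fun ψ u => trC (cm g ψ) (cm k ψ) u := by
  intro ψ ψ' U U' u u' h h' hu hu' he
  have hT := if_mem_trDom hu hu' he
  have := (if_pullC hg h h').tr hT (H := cm k ψ) (H' := cm k ψ') (if_cm_tr k h h' hT)
  rwa [if_tr_eq h' hu' he] at this

/-- the quotient of the determinants of two tensors is invariant -/
theorem if_inv_detRatio (g k : Ten V) :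
    if_Inv (d := d) M fun ψ u => (cm g ψ u).det / (cm k ψ u).det := by
  intro ψ ψ' U U' u u' h h' hu hu' he
  have hT := if_mem_trDom hu hu' he
  have h1 := if_det_pull (if_cm_tr g h h' hT)
  have h2 := if_det_pull (if_cm_tr k h h' hT)
  have h3 : (if_jac (fderiv ℝ (if_tr ψ' U' ψ) u)).det ≠ 0 :=
    (if_jac_isUnit (if_fderiv_tr_injective h h' hT)).ne_zero
  rw [if_tr_eq h' hu' he] at h1 h2
  simp only [h1, h2]
  rw [mul_div_mul_left _ _ (pow_ne_zero 2 h3)]

/-! ## values in a parametrisation -/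

theorem if_scal_eq (hg : IsMetricOn d M g) (h : IsParam M ψ U) {u : E d} (hu : u ∈ U) :
    scal d M g (ψ u) = scalarCoord (cm g ψ) u := if_pv_eq (if_inv_scal hg) h hu

theorem if_gradIp_eq (hg : IsMetricOn d M g) {f k : V → ℝ} (hf : SmoothAlong d M f)
    (hk : SmoothAlong d M k) (h : IsParam M ψ U) {u : E d} (hu : u ∈ U) :
    gradIp d M g f k (ψ u) = gradIpC (cm g ψ) (f ∘ ψ) (k ∘ ψ) u :=
  if_pv_eq (if_inv_gradIp hg hf hk) h hu

theorem if_gradSq_eq (hg : IsMetricOn d M g) {f : V → ℝ} (hf : SmoothAlong d M f)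
    (h : IsParam M ψ U) {u : E d} (hu : u ∈ U) :
    gradSq d M g f (ψ u) = gradSqC (cm g ψ) (f ∘ ψ) u := if_pv_eq (if_inv_gradSq hg hf) h hu

theorem if_trM_eq (hg : IsMetricOn d M g) (k : Ten V) (h : IsParam M ψ U) {u : E d} (hu : u ∈ U) :
    trM d M g k (ψ u) = trC (cm g ψ) (cm k ψ) u := if_pv_eq (if_inv_tr hg k) h hu

theorem if_gradSq_eq_gradIp (f : V → ℝ) : gradSq d M g f = gradIp d M g f f := rfl

/-! ## smoothness -/

theorem if_scal_smoothAlong (hg : IsMetricOn d M g) : SmoothAlong d M (scal d M g) :=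
  if_pv_smoothAlong (if_inv_scal hg) fun _ _ h =>
    if_scalar_contDiffOn (if_open h) (if_metC hg h).smooth (if_metC hg h).det_ne

theorem if_gradIp_smoothAlong (hg : IsMetricOn d M g) {f k : V → ℝ} (hf : SmoothAlong d M f)
    (hk : SmoothAlong d M k) : SmoothAlong d M (gradIp d M g f k) :=
  if_pv_smoothAlong (if_inv_gradIp hg hf hk) fun ψ U h =>
    if_gradIpC_contDiffOn (if_open h) (if_metC hg h).smooth (if_metC hg h).det_ne (hf ψ U h)
      (hk ψ U h)

theorem if_gradSq_smoothAlong (hg : IsMetricOn d M g) {f : V → ℝ} (hf : SmoothAlong d M f) :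
    SmoothAlong d M (gradSq d M g f) := if_gradIp_smoothAlong hg hf hf

theorem if_trM_smoothAlong (hg : IsMetricOn d M g) {k : Ten V} (hk : IsTenOn d M k) :
    SmoothAlong d M (trM d M g k) :=
  if_pv_smoothAlong (if_inv_tr hg k) fun ψ U h =>
    if_trC_contDiffOn (if_metC hg h).smooth (if_metC hg h).det_ne (hk ψ U h)

end inv

end Claimed.Agent.R315
end

/- ===== packed: Claimed.Agent.R315.If.Curve ===== -/
section
/-!
# Row 315 (S0571), interface, part 12: admissible curves (prefix `if_`)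

* `if_Adm M c`, `if_speed g c`, `if_len g c` : the curves, speed and length in `rdist`;
* `if_adm_lift` : an admissible curve is locally `ψ ∘ υ` with `υ` of class `C¹`;
* `if_speed_continuousOn` : the speed is continuous on `[0,1]`.
Owner: helper274.
-/

set_option autoImplicit false
set_option linter.unusedSectionVars false

open scoped Topology ContDiff
open Set Function

namespace Claimed.Agent.R315

variable {V : Type} [NormedAddCommGroup V] [NormedSpace ℝ V]
variable {d : ℕ} {M : Set V} {ψ : E d → V} {U : Set (E d)} {g : Ten V} {c : ℝ → V}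

/-- admissible curves -/
def if_Adm (M : Set V) (c : ℝ → V) : Prop := ContDiff ℝ 1 c ∧ ∀ t ∈ Icc (0 : ℝ) 1, c t ∈ M

/-- speed of a curve -/
noncomputable def if_speed (g : Ten V) (c : ℝ → V) (t : ℝ) : ℝ :=
  Real.sqrt (g (c t) (deriv c t) (deriv c t))

/-- length of a curve -/
noncomputable def if_len (g : Ten V) (c : ℝ → V) : ℝ := ∫ t in (0 : ℝ)..1, if_speed g c t

theorem if_speed_nonneg (g : Ten V) (c : ℝ → V) (t : ℝ) : 0 ≤ if_speed g c t := Real.sqrt_nonneg _

theorem if_len_nonneg (g : Ten V) (c : ℝ → V) : 0 ≤ if_len g c :=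
  intervalIntegral.integral_nonneg zero_le_one fun t _ => if_speed_nonneg g c t

theorem if_rdist_eq (M : Set V) (g : Ten V) (x y : V) :
    rdist M g x y = sInf {L | ∃ c, if_Adm M c ∧ c 0 = x ∧ c 1 = y ∧ L = if_len g c} := by
  unfold rdist
  congr 1
  ext L
  constructor
  · rintro ⟨c, h1, h2, h3, h4, h5⟩
    exact ⟨c, ⟨h1, h2⟩, h3, h4, h5⟩
  · rintro ⟨c, ⟨h1, h2⟩, h3, h4, h5⟩
    exact ⟨c, h1, h2, h3, h4, h5⟩

theorem if_bddBelow_len (M : Set V) (g : Ten V) (x y : V) :
    BddBelow {L | ∃ c, if_Adm M c ∧ c 0 = x ∧ c 1 = y ∧ L = if_len g c} :=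
  ⟨0, by rintro L ⟨c, -, -, -, rfl⟩; exact if_len_nonneg g c⟩

theorem if_rdist_nonneg (M : Set V) (g : Ten V) (x y : V) : 0 ≤ rdist M g x y := by
  rw [if_rdist_eq]
  refine Real.sInf_nonneg ?_
  rintro L ⟨c, -, -, -, rfl⟩
  exact if_len_nonneg g c

theorem if_rdist_le (hc : if_Adm M c) (g : Ten V) : rdist M g (c 0) (c 1) ≤ if_len g c := by
  rw [if_rdist_eq]
  exact csInf_le (if_bddBelow_len M g _ _) ⟨c, hc, rfl, rfl, rfl⟩

theorem if_rdist_le' (hc : if_Adm M c) (g : Ten V) {x y : V} (hx : c 0 = x) (hy : c 1 = y) :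
    rdist M g x y ≤ if_len g c := by
  rw [← hx, ← hy]
  exact if_rdist_le hc g

/-- the relation "there is an admissible curve from `x` to `y`" -/
def if_Join (M : Set V) (x y : V) : Prop := ∃ c, if_Adm M c ∧ c 0 = x ∧ c 1 = y

theorem if_exists_len_lt {x y : V} (hj : if_Join M x y) {r : ℝ} (hr : rdist M g x y < r) :
    ∃ c, if_Adm M c ∧ c 0 = x ∧ c 1 = y ∧ if_len g c < r := by
  rw [if_rdist_eq] at hr
  obtain ⟨c₀, h1, h2, h3⟩ := hj
  have hne : {L | ∃ c, if_Adm M c ∧ c 0 = x ∧ c 1 = y ∧ L = if_len g c}.Nonempty :=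
    ⟨_, c₀, h1, h2, h3, rfl⟩
  obtain ⟨L, ⟨c, hc, hx, hy, rfl⟩, hL⟩ := exists_lt_of_csInf_lt hne hr
  exact ⟨c, hc, hx, hy, hL⟩

/-- a lower bound for all curves is a lower bound for the distance -/
theorem if_le_rdist {x y : V} (hj : if_Join M x y) {r : ℝ}
    (hr : ∀ c, if_Adm M c → c 0 = x → c 1 = y → r ≤ if_len g c) : r ≤ rdist M g x y := by
  rw [if_rdist_eq]
  obtain ⟨c₀, h1, h2, h3⟩ := hj
  refine le_csInf ⟨_, c₀, h1, h2, h3, rfl⟩ ?_
  rintro L ⟨c, hc, hx, hy, rfl⟩
  exact hr c hc hx hy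

/-! ## lifting curves to a parametrisation -/

/-- an admissible curve is locally of the form `ψ ∘ υ` -/
theorem if_adm_lift [FiniteDimensional ℝ V] (hc : if_Adm M c) (h : IsParam M ψ U) {t₀ : ℝ}
    (hct : c t₀ ∈ ψ '' U) :
    ∃ (υ : ℝ → E d) (I : Set ℝ), IsOpen I ∧ t₀ ∈ I ∧ ContDiffOn ℝ 1 υ I ∧ MapsTo υ I U ∧
      ∀ t ∈ I ∩ Icc (0 : ℝ) 1, c t = ψ (υ t) ∧ deriv c t = fderiv ℝ ψ (υ t) (deriv υ t) := by
  obtain ⟨u₀, hu₀, he⟩ := hct
  obtain ⟨ρ, O, hO, hmem, hρ, hmaps, hinv⟩ := if_exists_retr h hu₀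
  have hI : IsOpen (c ⁻¹' O) := hO.preimage hc.1.continuous
  have hυ : ContDiffOn ℝ 1 (fun t => ρ (c t)) (c ⁻¹' O) :=
    (hρ.of_le (by decide)).comp hc.1.contDiffOn fun t ht => ht
  have heq : ∀ t ∈ c ⁻¹' O ∩ Icc (0 : ℝ) 1, c t = ψ (ρ (c t)) := by
    rintro t ⟨htO, ht⟩
    obtain ⟨h1, h2⟩ := hinv (c t) ⟨hc.2 t ht, htO⟩
    rw [h2, if_rightInv h1]
  refine ⟨fun t => ρ (c t), c ⁻¹' O, hI, by rw [mem_preimage, ← he]; exact hmem, hυ,
    fun t ht => hmaps ht, fun t ht => ⟨heq t ht, ?_⟩⟩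
  have hυd : HasDerivAt (fun t => ρ (c t)) (deriv (fun t => ρ (c t)) t) t :=
    ((hυ.contDiffAt (hI.mem_nhds ht.1)).differentiableAt (by simp)).hasDerivAt
  have h1 : HasDerivAt (fun t => ψ (ρ (c t)))
      (fderiv ℝ ψ (ρ (c t)) (deriv (fun t => ρ (c t)) t)) t :=
    (if_differentiableAt h (hmaps ht.1)).hasFDerivAt.comp_hasDerivAt t hυd
  have h2 : HasDerivAt c (deriv c t) t := (hc.1.differentiable (by simp) t).hasDerivAt
  have h3 : HasDerivWithinAt c (fderiv ℝ ψ (ρ (c t)) (deriv (fun t => ρ (c t)) t))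
      (Icc (0 : ℝ) 1) t := by
    refine h1.hasDerivWithinAt.congr_of_eventuallyEq ?_ (heq t ht)
    filter_upwards [inter_mem_nhdsWithin _ (hI.mem_nhds ht.1)] with s hs
    exact heq s ⟨hs.2, hs.1⟩
  exact (uniqueDiffOn_Icc zero_lt_one t ht.2).eq_deriv _ h2.hasDerivWithinAt h3

theorem if_bil_cm_continuousOn (hg : IsTenOn d M g) (h : IsParam M ψ U) :
    ContinuousOn (fun w => if_bil (cm g ψ w)) U := by
  intro w hw
  have h1 : ∀ i j, DifferentiableAt ℝ (fun u => cm g ψ u i j) w := fun i j =>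
    ((hg ψ U h i j).contDiffAt ((if_open h).mem_nhds hw)).differentiableAt (by simp)
  exact (if_bil_hasFDerivAt h1).continuousAt.continuousWithinAt

/-- **the speed of an admissible curve is continuous on `[0,1]`** -/
theorem if_speed_continuousOn [FiniteDimensional ℝ V] (hM : IsMfd d M) (hg : IsTenOn d M g)
    (hc : if_Adm M c) : ContinuousOn (if_speed g c) (Icc (0 : ℝ) 1) := by
  intro t₀ ht₀
  obtain ⟨ψ, U, h, hct⟩ := hM (c t₀) (hc.2 t₀ ht₀)
  obtain ⟨υ, I, hI, ht₀I, hυ, hmaps, hlift⟩ := if_adm_lift hc h hct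
  have h1 : ContinuousOn (fun t => if_bil (cm g ψ (υ t)) (deriv υ t) (deriv υ t)) I := by
    have a : ContinuousOn (fun t => if_bil (cm g ψ (υ t))) I :=
      (if_bil_cm_continuousOn hg h).comp hυ.continuousOn hmaps
    have b : ContinuousOn (deriv υ) I := hυ.continuousOn_deriv_of_isOpen hI le_rfl
    exact (a.clm_apply b).clm_apply b
  have h2 : ContinuousWithinAt
      (fun t => Real.sqrt (if_bil (cm g ψ (υ t)) (deriv υ t) (deriv υ t))) (Icc (0 : ℝ) 1) t₀ :=
    ((h1.continuousAt (hI.mem_nhds ht₀I)).sqrt).continuousWithinAt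
  have key : ∀ t ∈ I ∩ Icc (0 : ℝ) 1, if_speed g c t =
      Real.sqrt (if_bil (cm g ψ (υ t)) (deriv υ t) (deriv υ t)) := by
    intro t ht
    obtain ⟨e1, e2⟩ := hlift t ht
    rw [if_cm_bil, ← e1, ← e2]
    rfl
  refine h2.congr_of_eventuallyEq ?_ (key t₀ ⟨ht₀I, ht₀⟩)
  filter_upwards [inter_mem_nhdsWithin _ (hI.mem_nhds ht₀I)] with s hs
  exact key s ⟨hs.2, hs.1⟩

theorem if_speed_intervalIntegrable [FiniteDimensional ℝ V] (hM : IsMfd d M)
    (hg : IsTenOn d M g) (hc : if_Adm M c) {a b : ℝ} (ha : a ∈ Icc (0 : ℝ) 1)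
    (hb : b ∈ Icc (0 : ℝ) 1) : IntervalIntegrable (if_speed g c) MeasureTheory.volume a b :=
  ((if_speed_continuousOn hM hg hc).mono (uIcc_subset_Icc ha hb)).intervalIntegrable

end Claimed.Agent.R315
end

/- ===== packed: Claimed.Agent.R315.If.Concat ===== -/
section
/-!
# Row 315 (S0571), interface, part 13: operations on admissible curves (prefix `if_`)

* `if_speed_comp`, `if_integral_speed_comp` : reparametrisation;
* `if_adm_const`, `if_adm_rev`, `if_cat` : constant curve, reversed curve, concatenation, with their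
  lengths;
* `if_Join` is an equivalence relation on `M`;
* `if_rdist_self`, `if_rdist_symm`, `if_rdist_tri`.
Owner: helper274.
-/

set_option autoImplicit false
set_option linter.unusedSectionVars false

open scoped Topology ContDiff
open Set Function

namespace Claimed.Agent.R315

variable {V : Type} [NormedAddCommGroup V] [NormedSpace ℝ V]
variable {d : ℕ} {M : Set V} {g : Ten V} {c c₁ c₂ : ℝ → V}

/-! ## the transition function -/

/-- the smooth step function -/
noncomputable abbrev if_st : ℝ → ℝ := Real.smoothTransition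

theorem if_st_contDiff : ContDiff ℝ 1 if_st := Real.smoothTransition.contDiff (n := 1)

theorem if_st_differentiableAt (s : ℝ) : DifferentiableAt ℝ if_st s :=
  if_st_contDiff.differentiable (by simp) s

theorem if_st_deriv_nonneg (s : ℝ) : 0 ≤ deriv if_st s :=
  Real.smoothTransition.monotone.deriv_nonneg

theorem if_st_deriv_of_nonpos {s : ℝ} (hs : s ≤ 0) : deriv if_st s = 0 := by
  refine IsLocalMin.deriv_eq_zero (Filter.Eventually.of_forall fun t => ?_)
  show Real.smoothTransition s ≤ Real.smoothTransition t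
  rw [Real.smoothTransition.zero_of_nonpos hs]
  exact Real.smoothTransition.nonneg t

theorem if_st_deriv_of_one_le {s : ℝ} (hs : 1 ≤ s) : deriv if_st s = 0 := by
  refine IsLocalMax.deriv_eq_zero (Filter.Eventually.of_forall fun t => ?_)
  show Real.smoothTransition t ≤ Real.smoothTransition s
  rw [Real.smoothTransition.one_of_one_le hs]
  exact Real.smoothTransition.le_one t

theorem if_st_continuous_deriv : Continuous (deriv if_st) :=
  if_st_contDiff.continuous_deriv le_rfl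

theorem if_st_mem (s : ℝ) : if_st s ∈ Icc (0 : ℝ) 1 :=
  ⟨Real.smoothTransition.nonneg s, Real.smoothTransition.le_one s⟩

theorem if_st_integral_deriv : ∫ t in (0 : ℝ)..1, deriv if_st t = 1 := by
  rw [intervalIntegral.integral_deriv_eq_sub (fun x _ => if_st_differentiableAt x)
    (if_st_continuous_deriv.intervalIntegrable _ _)]
  simp [if_st]

/-! ## reparametrisation -/

theorem if_speed_smul (g : Ten V) (x v : V) {a : ℝ} (ha : 0 ≤ a) :
    Real.sqrt (g x (a • v) (a • v)) = Real.sqrt (g x v v) * a := by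
  simp only [map_smul, smul_apply, smul_eq_mul]
  rw [← mul_assoc, Real.sqrt_mul (mul_self_nonneg a), Real.sqrt_mul_self ha, mul_comm]

theorem if_speed_comp (g : Ten V) {φ : ℝ → ℝ} {t : ℝ} (hc : DifferentiableAt ℝ c (φ t))
    (hφ : DifferentiableAt ℝ φ t) (h0 : 0 ≤ deriv φ t) :
    if_speed g (c ∘ φ) t = if_speed g c (φ t) * deriv φ t := by
  unfold if_speed
  rw [deriv.scomp t hc hφ, comp_apply, if_speed_smul g _ _ h0]

/-- two curves with the same position and velocity have the same speed -/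
theorem if_speed_congr (g : Ten V) {t : ℝ} (h1 : c₁ t = c₂ t) (h2 : deriv c₁ t = deriv c₂ t) :
    if_speed g c₁ t = if_speed g c₂ t := by
  unfold if_speed
  rw [h1, h2]

theorem if_integral_speed_comp [FiniteDimensional ℝ V] (hM : IsMfd d M) (hg : IsTenOn d M g)
    (hc : if_Adm M c) {φ : ℝ → ℝ} (hφ : ContDiff ℝ 1 φ) {a b : ℝ} (hab : a ≤ b)
    (hmaps : ∀ t ∈ Icc a b, φ t ∈ Icc (0 : ℝ) 1) (hmono : ∀ t ∈ Icc a b, 0 ≤ deriv φ t) :
    ∫ t in a..b, if_speed g (c ∘ φ) t = ∫ s in φ a..φ b, if_speed g c s := by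
  have hd : ∀ t, DifferentiableAt ℝ φ t := hφ.differentiable (by simp)
  rw [← intervalIntegral.integral_comp_mul_deriv'' (f := φ) (f' := deriv φ)
    hφ.continuous.continuousOn (fun x _ => (hd x).hasDerivAt.hasDerivWithinAt)
    (hφ.continuous_deriv le_rfl).continuousOn]
  · refine intervalIntegral.integral_congr fun t ht => ?_
    rw [uIcc_of_le hab] at ht
    exact if_speed_comp g (hc.1.differentiable (by simp) _) (hd t) (hmono t ht)
  · refine (if_speed_continuousOn hM hg hc).mono ?_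
    rw [uIcc_of_le hab]
    rintro _ ⟨t, ht, rfl⟩
    exact hmaps t ht

/-! ## constant and reversed curves -/

theorem if_adm_const {x : V} (hx : x ∈ M) : if_Adm M fun _ => x := ⟨contDiff_const, fun _ _ => hx⟩

theorem if_len_const (g : Ten V) (x : V) : if_len g (fun _ => x) = 0 := by
  unfold if_len if_speed
  simp

theorem if_rdist_self (g : Ten V) {x : V} (hx : x ∈ M) : rdist M g x x = 0 := by
  refine le_antisymm ?_ (if_rdist_nonneg M g x x)
  have := if_rdist_le' (if_adm_const hx) g (x := x) (y := x) rfl rfl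
  rwa [if_len_const] at this

theorem if_adm_rev (hc : if_Adm M c) : if_Adm M fun t => c (1 - t) := by
  refine ⟨hc.1.comp (contDiff_const.sub contDiff_id), fun t ht => hc.2 _ ?_⟩
  exact ⟨by linarith [ht.2], by linarith [ht.1]⟩

theorem if_len_rev (g : Ten V) (hc : if_Adm M c) : if_len g (fun t => c (1 - t)) = if_len g c := by
  unfold if_len
  have h1 : ∀ t, if_speed g (fun t => c (1 - t)) t = if_speed g c (1 - t) := by
    intro t
    unfold if_speed
    have h2 : deriv (fun t => c (1 - t)) t = -deriv c (1 - t) := by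
      have := deriv.scomp (h := fun t : ℝ => 1 - t) t (hc.1.differentiable (by simp) (1 - t))
        (by fun_prop)
      have h3 : deriv (fun t : ℝ => 1 - t) t = -1 := by
        simp
      rw [h3, neg_one_smul] at this
      exact this
    rw [h2]
    simp
  simp only [h1]
  rw [intervalIntegral.integral_comp_sub_left (fun s => if_speed g c s) 1]
  simp

theorem if_join_refl {x : V} (hx : x ∈ M) : if_Join M x x := ⟨_, if_adm_const hx, rfl, rfl⟩

theorem if_join_symm {x y : V} (h : if_Join M x y) : if_Join M y x := by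
  obtain ⟨c, hc, rfl, rfl⟩ := h
  exact ⟨_, if_adm_rev hc, by simp, by simp⟩

theorem if_rdist_symm (M : Set V) (g : Ten V) (x y : V) : rdist M g x y = rdist M g y x := by
  have key : ∀ x y : V, {L | ∃ c, if_Adm M c ∧ c 0 = x ∧ c 1 = y ∧ L = if_len g c} ⊆
      {L | ∃ c, if_Adm M c ∧ c 0 = y ∧ c 1 = x ∧ L = if_len g c} := by
    rintro x y L ⟨c, hc, rfl, rfl, rfl⟩
    exact ⟨_, if_adm_rev hc, by simp, by simp, (if_len_rev g hc).symm⟩
  rw [if_rdist_eq, if_rdist_eq, Subset.antisymm (key x y) (key y x)]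

/-! ## concatenation -/

/-- the two reparametrisations -/
noncomputable def if_stL (t : ℝ) : ℝ := if_st (2 * t)

/-- the two reparametrisations -/
noncomputable def if_stR (t : ℝ) : ℝ := if_st (2 * t - 1)

theorem if_stL_contDiff : ContDiff ℝ 1 if_stL :=
  if_st_contDiff.comp (contDiff_const.mul contDiff_id)

theorem if_stR_contDiff : ContDiff ℝ 1 if_stR :=
  if_st_contDiff.comp ((contDiff_const.mul contDiff_id).sub contDiff_const)

theorem if_stL_differentiableAt (t : ℝ) : DifferentiableAt ℝ if_stL t :=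
  if_stL_contDiff.differentiable (by simp) t

theorem if_stR_differentiableAt (t : ℝ) : DifferentiableAt ℝ if_stR t :=
  if_stR_contDiff.differentiable (by simp) t

theorem if_stL_deriv (t : ℝ) : deriv if_stL t = 2 * deriv if_st (2 * t) := by
  have := deriv.scomp (h := fun t : ℝ => 2 * t) t (if_st_differentiableAt (2 * t)) (by fun_prop)
  have h3 : deriv (fun t : ℝ => 2 * t) t = 2 := by
    simp
  rw [h3, smul_eq_mul] at this
  exact this

theorem if_stR_deriv (t : ℝ) : deriv if_stR t = 2 * deriv if_st (2 * t - 1) := by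
  have := deriv.scomp (h := fun t : ℝ => 2 * t - 1) t (if_st_differentiableAt (2 * t - 1))
    (by fun_prop)
  have h3 : deriv (fun t : ℝ => 2 * t - 1) t = 2 := by
    simp
  rw [h3, smul_eq_mul] at this
  exact this

/-- concatenation of two curves (`c₁ 1 = c₂ 0`) -/
noncomputable def if_cat (c₁ c₂ : ℝ → V) (t : ℝ) : V := c₁ (if_stL t) + c₂ (if_stR t) - c₂ 0

theorem if_cat_contDiff (h1 : ContDiff ℝ 1 c₁) (h2 : ContDiff ℝ 1 c₂) :
    ContDiff ℝ 1 (if_cat c₁ c₂) :=
  ((h1.comp if_stL_contDiff).add (h2.comp if_stR_contDiff)).sub contDiff_const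

theorem if_cat_left (c₁ c₂ : ℝ → V) {t : ℝ} (ht : t ≤ 1 / 2) :
    if_cat c₁ c₂ t = c₁ (if_stL t) := by
  unfold if_cat
  rw [show if_stR t = 0 from Real.smoothTransition.zero_of_nonpos (by linarith)]
  abel

theorem if_cat_right (he : c₁ 1 = c₂ 0) {t : ℝ} (ht : 1 / 2 ≤ t) :
    if_cat c₁ c₂ t = c₂ (if_stR t) := by
  unfold if_cat
  rw [show if_stL t = 1 from Real.smoothTransition.one_of_one_le (by linarith), he]
  abel

theorem if_cat_deriv (h1 : ContDiff ℝ 1 c₁) (h2 : ContDiff ℝ 1 c₂) (t : ℝ) :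
    deriv (if_cat c₁ c₂) t = deriv (c₁ ∘ if_stL) t + deriv (c₂ ∘ if_stR) t := by
  have a1 : DifferentiableAt ℝ (c₁ ∘ if_stL) t :=
    (h1.differentiable (by simp) _).comp t (if_stL_differentiableAt t)
  have a2 : DifferentiableAt ℝ (c₂ ∘ if_stR) t :=
    (h2.differentiable (by simp) _).comp t (if_stR_differentiableAt t)
  have := ((a1.hasDerivAt.add a2.hasDerivAt).sub_const (c₂ 0)).deriv
  exact this

theorem if_cat_deriv_left (h1 : ContDiff ℝ 1 c₁) (h2 : ContDiff ℝ 1 c₂) {t : ℝ}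
    (ht : t ≤ 1 / 2) : deriv (if_cat c₁ c₂) t = deriv (c₁ ∘ if_stL) t := by
  rw [if_cat_deriv h1 h2, deriv.scomp t (h2.differentiable (by simp) _)
    (if_stR_differentiableAt t), if_stR_deriv, if_st_deriv_of_nonpos (by linarith)]
  simp

theorem if_cat_deriv_right (h1 : ContDiff ℝ 1 c₁) (h2 : ContDiff ℝ 1 c₂) {t : ℝ}
    (ht : 1 / 2 ≤ t) : deriv (if_cat c₁ c₂) t = deriv (c₂ ∘ if_stR) t := by
  rw [if_cat_deriv h1 h2, deriv.scomp t (h1.differentiable (by simp) _)
    (if_stL_differentiableAt t), if_stL_deriv, if_st_deriv_of_one_le (by linarith)]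
  simp

theorem if_adm_cat (h1 : if_Adm M c₁) (h2 : if_Adm M c₂) (he : c₁ 1 = c₂ 0) :
    if_Adm M (if_cat c₁ c₂) := by
  refine ⟨if_cat_contDiff h1.1 h2.1, fun t _ => ?_⟩
  rcases le_total t (1 / 2) with ht | ht
  · rw [if_cat_left c₁ c₂ ht]
    exact h1.2 _ (if_st_mem _)
  · rw [if_cat_right he ht]
    exact h2.2 _ (if_st_mem _)

theorem if_cat_zero (c₁ c₂ : ℝ → V) : if_cat c₁ c₂ 0 = c₁ 0 := by
  rw [if_cat_left c₁ c₂ (by norm_num)]
  simp [if_stL, if_st]

theorem if_cat_one (he : c₁ 1 = c₂ 0) : if_cat c₁ c₂ 1 = c₂ 1 := by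
  rw [if_cat_right he (by norm_num)]
  norm_num [if_stR, if_st]

/-- the length of a concatenation -/
theorem if_len_cat [FiniteDimensional ℝ V] (hM : IsMfd d M) (hg : IsTenOn d M g)
    (h1 : if_Adm M c₁) (h2 : if_Adm M c₂) (he : c₁ 1 = c₂ 0) :
    if_len g (if_cat c₁ c₂) = if_len g c₁ + if_len g c₂ := by
  have hc := if_adm_cat h1 h2 he
  have hm0 : (0 : ℝ) ∈ Icc (0 : ℝ) 1 := ⟨le_rfl, zero_le_one⟩
  have hm1 : (1 : ℝ) ∈ Icc (0 : ℝ) 1 := ⟨zero_le_one, le_rfl⟩
  have hmh : (1 / 2 : ℝ) ∈ Icc (0 : ℝ) 1 := ⟨by norm_num, by norm_num⟩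
  unfold if_len
  rw [← intervalIntegral.integral_add_adjacent_intervals
    (if_speed_intervalIntegrable hM hg hc hm0 hmh) (if_speed_intervalIntegrable hM hg hc hmh hm1)]
  congr 1
  · have e1 : ∫ t in (0 : ℝ)..(1 / 2), if_speed g (if_cat c₁ c₂) t =
        ∫ t in (0 : ℝ)..(1 / 2), if_speed g (c₁ ∘ if_stL) t := by
      refine intervalIntegral.integral_congr fun t ht => ?_
      rw [uIcc_of_le (by norm_num)] at ht
      exact if_speed_congr g (if_cat_left c₁ c₂ ht.2) (if_cat_deriv_left h1.1 h2.1 ht.2)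
    rw [e1, if_integral_speed_comp hM hg h1 if_stL_contDiff (by norm_num)
      (fun t _ => if_st_mem _) fun t _ => ?_]
    · norm_num [if_stL, if_st]
    · rw [if_stL_deriv]
      exact mul_nonneg zero_le_two (if_st_deriv_nonneg _)
  · have e1 : ∫ t in (1 / 2 : ℝ)..1, if_speed g (if_cat c₁ c₂) t =
        ∫ t in (1 / 2 : ℝ)..1, if_speed g (c₂ ∘ if_stR) t := by
      refine intervalIntegral.integral_congr fun t ht => ?_
      rw [uIcc_of_le (by norm_num)] at ht
      exact if_speed_congr g (if_cat_right he ht.1) (if_cat_deriv_right h1.1 h2.1 ht.1)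
    rw [e1, if_integral_speed_comp hM hg h2 if_stR_contDiff (by norm_num)
      (fun t _ => if_st_mem _) fun t _ => ?_]
    · norm_num [if_stR, if_st]
    · rw [if_stR_deriv]
      exact mul_nonneg zero_le_two (if_st_deriv_nonneg _)

theorem if_join_trans {x y z : V} (h1 : if_Join M x y) (h2 : if_Join M y z) : if_Join M x z := by
  obtain ⟨c₁, hc₁, rfl, hy⟩ := h1
  obtain ⟨c₂, hc₂, hy', rfl⟩ := h2
  have he : c₁ 1 = c₂ 0 := hy.trans hy'.symm
  exact ⟨_, if_adm_cat hc₁ hc₂ he, if_cat_zero _ _, if_cat_one he⟩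

/-- **triangle inequality** -/
theorem if_rdist_tri [FiniteDimensional ℝ V] (hM : IsMfd d M) (hg : IsTenOn d M g) {x y z : V}
    (h1 : if_Join M x y) (h2 : if_Join M y z) :
    rdist M g x z ≤ rdist M g x y + rdist M g y z := by
  refine le_of_forall_pos_le_add fun ε hε => ?_
  obtain ⟨c₁, hc₁, hx, hy, hl₁⟩ := if_exists_len_lt (g := g) h1
    (show rdist M g x y < rdist M g x y + ε / 2 by linarith)
  obtain ⟨c₂, hc₂, hy', hz, hl₂⟩ := if_exists_len_lt (g := g) h2
    (show rdist M g y z < rdist M g y z + ε / 2 by linarith)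
  have he : c₁ 1 = c₂ 0 := hy.trans hy'.symm
  have := if_rdist_le' (if_adm_cat hc₁ hc₂ he) g ((if_cat_zero _ _).trans hx)
    ((if_cat_one he).trans hz)
  rw [if_len_cat hM hg hc₁ hc₂ he] at this
  linarith

end Claimed.Agent.R315
end

/- ===== packed: Claimed.Agent.R315.If.Pou ===== -/
section
/-!
# Row 315 (S0571), interface, part 19: smooth partitions of unity in a normed space (prefix `if_`)

`V` a finite dimensional real normed space.

* `if_exists_pou_closed` : `s` closed, `s ⊆ ⋃ i, O i`: functions `χ i : V → ℝ`, `ContDiff`, `≥ 0`,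
  `tsupport (χ i) ⊆ O i`, locally finite on `V`, sum `= 1` on `s`, `≤ 1` everywhere
  (Mathlib's `SmoothPartitionOfUnity`, unbundled);
* `if_exists_pou` : partition of unity of the OPEN set `Ω = ⋃ i, O i` by countably many functions
  `χ a : V → ℝ`, `ContDiff` on all of `V`, with COMPACT support in `O (k a)`, locally finite on `Ω`,
  sum `= 1` on `Ω`.  (For a manifold `M ⊆ Ω` which is not closed in `V`.)
Owner: helper274.
-/

set_option autoImplicit false
set_option linter.unusedSectionVars false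

open scoped Topology ContDiff Manifold
open Set Function

namespace Claimed.Agent.R315

variable {V : Type} [NormedAddCommGroup V] [NormedSpace ℝ V] [FiniteDimensional ℝ V]

theorem if_exists_pou_closed {ι : Type} {s : Set V} (hs : IsClosed s) (O : ι → Set V)
    (hO : ∀ i, IsOpen (O i)) (hcov : s ⊆ ⋃ i, O i) :
    ∃ χ : ι → V → ℝ, (∀ i, ContDiff ℝ ∞ (χ i)) ∧ (∀ i x, 0 ≤ χ i x) ∧
      (∀ i, tsupport (χ i) ⊆ O i) ∧ LocallyFinite (fun i => support (χ i)) ∧
      (∀ x ∈ s, ∑ᶠ i, χ i x = 1) ∧ ∀ x, ∑ᶠ i, χ i x ≤ 1 := by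
  obtain ⟨f, hf⟩ := SmoothPartitionOfUnity.exists_isSubordinate 𝓘(ℝ, V) hs O hO hcov
  exact ⟨fun i => f i, fun i => (f i).contMDiff.contDiff, f.nonneg, hf, f.locallyFinite,
    fun x hx => f.sum_eq_one hx, f.sum_le_one⟩

theorem if_exists_pou {ι : Type} (O : ι → Set V) (hO : ∀ i, IsOpen (O i)) :
    ∃ (κ : Type) (_ : Countable κ) (k : κ → ι) (χ : κ → V → ℝ), (∀ a, ContDiff ℝ ∞ (χ a)) ∧
      (∀ a, HasCompactSupport (χ a)) ∧ (∀ a, tsupport (χ a) ⊆ O (k a)) ∧ (∀ a x, 0 ≤ χ a x) ∧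
      (∀ x ∈ ⋃ i, O i, ∃ W ∈ 𝓝 x, {a | (support (χ a) ∩ W).Nonempty}.Finite) ∧
      (∀ x ∈ ⋃ i, O i, ∑ᶠ a, χ a x = 1) ∧ ∀ x, ∑ᶠ a, χ a x ≤ 1 := by
  classical
  set Ω : Set V := ⋃ i, O i with hΩ
  have hΩo : IsOpen Ω := isOpen_iUnion hO
  obtain ⟨δ, hδs, hδc, -⟩ := hΩo.exists_contDiff_support_eq (n := ⊤)
  have hδne : ∀ x, x ∈ Ω ↔ δ x ≠ 0 := fun x => by rw [← hδs]; rfl
  -- balls
  have hch : ∀ x : Ω, ∃ (i : ι) (r : ℝ), 0 < r ∧ Metric.closedBall (x : V) r ⊆ O i := by
    rintro ⟨x, hx⟩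
    obtain ⟨i, hi⟩ := mem_iUnion.1 hx
    obtain ⟨r, hr, hb⟩ := Metric.nhds_basis_closedBall.mem_iff.1 ((hO i).mem_nhds hi)
    exact ⟨i, r, hr, hb⟩
  choose ix r hr hball using hch
  obtain ⟨T, hTc, hTu⟩ := TopologicalSpace.isOpen_iUnion_countable
    (fun x : Ω => Metric.ball (x : V) (r x)) fun _ => Metric.isOpen_ball
  have hcovΩ : ∀ x ∈ Ω, ∃ a : T, x ∈ Metric.ball ((a : Ω) : V) (r a) := by
    intro x hx
    have h1 : x ∈ ⋃ y : Ω, Metric.ball (y : V) (r y) :=
      mem_iUnion.2 ⟨⟨x, hx⟩, Metric.mem_ball_self (hr _)⟩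
    rw [← hTu] at h1
    obtain ⟨y, hy, hxy⟩ := mem_iUnion₂.1 h1
    exact ⟨⟨y, hy⟩, hxy⟩
  -- the graph of `1/δ`
  set Γ : Set (V × ℝ) := {p | δ p.1 * p.2 = 1} with hΓ
  have hΓc : IsClosed Γ :=
    isClosed_eq ((hδc.continuous.comp continuous_fst).mul continuous_snd) continuous_const
  have hΓΩ : ∀ p ∈ Γ, p.1 ∈ Ω := by
    intro p hp
    rw [hδne]
    intro h0
    have : δ p.1 * p.2 = 1 := hp
    rw [h0, zero_mul] at this
    exact zero_ne_one this
  obtain ⟨χ', hsm, hnn, hsub, hlf, hone, hle⟩ := if_exists_pou_closed hΓc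
    (fun a : T => Metric.ball ((a : Ω) : V) (r a) ×ˢ (univ : Set ℝ))
    (fun a => Metric.isOpen_ball.prod isOpen_univ) (by
      intro p hp
      obtain ⟨a, ha⟩ := hcovΩ p.1 (hΓΩ p hp)
      exact mem_iUnion.2 ⟨a, ha, mem_univ _⟩)
  set j : V → V × ℝ := fun x => (x, (δ x)⁻¹) with hj
  have hjs : ∀ x ∈ Ω, ContDiffAt ℝ ∞ j x := fun x hx =>
    contDiffAt_id.prodMk (hδc.contDiffAt.inv ((hδne x).1 hx))
  have hsupp : ∀ a : T, support (χ' a ∘ j) ⊆ Metric.ball ((a : Ω) : V) (r a) := by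
    intro a x hx
    have : j x ∈ Metric.ball ((a : Ω) : V) (r a) ×ˢ (univ : Set ℝ) :=
      hsub a (subset_tsupport _ hx)
    exact this.1
  have htsupp : ∀ a : T, tsupport (χ' a ∘ j) ⊆ Metric.closedBall ((a : Ω) : V) (r a) := fun a =>
    closure_minimal ((hsupp a).trans Metric.ball_subset_closedBall) Metric.isClosed_closedBall
  have hOΩ : ∀ i, O i ⊆ Ω := fun i => subset_iUnion O i
  refine ⟨T, hTc.to_subtype, fun a => ix a, fun a => χ' a ∘ j, fun a => ?_, fun a => ?_, fun a => ?_,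
    fun a x => hnn a _, fun x hx => ?_, fun x hx => ?_, fun x => hle _⟩
  · rw [contDiff_iff_contDiffAt]
    intro x
    by_cases hx : x ∈ Ω
    · exact (hsm a).contDiffAt.comp x (hjs x hx)
    · have : x ∉ tsupport (χ' a ∘ j) := fun h => hx (hOΩ _ (hball a (htsupp a h)))
      exact contDiffAt_const.congr_of_eventuallyEq (notMem_tsupport_iff_eventuallyEq.1 this)
  · exact HasCompactSupport.of_support_subset_isCompact (isCompact_closedBall _ _)
      ((hsupp a).trans Metric.ball_subset_closedBall)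
  · exact (htsupp a).trans (hball a)
  · obtain ⟨W, hW, hfin⟩ := hlf (j x)
    refine ⟨j ⁻¹' W, (hjs x hx).continuousAt hW, hfin.subset ?_⟩
    rintro a ⟨y, hy1, hy2⟩
    exact ⟨j y, hy1, hy2⟩
  · exact hone (j x) (mul_inv_cancel₀ ((hδne x).1 hx))

end Claimed.Agent.R315
end

/- ===== packed: Claimed.Agent.R315.If.Ext ===== -/
section
/-!
# Row 315 (S0571), interface, part 20: the extension lemma (prefix `if_`)

* `if_glue` : gluing of locally defined smooth functions by a partition of unity;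
* `if_exists_extension` : a function which is smooth along `M` coincides on `M` with a function
  which is smooth on an open neighbourhood of `M` (`SmoothNear`);
* `if_exists_extension_closed` : if `M` is closed, with a function which is smooth on `V`.
Owner: helper274.
-/

set_option autoImplicit false
set_option linter.unusedSectionVars false

open scoped Topology ContDiff
open Set Function

namespace Claimed.Agent.R315

variable {V : Type} [NormedAddCommGroup V] [NormedSpace ℝ V]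
variable {F : Type} [NormedAddCommGroup F] [NormedSpace ℝ F]

/-- a cut-off function times a locally defined smooth function is smooth -/
theorem if_contDiff_smul_of_tsupport {χ : V → ℝ} {f : V → F} {O : Set V} (hO : IsOpen O)
    (hχ : ContDiff ℝ ∞ χ) (hsub : tsupport χ ⊆ O) (hf : ContDiffOn ℝ ∞ f O) :
    ContDiff ℝ ∞ fun x => χ x • f x := by
  rw [contDiff_iff_contDiffAt]
  intro x
  by_cases hx : x ∈ O
  · exact hχ.contDiffAt.smul (hf.contDiffAt (hO.mem_nhds hx))
  · have h1 : x ∉ tsupport χ := fun h => hx (hsub h)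
    have h2 : (fun x => χ x • f x) =ᶠ[𝓝 x] fun _ => (0 : F) := by
      filter_upwards [notMem_tsupport_iff_eventuallyEq.1 h1] with y hy
      rw [hy]
      simp
    exact contDiffAt_const.congr_of_eventuallyEq h2

/-- gluing by a partition of unity -/
theorem if_glue {κ ι : Type} {Ω : Set V} (O : ι → Set V) (hO : ∀ i, IsOpen (O i))
    (Fi : ι → V → F) (hF : ∀ i, ContDiffOn ℝ ∞ (Fi i) (O i)) (k : κ → ι) (χ : κ → V → ℝ)
    (hχ : ∀ a, ContDiff ℝ ∞ (χ a)) (hsub : ∀ a, tsupport (χ a) ⊆ O (k a))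
    (hlf : ∀ x ∈ Ω, ∃ W ∈ 𝓝 x, {a | (support (χ a) ∩ W).Nonempty}.Finite) :
    ∀ x ∈ Ω, ContDiffAt ℝ ∞ (fun x => ∑ᶠ a, χ a x • Fi (k a) x) x := by
  intro x hx
  obtain ⟨W, hW, hfin⟩ := hlf x hx
  have h1 : (fun x => ∑ᶠ a, χ a x • Fi (k a) x) =ᶠ[𝓝 x]
      fun x => ∑ a ∈ hfin.toFinset, χ a x • Fi (k a) x := by
    filter_upwards [hW] with y hy
    refine finsum_eq_sum_of_support_subset _ ?_
    intro a ha
    rw [Finset.mem_coe, Set.Finite.mem_toFinset]
    refine ⟨y, ?_, hy⟩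
    intro h0
    apply ha
    show χ a y • Fi (k a) y = 0
    rw [h0, zero_smul]
  refine ContDiffAt.congr_of_eventuallyEq ?_ h1
  exact ContDiffAt.sum fun a _ =>
    (if_contDiff_smul_of_tsupport (hO (k a)) (hχ a) (hsub a) (hF (k a))).contDiffAt

/-- the value of a glued function -/
theorem if_glue_eq {κ ι : Type} (O : ι → Set V) (Fi : ι → V → F) (k : κ → ι) (χ : κ → V → ℝ)
    (hsub : ∀ a, tsupport (χ a) ⊆ O (k a)) {x : V} {y : F} (hy : ∀ i, x ∈ O i → Fi i x = y)
    (hone : ∑ᶠ a, χ a x = 1) : ∑ᶠ a, χ a x • Fi (k a) x = y := by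
  have h1 : ∀ a, χ a x • Fi (k a) x = χ a x • y := by
    intro a
    by_cases h0 : χ a x = 0
    · rw [h0, zero_smul, zero_smul]
    · rw [hy (k a) (hsub a (subset_tsupport _ h0))]
  simp only [h1]
  rw [← finsum_smul, hone, one_smul]

variable {d : ℕ} {M : Set V} [FiniteDimensional ℝ V]

/-- local extensions -/
theorem if_exists_local_extension (hM : IsMfd d M) {f : V → F} (hf : SmoothAlong d M f) {p : V}
    (hp : p ∈ M) : ∃ (O : Set V) (f' : V → F), IsOpen O ∧ p ∈ O ∧ ContDiffOn ℝ ∞ f' O ∧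
      ∀ x ∈ M ∩ O, f' x = f x := by
  obtain ⟨ψ, U, h, u₀, hu, rfl⟩ := hM p hp
  obtain ⟨ρ, O, hO, hmem, hρ, hmaps, hinv⟩ := if_exists_retr h hu
  refine ⟨O, (f ∘ ψ) ∘ ρ, hO, hmem, (hf ψ U h).comp hρ hmaps, fun x hx => ?_⟩
  obtain ⟨h1, h2⟩ := hinv x hx
  simp only [comp_apply]
  rw [h2, if_rightInv h1]

/-- **extension lemma** -/
theorem if_exists_extension (hM : IsMfd d M) {f : V → F} (hf : SmoothAlong d M f) :
    ∃ f' : V → F, SmoothNear M f' ∧ EqOn f' f M := by
  classical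
  choose! O Fi hO hpO hFi heq using fun p (hp : p ∈ M) => if_exists_local_extension hM hf hp
  obtain ⟨κ, -, k, χ, hχ, -, hsub, -, hlf, hone, -⟩ :=
    if_exists_pou (fun p : M => O p) fun p => hO p p.2
  have hMΩ : M ⊆ ⋃ p : M, O p := fun p hp => mem_iUnion.2 ⟨⟨p, hp⟩, hpO p hp⟩
  refine ⟨fun x => ∑ᶠ a, χ a x • Fi (k a) x, ⟨⋃ p : M, O p, isOpen_iUnion fun p => hO p p.2, hMΩ,
    fun x hx => (if_glue (fun p : M => O p) (fun p => hO p p.2) (fun p : M => Fi p)
      (fun p => hFi p p.2) k χ hχ hsub hlf x hx).contDiffWithinAt⟩, fun x hx => ?_⟩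
  exact if_glue_eq (fun p : M => O p) (fun p : M => Fi p) k χ hsub
    (fun p hxp => heq p p.2 x ⟨hx, hxp⟩) (hone x (hMΩ hx))

/-- **extension lemma** for a closed manifold -/
theorem if_exists_extension_closed (hM : IsMfd d M) (hc : IsClosed M) {f : V → F}
    (hf : SmoothAlong d M f) : ∃ f' : V → F, ContDiff ℝ ∞ f' ∧ EqOn f' f M := by
  classical
  choose! O Fi hO hpO hFi heq using fun p (hp : p ∈ M) => if_exists_local_extension hM hf hp
  have hMΩ : M ⊆ ⋃ p : M, O p := fun p hp => mem_iUnion.2 ⟨⟨p, hp⟩, hpO p hp⟩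
  obtain ⟨χ, hχ, -, hsub, hlf, hone, -⟩ :=
    if_exists_pou_closed hc (fun p : M => O p) (fun p => hO p p.2) hMΩ
  refine ⟨fun x => ∑ᶠ a, χ a x • Fi a x, ?_, fun x hx => ?_⟩
  · rw [contDiff_iff_contDiffAt]
    intro x
    exact if_glue (Ω := univ) (fun p : M => O p) (fun p => hO p p.2) (fun p : M => Fi p)
      (fun p => hFi p p.2) id χ hχ hsub (fun x _ => hlf x) x (mem_univ x)
  · exact if_glue_eq (fun p : M => O p) (fun p : M => Fi p) id χ hsub
      (fun p hxp => heq p p.2 x ⟨hx, hxp⟩) (hone x hx)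

end Claimed.Agent.R315
end

/- ===== packed: Claimed.Agent.R315.If.GlueMeas ===== -/
section
/-!
# Row 315 (S0571), interface, part 29: gluing of chart measures (prefix `if_`)

`ν ψ U : Measure (E d)` a family of measures indexed by the parametrisations of `M`.
* `if_Compat d M ν`: `ν ψ' U' (τ '' B) = ν ψ U B` for measurable `B ⊆ if_trDom ψ U ψ' U'`, `τ = if_tr ψ' U' ψ`;
* `if_IsGlued d M ν μ`: `μ Mᶜ = 0` and `μ (ψ '' B) = ν ψ U B` for measurable `B ⊆ U`;
* `if_exists_glued` (existence), `if_isGlued_unique`, `if_measure_ext_charts` (uniqueness);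
* `if_IsGlued.restrict_image`, `.lintegral_image`, `.integral_image` (change of variables, NO measurability of
  the integrand), `.null` (null sets may be tested in charts), `.apply_eq_tsum`.
(`IsVol` and `IsWPer` are instances.)   Owner: helper274.
-/

set_option autoImplicit false
set_option linter.unusedSectionVars false

open scoped Topology ContDiff ENNReal
open MeasureTheory Measure Set Function Filter

namespace Claimed.Agent.R315

variable {V : Type} [NormedAddCommGroup V] [NormedSpace ℝ V] [MeasurableSpace V] [BorelSpace V]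
variable {d : ℕ} {M : Set V} {ψ : E d → V} {U B : Set (E d)}

/-- compatibility of a family of chart measures with the transition maps -/
def if_Compat (d : ℕ) (M : Set V) (ν : (E d → V) → Set (E d) → Measure (E d)) : Prop :=
  ∀ (ψ ψ' : E d → V) (U U' : Set (E d)), IsParam M ψ U → IsParam M ψ' U' →
    ∀ B ⊆ if_trDom ψ U ψ' U', MeasurableSet B → ν ψ' U' (if_tr ψ' U' ψ '' B) = ν ψ U B

/-- `μ` is the measure on `M` which is `ν ψ U` in every parametrisation -/
def if_IsGlued (d : ℕ) (M : Set V) (ν : (E d → V) → Set (E d) → Measure (E d)) (μ : Measure V) :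
    Prop :=
  μ Mᶜ = 0 ∧ ∀ (ψ : E d → V) (U : Set (E d)), IsParam M ψ U → ∀ B ⊆ U, MeasurableSet B →
    μ (ψ '' B) = ν ψ U B

theorem if_measurableEmbedding' (h : IsParam M ψ U) (hBU : B ⊆ U) (hB : MeasurableSet B) :
    MeasurableEmbedding (B.domRestrict ψ) :=
  ((if_continuousOn h).mono hBU).measurableEmbedding hB ((if_injOn h).mono hBU)

theorem if_measurableSet_inter_preimage (h : IsParam M ψ U) (hBU : B ⊆ U) (hB : MeasurableSet B)
    {Y : Set V} (hY : MeasurableSet Y) : MeasurableSet (B ∩ ψ ⁻¹' Y) := by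
  have := hB.inter (if_measurableSet_preimage h hY)
  rwa [← inter_assoc, inter_eq_left.2 hBU] at this

theorem if_map_domRestrict_apply (h : IsParam M ψ U) (hBU : B ⊆ U) (hB : MeasurableSet B)
    (ν : Measure (E d)) {Y : Set V} (hY : MeasurableSet Y) :
    Measure.map (B.domRestrict ψ) (comap (↑) ν) Y = ν (B ∩ ψ ⁻¹' Y) := by
  have hemb := if_measurableEmbedding' h hBU hB
  rw [Measure.map_apply hemb.measurable hY,
    comap_apply _ Subtype.val_injective (fun s hs => hB.subtype_image hs) _ (hemb.measurable hY)]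
  congr 1
  ext u
  constructor
  · rintro ⟨⟨v, hv⟩, hvt, rfl⟩
    exact ⟨hv, hvt⟩
  · rintro ⟨hu, hut⟩
    exact ⟨⟨u, hu⟩, hut, rfl⟩

section atlas

variable [SecondCountableTopology V]

/-- a measurable partition of `M` subordinate to a countable atlas -/
theorem if_exists_atlas_partition (hM : IsMfd d M) :
    ∃ (ψ : ℕ → E d → V) (U : ℕ → Set (E d)) (D : ℕ → Set V), (∀ k, IsParam M (ψ k) (U k)) ∧
      (∀ k, MeasurableSet (D k)) ∧ (∀ k, D k ⊆ ψ k '' U k) ∧ Pairwise (Disjoint on D) ∧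
      ⋃ k, D k = M := by
  obtain ⟨ψ, U, hp, he⟩ := if_exists_atlas hM
  refine ⟨ψ, U, disjointed fun k => ψ k '' U k, hp, ?_, fun k => disjointed_subset _ k,
    disjoint_disjointed _, by rw [iUnion_disjointed, he]⟩
  exact MeasurableSet.disjointed fun k =>
    if_measurableSet_image (hp k) (if_open (hp k)).measurableSet Subset.rfl

/-- two measures on `M` which agree on all parametrised pieces are equal -/
theorem if_measure_ext_charts (hM : IsMfd d M) {μ μ' : Measure V} (h0 : μ Mᶜ = 0)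
    (h0' : μ' Mᶜ = 0)
    (H : ∀ (ψ : E d → V) (U : Set (E d)), IsParam M ψ U → ∀ B ⊆ U, MeasurableSet B →
      μ (ψ '' B) = μ' (ψ '' B)) : μ = μ' := by
  obtain ⟨ψ, U, D, hp, hDm, hDC, hdisj, hD⟩ := if_exists_atlas_partition hM
  have key : ∀ ν : Measure V, ν Mᶜ = 0 → ∀ Y, MeasurableSet Y →
      ν Y = ∑' k, ν (ψ k '' (U k ∩ ψ k ⁻¹' (Y ∩ D k))) := by
    intro ν hν Y hY
    have h1 : ν Y = ν (Y ∩ M) := (measure_inter_conull hν).symm
    have h2 : Y ∩ M = ⋃ k, Y ∩ D k := by rw [← hD, inter_iUnion]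
    rw [h1, h2, measure_iUnion
      (fun i j hij => (hdisj hij).mono inter_subset_right inter_subset_right)
      fun k => hY.inter (hDm k)]
    refine tsum_congr fun k => ?_
    rw [image_inter_preimage]
    congr 1
    exact (inter_eq_right.2 (inter_subset_right.trans (hDC k))).symm
  ext Y hY
  rw [key μ h0 Y hY, key μ' h0' Y hY]
  exact tsum_congr fun k => H (ψ k) (U k) (hp k) _ inter_subset_left
    (if_measurableSet_preimage (hp k) (hY.inter (hDm k)))

variable {ν : (E d → V) → Set (E d) → Measure (E d)}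

theorem if_isGlued_unique (hM : IsMfd d M) {μ μ' : Measure V} (h : if_IsGlued d M ν μ)
    (h' : if_IsGlued d M ν μ') : μ = μ' :=
  if_measure_ext_charts hM h.1 h'.1 fun ψ U hp B hB hBm => by
    rw [h.2 ψ U hp B hB hBm, h'.2 ψ U hp B hB hBm]

/-- **existence of the glued measure** -/
theorem if_exists_glued (hM : IsMfd d M) (hν : if_Compat d M ν) : ∃ μ, if_IsGlued d M ν μ := by
  obtain ⟨ψ, U, D, hp, hDm, hDC, hdisj, hD⟩ := if_exists_atlas_partition hM
  set Bk : ℕ → Set (E d) := fun k => U k ∩ ψ k ⁻¹' D k with hBk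
  have hBm : ∀ k, MeasurableSet (Bk k) := fun k => if_measurableSet_preimage (hp k) (hDm k)
  have hBU : ∀ k, Bk k ⊆ U k := fun k => inter_subset_left
  set μ : Measure V := Measure.sum fun k =>
    Measure.map ((Bk k).domRestrict (ψ k)) (comap (↑) (ν (ψ k) (U k))) with hμ
  have happ : ∀ Y, MeasurableSet Y → μ Y = ∑' k, ν (ψ k) (U k) (Bk k ∩ ψ k ⁻¹' Y) := by
    intro Y hY
    rw [hμ, Measure.sum_apply _ hY]
    exact tsum_congr fun k => if_map_domRestrict_apply (hp k) (hBU k) (hBm k) _ hY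
  have hMm : MeasurableSet M := if_measurableSet hM
  refine ⟨μ, ?_, ?_⟩
  · rw [happ _ hMm.compl]
    refine ENNReal.tsum_eq_zero.2 fun k => ?_
    have : Bk k ∩ ψ k ⁻¹' Mᶜ = ∅ := by
      ext u
      simp only [mem_inter_iff, mem_preimage, mem_compl_iff, mem_empty_iff_false, iff_false,
        not_and, not_not]
      exact fun hu => if_mem (hp k) (hBU k hu)
    rw [this, measure_empty]
  · intro φ W hφ B hBW hB
    rw [happ _ (if_measurableSet_image hφ hB hBW)]
    have hBkm : ∀ k, MeasurableSet (B ∩ φ ⁻¹' D k) := fun k =>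
      if_measurableSet_inter_preimage hφ hBW hB (hDm k)
    have hsub : ∀ k, B ∩ φ ⁻¹' D k ⊆ if_trDom φ W (ψ k) (U k) := fun k u hu =>
      ⟨hBW hu.1, hDC k hu.2⟩
    have himg : ∀ k, Bk k ∩ ψ k ⁻¹' (φ '' B) = if_tr (ψ k) (U k) φ '' (B ∩ φ ⁻¹' D k) := by
      intro k
      ext w
      constructor
      · rintro ⟨⟨hwU, hwD⟩, u, hu, he⟩
        refine ⟨u, ⟨hu, ?_⟩, if_tr_eq (hp k) hwU he⟩
        rw [mem_preimage, he]
        exact hwD
      · rintro ⟨u, hu, rfl⟩
        have hT := hsub k hu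
        refine ⟨⟨if_tr_mem hT, ?_⟩, u, hu.1, (if_tr_spec hT).symm⟩
        rw [mem_preimage, if_tr_spec hT]
        exact hu.2
    have h1 : ∀ k, ν (ψ k) (U k) (Bk k ∩ ψ k ⁻¹' (φ '' B)) = ν φ W (B ∩ φ ⁻¹' D k) := fun k => by
      rw [himg k, hν φ (ψ k) W (U k) hφ (hp k) _ (hsub k) (hBkm k)]
    simp only [h1]
    rw [← measure_iUnion (fun i j hij => ((hdisj hij).preimage φ).mono inter_subset_right
      inter_subset_right) hBkm, ← inter_iUnion, ← preimage_iUnion, hD]
    congr 1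
    exact inter_eq_left.2 fun u hu => if_mem hφ (hBW hu)

end atlas

namespace if_IsGlued

variable {ν : (E d → V) → Set (E d) → Measure (E d)} {μ : Measure V}

theorem restrict_image (hμ : if_IsGlued d M ν μ) (h : IsParam M ψ U) (hBU : B ⊆ U)
    (hB : MeasurableSet B) :
    Measure.map (B.domRestrict ψ) (comap (↑) (ν ψ U)) = μ.restrict (ψ '' B) := by
  ext Y hY
  rw [if_map_domRestrict_apply h hBU hB _ hY, Measure.restrict_apply hY,
    ← hμ.2 ψ U h _ (inter_subset_left.trans hBU) (if_measurableSet_inter_preimage h hBU hB hY),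
    image_inter_preimage, inter_comm]

/-- change of variables (no measurability hypothesis on `f`) -/
theorem lintegral_image (hμ : if_IsGlued d M ν μ) (h : IsParam M ψ U) (hBU : B ⊆ U)
    (hB : MeasurableSet B) (f : V → ℝ≥0∞) :
    ∫⁻ x in ψ '' B, f x ∂μ = ∫⁻ u in B, f (ψ u) ∂(ν ψ U) := by
  rw [← hμ.restrict_image h hBU hB, (if_measurableEmbedding' h hBU hB).lintegral_map]
  simp only [Set.domRestrict_apply, ← Function.comp_apply (f := f)]
  rw [← (MeasurableEmbedding.subtype_coe hB).lintegral_map, map_comap_subtype_coe hB]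

theorem integral_image {F : Type} [NormedAddCommGroup F] [NormedSpace ℝ F]
    (hμ : if_IsGlued d M ν μ) (h : IsParam M ψ U) (hBU : B ⊆ U) (hB : MeasurableSet B)
    (f : V → F) : ∫ x in ψ '' B, f x ∂μ = ∫ u in B, f (ψ u) ∂(ν ψ U) := by
  rw [← hμ.restrict_image h hBU hB, (if_measurableEmbedding' h hBU hB).integral_map]
  simp only [Set.domRestrict_apply, ← Function.comp_apply (f := f)]
  rw [← (MeasurableEmbedding.subtype_coe hB).integral_map, map_comap_subtype_coe hB]

/-- outer measure of the image of an arbitrary subset of `U` -/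
theorem image_le (hμ : if_IsGlued d M ν μ) (h : IsParam M ψ U) {N : Set (E d)} (hN : N ⊆ U) :
    μ (ψ '' N) ≤ ν ψ U N := by
  have hm : MeasurableSet (toMeasurable (ν ψ U) N ∩ U) :=
    (measurableSet_toMeasurable _ _).inter (if_open h).measurableSet
  calc μ (ψ '' N) ≤ μ (ψ '' (toMeasurable (ν ψ U) N ∩ U)) :=
        measure_mono (image_mono (subset_inter (subset_toMeasurable _ _) hN))
    _ = ν ψ U (toMeasurable (ν ψ U) N ∩ U) := hμ.2 ψ U h _ inter_subset_right hm
    _ ≤ ν ψ U (toMeasurable (ν ψ U) N) := measure_mono inter_subset_left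
    _ = ν ψ U N := measure_toMeasurable _

/-- null sets may be tested in charts (`N` arbitrary) -/
theorem null [SecondCountableTopology V] (hμ : if_IsGlued d M ν μ) (hM : IsMfd d M) {N : Set V}
    (H : ∀ (ψ : E d → V) (U : Set (E d)), IsParam M ψ U → ν ψ U (U ∩ ψ ⁻¹' N) = 0) : μ N = 0 := by
  obtain ⟨ψ, U, hp, he⟩ := if_exists_atlas hM
  have hsub : N ⊆ Mᶜ ∪ ⋃ k, ψ k '' (U k ∩ ψ k ⁻¹' N) := by
    intro x hx
    by_cases hxM : x ∈ M
    · rw [he] at hxM
      obtain ⟨k, u, hu, rfl⟩ := mem_iUnion.1 hxM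
      exact Or.inr (mem_iUnion.2 ⟨k, u, ⟨hu, hx⟩, rfl⟩)
    · exact Or.inl hxM
  refine measure_mono_null hsub (measure_union_null hμ.1 (measure_iUnion_null fun k => ?_))
  exact le_antisymm ((hμ.image_le (hp k) inter_subset_left).trans (H _ _ (hp k)).le) zero_le

end if_IsGlued

end Claimed.Agent.R315
end
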