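/- Packed by merge_tool.py (helper293): 8 modules of Claimed.Agent.R315 in one file, same declarations.
   Old modules, in this order: Rm.Defs, Rm.Calc, Rm.Eng, Rm.Ops, Top.Defs, Ss.Defs, Ss.ChartDefs, Ss.CmpA -/
import Claimed.Agent.R315.Pack001

/- ===== packed: Claimed.Agent.R315.Rm.Defs ===== -/
section
/-!
# Row 315 (S0571), SC-RIEM: coordinate Riemannian identities, definitions (prefix `rm_`)

Everything here is CHART LEVEL: a metric matrix field `G : E d → Matrix (Fin d) (Fin d) ℝ` on an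
open set `U` of `E d`, with the formulas of `Def_0499` (`christoffel`, `riemannCoord`,
`ricciCoord`, `scalarCoord`) and of `Core/Basic.lean` (`lapC`, `gradIpC`, `gradSqC`, `hessC`).

* `rm_Met G U`      : `G` is a smooth Riemannian metric matrix on the open set `U`;
* `rm_c1`, `rm_p2`, `rm_low` : Christoffel symbols of the first kind, second partials, the lowered
  curvature tensor `R_{ijkl} = g(R(∂i,∂j)∂k,∂l)` written WITHOUT derivatives of Christoffel symbols;
* `rm_DscC G t`     : drift scalar curvature `Scal + 2 Δ t - |dt|²` in a chart;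
* splitting `E (d+1) = ℝ × E d` : `rm_J q y`, `rm_in`, `rm_tl`;
* lapse coordinates `G = v² dq² + γ_q` (`rm_Orth G U`): `rm_lps` (= `v`), `rm_tan` (= `γ`),
  `rm_sl G q` (the metric `γ_q` of the slice), `rm_sff` (`J = (2v)⁻¹ ∂_q γ`), `rm_H`, `rm_Jsq`,
  `rm_e` (`e = v⁻¹ ∂_q`), and the slice operators `rm_scalS`, `rm_lapS`, `rm_ipS`, `rm_DscS`.
Owner: helper39.
-/

set_option autoImplicit false
open scoped ContDiff
open Claims.C0499

namespace Claimed.Agent.R315

/-- matrix fields on `E d`. -/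
abbrev rm_MF (d : ℕ) := E d → Matrix (Fin d) (Fin d) ℝ

/-- `G` is a smooth Riemannian metric matrix on the open set `U`. -/
structure rm_Met {d : ℕ} (G : rm_MF d) (U : Set (E d)) : Prop where
  opn : IsOpen U
  smooth : ∀ i j : Fin d, ContDiffOn ℝ ∞ (fun u => G u i j) U
  pos : ∀ u ∈ U, (G u).PosDef

/-- second partial derivative `∂_i ∂_j f`. -/
noncomputable def rm_p2 {d : ℕ} (f : E d → ℝ) (i j : Fin d) (u : E d) : ℝ :=
  pdiff (fun w => pdiff f j w) i u

/-- Christoffel symbol of the first kind `[ij,k] = ½(∂_i G_{jk} + ∂_j G_{ik} - ∂_k G_{ij})`. -/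
noncomputable def rm_c1 {d : ℕ} (G : rm_MF d) (u : E d) (i j k : Fin d) : ℝ :=
  (1 / 2) * (pdiff (fun w => G w j k) i u + pdiff (fun w => G w i k) j u -
    pdiff (fun w => G w i j) k u)

/-- lowered curvature tensor `R_{ijkl} = g(R(∂_i,∂_j)∂_k, ∂_l)`:
`½(∂_i∂_k G_{jl} + ∂_j∂_l G_{ik} - ∂_i∂_l G_{jk} - ∂_j∂_k G_{il})
  + G^{ab}([ik,a][jl,b] - [jk,a][il,b])`. -/
noncomputable def rm_low {d : ℕ} (G : rm_MF d) (u : E d) (i j k l : Fin d) : ℝ :=
  (1 / 2) * (rm_p2 (fun w => G w j l) i k u + rm_p2 (fun w => G w i k) j l u -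
      rm_p2 (fun w => G w j k) i l u - rm_p2 (fun w => G w i l) j k u) +
    ∑ a : Fin d, ∑ b : Fin d, (G u)⁻¹ a b *
      (rm_c1 G u i k a * rm_c1 G u j l b - rm_c1 G u j k a * rm_c1 G u i l b)

/-- drift scalar curvature in a chart. -/
noncomputable def rm_DscC {d : ℕ} (G : rm_MF d) (t : E d → ℝ) (u : E d) : ℝ :=
  scalarCoord G u + 2 * lapC G t u - gradSqC G t u

/-- drift Laplacian `Δ_t f = Δ f - ⟨dt, df⟩` in a chart. -/
noncomputable def rm_dlapC {d : ℕ} (G : rm_MF d) (t f : E d → ℝ) (u : E d) : ℝ :=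
  lapC G f u - gradIpC G t f u

/-! ### the splitting `E (d+1) = ℝ × E d` -/

/-- tail embedding `y ↦ (0, y)`. -/
noncomputable def rm_in (d : ℕ) : E d →L[ℝ] E (d + 1) :=
  ∑ a : Fin d, (EuclideanSpace.proj a : E d →L[ℝ] ℝ).smulRight (eb a.succ)

/-- tail projection `(q, y) ↦ y`. -/
noncomputable def rm_tl (d : ℕ) : E (d + 1) →L[ℝ] E d :=
  ∑ a : Fin d, (EuclideanSpace.proj a.succ : E (d + 1) →L[ℝ] ℝ).smulRight (eb a)

/-- the point `(q, y)`. -/
noncomputable def rm_J {d : ℕ} (q : ℝ) (y : E d) : E (d + 1) := q • eb 0 + rm_in d y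

/-- restriction of a function to the slice `{q} × E d`. -/
noncomputable def rm_fs {d : ℕ} (f : E (d + 1) → ℝ) (q : ℝ) : E d → ℝ := fun y => f (rm_J q y)

/-- slice of a set. -/
def rm_Us {d : ℕ} (U : Set (E (d + 1))) (q : ℝ) : Set (E d) := {y | rm_J q y ∈ U}

/-! ### lapse coordinates `G = v² dq² + γ_q` -/

/-- the coordinate `q = u 0` is orthogonal to the other ones (no shift). -/
def rm_Orth {d : ℕ} (G : rm_MF (d + 1)) (U : Set (E (d + 1))) : Prop :=
  ∀ u ∈ U, ∀ a : Fin d, G u 0 a.succ = 0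

/-- tangential block `γ`. -/
def rm_tan {d : ℕ} (G : rm_MF (d + 1)) (u : E (d + 1)) : Matrix (Fin d) (Fin d) ℝ :=
  (G u).submatrix Fin.succ Fin.succ

/-- lapse `v = |∂_q|`. -/
noncomputable def rm_lps {d : ℕ} (G : rm_MF (d + 1)) (u : E (d + 1)) : ℝ := Real.sqrt (G u 0 0)

/-- the metric `γ_q` of the slice `{q} × E d`. -/
noncomputable def rm_sl {d : ℕ} (G : rm_MF (d + 1)) (q : ℝ) : rm_MF d :=
  fun y => rm_tan G (rm_J q y)

/-- second fundamental form of the slices w.r.t. `e = v⁻¹ ∂_q`: `J = (2v)⁻¹ ∂_q γ`. -/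
noncomputable def rm_sff {d : ℕ} (G : rm_MF (d + 1)) (u : E (d + 1)) :
    Matrix (Fin d) (Fin d) ℝ :=
  Matrix.of fun a b => (2 * rm_lps G u)⁻¹ * pdiff (fun w => G w a.succ b.succ) 0 u

/-- mean curvature of the slices `H = tr_γ J`. -/
noncomputable def rm_H {d : ℕ} (G : rm_MF (d + 1)) (u : E (d + 1)) : ℝ :=
  ((rm_tan G u)⁻¹ * rm_sff G u).trace

/-- `|J|²_γ`. -/
noncomputable def rm_Jsq {d : ℕ} (G : rm_MF (d + 1)) (u : E (d + 1)) : ℝ :=
  ((rm_tan G u)⁻¹ * rm_sff G u * ((rm_tan G u)⁻¹ * rm_sff G u)).trace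

/-- unit normal derivative `e f = v⁻¹ ∂_q f`. -/
noncomputable def rm_e {d : ℕ} (G : rm_MF (d + 1)) (f : E (d + 1) → ℝ) (u : E (d + 1)) : ℝ :=
  (rm_lps G u)⁻¹ * pdiff f 0 u

/-- scalar curvature of the slice through `u`. -/
noncomputable def rm_scalS {d : ℕ} (G : rm_MF (d + 1)) (u : E (d + 1)) : ℝ :=
  scalarCoord (rm_sl G (u 0)) (rm_tl d u)

/-- Laplacian of the slice through `u`. -/
noncomputable def rm_lapS {d : ℕ} (G : rm_MF (d + 1)) (f : E (d + 1) → ℝ) (u : E (d + 1)) : ℝ :=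
  lapC (rm_sl G (u 0)) (rm_fs f (u 0)) (rm_tl d u)

/-- `⟨df, dk⟩` in the slice through `u`. -/
noncomputable def rm_ipS {d : ℕ} (G : rm_MF (d + 1)) (f k : E (d + 1) → ℝ) (u : E (d + 1)) : ℝ :=
  gradIpC (rm_sl G (u 0)) (rm_fs f (u 0)) (rm_fs k (u 0)) (rm_tl d u)

/-- drift scalar curvature of the slice through `u`. -/
noncomputable def rm_DscS {d : ℕ} (G : rm_MF (d + 1)) (t : E (d + 1) → ℝ) (u : E (d + 1)) : ℝ :=
  rm_DscC (rm_sl G (u 0)) (rm_fs t (u 0)) (rm_tl d u)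

/-- drift mean curvature `S = H - e t`. -/
noncomputable def rm_S {d : ℕ} (G : rm_MF (d + 1)) (t : E (d + 1) → ℝ) (u : E (d + 1)) : ℝ :=
  rm_H G u - rm_e G t u

end Claimed.Agent.R315
end

/- ===== packed: Claimed.Agent.R315.Rm.Calc ===== -/
section
/-!
# Row 315, SC-RIEM: calculus of `pdiff` (prefix `rm_`)

Rules for `pdiff` (sum, product, chain rule, congruence, symmetry of second partials, smoothness)
and the API of the splitting `E (d+1) = ℝ × E d`.
Owner: helper39.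
-/

set_option autoImplicit false
open scoped ContDiff Topology
open Claims.C0499

namespace Claimed.Agent.R315

variable {d : ℕ} {f g : E d → ℝ} {u : E d} {i j : Fin d} {U : Set (E d)}

theorem rm_pdiff_const (c : ℝ) : pdiff (fun _ : E d => c) i u = 0 := by
  simp [pdiff]

theorem rm_pdiff_add (hf : DifferentiableAt ℝ f u) (hg : DifferentiableAt ℝ g u) :
    pdiff (fun w => f w + g w) i u = pdiff f i u + pdiff g i u := by
  unfold pdiff; rw [fderiv_fun_add hf hg]; rfl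

theorem rm_pdiff_sub (hf : DifferentiableAt ℝ f u) (hg : DifferentiableAt ℝ g u) :
    pdiff (fun w => f w - g w) i u = pdiff f i u - pdiff g i u := by
  unfold pdiff; rw [fderiv_fun_sub hf hg]; rfl

theorem rm_pdiff_neg : pdiff (fun w => - f w) i u = - pdiff f i u := by
  unfold pdiff; rw [fderiv_fun_neg]; rfl

theorem rm_pdiff_mul (hf : DifferentiableAt ℝ f u) (hg : DifferentiableAt ℝ g u) :
    pdiff (fun w => f w * g w) i u = pdiff f i u * g u + f u * pdiff g i u := by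
  unfold pdiff; rw [fderiv_fun_mul hf hg]
  simp [mul_comm, add_comm]

theorem rm_pdiff_const_mul (c : ℝ) (hf : DifferentiableAt ℝ f u) :
    pdiff (fun w => c * f w) i u = c * pdiff f i u := by
  unfold pdiff; rw [fderiv_const_mul hf]; rfl

theorem rm_pdiff_sum {ι : Type} (s : Finset ι) {F : ι → E d → ℝ}
    (hF : ∀ a ∈ s, DifferentiableAt ℝ (F a) u) :
    pdiff (fun w => ∑ a ∈ s, F a w) i u = ∑ a ∈ s, pdiff (F a) i u := by
  unfold pdiff; rw [fderiv_fun_sum hF]; simp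

theorem rm_pdiff_congr (h : f =ᶠ[𝓝 u] g) : pdiff f i u = pdiff g i u := by
  unfold pdiff; rw [h.fderiv_eq]

theorem rm_pdiff_comp {φ : ℝ → ℝ} (hφ : DifferentiableAt ℝ φ (f u)) (hf : DifferentiableAt ℝ f u) :
    pdiff (fun w => φ (f w)) i u = deriv φ (f u) * pdiff f i u := by
  unfold pdiff
  have := (hφ.hasDerivAt.comp_hasFDerivAt u hf.hasFDerivAt).fderiv
  have h2 : (fun w => φ (f w)) = φ ∘ f := rfl
  rw [h2, this]; simp

theorem rm_pdiff_inv (hf : DifferentiableAt ℝ f u) (h0 : f u ≠ 0) :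
    pdiff (fun w => (f w)⁻¹) i u = - pdiff f i u / f u ^ 2 := by
  have := rm_pdiff_comp (i := i) (φ := fun x : ℝ => x⁻¹) (differentiableAt_inv h0) hf
  rw [this, deriv_inv]; ring

theorem rm_pdiff_sqrt (hf : DifferentiableAt ℝ f u) (h0 : f u ≠ 0) :
    pdiff (fun w => Real.sqrt (f w)) i u = pdiff f i u / (2 * Real.sqrt (f u)) := by
  have := rm_pdiff_comp (i := i) (φ := Real.sqrt) (Real.hasDerivAt_sqrt h0).differentiableAt hf
  rw [this, (Real.hasDerivAt_sqrt h0).deriv]; ring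

theorem rm_pdiff_log (hf : DifferentiableAt ℝ f u) (h0 : f u ≠ 0) :
    pdiff (fun w => Real.log (f w)) i u = pdiff f i u / f u := by
  have := rm_pdiff_comp (i := i) (φ := Real.log) (Real.differentiableAt_log h0) hf
  rw [this, Real.deriv_log]; ring

/-! ### differentiability in `fun w => ..` form -/

theorem rm_da_add (hf : DifferentiableAt ℝ f u) (hg : DifferentiableAt ℝ g u) :
    DifferentiableAt ℝ (fun w => f w + g w) u := hf.add hg

theorem rm_da_sub (hf : DifferentiableAt ℝ f u) (hg : DifferentiableAt ℝ g u) :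
    DifferentiableAt ℝ (fun w => f w - g w) u := hf.sub hg

theorem rm_da_mul (hf : DifferentiableAt ℝ f u) (hg : DifferentiableAt ℝ g u) :
    DifferentiableAt ℝ (fun w => f w * g w) u := hf.mul hg

theorem rm_da_const_mul (c : ℝ) (hf : DifferentiableAt ℝ f u) :
    DifferentiableAt ℝ (fun w => c * f w) u := hf.const_mul c

theorem rm_da_sum {ι : Type} (s : Finset ι) {F : ι → E d → ℝ}
    (hF : ∀ a ∈ s, DifferentiableAt ℝ (F a) u) :
    DifferentiableAt ℝ (fun w => ∑ a ∈ s, F a w) u := DifferentiableAt.fun_sum hF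

/-! ### smoothness -/

theorem rm_two_le : (2 : WithTop ℕ∞) ≤ ∞ := by
  have : ((2 : ℕ∞) : WithTop ℕ∞) ≤ ((⊤ : ℕ∞) : WithTop ℕ∞) := by exact_mod_cast le_top
  exact this

theorem rm_cda (hU : IsOpen U) (hf : ContDiffOn ℝ ∞ f U) (hu : u ∈ U) : ContDiffAt ℝ ∞ f u :=
  hf.contDiffAt (hU.mem_nhds hu)

theorem rm_da (hU : IsOpen U) (hf : ContDiffOn ℝ ∞ f U) (hu : u ∈ U) : DifferentiableAt ℝ f u :=
  (rm_cda hU hf hu).differentiableAt (by simp)

theorem rm_pdiff_smooth (hU : IsOpen U) (hf : ContDiffOn ℝ ∞ f U) (i : Fin d) :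
    ContDiffOn ℝ ∞ (fun w => pdiff f i w) U := by
  have h1 : ContDiffOn ℝ ∞ (fderiv ℝ f) U := hf.fderiv_of_isOpen hU (by simp)
  exact h1.clm_apply contDiffOn_const

theorem rm_p2_smooth (hU : IsOpen U) (hf : ContDiffOn ℝ ∞ f U) (i j : Fin d) :
    ContDiffOn ℝ ∞ (fun w => rm_p2 f i j w) U :=
  rm_pdiff_smooth hU (rm_pdiff_smooth hU hf j) i

theorem rm_p2_symm (hU : IsOpen U) (hf : ContDiffOn ℝ ∞ f U) (hu : u ∈ U) (i j : Fin d) :
    rm_p2 f i j u = rm_p2 f j i u := by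
  have hc : ContDiffAt ℝ 2 f u := (rm_cda hU hf hu).of_le rm_two_le
  have hs : IsSymmSndFDerivAt ℝ f u := hc.isSymmSndFDerivAt (by simp)
  have h1 : DifferentiableAt ℝ (fderiv ℝ f) u :=
    (hc.fderiv_right (m := 1) (by norm_num)).differentiableAt (by norm_num)
  have key : ∀ a b : Fin d, rm_p2 f a b u = fderiv ℝ (fderiv ℝ f) u (eb a) (eb b) := by
    intro a b
    unfold rm_p2 pdiff
    have := (h1.hasFDerivAt.clm_apply (hasFDerivAt_const (eb b) u)).fderiv
    rw [this]; simp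
  rw [key, key]; exact hs _ _

theorem rm_pdiff_congr_on {g : E d → ℝ} (hU : IsOpen U) (hu : u ∈ U) (h : ∀ w ∈ U, f w = g w) :
    pdiff f i u = pdiff g i u :=
  rm_pdiff_congr (Filter.eventuallyEq_of_mem (hU.mem_nhds hu) h)

/-! ### the splitting `E (d+1) = ℝ × E d` -/

theorem rm_in_zero (y : E d) : rm_in d y 0 = 0 := by
  simp [rm_in, Fin.succ_ne_zero, eq_comm]

theorem rm_in_succ (y : E d) (a : Fin d) : rm_in d y a.succ = y a := by
  simp [rm_in, Pi.single_apply, Fin.succ_inj, Finset.sum_ite_eq]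

theorem rm_tl_apply (w : E (d + 1)) (a : Fin d) : rm_tl d w a = w a.succ := by
  simp [rm_tl, Pi.single_apply, Finset.sum_ite_eq]

theorem rm_J_zero (q : ℝ) (y : E d) : rm_J q y 0 = q := by
  simp [rm_J, rm_in_zero]

theorem rm_J_succ (q : ℝ) (y : E d) (a : Fin d) : rm_J q y a.succ = y a := by
  simp [rm_J, rm_in_succ, Fin.succ_ne_zero]

theorem rm_tl_J (q : ℝ) (y : E d) : rm_tl d (rm_J q y) = y := by
  ext a; rw [rm_tl_apply, rm_J_succ]

theorem rm_J_tl (w : E (d + 1)) : rm_J (w 0) (rm_tl d w) = w := by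
  ext a
  refine Fin.cases ?_ (fun b => ?_) a
  · rw [rm_J_zero]
  · rw [rm_J_succ, rm_tl_apply]

theorem rm_in_eb (a : Fin d) : rm_in d (eb a) = eb a.succ := by
  ext b
  refine Fin.cases ?_ (fun c => ?_) b
  · rw [rm_in_zero]; simp [Fin.succ_ne_zero, eq_comm]
  · rw [rm_in_succ]; simp

theorem rm_J_hasFDerivAt (q : ℝ) (y : E d) : HasFDerivAt (rm_J q) (rm_in d) y := by
  unfold rm_J
  exact ((rm_in d).hasFDerivAt).const_add _

theorem rm_J_contDiff (q : ℝ) : ContDiff ℝ ∞ (rm_J (d := d) q) := by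
  unfold rm_J
  exact contDiff_const.add (rm_in d).contDiff

theorem rm_Us_open {W : Set (E (d + 1))} (hW : IsOpen W) (q : ℝ) : IsOpen (rm_Us W q) :=
  hW.preimage (rm_J_contDiff q).continuous

theorem rm_mem_Us {W : Set (E (d + 1))} {w : E (d + 1)} (hw : w ∈ W) :
    rm_tl d w ∈ rm_Us W (w 0) := by
  show rm_J (w 0) (rm_tl d w) ∈ W
  rw [rm_J_tl]; exact hw

theorem rm_fs_smooth {W : Set (E (d + 1))} {F : E (d + 1) → ℝ} (hF : ContDiffOn ℝ ∞ F W) (q : ℝ) :
    ContDiffOn ℝ ∞ (rm_fs F q) (rm_Us W q) :=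
  hF.comp (rm_J_contDiff q).contDiffOn (fun _ hy => hy)

theorem rm_pdiff_fs {F : E (d + 1) → ℝ} {q : ℝ} {y : E d}
    (hF : DifferentiableAt ℝ F (rm_J q y)) (a : Fin d) :
    pdiff (rm_fs F q) a y = pdiff F a.succ (rm_J q y) := by
  unfold pdiff rm_fs
  have := (hF.hasFDerivAt.comp y (rm_J_hasFDerivAt q y)).fderiv
  have h2 : (fun y => F (rm_J q y)) = F ∘ rm_J q := rfl
  rw [h2, this, ContinuousLinearMap.comp_apply, rm_in_eb]

theorem rm_p2_fs {W : Set (E (d + 1))} {F : E (d + 1) → ℝ} (hW : IsOpen W)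
    (hF : ContDiffOn ℝ ∞ F W) {q : ℝ} {y : E d} (hy : rm_J q y ∈ W) (a b : Fin d) :
    rm_p2 (rm_fs F q) a b y = rm_p2 F a.succ b.succ (rm_J q y) := by
  unfold rm_p2
  have h1 : pdiff (fun w => pdiff (rm_fs F q) b w) a y =
      pdiff (rm_fs (fun w => pdiff F b.succ w) q) a y :=
    rm_pdiff_congr_on (rm_Us_open hW q) hy fun w hw => rm_pdiff_fs (rm_da hW hF hw) b
  rw [h1, rm_pdiff_fs (rm_da hW (rm_pdiff_smooth hW hF _) hy)]

end Claimed.Agent.R315
end

/- ===== packed: Claimed.Agent.R315.Rm.Eng ===== -/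
section
/-!
# Row 315, SC-RIEM: the matrix engine (prefix `rm_`)

`G` a smooth metric matrix on the open set `U` (`rm_Met G U`).
Section A (leaf RM-ENG-A): symmetry, determinant, inverse: smoothness and derivatives
  (`∂ G⁻¹ = - G⁻¹ ∂G G⁻¹`, Jacobi's formula `∂ det G = det G tr(G⁻¹ ∂G)`).
Section B (leaf RM-ENG-B): Christoffel symbols of first and second kind: symmetry, metric
  compatibility, smoothness, contracted symbol `Γ^a_{ia} = ∂_i log √det G`.
Section C (leaf RM-ENG-C): `lapC = tr Hess`.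

HINTS.  Jacobi: expand `Matrix.det_apply'`, differentiate with `HasFDerivAt.finset_prod`, compare with
`Matrix.cramer`/`adjugate` (a proof for curves of matrices: R259/S7FishB1.lean `s7fbMD.det`, for complex
matrices: R316/CW/MatFun.lean `hasFDerivWithinAt_det`; copy the technique, do NOT import these files).
Inverse: `(G w)⁻¹ = (det G w)⁻¹ • adjugate (G w)` gives smoothness (entries of the adjugate are determinants);
the derivative follows by differentiating `∑_c G⁻¹_{ac} G_{ce} = δ_{ae}`.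
Owner of the statements: helper39.
-/

set_option autoImplicit false
open scoped ContDiff Topology
open Claims.C0499

namespace Claimed.Agent.R315

/-! ## general matrix fields (size `n` independent of the dimension `d`) -/

section gen

variable {d n : ℕ} {A : E d → Matrix (Fin n) (Fin n) ℝ} {U : Set (E d)} {u : E d}

theorem rm_gdet_smooth (hA : ∀ a b, ContDiffOn ℝ ∞ (fun w => A w a b) U) :
    ContDiffOn ℝ ∞ (fun w => (A w).det) U := by
  simp only [Matrix.det_apply]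
  refine ContDiffOn.sum fun σ _ => ?_
  exact (contDiffOn_prod fun i _ => hA (σ i) i).const_smul _

theorem rm_gadj_smooth (hA : ∀ a b, ContDiffOn ℝ ∞ (fun w => A w a b) U) (a b : Fin n) :
    ContDiffOn ℝ ∞ (fun w => (A w).adjugate a b) U := by
  simp only [Matrix.adjugate_apply]
  refine rm_gdet_smooth fun c e => ?_
  by_cases h : c = b
  · subst h
    simp only [Matrix.updateRow_self]
    exact contDiffOn_const
  · simp only [Matrix.updateRow_ne h]
    exact hA c e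

theorem rm_ginv_smooth (hA : ∀ a b, ContDiffOn ℝ ∞ (fun w => A w a b) U)
    (hdet : ∀ w ∈ U, (A w).det ≠ 0) (a b : Fin n) :
    ContDiffOn ℝ ∞ (fun w => (A w)⁻¹ a b) U := by
  simp only [Matrix.inv_def, Ring.inverse_eq_inv', Matrix.smul_apply, smul_eq_mul]
  exact ((rm_gdet_smooth hA).inv hdet).mul (rm_gadj_smooth hA a b)

theorem rm_det_updateCol (M : Matrix (Fin n) (Fin n) ℝ) (k : Fin n) (b : Fin n → ℝ) :
    (M.updateCol k b).det = ∑ σ : Equiv.Perm (Fin n),
      Equiv.Perm.sign σ • ((∏ j ∈ Finset.univ.erase k, M (σ j) j) * b (σ k)) := by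
  rw [Matrix.det_apply]
  refine Finset.sum_congr rfl fun σ _ => ?_
  congr 1
  rw [← Finset.prod_erase_mul _ _ (Finset.mem_univ k)]
  congr 1
  · refine Finset.prod_congr rfl fun j hj => ?_
    rw [Matrix.updateCol_ne (Finset.ne_of_mem_erase hj)]
  · rw [Matrix.updateCol_self]

theorem rm_jacobi_aux (M N : Matrix (Fin n) (Fin n) ℝ) :
    ∑ σ : Equiv.Perm (Fin n), Equiv.Perm.sign σ •
        ∑ i, (∏ j ∈ Finset.univ.erase i, M (σ j) j) * N (σ i) i
      = ∑ j, ∑ k, M.adjugate k j * N j k := by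
  have h : ∀ k, ∑ j, M.adjugate k j * N j k = (M.updateCol k (fun j => N j k)).det := by
    intro k
    rw [← Matrix.cramer_apply, Matrix.cramer_eq_adjugate_mulVec]; rfl
  rw [Finset.sum_comm (s := Finset.univ) (t := Finset.univ) (f := fun j k => M.adjugate k j * N j k)]
  simp_rw [h, rm_det_updateCol, Finset.smul_sum]
  rw [Finset.sum_comm]

/-- Jacobi's formula, adjugate form. -/
theorem rm_gpdiff_det_adj (hA : ∀ a b, DifferentiableAt ℝ (fun w => A w a b) u) (i : Fin d) :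
    pdiff (fun w => (A w).det) i u =
      ∑ a, ∑ b, (A u).adjugate b a * pdiff (fun w => A w a b) i u := by
  have h1 : HasFDerivAt (fun w => (A w).det)
      (∑ σ : Equiv.Perm (Fin n), Equiv.Perm.sign σ •
        ∑ i, (∏ j ∈ Finset.univ.erase i, A u (σ j) j) • fderiv ℝ (fun w => A w (σ i) i) u) u := by
    simp only [Matrix.det_apply]
    exact HasFDerivAt.fun_sum fun σ _ =>
      (HasFDerivAt.finsetProd (u := Finset.univ) (g := fun i w => A w (σ i) i)
        (fun i _ => (hA (σ i) i).hasFDerivAt)).const_smul _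
  unfold pdiff
  rw [h1.fderiv]
  have := rm_jacobi_aux (A u) (fun j k => fderiv ℝ (fun w => A w j k) u (eb i))
  simpa [_root_.sum_apply] using this

theorem rm_adj_eq {M : Matrix (Fin n) (Fin n) ℝ} (h : M.det ≠ 0) : M.adjugate = M.det • M⁻¹ := by
  rw [Matrix.inv_def, Ring.inverse_eq_inv', smul_smul, mul_inv_cancel₀ h, one_smul]

/-- Jacobi's formula. -/
theorem rm_gpdiff_det (hA : ∀ a b, DifferentiableAt ℝ (fun w => A w a b) u)
    (hdet : (A u).det ≠ 0) (i : Fin d) :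
    pdiff (fun w => (A w).det) i u =
      (A u).det * ∑ a, ∑ b, (A u)⁻¹ b a * pdiff (fun w => A w a b) i u := by
  rw [rm_gpdiff_det_adj hA, rm_adj_eq hdet, Finset.mul_sum]
  refine Finset.sum_congr rfl fun a _ => ?_
  rw [Finset.mul_sum]
  refine Finset.sum_congr rfl fun b _ => ?_
  simp only [Matrix.smul_apply, smul_eq_mul]; ring

theorem rm_ginv_mul {M : Matrix (Fin n) (Fin n) ℝ} (h : M.det ≠ 0) (a b : Fin n) :
    ∑ c, M⁻¹ a c * M c b = if a = b then 1 else 0 := by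
  have := congrFun (congrFun (Matrix.nonsing_inv_mul M h.isUnit) a) b
  rw [Matrix.mul_apply, Matrix.one_apply] at this; exact this

theorem rm_gmul_inv {M : Matrix (Fin n) (Fin n) ℝ} (h : M.det ≠ 0) (a b : Fin n) :
    ∑ c, M a c * M⁻¹ c b = if a = b then 1 else 0 := by
  have := congrFun (congrFun (Matrix.mul_nonsing_inv M h.isUnit) a) b
  rw [Matrix.mul_apply, Matrix.one_apply] at this; exact this

/-- derivative of the inverse. -/
theorem rm_gpdiff_inv (hU : IsOpen U) (hA : ∀ a b, ContDiffOn ℝ ∞ (fun w => A w a b) U)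
    (hdet : ∀ w ∈ U, (A w).det ≠ 0) (hu : u ∈ U) (a b : Fin n) (i : Fin d) :
    pdiff (fun w => (A w)⁻¹ a b) i u =
      - ∑ c, ∑ e, (A u)⁻¹ a c * pdiff (fun w => A w c e) i u * (A u)⁻¹ e b := by
  have hI := rm_ginv_smooth hA hdet
  -- differentiate `∑_c A⁻¹_{ac} A_{ce} = δ_{ae}`
  have key : ∀ e, ∑ c, (pdiff (fun w => (A w)⁻¹ a c) i u * A u c e +
      (A u)⁻¹ a c * pdiff (fun w => A w c e) i u) = 0 := by
    intro e
    have h1 : pdiff (fun w => ∑ c, (A w)⁻¹ a c * A w c e) i u = 0 := by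
      rw [rm_pdiff_congr_on (g := fun _ => if a = e then 1 else 0) hU hu
        (fun w hw => rm_ginv_mul (hdet w hw) a e), rm_pdiff_const]
    rw [rm_pdiff_sum (F := fun c w => (A w)⁻¹ a c * A w c e) Finset.univ
      (fun c _ => (rm_da hU (hI a c) hu).mul (rm_da hU (hA c e) hu))] at h1
    rw [← h1]
    refine Finset.sum_congr rfl fun c _ => ?_
    rw [rm_pdiff_mul (rm_da hU (hI a c) hu) (rm_da hU (hA c e) hu)]
  have h2 : ∑ e, (∑ c, (pdiff (fun w => (A w)⁻¹ a c) i u * A u c e +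
      (A u)⁻¹ a c * pdiff (fun w => A w c e) i u)) * (A u)⁻¹ e b = 0 := by
    simp only [key, zero_mul, Finset.sum_const_zero]
  have h3 : ∑ e, (∑ c, pdiff (fun w => (A w)⁻¹ a c) i u * A u c e) * (A u)⁻¹ e b =
      pdiff (fun w => (A w)⁻¹ a b) i u := by
    simp only [Finset.sum_mul]
    rw [Finset.sum_comm]
    have : ∀ c, ∑ e, pdiff (fun w => (A w)⁻¹ a c) i u * A u c e * (A u)⁻¹ e b =
        pdiff (fun w => (A w)⁻¹ a c) i u * (if c = b then 1 else 0) := by
      intro c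
      rw [← rm_gmul_inv (hdet u hu) c b, Finset.mul_sum]
      exact Finset.sum_congr rfl fun e _ => by ring
    simp only [this]
    simp
  simp only [Finset.sum_add_distrib, add_mul] at h2
  rw [h3] at h2
  rw [eq_neg_iff_add_eq_zero, ← h2]
  congr 1
  rw [Finset.sum_comm]
  refine Finset.sum_congr rfl fun e _ => ?_
  rw [Finset.sum_mul]

end gen

variable {d : ℕ} {G : rm_MF d} {U : Set (E d)} {u : E d}

/-! ## Section A -/

theorem rm_symm (h : rm_Met G U) (hu : u ∈ U) (i j : Fin d) : G u i j = G u j i := by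
  have := (h.pos u hu).isHermitian.apply i j
  simpa using this.symm

theorem rm_det_pos (h : rm_Met G U) (hu : u ∈ U) : 0 < (G u).det := (h.pos u hu).det_pos

theorem rm_det_ne (h : rm_Met G U) : ∀ u ∈ U, (G u).det ≠ 0 := fun _ hu => (rm_det_pos h hu).ne'

theorem rm_det_smooth (h : rm_Met G U) : ContDiffOn ℝ ∞ (fun w => (G w).det) U := by
  exact if_det_contDiffOn h.smooth

theorem rm_inv_smooth (h : rm_Met G U) (i j : Fin d) :
    ContDiffOn ℝ ∞ (fun w => (G w)⁻¹ i j) U := by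
  exact if_inv_contDiffOn h.smooth (rm_det_ne h) i j

theorem rm_inv_symm (h : rm_Met G U) (hu : u ∈ U) (i j : Fin d) :
    (G u)⁻¹ i j = (G u)⁻¹ j i := by
  have := (h.pos u hu).inv.isHermitian.apply i j
  simpa using this.symm

theorem rm_inv_pos (h : rm_Met G U) (hu : u ∈ U) : ((G u)⁻¹).PosDef := by
  exact (h.pos u hu).inv

theorem rm_mul_inv (h : rm_Met G U) (hu : u ∈ U) (i j : Fin d) :
    ∑ k : Fin d, G u i k * (G u)⁻¹ k j = if i = j then 1 else 0 := by
  exact rm_gmul_inv (rm_det_ne h u hu) i j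

theorem rm_inv_mul (h : rm_Met G U) (hu : u ∈ U) (i j : Fin d) :
    ∑ k : Fin d, (G u)⁻¹ i k * G u k j = if i = j then 1 else 0 := by
  exact rm_ginv_mul (rm_det_ne h u hu) i j

/-- `∂_i G^{ab} = - G^{ac} ∂_i G_{ce} G^{eb}`. -/
theorem rm_pdiff_invM (h : rm_Met G U) (hu : u ∈ U) (a b i : Fin d) :
    pdiff (fun w => (G w)⁻¹ a b) i u =
      - ∑ c : Fin d, ∑ e : Fin d, (G u)⁻¹ a c * pdiff (fun w => G w c e) i u * (G u)⁻¹ e b := by
  exact rm_gpdiff_inv h.opn h.smooth (rm_det_ne h) hu a b i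

/-- Jacobi's formula. -/
theorem rm_pdiff_det (h : rm_Met G U) (hu : u ∈ U) (i : Fin d) :
    pdiff (fun w => (G w).det) i u =
      (G u).det * ∑ a : Fin d, ∑ b : Fin d, (G u)⁻¹ a b * pdiff (fun w => G w a b) i u := by
  rw [rm_gpdiff_det (fun a b => rm_da h.opn (h.smooth a b) hu) (rm_det_ne h u hu)]
  congr 1
  refine Finset.sum_congr rfl fun a _ => Finset.sum_congr rfl fun b _ => ?_
  rw [rm_inv_symm h hu]

theorem rm_sqrtdet_smooth (h : rm_Met G U) :
    ContDiffOn ℝ ∞ (fun w => Real.sqrt (G w).det) U := by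
  exact if_sqrt_det_contDiffOn h.smooth (rm_det_ne h)

theorem rm_pdiff_sqrtdet (h : rm_Met G U) (hu : u ∈ U) (i : Fin d) :
    pdiff (fun w => Real.sqrt (G w).det) i u =
      Real.sqrt (G u).det *
        ((1 / 2) * ∑ a : Fin d, ∑ b : Fin d, (G u)⁻¹ a b * pdiff (fun w => G w a b) i u) := by
  rw [rm_pdiff_sqrt (rm_da h.opn (rm_det_smooth h) hu) (rm_det_ne h u hu), rm_pdiff_det h hu]
  have h0 : 0 < Real.sqrt (G u).det := Real.sqrt_pos.2 (rm_det_pos h hu)
  have h1 : (G u).det = Real.sqrt (G u).det * Real.sqrt (G u).det :=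
    (Real.mul_self_sqrt (rm_det_pos h hu).le).symm
  set S := ∑ a : Fin d, ∑ b : Fin d, (G u)⁻¹ a b * pdiff (fun w => G w a b) i u
  rw [div_eq_iff (by positivity)]
  nth_rewrite 1 [h1]
  ring

/-! ## Section B -/

theorem rm_sum3_rot {n : ℕ} (F : Fin n → Fin n → Fin n → ℝ) :
    ∑ i, ∑ j, ∑ l, F i j l = ∑ l, ∑ i, ∑ j, F i j l := by
  calc ∑ i, ∑ j, ∑ l, F i j l = ∑ i, ∑ l, ∑ j, F i j l :=
        Finset.sum_congr rfl fun i _ => Finset.sum_comm
    _ = ∑ l, ∑ i, ∑ j, F i j l := Finset.sum_comm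

theorem rm_pdiff_symm (h : rm_Met G U) (hu : u ∈ U) (i j k : Fin d) :
    pdiff (fun w => G w i j) k u = pdiff (fun w => G w j i) k u :=
  rm_pdiff_congr_on h.opn hu fun _ hw => rm_symm h hw i j

theorem rm_c1_smooth (h : rm_Met G U) (i j k : Fin d) :
    ContDiffOn ℝ ∞ (fun w => rm_c1 G w i j k) U := by
  unfold rm_c1
  exact contDiffOn_const.mul (((rm_pdiff_smooth h.opn (h.smooth j k) i).add
    (rm_pdiff_smooth h.opn (h.smooth i k) j)).sub (rm_pdiff_smooth h.opn (h.smooth i j) k))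

theorem rm_c1_symm (h : rm_Met G U) (hu : u ∈ U) (i j k : Fin d) :
    rm_c1 G u i j k = rm_c1 G u j i k := by
  unfold rm_c1
  rw [rm_pdiff_symm h hu i j k]; ring

/-- metric compatibility `[ij,k] + [ik,j] = ∂_i G_{jk}`. -/
theorem rm_c1_add (h : rm_Met G U) (hu : u ∈ U) (i j k : Fin d) :
    rm_c1 G u i j k + rm_c1 G u i k j = pdiff (fun w => G w j k) i u := by
  unfold rm_c1
  rw [rm_pdiff_symm h hu k j i, rm_pdiff_symm h hu i k j]
  rw [rm_pdiff_symm h hu i j k]; ring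

theorem rm_christoffel_eq (G : rm_MF d) (u : E d) (k i j : Fin d) :
    christoffel G u k i j = ∑ l : Fin d, (G u)⁻¹ k l * rm_c1 G u i j l := by
  unfold christoffel rm_c1
  rw [Finset.mul_sum]
  exact Finset.sum_congr rfl fun l _ => by ring

theorem rm_c1_eq (h : rm_Met G U) (hu : u ∈ U) (i j l : Fin d) :
    rm_c1 G u i j l = ∑ k : Fin d, G u l k * christoffel G u k i j := by
  simp only [rm_christoffel_eq, Finset.mul_sum]
  rw [Finset.sum_comm]
  have : ∀ m, ∑ k : Fin d, G u l k * ((G u)⁻¹ k m * rm_c1 G u i j m) =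
      (if l = m then 1 else 0) * rm_c1 G u i j m := by
    intro m
    rw [← rm_mul_inv h hu l m, Finset.sum_mul]
    exact Finset.sum_congr rfl fun k _ => by ring
  simp only [this]
  simp

theorem rm_christoffel_smooth (h : rm_Met G U) (k i j : Fin d) :
    ContDiffOn ℝ ∞ (fun w => christoffel G w k i j) U := by
  exact if_christoffel_contDiffOn h.opn h.smooth (rm_det_ne h) k i j

theorem rm_christoffel_symm (h : rm_Met G U) (hu : u ∈ U) (k i j : Fin d) :
    christoffel G u k i j = christoffel G u k j i := by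
  simp only [rm_christoffel_eq]
  exact Finset.sum_congr rfl fun l _ => by rw [rm_c1_symm h hu]

/-- contracted Christoffel symbol. -/
theorem rm_christoffel_trace (h : rm_Met G U) (hu : u ∈ U) (i : Fin d) :
    ∑ a : Fin d, christoffel G u a i a =
      (1 / 2) * ∑ a : Fin d, ∑ b : Fin d, (G u)⁻¹ a b * pdiff (fun w => G w a b) i u := by
  simp only [rm_christoffel_eq]
  have h1 : ∑ a : Fin d, ∑ l : Fin d, (G u)⁻¹ a l * pdiff (fun w => G w i l) a u =
      ∑ a : Fin d, ∑ l : Fin d, (G u)⁻¹ a l * pdiff (fun w => G w i a) l u := by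
    rw [Finset.sum_comm]
    exact Finset.sum_congr rfl fun a _ => Finset.sum_congr rfl fun l _ => by
      rw [rm_inv_symm h hu]
  have h2 : ∑ a : Fin d, ∑ l : Fin d, (G u)⁻¹ a l * rm_c1 G u i a l =
      (1 / 2) * ∑ a : Fin d, ∑ l : Fin d, (G u)⁻¹ a l * pdiff (fun w => G w a l) i u +
      (1 / 2) * (∑ a : Fin d, ∑ l : Fin d, (G u)⁻¹ a l * pdiff (fun w => G w i l) a u -
        ∑ a : Fin d, ∑ l : Fin d, (G u)⁻¹ a l * pdiff (fun w => G w i a) l u) := by
    unfold rm_c1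
    simp only [Finset.mul_sum, ← Finset.sum_add_distrib, ← Finset.sum_sub_distrib]
    exact Finset.sum_congr rfl fun a _ => Finset.sum_congr rfl fun l _ => by ring
  rw [h2, h1]; ring

/-- `G^{ij} Γ^k_{ij} = - (√det G)⁻¹ ∂_i (√det G G^{ik})`. -/
theorem rm_christoffel_contr (h : rm_Met G U) (hu : u ∈ U) (k : Fin d) :
    ∑ i : Fin d, ∑ j : Fin d, (G u)⁻¹ i j * christoffel G u k i j =
      - (Real.sqrt (G u).det)⁻¹ *
        ∑ i : Fin d, pdiff (fun w => Real.sqrt (G w).det * (G w)⁻¹ i k) i u := by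
  have hPs : ∀ a b, (G u)⁻¹ a b = (G u)⁻¹ b a := rm_inv_symm h hu
  have hs : 0 < Real.sqrt (G u).det := Real.sqrt_pos.2 (rm_det_pos h hu)
  have step1 : ∀ i, pdiff (fun w => Real.sqrt (G w).det * (G w)⁻¹ i k) i u =
      Real.sqrt (G u).det *
        (((1 / 2) * ∑ a : Fin d, ∑ b : Fin d, (G u)⁻¹ a b * pdiff (fun w => G w a b) i u) *
            (G u)⁻¹ i k -
          ∑ c : Fin d, ∑ e : Fin d, (G u)⁻¹ i c * pdiff (fun w => G w c e) i u * (G u)⁻¹ e k) := by
    intro i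
    rw [rm_pdiff_mul (rm_da h.opn (rm_sqrtdet_smooth h) hu) (rm_da h.opn (rm_inv_smooth h i k) hu),
      rm_pdiff_sqrtdet h hu, rm_pdiff_invM h hu]
    ring
  simp only [step1]
  rw [← Finset.mul_sum, neg_mul, ← mul_assoc, inv_mul_cancel₀ hs.ne', one_mul,
    Finset.sum_sub_distrib, neg_sub]
  -- the three pieces of the left side
  have A1 : ∑ i : Fin d, ∑ j : Fin d, ∑ l : Fin d,
      (G u)⁻¹ i j * (G u)⁻¹ k l * pdiff (fun w => G w j l) i u =
      ∑ i : Fin d, ∑ c : Fin d, ∑ e : Fin d,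
        (G u)⁻¹ i c * pdiff (fun w => G w c e) i u * (G u)⁻¹ e k :=
    Finset.sum_congr rfl fun i _ => Finset.sum_congr rfl fun c _ => Finset.sum_congr rfl
      fun e _ => by rw [hPs k e]; ring
  have A2 : ∑ i : Fin d, ∑ j : Fin d, ∑ l : Fin d,
      (G u)⁻¹ i j * (G u)⁻¹ k l * pdiff (fun w => G w i l) j u =
      ∑ i : Fin d, ∑ j : Fin d, ∑ l : Fin d,
      (G u)⁻¹ i j * (G u)⁻¹ k l * pdiff (fun w => G w j l) i u := by
    rw [Finset.sum_comm]
    exact Finset.sum_congr rfl fun i _ => Finset.sum_congr rfl fun c _ => Finset.sum_congr rfl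
      fun e _ => by rw [hPs c i]
  have A3 : ∑ i : Fin d, ∑ j : Fin d, ∑ l : Fin d,
      (G u)⁻¹ i j * (G u)⁻¹ k l * pdiff (fun w => G w i j) l u =
      2 * ∑ i : Fin d, ((1 / 2) * ∑ a : Fin d, ∑ b : Fin d,
        (G u)⁻¹ a b * pdiff (fun w => G w a b) i u) * (G u)⁻¹ i k := by
    rw [rm_sum3_rot]
    simp only [Finset.mul_sum, Finset.sum_mul]
    exact Finset.sum_congr rfl fun l _ => Finset.sum_congr rfl fun i _ => Finset.sum_congr rfl
      fun j _ => by rw [hPs k l]; ring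
  have L : ∑ i : Fin d, ∑ j : Fin d, (G u)⁻¹ i j * christoffel G u k i j =
      (1 / 2) * (∑ i : Fin d, ∑ j : Fin d, ∑ l : Fin d,
          (G u)⁻¹ i j * (G u)⁻¹ k l * pdiff (fun w => G w j l) i u) +
      (1 / 2) * (∑ i : Fin d, ∑ j : Fin d, ∑ l : Fin d,
          (G u)⁻¹ i j * (G u)⁻¹ k l * pdiff (fun w => G w i l) j u) -
      (1 / 2) * (∑ i : Fin d, ∑ j : Fin d, ∑ l : Fin d,
          (G u)⁻¹ i j * (G u)⁻¹ k l * pdiff (fun w => G w i j) l u) := by
    unfold christoffel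
    simp only [Finset.mul_sum, ← Finset.sum_add_distrib, ← Finset.sum_sub_distrib]
    exact Finset.sum_congr rfl fun i _ => Finset.sum_congr rfl fun j _ => Finset.sum_congr rfl
      fun l _ => by ring
  rw [L, A2, A3, A1]; ring

/-! ## Section C -/

theorem rm_hessC_symm (h : rm_Met G U) (hu : u ∈ U) {f : E d → ℝ} (hf : ContDiffOn ℝ ∞ f U)
    (i j : Fin d) : hessC G f u i j = hessC G f u j i := by
  unfold hessC
  have := rm_p2_symm h.opn hf hu i j
  unfold rm_p2 at this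
  rw [this]
  congr 1
  exact Finset.sum_congr rfl fun k _ => by rw [rm_christoffel_symm h hu]

theorem rm_hessC_smooth (h : rm_Met G U) {f : E d → ℝ} (hf : ContDiffOn ℝ ∞ f U)
    (i j : Fin d) : ContDiffOn ℝ ∞ (fun w => hessC G f w i j) U := by
  exact if_hessC_contDiffOn h.opn h.smooth (rm_det_ne h) hf i j

/-- the Laplacian is the trace of the Hessian. -/
theorem rm_lapC_eq (h : rm_Met G U) (hu : u ∈ U) {f : E d → ℝ} (hf : ContDiffOn ℝ ∞ f U) :
    lapC G f u = ∑ i : Fin d, ∑ j : Fin d, (G u)⁻¹ i j * hessC G f u i j := by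
  have hs : 0 < Real.sqrt (G u).det := Real.sqrt_pos.2 (rm_det_pos h hu)
  have hsm := rm_sqrtdet_smooth h
  have step1 : ∀ i, pdiff (fun w => Real.sqrt (G w).det * ∑ j : Fin d, (G w)⁻¹ i j * pdiff f j w) i u
      = ∑ j : Fin d, (pdiff (fun w => Real.sqrt (G w).det * (G w)⁻¹ i j) i u * pdiff f j u +
          Real.sqrt (G u).det * ((G u)⁻¹ i j * pdiff (fun w => pdiff f j w) i u)) := by
    intro i
    have e1 : (fun w => Real.sqrt (G w).det * ∑ j : Fin d, (G w)⁻¹ i j * pdiff f j w) =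
        fun w => ∑ j : Fin d, (Real.sqrt (G w).det * (G w)⁻¹ i j) * pdiff f j w := by
      funext w
      rw [Finset.mul_sum]
      exact Finset.sum_congr rfl fun j _ => by ring
    have hd1 : ∀ j, DifferentiableAt ℝ (fun w => Real.sqrt (G w).det * (G w)⁻¹ i j) u := fun j =>
      (rm_da h.opn hsm hu).mul (rm_da h.opn (rm_inv_smooth h i j) hu)
    have hd2 : ∀ j, DifferentiableAt ℝ (fun w => pdiff f j w) u := fun j =>
      rm_da h.opn (rm_pdiff_smooth h.opn hf j) hu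
    rw [e1, rm_pdiff_sum (F := fun j w => (Real.sqrt (G w).det * (G w)⁻¹ i j) * pdiff f j w)
      Finset.univ (fun j _ => (hd1 j).mul (hd2 j))]
    refine Finset.sum_congr rfl fun j _ => ?_
    rw [rm_pdiff_mul (hd1 j) (hd2 j)]; ring
  unfold lapC
  simp only [step1, Finset.sum_add_distrib, mul_add]
  have t2 : (Real.sqrt (G u).det)⁻¹ * ∑ i : Fin d, ∑ j : Fin d,
      Real.sqrt (G u).det * ((G u)⁻¹ i j * pdiff (fun w => pdiff f j w) i u) =
      ∑ i : Fin d, ∑ j : Fin d, (G u)⁻¹ i j * pdiff (fun w => pdiff f j w) i u := by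
    simp only [← Finset.mul_sum]
    rw [← mul_assoc, inv_mul_cancel₀ hs.ne', one_mul]
  have t1 : (Real.sqrt (G u).det)⁻¹ * ∑ i : Fin d, ∑ j : Fin d,
      pdiff (fun w => Real.sqrt (G w).det * (G w)⁻¹ i j) i u * pdiff f j u =
      - ∑ i : Fin d, ∑ j : Fin d, (G u)⁻¹ i j * ∑ k : Fin d, christoffel G u k i j * pdiff f k u := by
    have c : ∀ k, (Real.sqrt (G u).det)⁻¹ *
        ∑ i : Fin d, pdiff (fun w => Real.sqrt (G w).det * (G w)⁻¹ i k) i u =
        - ∑ i : Fin d, ∑ j : Fin d, (G u)⁻¹ i j * christoffel G u k i j := by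
      intro k
      rw [rm_christoffel_contr h hu k]; ring
    rw [Finset.sum_comm, Finset.mul_sum]
    have : ∀ k, (Real.sqrt (G u).det)⁻¹ * ∑ i : Fin d,
        pdiff (fun w => Real.sqrt (G w).det * (G w)⁻¹ i k) i u * pdiff f k u =
        - ∑ i : Fin d, ∑ j : Fin d, (G u)⁻¹ i j * (christoffel G u k i j * pdiff f k u) := by
      intro k
      rw [← Finset.sum_mul, ← mul_assoc, c k, neg_mul, Finset.sum_mul]
      congr 1
      refine Finset.sum_congr rfl fun i _ => ?_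
      rw [Finset.sum_mul]
      exact Finset.sum_congr rfl fun j _ => by ring
    simp only [this, Finset.sum_neg_distrib, Finset.mul_sum]
    congr 1
    exact (rm_sum3_rot (fun i j k => (G u)⁻¹ i j * (christoffel G u k i j * pdiff f k u))).symm
  rw [t1, t2]
  unfold hessC
  simp only [mul_sub, Finset.sum_sub_distrib]
  ring

theorem rm_lapC_smooth (h : rm_Met G U) {f : E d → ℝ} (hf : ContDiffOn ℝ ∞ f U) :
    ContDiffOn ℝ ∞ (fun w => lapC G f w) U := by
  exact if_lapC_contDiffOn h.opn h.smooth (fun _ hu => rm_det_pos h hu) hf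

theorem rm_gradIpC_smooth (h : rm_Met G U) {f k : E d → ℝ} (hf : ContDiffOn ℝ ∞ f U)
    (hk : ContDiffOn ℝ ∞ k U) : ContDiffOn ℝ ∞ (fun w => gradIpC G f k w) U := by
  exact if_gradIpC_contDiffOn h.opn h.smooth (rm_det_ne h) hf hk

end Claimed.Agent.R315
end

/- ===== packed: Claimed.Agent.R315.Rm.Ops ===== -/
section
/-!
# Row 315, SC-RIEM: calculus of `gradIpC`, `lapC`, `rm_DscC` in a chart (prefix `rm_`)

Section A (leaf RM-OPS-A): `gradIpC` is a symmetric positive bilinear form in `(df, dk)`: additivity, Leibniz, chain rule,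
  Cauchy-Schwarz.
Section B (leaf RM-OPS-B): `lapC`: additivity, Leibniz, chain rule (use `rm_lapC_eq`: `lapC = G^{ij} hessC_{ij}`, and the rules
  for `hessC`).
Section C (leaf RM-OPS-C): drift scalar curvature: change of the drift,
  `D(G, t + a) = D(G,t) + 2 Δa - 2⟨dt,da⟩ - |da|²`,
  `D(G, t - c log v) = D(G,t) - 2c Δ_t v / v + (2c - c²) |dv|²/v²`   (captain's ruling 4 with `c = C/2`).
Owner of the statements: helper39.
-/

set_option autoImplicit false
open scoped ContDiff Topology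
open Claims.C0499

namespace Claimed.Agent.R315

variable {d : ℕ} {G : rm_MF d} {U : Set (E d)} {u : E d} {f k l t a v : E d → ℝ}

/-! ## Section A -/

theorem rm_ip_comm (h : rm_Met G U) (hu : u ∈ U) (f k : E d → ℝ) :
    gradIpC G f k u = gradIpC G k f u := by
  unfold gradIpC
  rw [Finset.sum_comm]
  exact Finset.sum_congr rfl fun i _ => Finset.sum_congr rfl fun j _ => by
    rw [rm_inv_symm h hu j i]; ring

theorem rm_ip_add_left (hf : DifferentiableAt ℝ f u) (hk : DifferentiableAt ℝ k u) :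
    gradIpC G (fun w => f w + k w) l u = gradIpC G f l u + gradIpC G k l u := by
  unfold gradIpC
  simp only [rm_pdiff_add hf hk, ← Finset.sum_add_distrib]
  exact Finset.sum_congr rfl fun i _ => Finset.sum_congr rfl fun j _ => by ring

theorem rm_ip_add_right (hf : DifferentiableAt ℝ f u) (hk : DifferentiableAt ℝ k u) :
    gradIpC G l (fun w => f w + k w) u = gradIpC G l f u + gradIpC G l k u := by
  unfold gradIpC
  simp only [rm_pdiff_add hf hk, ← Finset.sum_add_distrib]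
  exact Finset.sum_congr rfl fun i _ => Finset.sum_congr rfl fun j _ => by ring

theorem rm_ip_smul_left (c : ℝ) (hf : DifferentiableAt ℝ f u) :
    gradIpC G (fun w => c * f w) l u = c * gradIpC G f l u := by
  unfold gradIpC
  simp only [rm_pdiff_const_mul c hf, Finset.mul_sum]
  exact Finset.sum_congr rfl fun i _ => Finset.sum_congr rfl fun j _ => by ring

theorem rm_ip_smul_right (c : ℝ) (hf : DifferentiableAt ℝ f u) :
    gradIpC G l (fun w => c * f w) u = c * gradIpC G l f u := by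
  unfold gradIpC
  simp only [rm_pdiff_const_mul c hf, Finset.mul_sum]
  exact Finset.sum_congr rfl fun i _ => Finset.sum_congr rfl fun j _ => by ring

theorem rm_ip_const_left (c : ℝ) : gradIpC G (fun _ => c) l u = 0 := by
  unfold gradIpC
  simp [rm_pdiff_const]

theorem rm_ip_const_right (c : ℝ) : gradIpC G l (fun _ => c) u = 0 := by
  unfold gradIpC
  simp [rm_pdiff_const]

theorem rm_ip_mul_left (hf : DifferentiableAt ℝ f u) (hk : DifferentiableAt ℝ k u) :
    gradIpC G (fun w => f w * k w) l u = f u * gradIpC G k l u + k u * gradIpC G f l u := by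
  unfold gradIpC
  simp only [rm_pdiff_mul hf hk, Finset.mul_sum, ← Finset.sum_add_distrib]
  exact Finset.sum_congr rfl fun i _ => Finset.sum_congr rfl fun j _ => by ring

theorem rm_ip_mul_right (hf : DifferentiableAt ℝ f u) (hk : DifferentiableAt ℝ k u) :
    gradIpC G l (fun w => f w * k w) u = f u * gradIpC G l k u + k u * gradIpC G l f u := by
  unfold gradIpC
  simp only [rm_pdiff_mul hf hk, Finset.mul_sum, ← Finset.sum_add_distrib]
  exact Finset.sum_congr rfl fun i _ => Finset.sum_congr rfl fun j _ => by ring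

theorem rm_ip_comp_left {φ : ℝ → ℝ} (hφ : DifferentiableAt ℝ φ (f u))
    (hf : DifferentiableAt ℝ f u) :
    gradIpC G (fun w => φ (f w)) l u = deriv φ (f u) * gradIpC G f l u := by
  unfold gradIpC
  simp only [rm_pdiff_comp hφ hf, Finset.mul_sum]
  exact Finset.sum_congr rfl fun i _ => Finset.sum_congr rfl fun j _ => by ring

theorem rm_ip_comp_right {φ : ℝ → ℝ} (hφ : DifferentiableAt ℝ φ (f u))
    (hf : DifferentiableAt ℝ f u) :
    gradIpC G l (fun w => φ (f w)) u = deriv φ (f u) * gradIpC G l f u := by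
  unfold gradIpC
  simp only [rm_pdiff_comp hφ hf, Finset.mul_sum]
  exact Finset.sum_congr rfl fun i _ => Finset.sum_congr rfl fun j _ => by ring

theorem rm_ip_congr {f' k' : E d → ℝ} (hf : f =ᶠ[𝓝 u] f') (hk : k =ᶠ[𝓝 u] k') :
    gradIpC G f k u = gradIpC G f' k' u := by
  unfold gradIpC
  simp only [rm_pdiff_congr hf, rm_pdiff_congr hk]

/-- `⟨df,dk⟩` as a quadratic form of `G⁻¹`. -/
theorem rm_ip_eq_dot (G : rm_MF d) (f k : E d → ℝ) (u : E d) :
    gradIpC G f k u = (fun i => pdiff f i u) ⬝ᵥ ((G u)⁻¹).mulVec (fun j => pdiff k j u) := by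
  unfold gradIpC
  simp only [dotProduct, Matrix.mulVec, Finset.mul_sum]
  exact Finset.sum_congr rfl fun i _ => Finset.sum_congr rfl fun j _ => by ring

theorem rm_sq_nonneg (h : rm_Met G U) (hu : u ∈ U) (f : E d → ℝ) : 0 ≤ gradSqC G f u := by
  rw [if_gradSqC_eq, rm_ip_eq_dot]
  have := (rm_inv_pos h hu).posSemidef.dotProduct_mulVec_nonneg (fun i => pdiff f i u)
  simpa using this

/-- `|df|² = 0` iff all partial derivatives vanish. -/
theorem rm_sq_eq_zero (h : rm_Met G U) (hu : u ∈ U) (f : E d → ℝ) :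
    gradSqC G f u = 0 ↔ ∀ i, pdiff f i u = 0 := by
  rw [if_gradSqC_eq, rm_ip_eq_dot]
  constructor
  · intro h0 i
    by_contra hne
    have hx : (fun i => pdiff f i u) ≠ 0 := fun h1 => hne (congrFun h1 i)
    have := (rm_inv_pos h hu).dotProduct_mulVec_pos hx
    simp only [star_trivial] at this
    linarith
  · intro h0
    have : (fun i => pdiff f i u) = 0 := funext h0
    rw [this]; simp

theorem rm_ip_cs (h : rm_Met G U) (hu : u ∈ U) (f k : E d → ℝ) :
    gradIpC G f k u ^ 2 ≤ gradSqC G f u * gradSqC G k u := by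
  -- discriminant of `|d(f + λ k)|² ≥ 0` as a form in the covectors
  have key : ∀ lam : ℝ, 0 ≤ gradSqC G k u * (lam * lam) + 2 * gradIpC G f k u * lam +
      gradSqC G f u := by
    intro lam
    have h1 := (rm_inv_pos h hu).posSemidef.dotProduct_mulVec_nonneg
      (fun i => pdiff f i u + lam * pdiff k i u)
    simp only [star_trivial] at h1
    have e : (fun i => pdiff f i u + lam * pdiff k i u) ⬝ᵥ
        ((G u)⁻¹).mulVec (fun i => pdiff f i u + lam * pdiff k i u) =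
        gradSqC G k u * (lam * lam) + 2 * gradIpC G f k u * lam + gradSqC G f u := by
      have hc := rm_ip_comm h hu f k
      rw [if_gradSqC_eq, if_gradSqC_eq]
      have e2 : 2 * gradIpC G f k u = gradIpC G f k u + gradIpC G k f u := by rw [← hc]; ring
      rw [e2]
      unfold gradIpC
      simp only [dotProduct, Matrix.mulVec, Finset.mul_sum, Finset.sum_mul,
        ← Finset.sum_add_distrib]
      exact Finset.sum_congr rfl fun i _ => Finset.sum_congr rfl fun j _ => by ring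
    rw [e] at h1; exact h1
  have := discrim_le_zero key
  unfold discrim at this
  nlinarith [this]

/-- Young's inequality in the form used everywhere: `2⟨df,dk⟩ ≤ ε|df|² + ε⁻¹|dk|²`. -/
theorem rm_ip_young (h : rm_Met G U) (hu : u ∈ U) (f k : E d → ℝ) {ε : ℝ} (hε : 0 < ε) :
    2 * gradIpC G f k u ≤ ε * gradSqC G f u + ε⁻¹ * gradSqC G k u := by
  have h1 := rm_ip_cs h hu f k
  have a := rm_sq_nonneg h hu f
  have b := rm_sq_nonneg h hu k
  set X := gradSqC G f u
  set Y := gradSqC G k u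
  set Z := gradIpC G f k u
  have h2 : (2 * Z) ^ 2 ≤ (ε * X + ε⁻¹ * Y) ^ 2 := by
    have : (ε * X + ε⁻¹ * Y) ^ 2 - 4 * (X * Y) = (ε * X - ε⁻¹ * Y) ^ 2 := by
      field_simp; ring
    nlinarith [sq_nonneg (ε * X - ε⁻¹ * Y)]
  have h3 : 0 ≤ ε * X + ε⁻¹ * Y := by positivity
  exact le_trans (le_abs_self _) (abs_le_of_sq_le_sq h2 h3)

/-! ## Section B -/

theorem rm_pdiff_eventuallyEq {f' : E d → ℝ} (hf : f =ᶠ[𝓝 u] f') (j : Fin d) :
    (fun w => pdiff f j w) =ᶠ[𝓝 u] fun w => pdiff f' j w := by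
  have := Filter.EventuallyEq.fderiv (𝕜 := ℝ) hf
  filter_upwards [this] with w hw
  unfold pdiff; rw [hw]

theorem rm_hess_add (hU : IsOpen U) (hu : u ∈ U) (hf : ContDiffOn ℝ ∞ f U)
    (hk : ContDiffOn ℝ ∞ k U) (i j : Fin d) :
    hessC G (fun w => f w + k w) u i j = hessC G f u i j + hessC G k u i j := by
  unfold hessC
  rw [rm_pdiff_congr_on (g := fun w => pdiff f j w + pdiff k j w) hU hu
    (fun w hw => rm_pdiff_add (rm_da hU hf hw) (rm_da hU hk hw)),
    rm_pdiff_add (rm_da hU (rm_pdiff_smooth hU hf j) hu) (rm_da hU (rm_pdiff_smooth hU hk j) hu)]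
  simp only [rm_pdiff_add (rm_da hU hf hu) (rm_da hU hk hu), mul_add, Finset.sum_add_distrib]
  ring

theorem rm_hess_smul (hU : IsOpen U) (hu : u ∈ U) (c : ℝ) (hf : ContDiffOn ℝ ∞ f U)
    (i j : Fin d) : hessC G (fun w => c * f w) u i j = c * hessC G f u i j := by
  unfold hessC
  rw [rm_pdiff_congr_on (g := fun w => c * pdiff f j w) hU hu
    (fun w hw => rm_pdiff_const_mul c (rm_da hU hf hw)),
    rm_pdiff_const_mul c (rm_da hU (rm_pdiff_smooth hU hf j) hu)]
  simp only [rm_pdiff_const_mul c (rm_da hU hf hu)]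
  rw [mul_sub, Finset.mul_sum]
  congr 1
  exact Finset.sum_congr rfl fun l _ => by ring

theorem rm_hess_mul (hU : IsOpen U) (hu : u ∈ U) (hf : ContDiffOn ℝ ∞ f U)
    (hk : ContDiffOn ℝ ∞ k U) (i j : Fin d) :
    hessC G (fun w => f w * k w) u i j = f u * hessC G k u i j + k u * hessC G f u i j +
      (pdiff f i u * pdiff k j u + pdiff f j u * pdiff k i u) := by
  unfold hessC
  have df := rm_da hU hf hu
  have dk := rm_da hU hk hu
  have dfj := rm_da hU (rm_pdiff_smooth hU hf j) hu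
  have dkj := rm_da hU (rm_pdiff_smooth hU hk j) hu
  rw [rm_pdiff_congr_on (g := fun w => pdiff f j w * k w + f w * pdiff k j w) hU hu
    (fun w hw => rm_pdiff_mul (rm_da hU hf hw) (rm_da hU hk hw)),
    rm_pdiff_add (rm_da_mul dfj dk) (rm_da_mul df dkj), rm_pdiff_mul dfj dk, rm_pdiff_mul df dkj]
  simp only [rm_pdiff_mul df dk, mul_add, Finset.sum_add_distrib, mul_sub, Finset.mul_sum]
  have e1 : ∑ l : Fin d, christoffel G u l i j * (pdiff f l u * k u) =
      ∑ l : Fin d, k u * (christoffel G u l i j * pdiff f l u) :=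
    Finset.sum_congr rfl fun l _ => by ring
  have e2 : ∑ l : Fin d, christoffel G u l i j * (f u * pdiff k l u) =
      ∑ l : Fin d, f u * (christoffel G u l i j * pdiff k l u) :=
    Finset.sum_congr rfl fun l _ => by ring
  rw [e1, e2]; ring

theorem rm_hess_comp (hU : IsOpen U) (hu : u ∈ U) (hf : ContDiffOn ℝ ∞ f U) {φ : ℝ → ℝ}
    {I : Set ℝ} (hI : IsOpen I) (hφ : ContDiffOn ℝ ∞ φ I) (hfI : ∀ w ∈ U, f w ∈ I) (i j : Fin d) :
    hessC G (fun w => φ (f w)) u i j = deriv φ (f u) * hessC G f u i j +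
      deriv (deriv φ) (f u) * (pdiff f i u * pdiff f j u) := by
  unfold hessC
  have df := rm_da hU hf hu
  have dφ : ∀ x ∈ I, DifferentiableAt ℝ φ x := fun x hx =>
    (hφ.contDiffAt (hI.mem_nhds hx)).differentiableAt (by simp)
  have hφ' : ContDiffOn ℝ ∞ (deriv φ) I := hφ.deriv_of_isOpen hI (by simp)
  have dφ' : ∀ x ∈ I, DifferentiableAt ℝ (deriv φ) x := fun x hx =>
    (hφ'.contDiffAt (hI.mem_nhds hx)).differentiableAt (by simp)
  have dfj := rm_da hU (rm_pdiff_smooth hU hf j) hu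
  have dc : DifferentiableAt ℝ (fun w => deriv φ (f w)) u :=
    (dφ' _ (hfI u hu)).comp u df
  rw [rm_pdiff_congr_on (g := fun w => deriv φ (f w) * pdiff f j w) hU hu
    (fun w hw => rm_pdiff_comp (dφ _ (hfI w hw)) (rm_da hU hf hw)),
    rm_pdiff_mul dc dfj, rm_pdiff_comp (dφ' _ (hfI u hu)) df]
  simp only [rm_pdiff_comp (dφ _ (hfI u hu)) df]
  rw [mul_sub, Finset.mul_sum]
  have e1 : ∑ l : Fin d, christoffel G u l i j * (deriv φ (f u) * pdiff f l u) =
      ∑ l : Fin d, deriv φ (f u) * (christoffel G u l i j * pdiff f l u) :=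
    Finset.sum_congr rfl fun l _ => by ring
  rw [e1]; ring

theorem rm_lap_congr {f' : E d → ℝ} (hf : f =ᶠ[𝓝 u] f') : lapC G f u = lapC G f' u := by
  unfold lapC
  congr 1
  refine Finset.sum_congr rfl fun i _ => rm_pdiff_congr ?_
  have : ∀ j, (fun w => pdiff f j w) =ᶠ[𝓝 u] fun w => pdiff f' j w := rm_pdiff_eventuallyEq hf
  have h2 : ∀ᶠ w in 𝓝 u, ∀ j, pdiff f j w = pdiff f' j w := Filter.eventually_all.2 this
  filter_upwards [h2] with w hw
  simp only [hw]

theorem rm_lap_const (c : ℝ) : lapC G (fun _ => c) u = 0 := by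
  unfold lapC
  simp [rm_pdiff_const]

theorem rm_lap_add (h : rm_Met G U) (hu : u ∈ U) (hf : ContDiffOn ℝ ∞ f U)
    (hk : ContDiffOn ℝ ∞ k U) :
    lapC G (fun w => f w + k w) u = lapC G f u + lapC G k u := by
  rw [rm_lapC_eq h hu (hf.add hk), rm_lapC_eq h hu hf, rm_lapC_eq h hu hk]
  simp only [rm_hess_add h.opn hu hf hk, mul_add, Finset.sum_add_distrib]

theorem rm_lap_smul (h : rm_Met G U) (hu : u ∈ U) (c : ℝ) (hf : ContDiffOn ℝ ∞ f U) :
    lapC G (fun w => c * f w) u = c * lapC G f u := by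
  rw [rm_lapC_eq h hu (contDiffOn_const.mul hf), rm_lapC_eq h hu hf]
  simp only [rm_hess_smul h.opn hu c hf, Finset.mul_sum]
  exact Finset.sum_congr rfl fun i _ => Finset.sum_congr rfl fun j _ => by ring

theorem rm_lap_mul (h : rm_Met G U) (hu : u ∈ U) (hf : ContDiffOn ℝ ∞ f U)
    (hk : ContDiffOn ℝ ∞ k U) :
    lapC G (fun w => f w * k w) u =
      f u * lapC G k u + k u * lapC G f u + 2 * gradIpC G f k u := by
  rw [rm_lapC_eq h hu (hf.mul hk), rm_lapC_eq h hu hf, rm_lapC_eq h hu hk]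
  simp only [rm_hess_mul h.opn hu hf hk, mul_add, Finset.sum_add_distrib]
  have e1 : ∑ i : Fin d, ∑ j : Fin d, (G u)⁻¹ i j * (pdiff f i u * pdiff k j u) =
      gradIpC G f k u := by
    unfold gradIpC
    exact Finset.sum_congr rfl fun i _ => Finset.sum_congr rfl fun j _ => by ring
  have e2 : ∑ i : Fin d, ∑ j : Fin d, (G u)⁻¹ i j * (pdiff f j u * pdiff k i u) =
      gradIpC G f k u := by
    unfold gradIpC
    rw [Finset.sum_comm]
    exact Finset.sum_congr rfl fun i _ => Finset.sum_congr rfl fun j _ => by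
      rw [rm_inv_symm h hu j i]; ring
  rw [e1, e2]
  simp only [Finset.mul_sum]
  have e3 : ∑ i : Fin d, ∑ j : Fin d, (G u)⁻¹ i j * (f u * hessC G k u i j) =
      ∑ i : Fin d, ∑ j : Fin d, f u * ((G u)⁻¹ i j * hessC G k u i j) :=
    Finset.sum_congr rfl fun i _ => Finset.sum_congr rfl fun j _ => by ring
  have e4 : ∑ i : Fin d, ∑ j : Fin d, (G u)⁻¹ i j * (k u * hessC G f u i j) =
      ∑ i : Fin d, ∑ j : Fin d, k u * ((G u)⁻¹ i j * hessC G f u i j) :=
    Finset.sum_congr rfl fun i _ => Finset.sum_congr rfl fun j _ => by ring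
  rw [e3, e4]; ring

/-- chain rule; `φ` smooth on an open set `I` of `ℝ` which contains `f '' U`. -/
theorem rm_lap_comp (h : rm_Met G U) (hu : u ∈ U) (hf : ContDiffOn ℝ ∞ f U) {φ : ℝ → ℝ}
    {I : Set ℝ} (hI : IsOpen I) (hφ : ContDiffOn ℝ ∞ φ I) (hfI : ∀ w ∈ U, f w ∈ I) :
    lapC G (fun w => φ (f w)) u =
      deriv φ (f u) * lapC G f u + deriv (deriv φ) (f u) * gradSqC G f u := by
  have hc : ContDiffOn ℝ ∞ (fun w => φ (f w)) U := hφ.comp hf hfI
  rw [rm_lapC_eq h hu hc, rm_lapC_eq h hu hf]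
  simp only [rm_hess_comp h.opn hu hf hI hφ hfI, mul_add, Finset.sum_add_distrib]
  unfold gradSqC
  simp only [Finset.mul_sum]
  congr 1 <;>
  exact Finset.sum_congr rfl fun i _ => Finset.sum_congr rfl fun j _ => by ring

theorem rm_lap_log (h : rm_Met G U) (hu : u ∈ U) (hv : ContDiffOn ℝ ∞ v U)
    (hpos : ∀ w ∈ U, 0 < v w) :
    lapC G (fun w => Real.log (v w)) u = lapC G v u / v u - gradSqC G v u / v u ^ 2 := by
  have h0 : v u ≠ 0 := (hpos u hu).ne'
  rw [rm_lap_comp h hu hv (φ := Real.log) (I := Set.Ioi 0) isOpen_Ioi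
    (Real.contDiffOn_log.mono fun x hx => (ne_of_gt hx : x ≠ 0)) hpos]
  have e1 : deriv (deriv Real.log) (v u) = - (v u ^ 2)⁻¹ := by
    have : deriv Real.log = fun x => x⁻¹ := by funext x; exact Real.deriv_log x
    rw [this, deriv_inv]
  rw [e1, Real.deriv_log]
  field_simp
  ring

theorem rm_lap_exp (h : rm_Met G U) (hu : u ∈ U) (hf : ContDiffOn ℝ ∞ f U) :
    lapC G (fun w => Real.exp (f w)) u = Real.exp (f u) * (lapC G f u + gradSqC G f u) := by
  rw [rm_lap_comp h hu hf (φ := Real.exp) (I := Set.univ) isOpen_univ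
    Real.contDiff_exp.contDiffOn (fun _ _ => Set.mem_univ _)]
  simp only [Real.deriv_exp]
  ring

/-- weighted divergence form: `e^{t} div(e^{-t} ∇f) = Δ_t f`. -/
theorem rm_dlap_div (h : rm_Met G U) (hu : u ∈ U) (ht : ContDiffOn ℝ ∞ t U)
    (hf : ContDiffOn ℝ ∞ f U) :
    rm_dlapC G t f u = (Real.exp (- t u) * Real.sqrt (G u).det)⁻¹ * ∑ i : Fin d,
      pdiff (fun w => Real.exp (- t w) * Real.sqrt (G w).det *
        ∑ j : Fin d, (G w)⁻¹ i j * pdiff f j w) i u := by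
  have hs : 0 < Real.sqrt (G u).det := Real.sqrt_pos.2 (rm_det_pos h hu)
  have he : 0 < Real.exp (- t u) := Real.exp_pos _
  have dt := rm_da h.opn ht hu
  have dω : DifferentiableAt ℝ (fun w => Real.exp (- t w)) u := dt.neg.exp
  have hX : ∀ i, ContDiffOn ℝ ∞
      (fun w => Real.sqrt (G w).det * ∑ j : Fin d, (G w)⁻¹ i j * pdiff f j w) U := fun i =>
    (rm_sqrtdet_smooth h).mul (ContDiffOn.sum fun j _ =>
      (rm_inv_smooth h i j).mul (rm_pdiff_smooth h.opn hf j))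
  have pω : ∀ i, pdiff (fun w => Real.exp (- t w)) i u = - (Real.exp (- t u) * pdiff t i u) := by
    intro i
    have := rm_pdiff_comp (i := i) (φ := Real.exp) (f := fun w => - t w)
      Real.differentiableAt_exp dt.neg
    rw [this, Real.deriv_exp, rm_pdiff_neg]; ring
  have step : ∀ i, pdiff (fun w => Real.exp (- t w) * Real.sqrt (G w).det *
        ∑ j : Fin d, (G w)⁻¹ i j * pdiff f j w) i u =
      - (Real.exp (- t u) * pdiff t i u) *
        (Real.sqrt (G u).det * ∑ j : Fin d, (G u)⁻¹ i j * pdiff f j u) +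
      Real.exp (- t u) * pdiff (fun w => Real.sqrt (G w).det *
        ∑ j : Fin d, (G w)⁻¹ i j * pdiff f j w) i u := by
    intro i
    have e : (fun w => Real.exp (- t w) * Real.sqrt (G w).det *
        ∑ j : Fin d, (G w)⁻¹ i j * pdiff f j w) = fun w => Real.exp (- t w) *
        (Real.sqrt (G w).det * ∑ j : Fin d, (G w)⁻¹ i j * pdiff f j w) := by
      funext w; ring
    rw [e, rm_pdiff_mul dω (rm_da h.opn (hX i) hu), pω]
  simp only [step, Finset.sum_add_distrib, ← Finset.mul_sum]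
  unfold rm_dlapC lapC gradIpC
  have e2 : ∑ i : Fin d, -(Real.exp (-t u) * pdiff t i u) *
      (Real.sqrt (G u).det * ∑ j : Fin d, (G u)⁻¹ i j * pdiff f j u) =
      - (Real.exp (-t u) * Real.sqrt (G u).det) *
        ∑ i : Fin d, ∑ j : Fin d, (G u)⁻¹ i j * pdiff t i u * pdiff f j u := by
    simp only [Finset.mul_sum]
    exact Finset.sum_congr rfl fun i _ => Finset.sum_congr rfl fun j _ => by ring
  rw [e2]
  field_simp
  ring

/-! ## Section C -/

theorem rm_Dsc_add (h : rm_Met G U) (hu : u ∈ U) (ht : ContDiffOn ℝ ∞ t U)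
    (ha : ContDiffOn ℝ ∞ a U) :
    rm_DscC G (fun w => t w + a w) u =
      rm_DscC G t u + 2 * lapC G a u - 2 * gradIpC G t a u - gradSqC G a u := by
  have dt := rm_da h.opn ht hu
  have da := rm_da h.opn ha hu
  unfold rm_DscC
  rw [rm_lap_add h hu ht ha, if_gradSqC_eq, rm_ip_add_left dt da, rm_ip_add_right dt da,
    rm_ip_add_right dt da, rm_ip_comm h hu a t, if_gradSqC_eq, if_gradSqC_eq]
  ring

/-- appending circles / conformal weights (ruling 4 with `c = C/2`). -/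
theorem rm_Dsc_log (h : rm_Met G U) (hu : u ∈ U) (ht : ContDiffOn ℝ ∞ t U)
    (hv : ContDiffOn ℝ ∞ v U) (hpos : ∀ w ∈ U, 0 < v w) (c : ℝ) :
    rm_DscC G (fun w => t w - c * Real.log (v w)) u =
      rm_DscC G t u - 2 * c * rm_dlapC G t v u / v u +
        (2 * c - c ^ 2) * gradSqC G v u / v u ^ 2 := by
  have h0 : v u ≠ 0 := (hpos u hu).ne'
  have dv := rm_da h.opn hv hu
  have hl : ContDiffOn ℝ ∞ (fun w => Real.log (v w)) U :=
    hv.log fun w hw => (hpos w hw).ne'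
  have dl := rm_da h.opn hl hu
  have hcl : ContDiffOn ℝ ∞ (fun w => (-c) * Real.log (v w)) U := contDiffOn_const.mul hl
  have e : (fun w => t w - c * Real.log (v w)) = fun w => t w + (-c) * Real.log (v w) := by
    funext w; ring
  have dlog : DifferentiableAt ℝ Real.log (v u) := Real.differentiableAt_log h0
  rw [e, rm_Dsc_add h hu ht hcl, rm_lap_smul h hu (-c) hl, rm_lap_log h hu hv hpos,
    rm_ip_smul_right (-c) dl, rm_ip_comp_right dlog dv]
  simp only [if_gradSqC_eq]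
  rw [rm_ip_smul_left (-c) dl,
    rm_ip_smul_right (-c) dl, rm_ip_comp_left dlog dv, rm_ip_comp_right dlog dv, Real.deriv_log]
  unfold rm_dlapC
  field_simp
  ring

theorem rm_Dsc_smooth (h : rm_Met G U) (ht : ContDiffOn ℝ ∞ t U) :
    ContDiffOn ℝ ∞ (fun w => rm_DscC G t w) U := by
  unfold rm_DscC
  exact ((if_scalar_contDiffOn h.opn h.smooth (rm_det_ne h)).add
    (contDiffOn_const.mul (rm_lapC_smooth h ht))).sub
    (if_gradSqC_contDiffOn h.opn h.smooth (rm_det_ne h) ht)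

theorem rm_Dsc_congr {t' : E d → ℝ} (ht : t =ᶠ[𝓝 u] t') : rm_DscC G t u = rm_DscC G t' u := by
  unfold rm_DscC
  rw [rm_lap_congr ht, if_gradSqC_eq, if_gradSqC_eq, rm_ip_congr ht ht]

end Claimed.Agent.R315
end

/- ===== packed: Claimed.Agent.R315.Top.Defs ===== -/
section
/-!
# Row 315: definitions used by the top level statements
-/

set_option autoImplicit false
open scoped ContDiff
open MeasureTheory Claims.C0499

namespace Claimed.Agent.R315

variable {V : Type} [NormedAddCommGroup V] [NormedSpace ℝ V]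

/-- OUTPUT of the analytic parts: `M` has a cover by (traces of) open sets, locally finite on `M`,
of multiplicity `≤ k`, whose members have `rdist`-diameter `≤ C`. -/
def HasCover (k : ℕ) (M : Set V) (g : Ten V) (C : ℝ) : Prop :=
  ∃ (ι : Type) (U : ι → Set V),
    (∀ i, IsOpen (U i)) ∧ (M ⊆ ⋃ i, U i) ∧
    (∀ x ∈ M, ∃ W ∈ nhds x, {i | (U i ∩ W ∩ M).Nonempty}.Finite) ∧
    (∀ x ∈ M, ∀ s : Finset ι, (∀ i ∈ s, x ∈ U i) → s.card ≤ k) ∧
    (∀ i, ∀ x ∈ M ∩ U i, ∀ y ∈ M ∩ U i, rdist M g x y ≤ C)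

/-- complete Riemannian manifold with a drift function `w` such that `D(g,w) ≥ c`. -/
structure Drift (d : ℕ) (M : Set V) (g : Ten V) (w : V → ℝ) (c : ℝ) : Prop where
  mfd : IsMfd d M
  closed : IsClosed M
  conn : IsConnected M
  met : IsMetricOn d M g
  proper : IsProperOn M g
  smooth : SmoothAlong d M w
  bound : ∀ x ∈ M, c ≤ Dsc d M g w x

/-- stabilised scalar curvature of `(h, (p_a))`, `p_a` = logarithms of the circle lengths
(a locally finite family): `Scal_h - 2 Δ P - |dP|² - ∑ |dp_a|²`, `P = ∑ p_a`. -/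
noncomputable def Rw (d : ℕ) (M : Set V) (h : Ten V) (p : ℕ → V → ℝ) (x : V) : ℝ :=
  scal d M h x - 2 * lap d M h (fun y => ∑ᶠ a, p a y) x
    - gradSq d M h (fun y => ∑ᶠ a, p a y) x - ∑ᶠ a, gradSq d M h (p a) x

/-- stretched data over `(M, g)` at scale `D` (hypotheses of S Theorem 2.1). -/
structure Stretched (n : ℕ) (M : Set V) (g : Ten V) (D : ℝ) where
  /-- labels of the centres -/
  ι : Type
  cnt : Countable ι
  /-- centres -/
  x : ι → V
  /-- budget of the radial label -/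
  pst0 : ℝ
  /-- budgets of the centre labels -/
  pst : ι → ℝ
  /-- the stretched metric -/
  h : Ten V
  /-- the drift function (`-t` = sum of all log warps; weight `e^{-t}`) -/
  t : V → ℝ
  x_mem : ∀ i, x i ∈ M
  sep : ∀ i j, i ≠ j → D - 1 ≤ rdist M g (x i) (x j)
  cov : ∀ y ∈ M, ∃ i, rdist M g (x i) y ≤ D - 1
  far : ∀ i, ∃ y ∈ M, 2 * D ≤ rdist M g (x i) y
  pst0_pos : 0 < pst0
  pst_pos : ∀ i, 0 < pst i
  pst_sum : Summable pst
  pst_le : pst0 + ∑' i, pst i ≤ 1 / 20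
  h_met : IsMetricOn n M h
  h_ge : MetLE n M g h
  t_smooth : SmoothAlong n M t
  wide : ∀ i, ∀ y ∈ M, ∀ z ∈ M, rdist M g (x i) y ≤ D → 2 * D ≤ rdist M g (x i) z →
    10 + 2 * Real.pi * Real.sqrt (2 / pst i) < rdist M h y z
  curv : ∀ y ∈ M, 2 / 5 ≤ Dsc n M h t y

end Claimed.Agent.R315
end

/- ===== packed: Claimed.Agent.R315.Ss.Defs ===== -/
section
/-!
# Row 315, paper S (stretching): definitions (sub-captain helper59, prefix `ss`)

Paper: `/opt/papers/Spectral-scalar-curvature-and-uniform-Urysohn-width-October-5-2026/build/sections`.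
All objects are written in the language of `Core/Basic.lean`.

CONVENTIONS OF THE WHOLE FOLDER `Ss/`
* slopes are encoded by `σ = s² = |du|²_h = gradSq n M h u x`; every "function of the slope" of the
  paper is a function of `σ` here (so that it is a smooth function of the covector `du`);
* `r_A(x) = dist_{h0}(A,x)` is never used as a function; for a compact `A` we write
  `r_A x ≤ c` as `∃ a ∈ A, rdist M h0 a x ≤ c`, `r_A x < c` as `∃ a ∈ A, rdist M h0 a x < c`,
  `c ≤ r_A x` as `∀ a ∈ A, c ≤ rdist M h0 a x`;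
* "the changes have compact support in `X`" = there is a compact `K ⊆ X` such that the AMBIENT
  objects agree at every point of `M \ K`.
-/

set_option autoImplicit false
open scoped ContDiff
open MeasureTheory Claims.C0499

namespace Claimed.Agent.R315

variable {V : Type} [NormedAddCommGroup V] [NormedSpace ℝ V]

/-- the quadratic reserve `V(t) = t² + T²` (S (4.1)). -/
def ssV (T t : ℝ) : ℝ := t ^ 2 + T ^ 2

/-- the standing hypotheses on the carrier. -/
structure Carrier (n : ℕ) (M : Set V) : Prop where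
  mfd : IsMfd n M
  closed : IsClosed M
  conn : IsConnected M

/-- weighted divergence `div_{h,t}(𝔞(σ) ∇u) = 𝔞 Δu + 𝔞' ⟨dσ,du⟩ - 𝔞 ⟨dt,du⟩`, `σ = |du|²_h`. -/
noncomputable def ssDiv (d : ℕ) (M : Set V) (h : Ten V) (t : V → ℝ) (fl : ℝ → ℝ) (u : V → ℝ)
    (x : V) : ℝ :=
  fl (gradSq d M h u x) * lap d M h u x
    + deriv fl (gradSq d M h u x) * gradIp d M h (gradSq d M h u) u x
    - fl (gradSq d M h u x) * gradIp d M h t u x

/-- joint smoothness of `b (x, ζ, σ)` along `M × ℝ × (-1,∞)`. -/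
def SmoothAlong3 (d : ℕ) (M : Set V) (b : V → ℝ → ℝ → ℝ) : Prop :=
  ∀ (ψ : E d → V) (U : Set (E d)), IsParam M ψ U →
    ContDiffOn ℝ ∞ (fun p : E d × ℝ × ℝ => b (ψ p.1) p.2.1 p.2.2)
      (U ×ˢ (Set.univ ×ˢ Set.Ioi (-1 : ℝ)))

/-! ### the slope functions of S (5.3); `s0 = 1/100` -/

/-- the switch `σ(s)` of S Section 5.1 (called `sg` here): smooth, nondecreasing, `0` on
`(-∞, s0]`, `1` on `[5 s0, ∞)`, `0 ≤ sg' ≤ 60`. -/
structure IsSwitch (sg : ℝ → ℝ) : Prop where
  smooth : ContDiff ℝ ∞ sg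
  mono : Monotone sg
  zero : ∀ s, s ≤ 1 / 100 → sg s = 0
  one : ∀ s, 5 / 100 ≤ s → sg s = 1
  der : ∀ s, deriv sg s ≤ 60

/-- `μ = a² + (1-a²) sg(s)`. -/
noncomputable def ssMu (sg : ℝ → ℝ) (a σ : ℝ) : ℝ := a ^ 2 + (1 - a ^ 2) * sg (Real.sqrt σ)

/-- `θ = μ s²/(1+s²)`. -/
noncomputable def ssTh (sg : ℝ → ℝ) (a σ : ℝ) : ℝ := ssMu sg a σ * σ / (1 + σ)

/-- `β = log l = (1/2) log (1-θ)`. -/
noncomputable def ssBeta (sg : ℝ → ℝ) (a σ : ℝ) : ℝ := Real.log (1 - ssTh sg a σ) / 2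

/-- coefficient of `du²` in `h_u`: `θ/((1-θ)s²) = μ/(1+(1-μ)s²)`. -/
noncomputable def ssKap (sg : ℝ → ℝ) (a σ : ℝ) : ℝ := ssMu sg a σ / (1 + (1 - ssMu sg a σ) * σ)

/-- flux coefficient `k₁/s = √μ/√(1+s²)`. -/
noncomputable def ssFl (sg : ℝ → ℝ) (a σ : ℝ) : ℝ := Real.sqrt (ssMu sg a σ) / Real.sqrt (1 + σ)

/-- the multiplier `j = √(θ + a² s0²)`. -/
noncomputable def ssJ (sg : ℝ → ℝ) (a σ : ℝ) : ℝ := Real.sqrt (ssTh sg a σ + a ^ 2 * (1 / 100) ^ 2)

/-- general graph update of the metric: `h + κ(σ) du²`. -/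
noncomputable def ssHu (n : ℕ) (M : Set V) (h : Ten V) (kap : ℝ → ℝ) (u : V → ℝ) : Ten V :=
  fun x => h x + kap (gradSq n M h u x) • dsqT n M u x

/-- general graph update of the drift: `t - β(σ)`. -/
noncomputable def ssTu (n : ℕ) (M : Set V) (h : Ten V) (t : V → ℝ) (bet : ℝ → ℝ) (u : V → ℝ) :
    V → ℝ :=
  fun x => t x - bet (gradSq n M h u x)

/-- `η_ρ = ρ + (1-ρ) η₁²` (S (5.5)). -/
def ssEta (ρ : ℝ) (η1 : V → ℝ) (x : V) : ℝ := ρ + (1 - ρ) * η1 x ^ 2

/-! ### the pressure law (S Proposition 4.1) -/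

/-- `F : (-S0,S0) × ℝ → ℝ` is a signed pressure law with parameters `A0, P0, ε, b0` and
reserve scale `T`. -/
structure IsPressure (A0 P0 ε b0 S0 T : ℝ) (F : ℝ → ℝ → ℝ) : Prop where
  S0_pos : 0 < S0
  S0_le : S0 ≤ 1
  T_ge : 10 ≤ T
  smooth : ContDiffOn ℝ ∞ (fun p : ℝ × ℝ => F p.1 p.2) (Set.Ioo (-S0) S0 ×ˢ Set.univ)
  odd : ∀ x t, F (-x) t = -F x t
  fx_ge : ∀ x ∈ Set.Ioo (-S0) S0, ∀ t, A0 * Real.sqrt (ssV T t) ≤ deriv (fun y => F y t) x
  ft_le : ∀ x ∈ Set.Ioo (-S0) S0, ∀ t, |deriv (fun r => F x r) t| ≤ ε * |F x t|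
  fft_le : ∀ x ∈ Set.Ioo (-S0) S0, ∀ t,
    F x t * deriv (fun r => F x r) t ≤ ε * deriv (fun y => F y t) x
  alt : ∀ x ∈ Set.Ioo (-S0) S0, ∀ t, deriv (fun y => F y t) x ≤ b0 * ssV T t ∨
    P0 * deriv (fun y => F y t) x ≤ -(F x t * deriv (fun r => F x r) t)
  fx_le : ∀ x ∈ Set.Ioo (-S0) S0, ∀ t,
    deriv (fun y => F y t) x ≤ b0 * ssV T t + ε * F x t ^ 2
  pole : ∀ R L : ℝ, ∃ S, 0 < S ∧ S < S0 ∧ ∀ x ∈ Set.Ico S S0, ∀ t ∈ Set.Icc (-R) R, L ≤ F x t

/-! ### the three main intermediate statements as predicates -/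

/-- S Lemma 5.1 (local stretching) for the constants `δ, W, T`. -/
def SsLocal (n : ℕ) (δ W T : ℝ) : Prop :=
  ∀ (N : ℕ) (M : Set (E N)) (h0 h : Ten (E N)) (t : E N → ℝ) (A B : Set (E N)) (dd : ℝ),
    Carrier n M → IsMetricOn n M h0 → IsProperOn M h0 → IsMetricOn n M h → MetLE n M h0 h →
    SmoothAlong n M t → A ⊆ M → A.Nonempty → IsCompact A → B ⊆ M →
    (∀ x ∈ A, ∀ y ∈ B, W ≤ rdist M h0 x y) → 0 < dd → dd < δ →
    ∃ (h' : Ten (E N)) (t' : E N → ℝ) (K : Set (E N)),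
      IsMetricOn n M h' ∧ MetLE n M h h' ∧ SmoothAlong n M t' ∧ IsCompact K ∧
      (∀ x ∈ K, x ∈ M ∧ ∃ a ∈ A, rdist M h0 a x < W) ∧
      (∀ x ∈ M, x ∉ K → h' x = h x ∧ t' x = t x) ∧
      (∀ x ∈ M, Dsc n M h t x + max (ssV T (t' x) - ssV T (t x)) 0
          - δ * (trM n M h h0 x - trM n M h' h0 x) * ssV T (t' x) - dd * ssV T (t' x)
        ≤ Dsc n M h' t' x) ∧
      (∀ x ∈ A, ∀ y ∈ B, 1.004 * W ≤ rdist M h' x y)

/-- S Lemma 6.1 (one round of separations) for the constants `δ, W, T`. -/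
def SsRound (n : ℕ) (δ W T : ℝ) : Prop :=
  ∀ (N : ℕ) (M : Set (E N)) (h0 : Ten (E N)) (t0 : E N → ℝ) (c : ℝ) (ι : Type) (_ : Countable ι)
    (A B K : ι → Set (E N)),
    Carrier n M → IsMetricOn n M h0 → IsProperOn M h0 → SmoothAlong n M t0 →
    (∀ x ∈ M, c + ssV T (t0 x) ≤ Dsc n M h0 t0 x) →
    (∀ i, A i ⊆ M ∧ (A i).Nonempty ∧ IsCompact (A i) ∧ B i ⊆ M ∧ IsClosed (K i)) →
    (∀ i, ∀ x ∈ A i, ∀ y ∈ B i, W ≤ rdist M h0 x y) →
    (∀ i, ∀ x ∈ M, (∃ a ∈ A i, rdist M h0 a x < W) → x ∈ K i) →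
    (∀ x ∈ M, ∃ O ∈ nhds x, {i | (K i ∩ O).Nonempty}.Finite) →
    ∃ (h1 : Ten (E N)) (t1 : E N → ℝ),
      IsMetricOn n M h1 ∧ MetLE n M h0 h1 ∧ SmoothAlong n M t1 ∧
      (∀ x ∈ M, (∀ i, x ∉ K i) → h1 x = h0 x ∧ t1 x = t0 x) ∧
      (∀ x ∈ M, c + (1 - (n + 1) * δ) * ssV T (t1 x) ≤ Dsc n M h1 t1 x) ∧
      (∀ i, ∀ x ∈ A i, ∀ y ∈ B i, 1.004 * W ≤ rdist M h1 x y)

end Claimed.Agent.R315
end

/- ===== packed: Claimed.Agent.R315.Ss.ChartDefs ===== -/
section
/-!
# Row 315, paper S: chart level definitions (prefix `ss`, suffix `C`)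

`G : rm_MF d` a metric matrix on an open `U ⊆ E d` (`rm_Met G U`), `t u f : E d → ℝ` smooth on `U`.
`σ = gradSqC G u`, `s = √σ`; on `{σ > 0}`: `e = ∇u/s`.
All quantities are built from `gradIpC`, `lapC`, hence invariant under changes of coordinates.
-/

set_option autoImplicit false
open scoped ContDiff
open Claims.C0499

namespace Claimed.Agent.R315

variable {d : ℕ}

/-- `du ⊗ du` as a matrix field. -/
noncomputable def ssDuDu (u : E d → ℝ) : rm_MF d :=
  fun y => Matrix.of fun i j => pdiff u i y * pdiff u j y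

/-- `div_{G,t}(fl(σ) ∇u) = fl Δu + fl' ⟨dσ,du⟩ - fl ⟨dt,du⟩`. -/
noncomputable def ssDivC (G : rm_MF d) (t : E d → ℝ) (fl : ℝ → ℝ) (u : E d → ℝ) (y : E d) : ℝ :=
  fl (gradSqC G u y) * lapC G u y
    + deriv fl (gradSqC G u y) * gradIpC G (gradSqC G u) u y
    - fl (gradSqC G u y) * gradIpC G t u y

/-- `G_u = G + κ(σ) du²`. -/
noncomputable def ssHuC (G : rm_MF d) (kap : ℝ → ℝ) (u : E d → ℝ) : rm_MF d :=
  fun y => G y + kap (gradSqC G u y) • ssDuDu u y

/-- `t_u = t - β(σ)`. -/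
noncomputable def ssTuC (G : rm_MF d) (t : E d → ℝ) (bet : ℝ → ℝ) (u : E d → ℝ) : E d → ℝ :=
  fun y => t y - bet (gradSqC G u y)

/-- the slope `s = |du|_G`. -/
noncomputable def ssSl (G : rm_MF d) (u : E d → ℝ) (y : E d) : ℝ := Real.sqrt (gradSqC G u y)

/-- `e(f) = ⟨du,df⟩/s`. -/
noncomputable def ssE (G : rm_MF d) (u f : E d → ℝ) (y : E d) : ℝ := gradIpC G u f y / ssSl G u y

/-- mean curvature of the level sets of `u` w.r.t. `e`: `H = div e = (Δu - e(s))/s`. -/
noncomputable def ssH (G : rm_MF d) (u : E d → ℝ) (y : E d) : ℝ :=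
  (lapC G u y - ssE G u (ssSl G u) y) / ssSl G u y

/-- `K = - e(log k₁)`, `k₁ = √θ`, `θ = th(σ)`. -/
noncomputable def ssK (G : rm_MF d) (u : E d → ℝ) (th : ℝ → ℝ) (y : E d) : ℝ :=
  -ssE G u (fun w => Real.log (th (gradSqC G u w)) / 2) y

/-- `M₁ = H - e(t) - K`. -/
noncomputable def ssM1 (G : rm_MF d) (t u : E d → ℝ) (th : ℝ → ℝ) (y : E d) : ℝ :=
  ssH G u y - ssE G u t y - ssK G u th y

/-- `G0(e,e)` for a second matrix field `G0`: `b² = G0_{ij} e^i e^j`, `e^i = G^{ik} ∂_k u / s`. -/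
noncomputable def ssBsq (G G0 : rm_MF d) (u : E d → ℝ) (y : E d) : ℝ :=
  (∑ i, ∑ j, G0 y i j * (∑ k, (G y)⁻¹ i k * pdiff u k y) * (∑ k, (G y)⁻¹ j k * pdiff u k y))
    / gradSqC G u y

end Claimed.Agent.R315
end

/- ===== packed: Claimed.Agent.R315.Ss.CmpA ===== -/
section
/-!
# Row 315, paper S, package SS-CMP, part A: rank one updates `G + κ du²` (prefix `sscm_`)

Pure linear algebra (Sherman-Morrison, matrix determinant lemma) and its consequences for
`ssHuC G kap u`.  Owner: helper39.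
-/

set_option autoImplicit false
open scoped ContDiff Topology
open Claims.C0499

namespace Claimed.Agent.R315

section alg

variable {d : ℕ} {A : Matrix (Fin d) (Fin d) ℝ} {p : Fin d → ℝ} {κ : ℝ}

/-- `p pᵀ`. -/
def sscm_pp (p : Fin d → ℝ) : Matrix (Fin d) (Fin d) ℝ := Matrix.of fun i j => p i * p j

/-- `σ = pᵀ A⁻¹ p`. -/
noncomputable def sscm_sg (A : Matrix (Fin d) (Fin d) ℝ) (p : Fin d → ℝ) : ℝ :=
  ∑ i, ∑ j, A⁻¹ i j * p i * p j

/-- `A⁻¹ p`. -/
noncomputable def sscm_up (A : Matrix (Fin d) (Fin d) ℝ) (p : Fin d → ℝ) (i : Fin d) : ℝ :=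
  ∑ j, A⁻¹ i j * p j

theorem sscm_pp_eq (p : Fin d → ℝ) : sscm_pp p = Matrix.vecMulVec p p := by
  ext i j; simp [sscm_pp, Matrix.vecMulVec_apply]

theorem sscm_pp_psd (p : Fin d → ℝ) : (sscm_pp p).PosSemidef := by
  rw [sscm_pp_eq]
  simpa using Matrix.posSemidef_vecMulVec_self_star p

theorem sscm_r1_pos (hA : A.PosDef) (p : Fin d → ℝ) (hκ : 0 ≤ κ) :
    (A + κ • sscm_pp p).PosDef :=
  hA.add_posSemidef ((sscm_pp_psd p).smul hκ)

theorem sscm_sg_eq (A : Matrix (Fin d) (Fin d) ℝ) (p : Fin d → ℝ) :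
    sscm_sg A p = ∑ i, p i * sscm_up A p i := by
  unfold sscm_sg sscm_up
  refine Finset.sum_congr rfl fun i _ => ?_
  rw [Finset.mul_sum]
  exact Finset.sum_congr rfl fun j _ => by ring

theorem sscm_A_up (hA : A.PosDef) (p : Fin d → ℝ) (i : Fin d) :
    ∑ j, A i j * sscm_up A p j = p i := by
  have h1 : A * A⁻¹ = 1 := Matrix.mul_nonsing_inv A (isUnit_iff_ne_zero.2 hA.det_pos.ne')
  unfold sscm_up
  simp only [Finset.mul_sum]
  rw [Finset.sum_comm]
  have : ∀ k, ∑ j, A i j * (A⁻¹ j k * p k) = (A * A⁻¹) i k * p k := by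
    intro k
    rw [Matrix.mul_apply, Finset.sum_mul]
    exact Finset.sum_congr rfl fun j _ => by ring
  simp only [this, h1, Matrix.one_apply]
  simp

/-- Sherman-Morrison. -/
theorem sscm_r1_inv (hA : A.PosDef) (p : Fin d → ℝ) (hκ : 1 + κ * sscm_sg A p ≠ 0) :
    (A + κ • sscm_pp p)⁻¹ =
      A⁻¹ - (κ / (1 + κ * sscm_sg A p)) • sscm_pp (sscm_up A p) := by
  have h1 : A * A⁻¹ = 1 := Matrix.mul_nonsing_inv A (isUnit_iff_ne_zero.2 hA.det_pos.ne')
  refine Matrix.inv_eq_right_inv ?_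
  ext i k
  have e1 : ∑ j, A i j * A⁻¹ j k = (1 : Matrix (Fin d) (Fin d) ℝ) i k := by
    rw [← h1, Matrix.mul_apply]
  have hsym : ∀ j, A⁻¹ j k = A⁻¹ k j := by
    intro j
    have := hA.isHermitian.inv
    have h2 := congrFun (congrFun this k) j
    simpa using h2
  have e2 : ∑ j, p j * A⁻¹ j k = sscm_up A p k := by
    unfold sscm_up
    exact Finset.sum_congr rfl fun j _ => by rw [hsym j]; ring
  have e3 := sscm_A_up hA p i
  have e4 := sscm_sg_eq A p
  rw [Matrix.mul_apply]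
  simp only [Matrix.add_apply, Matrix.sub_apply, Matrix.smul_apply, sscm_pp, Matrix.of_apply,
    smul_eq_mul]
  have : ∑ j, (A i j + κ * (p i * p j)) *
      (A⁻¹ j k - κ / (1 + κ * sscm_sg A p) * (sscm_up A p j * sscm_up A p k)) =
      (∑ j, A i j * A⁻¹ j k) + κ * p i * (∑ j, p j * A⁻¹ j k)
        - κ / (1 + κ * sscm_sg A p) * sscm_up A p k * (∑ j, A i j * sscm_up A p j)
        - κ * p i * (κ / (1 + κ * sscm_sg A p)) * sscm_up A p k * (∑ j, p j * sscm_up A p j) := by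
    simp only [Finset.mul_sum, ← Finset.sum_add_distrib, ← Finset.sum_sub_distrib]
    exact Finset.sum_congr rfl fun j _ => by ring
  rw [this, e1, e2, e3, ← e4]
  field_simp
  ring

/-- matrix determinant lemma. -/
theorem sscm_r1_det (hA : A.PosDef) (p : Fin d → ℝ) (κ : ℝ) :
    (A + κ • sscm_pp p).det = A.det * (1 + κ * sscm_sg A p) := by
  have e : κ • sscm_pp p = Matrix.replicateCol Unit (κ • p) * Matrix.replicateRow Unit p := by
    ext i j
    simp [sscm_pp, Matrix.mul_apply, mul_assoc]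
  rw [e, Matrix.det_add_replicateCol_mul_replicateRow (isUnit_iff_ne_zero.2 hA.det_pos.ne')]
  congr 1
  rw [Matrix.det_unique]
  simp only [Matrix.add_apply, Matrix.one_apply_eq, Matrix.mul_apply, Matrix.replicateRow_apply,
    Matrix.replicateCol_apply, Pi.smul_apply, smul_eq_mul]
  congr 1
  unfold sscm_sg
  simp only [Finset.mul_sum, Finset.sum_mul]
  rw [Finset.sum_comm]
  exact Finset.sum_congr rfl fun i _ => Finset.sum_congr rfl fun j _ => by ring

/-- `B⁻¹ p = A⁻¹ p / (1 + κ σ)`. -/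
theorem sscm_r1_up (hA : A.PosDef) (p : Fin d → ℝ) (hκ : 1 + κ * sscm_sg A p ≠ 0) (i : Fin d) :
    sscm_up (A + κ • sscm_pp p) p i = sscm_up A p i / (1 + κ * sscm_sg A p) := by
  have e4 := sscm_sg_eq A p
  unfold sscm_up
  rw [sscm_r1_inv hA p hκ]
  simp only [Matrix.sub_apply, Matrix.smul_apply, sscm_pp, Matrix.of_apply, smul_eq_mul, sub_mul,
    Finset.sum_sub_distrib]
  have : ∑ j, κ / (1 + κ * sscm_sg A p) * (sscm_up A p i * sscm_up A p j) * p j =
      κ / (1 + κ * sscm_sg A p) * sscm_up A p i * ∑ j, p j * sscm_up A p j := by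
    rw [Finset.mul_sum]
    exact Finset.sum_congr rfl fun j _ => by ring
  rw [this, ← e4]
  have e5 : ∑ x, A⁻¹ i x * p x = sscm_up A p i := rfl
  rw [e5]
  field_simp
  ring

end alg

section chart

variable {d : ℕ} {G : rm_MF d} {U : Set (E d)} {u t : E d → ℝ} {y : E d}

theorem sscm_hu_eq (G : rm_MF d) (kap : ℝ → ℝ) (u : E d → ℝ) (y : E d) :
    ssHuC G kap u y = G y + kap (gradSqC G u y) • sscm_pp (fun i => pdiff u i y) := rfl

theorem sscm_sg_grad (G : rm_MF d) (u : E d → ℝ) (y : E d) :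
    sscm_sg (G y) (fun i => pdiff u i y) = gradSqC G u y := rfl

theorem sscm_sq_smooth (hG : rm_Met G U) (hu : ContDiffOn ℝ ∞ u U) :
    ContDiffOn ℝ ∞ (gradSqC G u) U :=
  if_gradSqC_contDiffOn hG.opn hG.smooth (rm_det_ne hG) hu

/-- `G_u` is a metric on an open `W ⊆ U` as soon as `κ ≥ 0` is smooth on the range of `σ`. -/
theorem sscm_hu_met (hG : rm_Met G U) (hu : ContDiffOn ℝ ∞ u U) {W : Set (E d)} (hW : IsOpen W)
    (hWU : W ⊆ U) {kap : ℝ → ℝ} {I : Set ℝ} (hk : ContDiffOn ℝ ∞ kap I)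
    (hσ : ∀ w ∈ W, gradSqC G u w ∈ I) (hk0 : ∀ σ ∈ I, 0 ≤ kap σ) :
    rm_Met (ssHuC G kap u) W := by
  refine ⟨hW, fun i j => ?_, fun w hw => ?_⟩
  · have e : (fun w => ssHuC G kap u w i j) =
        fun w => G w i j + kap (gradSqC G u w) * (pdiff u i w * pdiff u j w) := by
      funext w
      simp [ssHuC, ssDuDu]
    rw [e]
    exact ((hG.smooth i j).mono hWU).add ((hk.comp ((sscm_sq_smooth hG hu).mono hWU) hσ).mul
      (((rm_pdiff_smooth hG.opn hu i).mul (rm_pdiff_smooth hG.opn hu j)).mono hWU))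
  · rw [sscm_hu_eq]
    exact sscm_r1_pos (hG.pos w (hWU hw)) _ (hk0 _ (hσ w hw))

/-- = `ss_huC_met`. -/
theorem sscm_huC_met (hG : rm_Met G U) (hu : ContDiffOn ℝ ∞ u U) {kap : ℝ → ℝ}
    (hk : ContDiffOn ℝ ∞ kap (Set.Ioi (-1))) (hk0 : ∀ σ, 0 ≤ σ → 0 ≤ kap σ) :
    rm_Met (ssHuC G kap u) U :=
  sscm_hu_met hG hu hG.opn subset_rfl (I := Set.Ici 0)
    (hk.mono fun x (hx : 0 ≤ x) => (by
      show (-1 : ℝ) < x
      linarith))
    (fun w hw => rm_sq_nonneg hG hw u) hk0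

/-- `⟨df,du⟩_{G_u} = ⟨df,du⟩_G/(1+κσ)`. -/
theorem sscm_hu_ip (hG : rm_Met G U) (hy : y ∈ U) {kap : ℝ → ℝ}
    (hκ : 1 + kap (gradSqC G u y) * gradSqC G u y ≠ 0) (f : E d → ℝ) :
    gradIpC (ssHuC G kap u) f u y =
      gradIpC G f u y / (1 + kap (gradSqC G u y) * gradSqC G u y) := by
  have h1 : ∀ (B : rm_MF d), gradIpC B f u y =
      ∑ i, pdiff f i y * sscm_up (B y) (fun i => pdiff u i y) i := by
    intro B
    unfold gradIpC sscm_up
    refine Finset.sum_congr rfl fun i _ => ?_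
    rw [Finset.mul_sum]
    exact Finset.sum_congr rfl fun j _ => by ring
  rw [h1, h1, Finset.sum_div]
  refine Finset.sum_congr rfl fun i _ => ?_
  rw [sscm_hu_eq, sscm_r1_up (hG.pos y hy) _ hκ, sscm_sg_grad]
  ring

/-- = `ss_graph_sq`. -/
theorem sscm_graph_sq (hG : rm_Met G U) (hy : y ∈ U) :
    gradSqC (ssHuC G (fun _ => 1) u) u y = gradSqC G u y / (1 + gradSqC G u y) := by
  have h0 := rm_sq_nonneg hG hy u
  rw [if_gradSqC_eq, sscm_hu_ip hG hy (by simp only [one_mul]; positivity), one_mul,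
    ← if_gradSqC_eq]

/-- = `ss_trace`. -/
theorem sscm_trace {G0 : rm_MF d} (hG : rm_Met G U) {th kap : ℝ → ℝ}
    (hkap : ∀ σ, 0 < σ → kap σ = th σ / ((1 - th σ) * σ))
    (hlt : ∀ σ, 0 < σ → th σ < 1) (hy : y ∈ U) (hs : 0 < gradSqC G u y) :
    trC G G0 y - trC (ssHuC G kap u) G0 y = th (gradSqC G u y) * ssBsq G G0 u y := by
  have h1 : 0 < 1 - th (gradSqC G u y) := by linarith [hlt _ hs]
  have hκ : 1 + kap (gradSqC G u y) * gradSqC G u y = 1 / (1 - th (gradSqC G u y)) := by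
    rw [hkap _ hs]; field_simp; ring
  have hκ0 : 1 + kap (gradSqC G u y) * sscm_sg (G y) (fun i => pdiff u i y) ≠ 0 := by
    rw [sscm_sg_grad, hκ]; positivity
  unfold trC
  rw [← Matrix.trace_sub, ← Matrix.sub_mul, sscm_hu_eq, sscm_r1_inv (hG.pos y hy) _ hκ0,
    sub_sub_cancel, sscm_sg_grad, hκ, hkap _ hs]
  unfold ssBsq
  rw [Matrix.trace]
  simp only [Matrix.diag_apply, Matrix.mul_apply, Matrix.smul_apply, sscm_pp, Matrix.of_apply,
    smul_eq_mul]
  have e : ∀ i, sscm_up (G y) (fun i => pdiff u i y) i = ∑ k, (G y)⁻¹ i k * pdiff u k y :=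
    fun _ => rfl
  simp only [e]
  rw [mul_div_assoc', eq_div_iff hs.ne']
  simp only [Finset.sum_mul, Finset.mul_sum]
  rw [Finset.sum_comm]
  refine Finset.sum_congr rfl fun i _ => Finset.sum_congr rfl fun j _ => ?_
  simp only [← Finset.sum_mul, ← Finset.mul_sum]
  generalize (∑ k, (G y)⁻¹ i k * pdiff u k y) = a
  generalize (∑ k, (G y)⁻¹ j k * pdiff u k y) = b
  field_simp

/-- = `ss_graph_lap`. -/
theorem sscm_graph_lap (hG : rm_Met G U) (ht : ContDiffOn ℝ ∞ t U) (hu : ContDiffOn ℝ ∞ u U)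
    (hy : y ∈ U) :
    lapC (ssHuC G (fun _ => 1) u) u y
        - gradIpC (ssHuC G (fun _ => 1) u) (ssTuC G t (fun σ => -(Real.log (1 + σ) / 2)) u) u y
      = ssDivC G t (fun σ => 1 / (1 + σ)) u y := by
  have hσs := sscm_sq_smooth hG hu
  have hσ0 : ∀ w ∈ U, 0 < 1 + gradSqC G u w := fun w hw => by
    have := rm_sq_nonneg hG hw u
    positivity
  set tt : E d → ℝ := fun w => Real.log (1 + gradSqC G u w) / 2 with htt
  have htts : ContDiffOn ℝ ∞ tt U :=
    ((contDiffOn_const.add hσs).log fun w hw => (hσ0 w hw).ne').div_const 2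
  have hexp : ∀ w ∈ U, Real.exp (- tt w) = (Real.sqrt (1 + gradSqC G u w))⁻¹ := by
    intro w hw
    rw [htt]
    simp only
    rw [← Real.log_sqrt (hσ0 w hw).le, Real.exp_neg, Real.exp_log (Real.sqrt_pos.2 (hσ0 w hw))]
  have hdet : ∀ w ∈ U, Real.sqrt (ssHuC G (fun _ => 1) u w).det =
      Real.sqrt (G w).det * Real.sqrt (1 + gradSqC G u w) := by
    intro w hw
    rw [sscm_hu_eq, sscm_r1_det (hG.pos w hw), sscm_sg_grad, one_mul,
      Real.sqrt_mul (rm_det_pos hG hw).le]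
  have hfun : ∀ i, ∀ w ∈ U, Real.sqrt (ssHuC G (fun _ => 1) u w).det *
      ∑ j, (ssHuC G (fun _ => 1) u w)⁻¹ i j * pdiff u j w =
      Real.exp (- tt w) * Real.sqrt (G w).det * ∑ j, (G w)⁻¹ i j * pdiff u j w := by
    intro i w hw
    have e1 : ∑ j, (ssHuC G (fun _ => 1) u w)⁻¹ i j * pdiff u j w =
        (∑ j, (G w)⁻¹ i j * pdiff u j w) / (1 + gradSqC G u w) := by
      have := sscm_r1_up (κ := 1) (hG.pos w hw) (fun i => pdiff u i w)
        (by rw [sscm_sg_grad, one_mul]; exact (hσ0 w hw).ne') i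
      rw [sscm_sg_grad, one_mul] at this
      exact this
    rw [e1, hdet w hw, hexp w hw]
    have h2 := Real.sqrt_pos.2 (hσ0 w hw)
    have h3 : 1 + gradSqC G u w = Real.sqrt (1 + gradSqC G u w) ^ 2 :=
      (Real.sq_sqrt (hσ0 w hw).le).symm
    generalize (∑ j, (G w)⁻¹ i j * pdiff u j w) = a
    generalize Real.sqrt (1 + gradSqC G u w) = s1 at h2 h3 ⊢
    rw [h3]
    field_simp
  have hs1 := Real.sqrt_pos.2 (hσ0 y hy)
  have hs2 : 1 + gradSqC G u y = Real.sqrt (1 + gradSqC G u y) ^ 2 :=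
    (Real.sq_sqrt (hσ0 y hy).le).symm
  have hsd : 0 < Real.sqrt (G y).det := Real.sqrt_pos.2 (rm_det_pos hG hy)
  have hlap : lapC (ssHuC G (fun _ => 1) u) u y =
      (lapC G u y - gradIpC G tt u y) / (1 + gradSqC G u y) := by
    have h1 := rm_dlap_div hG hy htts hu
    unfold rm_dlapC at h1
    rw [h1]
    unfold lapC
    simp only [fun i => rm_pdiff_congr_on (i := i) hG.opn hy (hfun i)]
    rw [hdet y hy, hexp y hy]
    generalize (∑ i, pdiff (fun w => Real.exp (- tt w) * Real.sqrt (G w).det *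
      ∑ j, (G w)⁻¹ i j * pdiff u j w) i y) = a
    generalize Real.sqrt (1 + gradSqC G u y) = s1 at hs1 hs2 ⊢
    rw [hs2]
    field_simp
  have dσ := rm_da hG.opn hσs hy
  have dt := rm_da hG.opn ht hy
  have dtt := rm_da hG.opn htts hy
  have hφ : HasDerivAt (fun x : ℝ => Real.log (1 + x) / 2) (1 / (1 + gradSqC G u y) / 2)
      (gradSqC G u y) :=
    (((hasDerivAt_id _).const_add 1).log (hσ0 y hy).ne').div_const 2
  have hip : gradIpC G tt u y = 1 / (1 + gradSqC G u y) / 2 * gradIpC G (gradSqC G u) u y := by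
    rw [htt, rm_ip_comp_left (φ := fun x : ℝ => Real.log (1 + x) / 2) hφ.differentiableAt dσ,
      hφ.deriv]
  have hfl : HasDerivAt (fun x : ℝ => 1 / (1 + x)) (- 1 / (1 + gradSqC G u y) ^ 2)
      (gradSqC G u y) := by
    have := ((hasDerivAt_id (gradSqC G u y)).const_add 1).fun_inv (hσ0 y hy).ne'
    simpa [one_div] using this
  have htu : ssTuC G t (fun σ => -(Real.log (1 + σ) / 2)) u = fun w => t w + tt w := by
    funext w
    simp only [ssTuC, htt]
    ring
  rw [hlap, sscm_hu_ip hG hy (by rw [one_mul]; exact (hσ0 y hy).ne'), one_mul, htu,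
    rm_ip_add_left dt dtt, hip]
  unfold ssDivC
  rw [hfl.deriv]
  have h0 := (hσ0 y hy).ne'
  field_simp
  ring

/-- = `ss_div_eq`. -/
theorem sscm_div_eq (hG : rm_Met G U) (hu : ContDiffOn ℝ ∞ u U) {th fl : ℝ → ℝ}
    (hfl : ∀ σ, 0 < σ → fl σ = Real.sqrt (th σ) / Real.sqrt σ)
    (hy : y ∈ U) (hs : 0 < gradSqC G u y) (hthd : DifferentiableAt ℝ th (gradSqC G u y))
    (hpos : 0 < th (gradSqC G u y)) :
    ssDivC G t fl u y = Real.sqrt (th (gradSqC G u y)) * ssM1 G t u th y := by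
  have hσs := sscm_sq_smooth hG hu
  have dσ := rm_da hG.opn hσs hy
  have hsq := Real.hasDerivAt_sqrt hs.ne'
  have e1 : gradIpC G u (ssSl G u) y =
      1 / (2 * Real.sqrt (gradSqC G u y)) * gradIpC G u (gradSqC G u) y := by
    have : ssSl G u = fun w => Real.sqrt (gradSqC G u w) := rfl
    rw [this, rm_ip_comp_right hsq.differentiableAt dσ, hsq.deriv]
  have hφ : HasDerivAt (fun x : ℝ => Real.log (th x) / 2)
      (deriv th (gradSqC G u y) / th (gradSqC G u y) / 2) (gradSqC G u y) :=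
    (hthd.hasDerivAt.log hpos.ne').div_const 2
  have e2 : gradIpC G u (fun w => Real.log (th (gradSqC G u w)) / 2) y =
      deriv th (gradSqC G u y) / th (gradSqC G u y) / 2 * gradIpC G u (gradSqC G u) y := by
    rw [rm_ip_comp_right (φ := fun x : ℝ => Real.log (th x) / 2) hφ.differentiableAt dσ,
      hφ.deriv]
  have hfd : HasDerivAt fl ((deriv th (gradSqC G u y) / (2 * Real.sqrt (th (gradSqC G u y))) *
      Real.sqrt (gradSqC G u y) - Real.sqrt (th (gradSqC G u y)) *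
        (1 / (2 * Real.sqrt (gradSqC G u y)))) / Real.sqrt (gradSqC G u y) ^ 2)
      (gradSqC G u y) := by
    have h1 := (hthd.hasDerivAt.sqrt hpos.ne').div hsq (Real.sqrt_pos.2 hs).ne'
    refine h1.congr_of_eventuallyEq ?_
    filter_upwards [isOpen_Ioi.mem_nhds hs] with x hx
    exact hfl x hx
  unfold ssDivC ssM1 ssH ssK ssE
  rw [hfd.deriv, e1, e2, hfl _ hs, rm_ip_comm hG hy (gradSqC G u) u, rm_ip_comm hG hy t u]
  have hk := Real.sqrt_pos.2 hpos
  have hk2 : th (gradSqC G u y) = Real.sqrt (th (gradSqC G u y)) ^ 2 :=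
    (Real.sq_sqrt hpos.le).symm
  have hs1 := Real.sqrt_pos.2 hs
  show _ = Real.sqrt (th (gradSqC G u y)) * ((lapC G u y - 1 / (2 * Real.sqrt (gradSqC G u y)) *
    gradIpC G u (gradSqC G u) y / Real.sqrt (gradSqC G u y)) / Real.sqrt (gradSqC G u y) -
    gradIpC G u t y / Real.sqrt (gradSqC G u y) -
    -(deriv th (gradSqC G u y) / th (gradSqC G u y) / 2 * gradIpC G u (gradSqC G u) y /
      Real.sqrt (gradSqC G u y)))
  generalize gradIpC G u (gradSqC G u) y = a
  generalize gradIpC G u t y = b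
  generalize lapC G u y = c
  generalize deriv th (gradSqC G u y) = e
  rw [hk2]
  generalize Real.sqrt (th (gradSqC G u y)) = k at hk ⊢
  rw [Real.sqrt_sq hk.le]
  generalize Real.sqrt (gradSqC G u y) = s at hs1 ⊢
  field_simp
  ring

end chart

end Claimed.Agent.R315
end
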