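/- Packed by merge_tool.py (helper293): 9 modules of Claimed.Agent.R315 in one file, same declarations.
   Old modules, in this order: If.Sub, If.Vol, If.Lin, If.VolInt, If.Lap, If.Germ, Pk.Defs, Pk.Geom, Pk.Blend -/
import Mathlib
import Claimed.Agent.R322.Base.Area.Jac
import Claimed.Agent.R315.Pack003
import Claimed.Agent.R315.Pack006
import Claimed.Agent.R315.Pack001

/- ===== packed: Claimed.Agent.R315.If.Sub ===== -/
section
/-!
# Row 315 (S0571), interface, part 15: open subsets `M ∩ O` of a manifold (prefix `if_`)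

* `if_param_inter_iff` : the parametrisations of `M ∩ O` are the parametrisations of `M` with
  image in `O`;
* `if_mfd_inter`, `if_isMetricOn_inter`, `if_isTenOn_inter`, `if_smoothAlong_inter`,
  `if_metLE_inter`;
* `if_pv_inter` and its instances: the geometric quantities of `M ∩ O` are those of `M`.
Owner: helper274.
-/

set_option autoImplicit false
set_option linter.unusedSectionVars false

open scoped Topology ContDiff
open Claims.C0499 Set Function

namespace Claimed.Agent.R315

variable {V : Type} [NormedAddCommGroup V] [NormedSpace ℝ V]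
variable {d : ℕ} {M O : Set V} {ψ : E d → V} {U : Set (E d)} {g : Ten V}

theorem if_param_of_inter (hO : IsOpen O) (h : IsParam (M ∩ O) ψ U) : IsParam M ψ U := by
  obtain ⟨h1, h2, h3, h4, ⟨O₁, hO₁, he⟩, h6⟩ := h
  exact ⟨h1, h2, h3, h4, ⟨O ∩ O₁, hO.inter hO₁, by rw [he, inter_assoc]⟩, h6⟩

theorem if_param_inter (h : IsParam M ψ U) (hsub : ψ '' U ⊆ O) : IsParam (M ∩ O) ψ U := by
  obtain ⟨h1, h2, h3, h4, ⟨O₁, hO₁, he⟩, h6⟩ := h
  refine ⟨h1, h2, h3, h4, ⟨O₁, hO₁, ?_⟩, h6⟩
  apply Subset.antisymm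
  · intro x hx
    have : x ∈ M ∩ O₁ := he ▸ hx
    exact ⟨⟨this.1, hsub hx⟩, this.2⟩
  · rintro x ⟨⟨hxM, -⟩, hx₁⟩
    rw [he]
    exact ⟨hxM, hx₁⟩

theorem if_param_inter_iff (hO : IsOpen O) :
    IsParam (M ∩ O) ψ U ↔ IsParam M ψ U ∧ ψ '' U ⊆ O :=
  ⟨fun h => ⟨if_param_of_inter hO h, fun _ hx => (if_image_subset h hx).2⟩,
    fun h => if_param_inter h.1 h.2⟩

/-- restriction of a parametrisation to the preimage of an open set -/
theorem if_param_restrict (hO : IsOpen O) (h : IsParam M ψ U) :
    IsParam (M ∩ O) ψ (U ∩ ψ ⁻¹' O) := by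
  refine if_param_inter (if_mono h ((if_continuousOn h).isOpen_inter_preimage (if_open h) hO)
    inter_subset_left) ?_
  rintro _ ⟨u, hu, rfl⟩
  exact hu.2

theorem if_mfd_inter (hM : IsMfd d M) (hO : IsOpen O) : IsMfd d (M ∩ O) := by
  rintro p ⟨hpM, hpO⟩
  obtain ⟨ψ, U, h, u, hu, rfl⟩ := hM p hpM
  exact ⟨ψ, U ∩ ψ ⁻¹' O, if_param_restrict hO h, u, ⟨hu, hpO⟩, rfl⟩

theorem if_isTenOn_inter (hg : IsTenOn d M g) (hO : IsOpen O) : IsTenOn d (M ∩ O) g :=
  fun ψ U h => hg ψ U (if_param_of_inter hO h)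

theorem if_isMetricOn_inter (hg : IsMetricOn d M g) (hO : IsOpen O) : IsMetricOn d (M ∩ O) g :=
  fun ψ U h => hg ψ U (if_param_of_inter hO h)

theorem if_smoothAlong_inter {F : Type} [NormedAddCommGroup F] [NormedSpace ℝ F] {f : V → F}
    (hf : SmoothAlong d M f) (hO : IsOpen O) : SmoothAlong d (M ∩ O) f :=
  fun ψ U h => hf ψ U (if_param_of_inter hO h)

theorem if_metLE_inter {k : Ten V} (h : MetLE d M g k) (hO : IsOpen O) : MetLE d (M ∩ O) g k :=
  fun ψ U hp => h ψ U (if_param_of_inter hO hp)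

theorem if_Inv.inter {Φ : (E d → V) → E d → ℝ} (hΦ : if_Inv M Φ) (hO : IsOpen O) :
    if_Inv (M ∩ O) Φ :=
  fun ψ ψ' U U' u u' h h' => hΦ ψ ψ' U U' u u' (if_param_of_inter hO h) (if_param_of_inter hO h')

/-- an invariant quantity of `M ∩ O` is the invariant quantity of `M` -/
theorem if_pv_inter {Φ : (E d → V) → E d → ℝ} (hM : IsMfd d M) (hΦ : if_Inv M Φ) (hO : IsOpen O)
    {x : V} (hx : x ∈ M ∩ O) : pv (M ∩ O) Φ x = pv M Φ x := by
  obtain ⟨ψ, U, h, u, hu, rfl⟩ := if_mfd_inter hM hO x hx
  rw [if_pv_eq (hΦ.inter hO) h hu, if_pv_eq hΦ (if_param_of_inter hO h) hu]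

section inst

variable [FiniteDimensional ℝ V]

theorem if_scal_inter (hM : IsMfd d M) (hg : IsMetricOn d M g) (hO : IsOpen O) {x : V}
    (hx : x ∈ M ∩ O) : scal d (M ∩ O) g x = scal d M g x :=
  if_pv_inter hM (if_inv_scal hg) hO hx

theorem if_gradIp_inter (hM : IsMfd d M) (hg : IsMetricOn d M g) (hO : IsOpen O) {f k : V → ℝ}
    (hf : SmoothAlong d M f) (hk : SmoothAlong d M k) {x : V} (hx : x ∈ M ∩ O) :
    gradIp d (M ∩ O) g f k x = gradIp d M g f k x :=
  if_pv_inter hM (if_inv_gradIp hg hf hk) hO hx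

theorem if_gradSq_inter (hM : IsMfd d M) (hg : IsMetricOn d M g) (hO : IsOpen O) {f : V → ℝ}
    (hf : SmoothAlong d M f) {x : V} (hx : x ∈ M ∩ O) :
    gradSq d (M ∩ O) g f x = gradSq d M g f x :=
  if_pv_inter hM (if_inv_gradSq hg hf) hO hx

theorem if_trM_inter (hM : IsMfd d M) (hg : IsMetricOn d M g) (hO : IsOpen O) (k : Ten V) {x : V}
    (hx : x ∈ M ∩ O) : trM d (M ∩ O) g k x = trM d M g k x :=
  if_pv_inter hM (if_inv_tr hg k) hO hx

end inst

end Claimed.Agent.R315
end

/- ===== packed: Claimed.Agent.R315.If.Vol ===== -/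
section
/-!
# Row 315 (S0571), interface, part 9: the Riemannian volume measure (prefix `if_`)

* `if_isVol_unique` : there is at most one volume measure;
* `if_area` : area formula for a parametrisation (from `R322/Base/Area/Jac.lean`);
* `if_dens`, `if_volH` : `vol = dens • μHE[d]|_M` (ambient space = inner product space);
* `if_isVol_vol_ip`, `if_vol_eq`, `if_integral_vol` (general ambient space: `If/Lin.lean`).
Owner: helper274.
-/

set_option autoImplicit false
set_option linter.unusedSectionVars false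

open scoped Topology ContDiff Matrix ENNReal NNReal
open Claims.C0499 Set MeasureTheory MeasureTheory.Measure

namespace Claimed.Agent.R315

section unique

variable {V : Type} [NormedAddCommGroup V] [NormedSpace ℝ V] [MeasurableSpace V] [BorelSpace V]
variable {d : ℕ} {M : Set V} {g : Ten V}

/-- a volume measure is determined by a countable atlas -/
theorem if_isVol_unique [SecondCountableTopology V] (hM : IsMfd d M) {μ μ' : Measure V}
    (h : IsVol d M g μ) (h' : IsVol d M g μ') : μ = μ' := by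
  obtain ⟨ψ, U, hp, he⟩ := if_exists_atlas hM
  set C : ℕ → Set V := fun k => ψ k '' U k with hC
  have hCm : ∀ k, MeasurableSet (C k) := fun k =>
    if_measurableSet_image (hp k) (if_open (hp k)).measurableSet Subset.rfl
  have hDm : ∀ k, MeasurableSet (disjointed C k) := MeasurableSet.disjointed hCm
  have hDC : ∀ k, disjointed C k ⊆ C k := fun k => disjointed_subset C k
  have hD : ⋃ k, disjointed C k = M := by rw [iUnion_disjointed, he]
  have key : ∀ ν : Measure V, IsVol d M g ν → ∀ B, MeasurableSet B →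
      ν B = ∑' k, ∫⁻ u in U k ∩ ψ k ⁻¹' (B ∩ disjointed C k),
        ENNReal.ofReal (Real.sqrt (cm g (ψ k) u).det) := by
    intro ν hν B hB
    have h1 : ν B = ν (B ∩ M) := (measure_inter_conull hν.1).symm
    have h2 : B ∩ M = ⋃ k, B ∩ disjointed C k := by rw [← hD, inter_iUnion]
    rw [h1, h2, measure_iUnion
      (fun i j hij => ((disjoint_disjointed C) hij).mono inter_subset_right inter_subset_right)
      fun k => hB.inter (hDm k)]
    refine tsum_congr fun k => ?_
    rw [← hν.2 (ψ k) (U k) (hp k) _ inter_subset_left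
      (if_measurableSet_preimage (hp k) (hB.inter (hDm k))), image_inter_preimage]
    congr 1
    exact (inter_eq_right.2 (inter_subset_right.trans (hDC k))).symm
  ext B hB
  rw [key μ h B hB, key μ' h' B hB]

theorem if_vol_eq_of_isVol [SecondCountableTopology V] (hM : IsMfd d M) {μ : Measure V}
    (h : IsVol d M g μ) : vol d M g = μ := by
  have H : ∃ μ : Measure V, IsVol d M g μ := ⟨μ, h⟩
  unfold vol
  rw [dif_pos H]
  exact if_isVol_unique hM H.choose_spec h

end unique

section exist

variable {W : Type} [NormedAddCommGroup W] [InnerProductSpace ℝ W] [FiniteDimensional ℝ W]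
  [MeasurableSpace W] [BorelSpace W]
variable {d : ℕ} {M : Set W} {g : Ten W} {ψ : E d → W} {U : Set (E d)}

/-- the Euclidean metric as a tensor field -/
noncomputable def if_euc (W : Type) [NormedAddCommGroup W] [InnerProductSpace ℝ W] : Ten W :=
  fun _ => innerSL ℝ

theorem if_cm_euc (ψ : E d → W) (u : E d) : cm (if_euc W) ψ u =
    Matrix.of fun i j => inner ℝ (fderiv ℝ ψ u (eb i)) (fderiv ℝ ψ u (eb j)) := rfl

open Claimed.Agent.R322.Base.Area in
theorem if_nd_eq (L : E d →L[ℝ] W) :
    nd L = Real.sqrt (Matrix.of fun i j => inner ℝ (L (eb i)) (L (eb j))).det := by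
  rw [← Real.sqrt_sq (nd_nonneg L), nd_sq]
  congr 1
  show LinearMap.det ((ContinuousLinearMap.adjoint L ∘L L : E d →L[ℝ] E d) : E d →ₗ[ℝ] E d) = _
  rw [← LinearMap.det_toMatrix (EuclideanSpace.basisFun (Fin d) ℝ).toBasis]
  congr 1
  ext i j
  rw [LinearMap.toMatrix_apply]
  simp only [OrthonormalBasis.coe_toBasis, EuclideanSpace.basisFun_apply,
    OrthonormalBasis.coe_toBasis_repr_apply, EuclideanSpace.basisFun_repr, Matrix.of_apply,
    ContinuousLinearMap.coe_coe, ContinuousLinearMap.comp_apply]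
  rw [← ContinuousLinearMap.adjoint_inner_right, EuclideanSpace.inner_single_left]
  simp

theorem if_euc_posDef (h : IsParam M ψ U) {u : E d} (hu : u ∈ U) :
    0 < (cm (if_euc W) ψ u).det := by
  have h1 := if_nd_eq (fderiv ℝ ψ u)
  have h2 : Claimed.Agent.R322.Base.Area.nd (fderiv ℝ ψ u) ≠ 0 := by
    rw [Ne, Claimed.Agent.R322.Base.Area.nd_eq_zero_iff, not_not]
    exact if_imm h hu
  rw [h1] at h2
  exact Real.sqrt_pos.1 (lt_of_le_of_ne (Real.sqrt_nonneg _) (Ne.symm h2))

/-- **area formula** for a parametrisation -/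
theorem if_area (h : IsParam M ψ U) {A : Set (E d)} (hA : MeasurableSet A) (hAU : A ⊆ U)
    (f : W → ℝ≥0∞) : ∫⁻ x in ψ '' A, f x ∂(μHE[d] : Measure W) =
      ∫⁻ u in A, ENNReal.ofReal (Real.sqrt (cm (if_euc W) ψ u).det) * f (ψ u) := by
  have h1 := Claimed.Agent.R322.Base.Area.lintegral_image_eq_lintegral_nd_mul (f := ψ)
    (f' := fderiv ℝ ψ) hA
    (fun x hx => (if_differentiableAt h (hAU hx)).hasFDerivAt.hasFDerivWithinAt)
    ((if_injOn h).mono hAU) f
  rw [← EuclideanSpace.euclideanHausdorffMeasure_eq_volume d, euclideanHausdorffMeasure_def,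
    euclideanHausdorffMeasure_def, Measure.restrict_smul, Measure.restrict_smul,
    lintegral_smul_measure, lintegral_smul_measure, h1]
  simp only [if_nd_eq]
  rfl

/-- density of the Riemannian volume with respect to the Hausdorff measure -/
noncomputable def if_dens (d : ℕ) (M : Set W) (g : Ten W) : W → ℝ :=
  pv (d := d) M fun ψ u => Real.sqrt ((cm g ψ u).det / (cm (if_euc W) ψ u).det)

theorem if_inv_dens (g : Ten W) : if_Inv (d := d) M fun ψ u =>
    Real.sqrt ((cm g ψ u).det / (cm (if_euc W) ψ u).det) :=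
  (if_inv_detRatio g (if_euc W)).map Real.sqrt

theorem if_dens_eq (g : Ten W) (h : IsParam M ψ U) {u : E d} (hu : u ∈ U) :
    if_dens d M g (ψ u) = Real.sqrt ((cm g ψ u).det / (cm (if_euc W) ψ u).det) :=
  if_pv_eq (if_inv_dens g) h hu

/-- the Riemannian volume as a measure with density -/
noncomputable def if_volH (d : ℕ) (M : Set W) (g : Ten W) : Measure W :=
  ((μHE[d] : Measure W).restrict M).withDensity fun x => ENNReal.ofReal (if_dens d M g x)

theorem if_isVol_volH (hM : IsMfd d M) (g : Ten W) : IsVol d M g (if_volH d M g) := by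
  have hMm : MeasurableSet M := if_measurableSet hM
  constructor
  · unfold if_volH
    rw [withDensity_apply _ hMm.compl, Measure.restrict_restrict hMm.compl, compl_inter_self,
      Measure.restrict_empty, lintegral_zero_measure]
  · intro ψ U h A hAU hA
    have hm : MeasurableSet (ψ '' A) := if_measurableSet_image h hA hAU
    have hsub : ψ '' A ⊆ M := (image_mono hAU).trans (if_image_subset h)
    unfold if_volH
    rw [withDensity_apply _ hm, Measure.restrict_restrict hm, inter_eq_left.2 hsub,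
      if_area h hA hAU]
    refine setLIntegral_congr_fun hA fun u hu => ?_
    have hu' := hAU hu
    have h1 : 0 < (cm (if_euc W) ψ u).det := if_euc_posDef h hu'
    rw [if_dens_eq g h hu', ← ENNReal.ofReal_mul (Real.sqrt_nonneg _),
      ← Real.sqrt_mul h1.le, mul_div_cancel₀ _ h1.ne']

theorem if_vol_eq (hM : IsMfd d M) (g : Ten W) : vol d M g = if_volH d M g :=
  if_vol_eq_of_isVol hM (if_isVol_volH hM g)

theorem if_isVol_vol_ip (hM : IsMfd d M) (g : Ten W) : IsVol d M g (vol d M g) := by
  rw [if_vol_eq hM g]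
  exact if_isVol_volH hM g

theorem if_dens_nonneg (g : Ten W) (x : W) : 0 ≤ if_dens d M g x := by
  unfold if_dens pv
  refine Real.sSup_nonneg ?_
  rintro r ⟨ψ, U, u, -, -, -, rfl⟩
  exact Real.sqrt_nonneg _

theorem if_isTenOn_euc : IsTenOn d M (if_euc W) :=
  if_isTenOn_of_near ⟨univ, isOpen_univ, subset_univ _, contDiffOn_const⟩

theorem if_dens_smoothAlong (hg : IsMetricOn d M g) : SmoothAlong d M (if_dens d M g) := by
  refine if_pv_smoothAlong (if_inv_dens g) fun ψ U h => ?_
  have h1 : ContDiffOn ℝ ∞ (fun u => (cm g ψ u).det) U := if_det_contDiffOn (hg ψ U h).1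
  have h2 : ContDiffOn ℝ ∞ (fun u => (cm (if_euc W) ψ u).det) U :=
    if_det_contDiffOn (if_isTenOn_euc ψ U h)
  refine (h1.div h2 fun u hu => (if_euc_posDef h hu).ne').sqrt fun u hu => ?_
  exact (div_pos ((if_metC hg h).det_pos hu) (if_euc_posDef h hu)).ne'

theorem if_dens_pos (hg : IsMetricOn d M g) (hM : IsMfd d M) {x : W} (hx : x ∈ M) :
    0 < if_dens d M g x := by
  obtain ⟨ψ, U, h, u, hu, rfl⟩ := hM x hx
  rw [if_dens_eq g h hu]
  exact Real.sqrt_pos.2 (div_pos ((if_metC hg h).det_pos hu) (if_euc_posDef h hu))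

/-- integrals with respect to the volume measure -/
theorem if_integral_vol (hM : IsMfd d M) (hg : IsMetricOn d M g) (f : W → ℝ) :
    ∫ x, f x ∂(vol d M g) = ∫ x in M, if_dens d M g x * f x ∂(μHE[d] : Measure W) := by
  have hMm : MeasurableSet M := if_measurableSet hM
  have hc : ContinuousOn (if_dens d M g) M := if_smoothAlong_continuousOn hM (if_dens_smoothAlong hg)
  have ha : AEMeasurable (fun x => ENNReal.ofReal (if_dens d M g x))
      ((μHE[d] : Measure W).restrict M) :=
    ENNReal.measurable_ofReal.comp_aemeasurable (hc.aemeasurable hMm)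
  rw [if_vol_eq hM g, if_volH, integral_withDensity_eq_integral_toReal_smul₀ ha
    (Filter.Eventually.of_forall fun x => ENNReal.ofReal_lt_top)]
  simp only [ENNReal.toReal_ofReal (if_dens_nonneg g _), smul_eq_mul]

/-- the normalising constant of `μHE` -/
noncomputable def if_kap (d : ℕ) : ℝ≥0 :=
  addHaarScalarFactor (volume : Measure (E d)) μH[d]

theorem if_setIntegral_muHE (f : W → ℝ) (S : Set W) :
    ∫ x in S, f x ∂(μHE[d] : Measure W) = (if_kap d : ℝ) * ∫ x in S, f x ∂(μH[d] : Measure W) := by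
  rw [euclideanHausdorffMeasure_def, Measure.restrict_smul]
  exact integral_smul_nnreal_measure f _

end exist

end Claimed.Agent.R315
end

/- ===== packed: Claimed.Agent.R315.If.Lin ===== -/
section
/-!
# Row 315 (S0571), interface, part 16: change of the ambient space by a linear isomorphism

* `if_param_map`, `if_mfd_map` : `e '' M` is a manifold with the parametrisations `e ∘ ψ`;
* `if_pushT e g` : push-forward of a tensor, `if_cm_pushT`;
* `if_isVol_vol` : **the volume measure exists for every finite dimensional normed ambient space**.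
Owner: helper274.
-/

set_option autoImplicit false
set_option linter.unusedSectionVars false

open scoped Topology ContDiff ENNReal
open Claims.C0499 Set Function MeasureTheory

namespace Claimed.Agent.R315

variable {V V' : Type} [NormedAddCommGroup V] [NormedSpace ℝ V] [NormedAddCommGroup V']
  [NormedSpace ℝ V']
variable {d : ℕ} {M : Set V} {ψ : E d → V} {U : Set (E d)} {g : Ten V}

theorem if_param_map (e : V ≃L[ℝ] V') (h : IsParam M ψ U) : IsParam (e '' M) (e ∘ ψ) U := by
  have hinj : InjOn (e ∘ ψ) U := e.injective.comp_injOn (if_injOn h)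
  refine ⟨if_open h, e.contDiff.comp_contDiffOn (if_smooth h), fun u hu => ?_, hinj, ?_, ?_⟩
  · rw [e.comp_fderiv]
    exact e.injective.comp (if_imm h hu)
  · obtain ⟨O, hO, he⟩ := if_image h
    exact ⟨e '' O, e.isOpenMap _ hO, by rw [image_comp, he, image_inter e.injective]⟩
  · have h1 : ContinuousOn (invFunOn ψ U ∘ e.symm) ((e ∘ ψ) '' U) := by
      refine (if_contInv h).comp e.symm.continuous.continuousOn ?_
      rintro _ ⟨u, hu, rfl⟩
      simpa using mem_image_of_mem ψ hu
    refine h1.congr ?_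
    rintro _ ⟨u, hu, rfl⟩
    rw [hinj.leftInvOn_invFunOn hu]
    simp [if_leftInv h hu]

theorem if_mfd_map (e : V ≃L[ℝ] V') (hM : IsMfd d M) : IsMfd d (e '' M) := by
  rintro _ ⟨p, hp, rfl⟩
  obtain ⟨ψ, U, h, u, hu, rfl⟩ := hM p hp
  exact ⟨e ∘ ψ, U, if_param_map e h, u, hu, rfl⟩

/-- push-forward of a tensor field by a linear isomorphism -/
noncomputable def if_pushT (e : V ≃L[ℝ] V') (g : Ten V) : Ten V' :=
  fun y => (g (e.symm y)).bilinearComp (e.symm : V' →L[ℝ] V) (e.symm : V' →L[ℝ] V)

theorem if_cm_pushT (e : V ≃L[ℝ] V') (g : Ten V) (ψ : E d → V) (u : E d) :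
    cm (if_pushT e g) (e ∘ ψ) u = cm g ψ u := by
  ext i j
  unfold cm if_pushT
  rw [e.comp_fderiv]
  simp

variable [MeasurableSpace V] [BorelSpace V] [MeasurableSpace V'] [BorelSpace V']

/-- transport of a volume measure -/
theorem if_isVol_map (e : V ≃L[ℝ] V') {μ : Measure V'}
    (h : IsVol d (e '' M) (if_pushT e g) μ) :
    IsVol d M g (μ.map e.symm.toHomeomorph.toMeasurableEquiv) := by
  have key : ∀ S : Set V, (μ.map e.symm.toHomeomorph.toMeasurableEquiv) S = μ (e '' S) := by
    intro S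
    rw [MeasurableEquiv.map_apply, e.image_eq_preimage_symm]
    rfl
  constructor
  · rw [key, image_compl_eq e.bijective]
    exact h.1
  · intro ψ U hp A hAU hA
    rw [key, ← image_comp, h.2 (e ∘ ψ) U (if_param_map e hp) A hAU hA]
    simp only [if_cm_pushT]

/-- **existence of the volume measure** in a finite dimensional normed ambient space -/
theorem if_isVol_vol [FiniteDimensional ℝ V] (hM : IsMfd d M) (g : Ten V) :
    IsVol d M g (vol d M g) := by
  have h1 := if_isVol_map (g := g) (toEuclidean (E := V))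
    (if_isVol_vol_ip (if_mfd_map (toEuclidean (E := V)) hM) (if_pushT (toEuclidean (E := V)) g))
  rw [if_vol_eq_of_isVol hM h1]
  exact h1

theorem if_vol_compl [FiniteDimensional ℝ V] (hM : IsMfd d M) (g : Ten V) :
    vol d M g Mᶜ = 0 := (if_isVol_vol hM g).1

theorem if_vol_image [FiniteDimensional ℝ V] (hM : IsMfd d M) (g : Ten V) (h : IsParam M ψ U)
    {A : Set (E d)} (hAU : A ⊆ U) (hA : MeasurableSet A) :
    vol d M g (ψ '' A) = ∫⁻ u in A, ENNReal.ofReal (Real.sqrt (cm g ψ u).det) :=
  (if_isVol_vol hM g).2 ψ U h A hAU hA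

end Claimed.Agent.R315
end

/- ===== packed: Claimed.Agent.R315.If.VolInt ===== -/
section
/-!
# Row 315 (S0571), interface, part 17: integrals with respect to `vol` in a parametrisation

`V` any finite dimensional normed space, `h : IsParam M ψ U`, `A ⊆ U` measurable:

* `if_lintegral_vol_image` : `∫⁻ x in ψ '' A, f x ∂vol = ∫⁻ u in A, ofReal √det * f (ψ u)`;
* `if_integral_vol_image`  : `∫ x in ψ '' A, f x ∂vol = ∫ u in A, √det • f (ψ u)`;
* `if_integrableOn_vol_image`;
* `if_vol_inter` : `vol (M ∩ O) = (vol M).restrict O`;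
* `if_vol_lt_top_of_isCompact` : compact subsets of `M` have finite volume.
No measurability of `f` is needed.
Owner: helper274.
-/

set_option autoImplicit false
set_option linter.unusedSectionVars false

open scoped Topology ContDiff ENNReal NNReal
open Claims.C0499 Set Function MeasureTheory MeasureTheory.Measure

namespace Claimed.Agent.R315

variable {V : Type} [NormedAddCommGroup V] [NormedSpace ℝ V] [FiniteDimensional ℝ V]
  [MeasurableSpace V] [BorelSpace V]
variable {d : ℕ} {M : Set V} {ψ : E d → V} {U A : Set (E d)} {g : Ten V}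

/-- the volume density in a parametrisation -/
noncomputable def if_vd (g : Ten V) (ψ : E d → V) (u : E d) : ℝ := Real.sqrt (cm g ψ u).det

theorem if_vd_nonneg (g : Ten V) (ψ : E d → V) (u : E d) : 0 ≤ if_vd g ψ u := Real.sqrt_nonneg _

theorem if_vd_continuousOn (hg : IsTenOn d M g) (h : IsParam M ψ U) :
    ContinuousOn (if_vd g ψ) U :=
  ((if_det_contDiffOn (hg ψ U h)).continuousOn).sqrt

theorem if_vd_pos (hg : IsMetricOn d M g) (h : IsParam M ψ U) {u : E d} (hu : u ∈ U) :
    0 < if_vd g ψ u := Real.sqrt_pos.2 ((if_metC hg h).det_pos hu)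

theorem if_measurableEmbedding (h : IsParam M ψ U) (hAU : A ⊆ U) (hA : MeasurableSet A) :
    MeasurableEmbedding (A.domRestrict ψ) :=
  ((if_continuousOn h).mono hAU).measurableEmbedding hA ((if_injOn h).mono hAU)

theorem if_map_restrict (hM : IsMfd d M) (g : Ten V) (h : IsParam M ψ U) (hAU : A ⊆ U)
    (hA : MeasurableSet A) :
    Measure.map (A.domRestrict ψ) (comap (↑)
      ((volume : Measure (E d)).withDensity fun u => ENNReal.ofReal (if_vd g ψ u))) =
      (vol d M g).restrict (ψ '' A) := by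
  have hemb := if_measurableEmbedding h hAU hA
  ext t ht
  rw [Measure.map_apply hemb.measurable ht, Measure.restrict_apply ht,
    comap_apply _ Subtype.val_injective (fun s hs => hA.subtype_image hs) _
      (hemb.measurable ht)]
  have h1 : (Subtype.val '' (A.domRestrict ψ ⁻¹' t) : Set (E d)) = A ∩ ψ ⁻¹' t := by
    ext u
    constructor
    · rintro ⟨⟨v, hv⟩, hvt, rfl⟩
      exact ⟨hv, hvt⟩
    · rintro ⟨hu, hut⟩
      exact ⟨⟨u, hu⟩, hut, rfl⟩
  have hm : MeasurableSet (A ∩ ψ ⁻¹' t) := by
    have := hA.inter (if_measurableSet_preimage h ht)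
    rwa [← inter_assoc, inter_eq_left.2 hAU] at this
  rw [h1, withDensity_apply _ hm]
  have h2 := if_vol_image hM g h (inter_subset_left.trans hAU) hm
  rw [image_inter_preimage, inter_comm] at h2
  exact h2.symm

/-- **integral of a nonnegative function over a parametrised piece** -/
theorem if_lintegral_vol_image (hM : IsMfd d M) (hg : IsTenOn d M g) (h : IsParam M ψ U)
    (hAU : A ⊆ U) (hA : MeasurableSet A) (f : V → ℝ≥0∞) :
    ∫⁻ x in ψ '' A, f x ∂(vol d M g) = ∫⁻ u in A, ENNReal.ofReal (if_vd g ψ u) * f (ψ u) := by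
  rw [← if_map_restrict hM g h hAU hA, (if_measurableEmbedding h hAU hA).lintegral_map]
  simp only [Set.domRestrict_apply, ← Function.comp_apply (f := f)]
  rw [← (MeasurableEmbedding.subtype_coe hA).lintegral_map, map_comap_subtype_coe hA,
    setLIntegral_withDensity_eq_setLIntegral_mul_non_measurable₀ _ _ _ hA]
  · simp only [Pi.mul_apply]
  · simp only [Filter.eventually_true, ENNReal.ofReal_lt_top]
  · exact ENNReal.measurable_ofReal.comp_aemeasurable
      (((if_vd_continuousOn hg h).mono hAU).aemeasurable hA)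

theorem if_aemeasurable_vd (hg : IsTenOn d M g) (h : IsParam M ψ U) (hAU : A ⊆ U)
    (hA : MeasurableSet A) :
    AEMeasurable (fun u => (if_vd g ψ u).toNNReal) ((volume : Measure (E d)).restrict A) :=
  measurable_real_toNNReal.comp_aemeasurable
    (((if_vd_continuousOn hg h).mono hAU).aemeasurable hA)

variable {F : Type} [NormedAddCommGroup F] [NormedSpace ℝ F]

/-- **integral over a parametrised piece** -/
theorem if_integral_vol_image (hM : IsMfd d M) (hg : IsTenOn d M g) (h : IsParam M ψ U)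
    (hAU : A ⊆ U) (hA : MeasurableSet A) (f : V → F) :
    ∫ x in ψ '' A, f x ∂(vol d M g) = ∫ u in A, if_vd g ψ u • f (ψ u) := by
  rw [← if_map_restrict hM g h hAU hA, (if_measurableEmbedding h hAU hA).integral_map]
  simp only [Set.domRestrict_apply, ← Function.comp_apply (f := f), ENNReal.ofReal]
  rw [← (MeasurableEmbedding.subtype_coe hA).integral_map, map_comap_subtype_coe hA,
    setIntegral_withDensity_eq_setIntegral_smul₀ (if_aemeasurable_vd hg h hAU hA) _ hA]
  congr with x
  rw [NNReal.smul_def, Real.coe_toNNReal _ (if_vd_nonneg g ψ x)]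

theorem if_integrableOn_vol_image (hM : IsMfd d M) (hg : IsTenOn d M g) (h : IsParam M ψ U)
    (hAU : A ⊆ U) (hA : MeasurableSet A) (f : V → F) :
    IntegrableOn f (ψ '' A) (vol d M g) ↔ IntegrableOn (fun u => if_vd g ψ u • f (ψ u)) A := by
  rw [IntegrableOn, ← if_map_restrict hM g h hAU hA,
    (if_measurableEmbedding h hAU hA).integrable_map_iff]
  simp only [Set.domRestrict_eq, ← Function.comp_assoc, ENNReal.ofReal]
  rw [← (MeasurableEmbedding.subtype_coe hA).integrable_map_iff, map_comap_subtype_coe hA,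
    restrict_withDensity hA, integrable_withDensity_iff_integrable_coe_smul₀]
  · simp_rw [IntegrableOn, Real.coe_toNNReal _ (if_vd_nonneg g ψ _), Function.comp_apply]
  · exact if_aemeasurable_vd hg h hAU hA

/-- the volume measure of an open subset -/
theorem if_vol_inter (hM : IsMfd d M) (g : Ten V) {O : Set V} (hO : IsOpen O) :
    vol d (M ∩ O) g = (vol d M g).restrict O := by
  refine if_vol_eq_of_isVol (if_mfd_inter hM hO) ⟨?_, ?_⟩
  · have hm : MeasurableSet (M ∩ O)ᶜ := ((if_measurableSet hM).inter hO.measurableSet).compl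
    rw [Measure.restrict_apply hm]
    refine measure_mono_null ?_ (if_vol_compl hM g)
    rintro x ⟨hx, hxO⟩ hxM
    exact hx ⟨hxM, hxO⟩
  · intro ψ U h A hAU hA
    have h' := if_param_of_inter hO h
    rw [Measure.restrict_apply (if_measurableSet_image h' hA hAU), inter_eq_left.2,
      if_vol_image hM g h' hAU hA]
    exact (image_mono hAU).trans fun x hx => (if_image_subset h hx).2

/-- compact subsets of `M` have finite volume -/
theorem if_vol_lt_top_of_isCompact (hM : IsMfd d M) (hg : IsTenOn d M g) {K : Set V}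
    (hK : IsCompact K) (hKM : K ⊆ M) : vol d M g K < ⊤ := by
  -- every point has a neighbourhood of finite volume
  have hloc : ∀ x ∈ K, ∃ t ∈ 𝓝[K] x, vol d M g t < ⊤ := by
    intro x hx
    obtain ⟨ψ, U, h, u₀, hu, rfl⟩ := hM x (hKM hx)
    obtain ⟨r, hr, hball⟩ := Metric.nhds_basis_closedBall.mem_iff.1 ((if_open h).mem_nhds hu)
    obtain ⟨O, hO, he⟩ := if_image_open h Metric.isOpen_ball
      (Metric.ball_subset_closedBall.trans hball)
    have hmem : ψ u₀ ∈ M ∩ O := he ▸ mem_image_of_mem ψ (Metric.mem_ball_self hr)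
    refine ⟨M ∩ O, ?_, ?_⟩
    · exact Filter.inter_mem (Filter.mem_of_superset self_mem_nhdsWithin hKM)
        (mem_nhdsWithin_of_mem_nhds (hO.mem_nhds hmem.2))
    · rw [← he]
      refine (measure_mono (image_mono Metric.ball_subset_closedBall)).trans_lt ?_
      rw [if_vol_image hM g h hball measurableSet_closedBall]
      have hc : ContinuousOn (if_vd g ψ) (Metric.closedBall u₀ r) :=
        (if_vd_continuousOn hg h).mono hball
      have hi : IntegrableOn (if_vd g ψ) (Metric.closedBall u₀ r) :=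
        hc.integrableOn_compact (isCompact_closedBall u₀ r)
      exact hi.lintegral_lt_top
  exact hK.induction_on (by simp) (fun s t hst ht => (measure_mono hst).trans_lt ht)
    (fun s t hs ht => (measure_union_le s t).trans_lt (ENNReal.add_lt_top.2 ⟨hs, ht⟩)) hloc

end Claimed.Agent.R315
end

/- ===== packed: Claimed.Agent.R315.If.Lap ===== -/
section
/-!
# Row 315 (S0571), interface, part 18: the Laplacian and the drift scalar curvature (prefix `if_`)

* `if_inv_lap` : invariance of `lapC` (from `rm_lapC_eq` of helper39 and `if_PullC.trHess`);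
* `if_lap_eq`, `if_Dsc_eq` : values in a parametrisation;
* `if_lap_smoothAlong`, `if_Dsc_smoothAlong`; `if_lap_inter`, `if_Dsc_inter`.
Owner: helper274.
-/

set_option autoImplicit false
set_option linter.unusedSectionVars false

open scoped Topology ContDiff
open Claims.C0499 Set Function

namespace Claimed.Agent.R315

variable {V : Type} [NormedAddCommGroup V] [NormedSpace ℝ V]
variable {d : ℕ} {M : Set V} {ψ : E d → V} {U : Set (E d)} {g : Ten V}

theorem if_MetC.rm {G : E d → Matrix (Fin d) (Fin d) ℝ} (h : if_MetC U G) : rm_Met G U :=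
  ⟨h.isOpen, h.smooth, h.posDef⟩

theorem if_hessC_congr (G : E d → Matrix (Fin d) (Fin d) ℝ) {f f₁ : E d → ℝ} {u : E d}
    (hf : f =ᶠ[𝓝 u] f₁) (i j : Fin d) : hessC G f u i j = hessC G f₁ u i j := by
  unfold hessC pdiff
  have h1 : (fun w => fderiv ℝ f w (eb j)) =ᶠ[𝓝 u] fun w => fderiv ℝ f₁ w (eb j) := by
    filter_upwards [hf.fderiv (𝕜 := ℝ)] with w hw
    rw [hw]
  rw [h1.fderiv_eq, hf.fderiv_eq]

theorem if_lapC_eq_ctr {G : E d → Matrix (Fin d) (Fin d) ℝ} (h : if_MetC U G) {u : E d}
    (hu : u ∈ U) {f : E d → ℝ} (hf : ContDiffOn ℝ ∞ f U) :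
    lapC G f u = if_ctr (G u) (Matrix.of fun a b => hessC G f u a b) := by
  rw [rm_lapC_eq h.rm hu hf]
  rfl

variable [FiniteDimensional ℝ V]

theorem if_inv_lap (hg : IsMetricOn d M g) {f : V → ℝ} (hf : SmoothAlong d M f) :
    if_Inv (d := d) M fun ψ u => lapC (cm g ψ) (f ∘ ψ) u := by
  intro ψ ψ' U U' u u' h h' hu hu' he
  have hT := if_mem_trDom hu hu' he
  have e := if_tr_eq h' hu' he
  have h1 := (if_pullC hg h h').trHess hT (f' := f ∘ ψ')
    (by rw [e]; exact (if_smoothAlong_contDiffAt hf h' hu').of_le (by decide))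
  rw [e] at h1
  show lapC (cm g ψ) (f ∘ ψ) u = lapC (cm g ψ') (f ∘ ψ') u'
  rw [if_lapC_eq_ctr (if_metC hg h) hu (hf ψ U h), if_lapC_eq_ctr (if_metC hg h') hu' (hf ψ' U' h'),
    ← h1]
  congr 1
  ext a b
  exact if_hessC_congr _ (if_comp_eventuallyEq f h h' hT) a b

theorem if_lap_eq (hg : IsMetricOn d M g) {f : V → ℝ} (hf : SmoothAlong d M f)
    (h : IsParam M ψ U) {u : E d} (hu : u ∈ U) :
    lap d M g f (ψ u) = lapC (cm g ψ) (f ∘ ψ) u := if_pv_eq (if_inv_lap hg hf) h hu

theorem if_Dsc_eq (hg : IsMetricOn d M g) {t : V → ℝ} (ht : SmoothAlong d M t)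
    (h : IsParam M ψ U) {u : E d} (hu : u ∈ U) :
    Dsc d M g t (ψ u) = scalarCoord (cm g ψ) u + 2 * lapC (cm g ψ) (t ∘ ψ) u -
      gradSqC (cm g ψ) (t ∘ ψ) u := by
  unfold Dsc
  rw [if_scal_eq hg h hu, if_lap_eq hg ht h hu, if_gradSq_eq hg ht h hu]

theorem if_lap_smoothAlong (hg : IsMetricOn d M g) {f : V → ℝ} (hf : SmoothAlong d M f) :
    SmoothAlong d M (lap d M g f) :=
  if_pv_smoothAlong (if_inv_lap hg hf) fun ψ U h =>
    if_lapC_contDiffOn (if_open h) (if_metC hg h).smooth (fun _ hu => (if_metC hg h).det_pos hu)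
      (hf ψ U h)

theorem if_Dsc_smoothAlong (hg : IsMetricOn d M g) {t : V → ℝ} (ht : SmoothAlong d M t) :
    SmoothAlong d M (Dsc d M g t) := by
  intro ψ U h
  have h1 := if_scal_smoothAlong hg ψ U h
  have h2 := if_lap_smoothAlong hg ht ψ U h
  have h3 := if_gradSq_smoothAlong hg ht ψ U h
  exact (h1.add (contDiffOn_const.mul h2)).sub h3

theorem if_lap_inter (hM : IsMfd d M) (hg : IsMetricOn d M g) {O : Set V} (hO : IsOpen O)
    {f : V → ℝ} (hf : SmoothAlong d M f) {x : V} (hx : x ∈ M ∩ O) :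
    lap d (M ∩ O) g f x = lap d M g f x :=
  if_pv_inter hM (if_inv_lap hg hf) hO hx

theorem if_Dsc_inter (hM : IsMfd d M) (hg : IsMetricOn d M g) {O : Set V} (hO : IsOpen O)
    {t : V → ℝ} (ht : SmoothAlong d M t) {x : V} (hx : x ∈ M ∩ O) :
    Dsc d (M ∩ O) g t x = Dsc d M g t x := by
  unfold Dsc
  rw [if_scal_inter hM hg hO hx, if_lap_inter hM hg hO ht hx, if_gradSq_inter hM hg hO ht hx]

end Claimed.Agent.R315
end

/- ===== packed: Claimed.Agent.R315.If.Germ ===== -/
section
/-!
# Row 315 (S0571), interface, part 23: germ locality of the coordinate expressions (prefix `if_`)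

`G =ᶠ[𝓝 u] G'`, `f =ᶠ[𝓝 u] f'` ⇒ `christoffel`, `riemannCoord`, `ricciCoord`, `scalarCoord`,
`gradIpC`, `gradSqC`, `hessC`, `lapC` agree at `u`.  Consequences for `pv`-quantities:
`if_pv_congr`, `if_scal_congr`, `if_lap_congr`, `if_gradIp_congr`, `if_Dsc_congr`, `if_trM_congr`
(no smoothness hypotheses), `if_isMetricOn_local`, `if_smoothAlong_local`.
Owner: helper274.
-/

set_option autoImplicit false
set_option linter.unusedSectionVars false

open scoped Topology ContDiff
open Claims.C0499 Set Function Filter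

namespace Claimed.Agent.R315

variable {d : ℕ}

section chart

variable {G G' : E d → Matrix (Fin d) (Fin d) ℝ} {f f' k k' : E d → ℝ} {u : E d}

theorem if_pdiff_congr (h : f =ᶠ[𝓝 u] f') (i : Fin d) : pdiff f i u = pdiff f' i u := by
  unfold pdiff
  rw [h.fderiv_eq]

theorem if_entry_congr (h : G =ᶠ[𝓝 u] G') (i j : Fin d) :
    (fun w => G w i j) =ᶠ[𝓝 u] fun w => G' w i j :=
  h.mono fun _ hw => congrFun (congrFun hw i) j

theorem if_christoffel_congr (h : G =ᶠ[𝓝 u] G') (a i j : Fin d) :
    christoffel G u a i j = christoffel G' u a i j := by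
  unfold christoffel
  rw [h.self_of_nhds]
  simp only [if_pdiff_congr (if_entry_congr h _ _)]

theorem if_christoffel_eventuallyEq (h : G =ᶠ[𝓝 u] G') (a i j : Fin d) :
    (fun w => christoffel G w a i j) =ᶠ[𝓝 u] fun w => christoffel G' w a i j :=
  (eventually_eventually_nhds.2 h).mono fun _ hw => if_christoffel_congr hw a i j

theorem if_riemann_congr (h : G =ᶠ[𝓝 u] G') (l i j a : Fin d) :
    riemannCoord G u l i j a = riemannCoord G' u l i j a := by
  unfold riemannCoord
  simp only [if_pdiff_congr (if_christoffel_eventuallyEq h _ _ _), if_christoffel_congr h]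

theorem if_ricci_congr (h : G =ᶠ[𝓝 u] G') (j a : Fin d) :
    ricciCoord G u j a = ricciCoord G' u j a := by
  unfold ricciCoord
  simp only [if_riemann_congr h]

theorem if_scalar_congr (h : G =ᶠ[𝓝 u] G') : scalarCoord G u = scalarCoord G' u := by
  unfold scalarCoord
  rw [h.self_of_nhds]
  simp only [if_ricci_congr h]

theorem if_gradIpC_congr₂ (h : G u = G' u) (hf : f =ᶠ[𝓝 u] f') (hk : k =ᶠ[𝓝 u] k') :
    gradIpC G f k u = gradIpC G' f' k' u := by
  unfold gradIpC
  rw [h]
  simp only [if_pdiff_congr hf, if_pdiff_congr hk]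

theorem if_gradSqC_congr (h : G u = G' u) (hf : f =ᶠ[𝓝 u] f') :
    gradSqC G f u = gradSqC G' f' u := if_gradIpC_congr₂ h hf hf

theorem if_pdiff_eventuallyEq (h : f =ᶠ[𝓝 u] f') (i : Fin d) :
    (fun w => pdiff f i w) =ᶠ[𝓝 u] fun w => pdiff f' i w :=
  (eventually_eventually_nhds.2 h).mono fun _ hw => if_pdiff_congr hw i

theorem if_lapC_congr (h : G =ᶠ[𝓝 u] G') (hf : f =ᶠ[𝓝 u] f') : lapC G f u = lapC G' f' u := by
  unfold lapC
  rw [h.self_of_nhds]
  congr 1
  refine Finset.sum_congr rfl fun i _ => if_pdiff_congr ?_ i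
  have h2 : ∀ᶠ w in 𝓝 u, ∀ j, pdiff f j w = pdiff f' j w :=
    eventually_all.2 fun j => if_pdiff_eventuallyEq hf j
  filter_upwards [h, h2] with w hw hw2
  rw [hw]
  simp only [hw2]

end chart

variable {V : Type} [NormedAddCommGroup V] [NormedSpace ℝ V]
variable {M : Set V} {ψ : E d → V} {U : Set (E d)}

/-- two chart quantities which agree at all parametrisations of `x` have the same `pv` -/
theorem if_pv_congr {Φ Φ' : (E d → V) → E d → ℝ} {x : V}
    (H : ∀ (ψ : E d → V) (U : Set (E d)) (u : E d), IsParam M ψ U → u ∈ U → ψ u = x →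
      Φ ψ u = Φ' ψ u) : pv M Φ x = pv M Φ' x := by
  unfold pv
  congr 1
  ext r
  constructor
  · rintro ⟨ψ, U, u, h, hu, he, rfl⟩
    exact ⟨ψ, U, u, h, hu, he, H ψ U u h hu he⟩
  · rintro ⟨ψ, U, u, h, hu, he, rfl⟩
    exact ⟨ψ, U, u, h, hu, he, (H ψ U u h hu he).symm⟩

/-- points near `u` are mapped to `M ∩ O` -/
theorem if_eventually_mem (h : IsParam M ψ U) {u : E d} (hu : u ∈ U) {O : Set V}
    (hO : O ∈ 𝓝 (ψ u)) : ∀ᶠ w in 𝓝 u, ψ w ∈ M ∩ O := by
  filter_upwards [(if_open h).mem_nhds hu, (if_differentiableAt h hu).continuousAt hO] with w h1 h2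
  exact ⟨if_mem h h1, h2⟩

theorem if_cm_eventuallyEq {g g' : Ten V} (h : IsParam M ψ U) {u : E d} (hu : u ∈ U) {O : Set V}
    (hO : O ∈ 𝓝 (ψ u)) (H : ∀ y ∈ M ∩ O, g y = g' y) : cm g ψ =ᶠ[𝓝 u] cm g' ψ := by
  filter_upwards [if_eventually_mem h hu hO] with w hw
  unfold cm
  rw [H _ hw]

theorem if_comp_eventuallyEq' {X : Type} {f f' : V → X} (h : IsParam M ψ U) {u : E d} (hu : u ∈ U)
    {O : Set V} (hO : O ∈ 𝓝 (ψ u)) (H : ∀ y ∈ M ∩ O, f y = f' y) : f ∘ ψ =ᶠ[𝓝 u] f' ∘ ψ := by
  filter_upwards [if_eventually_mem h hu hO] with w hw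
  exact H _ hw

section glob

variable {g g' : Ten V} {x : V} {O : Set V}

theorem if_scal_congr (hO : O ∈ 𝓝 x) (H : ∀ y ∈ M ∩ O, g y = g' y) :
    scal d M g x = scal d M g' x :=
  if_pv_congr fun _ _ _ h hu he => if_scalar_congr (if_cm_eventuallyEq h hu (he ▸ hO) H)

theorem if_lap_congr {f f' : V → ℝ} (hO : O ∈ 𝓝 x) (H : ∀ y ∈ M ∩ O, g y = g' y)
    (Hf : ∀ y ∈ M ∩ O, f y = f' y) : lap d M g f x = lap d M g' f' x :=
  if_pv_congr fun _ _ _ h hu he => if_lapC_congr (if_cm_eventuallyEq h hu (he ▸ hO) H)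
    (if_comp_eventuallyEq' h hu (he ▸ hO) Hf)

theorem if_gradIp_congr {f f' k k' : V → ℝ} (hO : O ∈ 𝓝 x) (H : ∀ y ∈ M ∩ O, g y = g' y)
    (Hf : ∀ y ∈ M ∩ O, f y = f' y) (Hk : ∀ y ∈ M ∩ O, k y = k' y) :
    gradIp d M g f k x = gradIp d M g' f' k' x :=
  if_pv_congr fun _ _ _ h hu he =>
    if_gradIpC_congr₂ (if_cm_eventuallyEq h hu (he ▸ hO) H).self_of_nhds
      (if_comp_eventuallyEq' h hu (he ▸ hO) Hf) (if_comp_eventuallyEq' h hu (he ▸ hO) Hk)

theorem if_gradSq_congr {f f' : V → ℝ} (hO : O ∈ 𝓝 x) (H : ∀ y ∈ M ∩ O, g y = g' y)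
    (Hf : ∀ y ∈ M ∩ O, f y = f' y) : gradSq d M g f x = gradSq d M g' f' x :=
  if_gradIp_congr hO H Hf Hf

theorem if_Dsc_congr {t t' : V → ℝ} (hO : O ∈ 𝓝 x) (H : ∀ y ∈ M ∩ O, g y = g' y)
    (Ht : ∀ y ∈ M ∩ O, t y = t' y) : Dsc d M g t x = Dsc d M g' t' x := by
  unfold Dsc
  rw [if_scal_congr hO H, if_lap_congr hO H Ht, if_gradSq_congr hO H Ht]

theorem if_trM_congr {k k' : Ten V} (H : g x = g' x) (H' : k x = k' x) :
    trM d M g k x = trM d M g' k' x := by
  refine if_pv_congr fun ψ U u h hu he => ?_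
  unfold trC cm
  rw [he, H, H']

theorem if_isTenOn_local
    (H : ∀ x ∈ M, ∃ O ∈ 𝓝 x, ∃ g' : Ten V, IsTenOn d M g' ∧ ∀ y ∈ M ∩ O, g y = g' y) :
    IsTenOn d M g := by
  intro ψ U h i j u hu
  obtain ⟨O, hO, g', hg', He⟩ := H (ψ u) (if_mem h hu)
  have h1 : ContDiffAt ℝ ∞ (fun w => cm g' ψ w i j) u :=
    (hg' ψ U h i j).contDiffAt ((if_open h).mem_nhds hu)
  exact (h1.congr_of_eventuallyEq
    (if_entry_congr (if_cm_eventuallyEq h hu hO He) i j)).contDiffWithinAt

theorem if_isMetricOn_local
    (H : ∀ x ∈ M, ∃ O ∈ 𝓝 x, ∃ g' : Ten V, IsMetricOn d M g' ∧ ∀ y ∈ M ∩ O, g y = g' y) :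
    IsMetricOn d M g := by
  rw [if_isMetricOn_iff]
  refine ⟨if_isTenOn_local fun x hx => ?_, fun ψ U h u hu => ?_⟩
  · obtain ⟨O, hO, g', hg', He⟩ := H x hx
    exact ⟨O, hO, g', (if_isMetricOn_iff.1 hg').1, He⟩
  · obtain ⟨O, hO, g', hg', He⟩ := H (ψ u) (if_mem h hu)
    rw [(if_cm_eventuallyEq h hu hO He).self_of_nhds]
    exact (hg' ψ U h).2 u hu

theorem if_smoothAlong_local {F : Type} [NormedAddCommGroup F] [NormedSpace ℝ F] {f : V → F}
    (H : ∀ x ∈ M, ∃ O ∈ 𝓝 x, ∃ f' : V → F, SmoothAlong d M f' ∧ ∀ y ∈ M ∩ O, f y = f' y) :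
    SmoothAlong d M f := by
  intro ψ U h u hu
  obtain ⟨O, hO, f', hf', He⟩ := H (ψ u) (if_mem h hu)
  exact ((if_smoothAlong_contDiffAt hf' h hu).congr_of_eventuallyEq
    (if_comp_eventuallyEq' h hu hO He)).contDiffWithinAt

end glob

end Claimed.Agent.R315
end

/- ===== packed: Claimed.Agent.R315.Pk.Defs ===== -/
section
/-!
# Row 315, packets (P Sections 5, 6, Appendix A): definitions

Model (helper75 + refinements, channel msg 10177, accepted in RULINGS 4).

* A stage has a finite index type `ι` (the processed cuts) and an ambient finite dimensional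
  space `W` with a **frame** `F : Frame V W ι`: linear maps `F.q : W → V` (collapse to the ambient
  space `V` of the original manifold `M`), signed normal coordinates `F.t i : W → ℝ` and vectors
  `F.e i` with `t i (e j) = δ_ij`, `q (e i) = 0`; `(q, t)` is injective.  One cut replaces
  `(W, ι)` by `(W × ℝ, Option ι)` (`Frame.ext`).
* A status is `α : ι → SignType` (`0` = hit, `1` = plus side, `-1` = minus side).  The status space
  `E α` is a CLOSED subset of `W`, an embedded submanifold of dimension `n - hits α`.  The `E α`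
  are pairwise disjoint, so every datum (metric, drift, profiles, potentials, cores) is ONE ambient
  object on `W`; only its restriction to the `E α` matters.
* Product ends are literal: `F.drop i z = z - t i z • e i` is the projection to the face.
  Tail axiom `IsDiag.tail`; all thresholds are uniform on `q ⁻¹' K`, `K` compact in `V`.
* `Compat` = invariant under `F.drop i` far out.  For a metric this together with the
  normalisation `NormalAt` (at a hit entry `i` the vector `e i` is a unit normal of the ambient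
  tensor) says that the metric is `h_face + dt_i ²` in the tail.
* packet = `connectedComponentIn (E α) z`.  It is used only where `rdist` is used (`rdist` is `0`
  between different components!).
* The only curvature quantity is `Dsc d X h θ = Scal + 2 Δ θ - |dθ|²` (weight `e^{-θ}`), RULINGS 4.
-/

set_option autoImplicit false
open scoped ContDiff Topology
open MeasureTheory Claims.C0499

namespace Claimed.Agent.R315

/-! ### frames -/

/-- linear frame of a stage. -/
structure Frame (V W : Type) [NormedAddCommGroup V] [NormedSpace ℝ V] [NormedAddCommGroup W]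
    [NormedSpace ℝ W] (ι : Type) where
  /-- collapse -/
  q : W →L[ℝ] V
  /-- signed normal coordinates -/
  t : ι → W →L[ℝ] ℝ
  /-- normal directions -/
  e : ι → W
  q_e : ∀ i, q (e i) = 0
  t_e : ∀ i, t i (e i) = 1
  t_e_ne : ∀ i j, i ≠ j → t i (e j) = 0
  inj : ∀ z, q z = 0 → (∀ i, t i z = 0) → z = 0

variable {V W : Type} [NormedAddCommGroup V] [NormedSpace ℝ V] [NormedAddCommGroup W]
  [NormedSpace ℝ W] {ι : Type}

/-- projection to the face `t i = 0`. -/
noncomputable def Frame.drop (F : Frame V W ι) (i : ι) (z : W) : W := z - F.t i z • F.e i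

/-- the frame of stage zero. -/
noncomputable def Frame.base (V : Type) [NormedAddCommGroup V] [NormedSpace ℝ V] : Frame V V Empty where
  q := ContinuousLinearMap.id ℝ V
  t := fun i => i.elim
  e := fun i => i.elim
  q_e := fun i => i.elim
  t_e := fun i => i.elim
  t_e_ne := fun i => i.elim
  inj := fun _ h _ => h

/-- the frame after one more cut: the new coordinate is the last factor, its index is `none`. -/
noncomputable def Frame.ext (F : Frame V W ι) : Frame V (W × ℝ) (Option ι) where
  q := F.q.comp (ContinuousLinearMap.fst ℝ W ℝ)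
  t := fun o => o.elim (ContinuousLinearMap.snd ℝ W ℝ)
    (fun i => (F.t i).comp (ContinuousLinearMap.fst ℝ W ℝ))
  e := fun o => o.elim ((0 : W), (1 : ℝ)) (fun i => (F.e i, (0 : ℝ)))
  q_e := by
    rintro (_ | i)
    · simp
    · simp [F.q_e]
  t_e := by
    rintro (_ | i)
    · simp
    · simp [F.t_e]
  t_e_ne := by
    rintro (_ | i) (_ | j) hij
    · exact absurd rfl hij
    · simp
    · simp
    · have : i ≠ j := fun h => hij (by rw [h])
      simp [F.t_e_ne i j this]
  inj := by
    rintro ⟨z, s⟩ h1 h2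
    have h3 : s = 0 := by simpa using h2 none
    have h4 : z = 0 := F.inj z (by simpa using h1) (fun i => by simpa using h2 (some i))
    rw [h3, h4]; rfl

/-! ### statuses -/

/-- status: `0` = hit, `1`, `-1` = retained sides. -/
abbrev Stat (ι : Type) := ι → SignType

/-- number of hit entries. -/
def hits [Fintype ι] (α : Stat ι) : ℕ := ∑ i, if α i = 0 then 1 else 0

/-- appended status. -/
def Stat.ext (α : Stat ι) (s : SignType) : Stat (Option ι) := fun o => o.elim s α

/-- `β` is the elementary face of `α` in the entry `i`. -/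
def IsFace (i : ι) (α β : Stat ι) : Prop := α i ≠ 0 ∧ β i = 0 ∧ ∀ j, j ≠ i → β j = α j

/-! ### diagrams -/

/-- packet diagram over `M` (P Definition 5.1 in the embedded model). -/
structure IsDiag [Fintype ι] (n : ℕ) (M : Set V) (F : Frame V W ι) (E : Stat ι → Set W) :
    Prop where
  closed : ∀ α, IsClosed (E α)
  mfd : ∀ α, IsMfd (n - hits α) (E α)
  disj : ∀ α β, α ≠ β → Disjoint (E α) (E β)
  q_mem : ∀ α, ∀ z ∈ E α, F.q z ∈ M
  t_hit : ∀ α, ∀ z ∈ E α, ∀ i, α i = 0 → F.t i z = 0
  t_pos : ∀ α, ∀ z ∈ E α, ∀ i, α i = 1 → 0 ≤ F.t i z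
  t_neg : ∀ α, ∀ z ∈ E α, ∀ i, α i = -1 → F.t i z ≤ 0
  /-- full product tails, thresholds locally uniform over `V`. -/
  tail : ∀ i α β, IsFace i α β → ∀ K : Set V, IsCompact K → ∃ R : ℝ, ∀ z : W, F.q z ∈ K →
    R < (α i : ℝ) * F.t i z → (z ∈ E α ↔ F.drop i z ∈ E β)

/-- the union of all status spaces. -/
def tot (E : Stat ι → Set W) : Set W := ⋃ α, E α

/-- radial confinement: every packet lies over a compact subset of `V`. -/
def Conf (F : Frame V W ι) (E : Stat ι → Set W) : Prop :=
  ∀ α, ∀ z ∈ E α, ∃ K : Set V, IsCompact K ∧ ∀ y ∈ connectedComponentIn (E α) z, F.q y ∈ K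

/-- compatible datum: far out in every tail it is pulled back from the face; thresholds locally
uniform over `V`.  (Sets: use `φ = fun z => z ∈ U`, `X = Prop`.) -/
def Compat (F : Frame V W ι) (E : Stat ι → Set W) {X : Type} (φ : W → X) : Prop :=
  ∀ i, ∀ K : Set V, IsCompact K → ∃ R : ℝ, ∀ z ∈ tot E, F.q z ∈ K → R < |F.t i z| →
    φ (F.drop i z) = φ z

/-- continuous on every status space and compatible. -/
def CC (F : Frame V W ι) (E : Stat ι → Set W) {X : Type} [TopologicalSpace X] (φ : W → X) : Prop :=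
  (∀ α, ContinuousOn φ (E α)) ∧ Compat F E φ

/-- smooth along every status space and compatible. -/
def SC [Fintype ι] (n : ℕ) (F : Frame V W ι) (E : Stat ι → Set W) {X : Type}
    [NormedAddCommGroup X] [NormedSpace ℝ X] (φ : W → X) : Prop :=
  (∀ α, SmoothAlong (n - hits α) (E α) φ) ∧ Compat F E φ

/-- normalisation of an ambient tensor at hit entries: `e i` is a unit normal. -/
def NormalAt (F : Frame V W ι) (E : Stat ι → Set W) (h : Ten W) : Prop :=
  ∀ α, ∀ z ∈ E α, ∀ i, α i = 0 → ∀ w, h z (F.e i) w = F.t i w ∧ h z w (F.e i) = F.t i w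

/-- compatible smooth metric on a diagram. -/
structure IsPMetric [Fintype ι] (n : ℕ) (F : Frame V W ι) (E : Stat ι → Set W) (h : Ten W) :
    Prop where
  met : ∀ α, IsMetricOn (n - hits α) (E α) h
  compat : Compat F E h
  normal : NormalAt F E h

/-- `U` is relatively open in every status space. -/
def RelOpen (E : Stat ι → Set W) (U : Set W) : Prop :=
  ∀ α, ∀ z ∈ U ∩ E α, ∃ N ∈ 𝓝 z, N ∩ E α ⊆ U

/-- pointwise local Lipschitz slope of `f` on `(X, h)` at `z` is at most `c`. -/
def SlopeLE (X : Set W) (h : Ten W) (f : W → ℝ) (z : W) (c : ℝ) : Prop :=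
  ∀ ε : ℝ, 0 < ε → ∃ N ∈ 𝓝 z, ∀ y ∈ N ∩ X, ∀ y' ∈ N ∩ X,
    |f y - f y'| ≤ (c + ε) * rdist X h y y'

/-! ### the base data and the analytic data of a stage -/

/-- the original manifold and the labels with their forced sets and floors.  (In `Pk/Out.lean`:
`J = Option (centres)`, `none` = the radial label with empty forced sets, `inn (some i) = A_i` the
closed inner ball, `out (some i) = B_i` the complement of the outer ball.) -/
structure Base (V : Type) [NormedAddCommGroup V] [NormedSpace ℝ V] where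
  n : ℕ
  M : Set V
  g : Ten V
  /-- labels -/
  J : Type
  /-- forced positive sets `A_j` -/
  inn : J → Set V
  /-- forced negative sets `B_j` -/
  out : J → Set V
  /-- floors `p_j^*` -/
  pst : J → ℝ

/-- standing hypotheses on the base data. -/
structure Base.Ok (B : Base V) : Prop where
  mfd : IsMfd B.n B.M
  closed : IsClosed B.M
  conn : IsConnected B.M
  met : IsMetricOn B.n B.M B.g
  proper : IsProperOn B.M B.g
  cnt : Countable B.J
  pst_pos : ∀ j, 0 < B.pst j
  pst_sum : Summable B.pst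

/-- the data of a stage: status spaces, metric, drift, and for every label profile,
potential and the two cores.  (Entries of processed labels are junk.) -/
structure PData (W : Type) [NormedAddCommGroup W] [NormedSpace ℝ W] (ι I : Type) where
  E : Stat ι → Set W
  /-- metric -/
  h : Ten W
  /-- drift; the weight is `exp (- dr)` -/
  dr : W → ℝ
  /-- profiles `μ_j` -/
  mu : I → W → EReal
  /-- potentials `Π_j` -/
  pot : I → W → ℝ
  /-- positive cores `U_j^+` -/
  Up : I → Set W
  /-- negative cores `U_j^-` -/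
  Un : I → Set W

variable {I : Type}

/-- the undecided set `G_j` (as a subset of `W`). -/
def PData.und (P : PData W ι I) (j : I) : Set W := {z | z ∉ P.Up j ∧ z ∉ P.Un j}

/-- at least `k` labels of `rem` are undecided at `z`. -/
def PData.Cnt (P : PData W ι I) (rem : Set I) (k : ℕ) (z : W) : Prop :=
  ∃ s : Finset I, (∀ j ∈ s, j ∈ rem ∧ z ∈ P.und j) ∧ k ≤ s.card

/-- sum of the potentials of the remaining labels. -/
noncomputable def PData.potSum (P : PData W ι I) (rem : Set I) (z : W) : ℝ :=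
  ∑' j, rem.indicator (fun j => P.pot j z) j

/-- stage constants `a = .60 + .03 s`, `b = 1.12 - .05 s`, `λ = 1/4 - s/8`, `0 ≤ s ≤ 1`. -/
noncomputable def pkA (s : ℝ) : ℝ := 0.60 + 0.03 * s
noncomputable def pkB (s : ℝ) : ℝ := 1.12 - 0.05 * s
noncomputable def pkL (s : ℝ) : ℝ := 1 / 4 - s / 8

/-- conditions on one remaining label `j` (P (6.4) + forced preimages), at slope constant `a`. -/
structure LabelOk [Fintype ι] (B : Base V) (F : Frame V W ι) (P : PData W ι B.J) (a : ℝ)
    (j : B.J) : Prop where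
  mu_cc : CC F P.E (P.mu j)
  /-- profile inequality in slope form on the finite band -/
  slope : ∀ α, ∀ z ∈ P.E α, P.mu j z ≠ ⊤ → P.mu j z ≠ ⊥ →
    SlopeLE (P.E α) P.h (fun y => (P.mu j y).toReal) z
      ((a * (P.mu j z).toReal ^ 2 + P.pot j z) / 2)
  pot_sc : SC B.n F P.E (P.pot j)
  pot_ge : ∀ z ∈ tot P.E, B.pst j ≤ P.pot j z
  up_open : RelOpen P.E (P.Up j)
  un_open : RelOpen P.E (P.Un j)
  up_compat : Compat F P.E (fun z => z ∈ P.Up j)
  un_compat : Compat F P.E (fun z => z ∈ P.Un j)
  /-- closure of the core lies in the interior of the pole set -/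
  up_pole : ∀ α, ∀ z ∈ P.E α, z ∈ closure (P.Up j ∩ P.E α) →
    ∃ N ∈ 𝓝 z, ∀ y ∈ N ∩ P.E α, P.mu j y = ⊤
  un_pole : ∀ α, ∀ z ∈ P.E α, z ∈ closure (P.Un j ∩ P.E α) →
    ∃ N ∈ 𝓝 z, ∀ y ∈ N ∩ P.E α, P.mu j y = ⊥
  forced_up : ∀ z ∈ tot P.E, F.q z ∈ B.inn j → z ∈ P.Up j
  forced_un : ∀ z ∈ tot P.E, F.q z ∈ B.out j → z ∈ P.Un j

/-- label `j` is passive at `z` with multiplier `c` (P (6.8)). -/
def PData.Passive (P : PData W ι I) (pst : I → ℝ) (c : ℝ) (j : I) (z : W) : Prop :=
  P.mu j z = ⊥ ∧ z ∈ P.Un j ∧ z ∉ P.Up j ∧ P.pot j z = c * pst j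

/-- separation + confinement for the label `j` which is processed next: a connected subset of a
status space which misses one of the two cores of `j` lies over a compact subset of `V`.
(After the radial stage: a consequence of `Conf`.  At stage zero, `j` = radial label: alternating
plateaus, P Lemma 6.1.) -/
def SepConf (F : Frame V W ι) (P : PData W ι I) (j : I) : Prop :=
  ∀ α, ∀ C : Set W, C ⊆ P.E α → IsPreconnected C → (Disjoint C (P.Un j) ∨ Disjoint C (P.Up j)) →
    ∃ K : Set V, IsCompact K ∧ ∀ y ∈ C, F.q y ∈ K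

/-- **The invariant** of a stage (P Section 6.1 + Definition 6.2), the same for stage zero
(`ι = Empty`, `W = V`, `E = fun _ => M`) and for the later stages:
`rem` = unprocessed labels, `s ∈ [0,1]` = stage parameter, `c` = passive multiplier.
Confinement (`Conf`, true after the radial stage) is NOT part of it. -/
structure Inv [Fintype ι] (B : Base V) (F : Frame V W ι) (P : PData W ι B.J) (rem : Set B.J)
    (s c : ℝ) : Prop where
  diag : IsDiag B.n B.M F P.E
  met : IsPMetric B.n F P.E P.h
  /-- every packet is complete -/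
  proper : ∀ α, ∀ z ∈ P.E α, IsProperOn (connectedComponentIn (P.E α) z) P.h
  dr_sc : SC B.n F P.E P.dr
  label : ∀ j ∈ rem, LabelOk B F P (pkA s) j
  /-- finite exceptional data, locally uniformly over `V` -/
  passive : ∀ K : Set V, IsCompact K →
    {j | j ∈ rem ∧ ∃ z ∈ tot P.E, F.q z ∈ K ∧ ¬ P.Passive B.pst c j z}.Finite
  c_ge : 1 ≤ c
  /-- scalar requirement on the required set `D_E` -/
  curv : ∀ α, ∀ z ∈ P.E α, P.Cnt rem (B.n - hits α - 1) z →
    pkL s + pkB s * P.potSum rem z ≤ Dsc (B.n - hits α) (P.E α) P.h P.dr z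

/-! ### the link between two consecutive stages -/

/-- `E'` (over `F.ext`) is obtained from `E` by cutting along `u = 0`; `Φ` is the (discontinuous)
map which sends a point to its copy in the new diagram. -/
structure Link [Fintype ι] (B : Base V) (F : Frame V W ι) (E : Stat ι → Set W)
    (E' : Stat (Option ι) → Set (W × ℝ)) (u : W → ℝ) (Φ : W → W × ℝ) (ε : ℝ) : Prop where
  u_cc : CC F E u
  /-- T1 -/
  status : ∀ α, ∀ z ∈ E α, Φ z ∈ E' (α.ext (SignType.sign (u z)))
  /-- T2 -/
  pull : ∀ (X : Type) [TopologicalSpace X] (φ : W × ℝ → X), CC F.ext E' φ → CC F E (φ ∘ Φ)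
  /-- T3 -/
  disp : ∀ z ∈ tot E, rdist B.M B.g (F.q z) (F.ext.q (Φ z)) ≤ ε
  parent : ∀ α', (E' α').Nonempty → (E (fun i => α' (some i))).Nonempty

/-- bundled stage. -/
structure Stage (V : Type) [NormedAddCommGroup V] [NormedSpace ℝ V] (I : Type) where
  ι : Type
  W : Type
  [fι : Fintype ι]
  [nW : NormedAddCommGroup W]
  [sW : NormedSpace ℝ W]
  [dW : FiniteDimensional ℝ W]
  F : Frame V W ι
  P : PData W ι I

attribute [instance] Stage.fι Stage.nW Stage.sW Stage.dW

/-! ### the input of the construction -/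

/-- the centres: data of the partition construction. -/
structure Cen (V : Type) [NormedAddCommGroup V] [NormedSpace ℝ V] where
  n : ℕ
  M : Set V
  g : Ten V
  D : ℝ
  /-- centre labels -/
  I : Type
  x : I → V
  /-- floors of the centre labels -/
  pst : I → ℝ
  /-- floor of the radial label -/
  pst0 : ℝ

/-- inner closed ball `A_i`. -/
def Cen.inn (C : Cen V) (i : C.I) : Set V := {y | y ∈ C.M ∧ rdist C.M C.g (C.x i) y ≤ C.D}

/-- complement `B_i` of the outer ball. -/
def Cen.out (C : Cen V) (i : C.I) : Set V := {y | y ∈ C.M ∧ 2 * C.D ≤ rdist C.M C.g (C.x i) y}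

/-- the base data: labels `Option I`, `none` = radial label. -/
def Cen.base (C : Cen V) : Base V where
  n := C.n
  M := C.M
  g := C.g
  J := Option C.I
  inn := fun j => j.elim ∅ C.inn
  out := fun j => j.elim ∅ C.out
  pst := fun j => j.elim C.pst0 C.pst

/-- the input of the partition construction (= `Stretched`, `Top/Defs.lean`). -/
structure PkInit (C : Cen V) (h : Ten V) (θ : V → ℝ) : Prop where
  ok : C.base.Ok
  n4 : 4 ≤ C.n
  D1 : 1 < C.D
  x_mem : ∀ i, C.x i ∈ C.M
  /-- the outer balls are locally finite -/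
  locfin : ∀ K : Set V, IsCompact K → {i | ∃ y ∈ K ∩ C.M, y ∉ C.out i}.Finite
  cov : ∀ y ∈ C.M, ∃ i, rdist C.M C.g (C.x i) y ≤ C.D - 1
  far : ∀ i, (C.out i).Nonempty
  pst_le : C.pst0 + ∑' i, C.pst i ≤ 1 / 20
  h_met : IsMetricOn C.n C.M h
  h_ge : MetLE C.n C.M C.g h
  dr_smooth : SmoothAlong C.n C.M θ
  wide : ∀ i, ∀ y ∈ C.inn i, ∀ z ∈ C.out i,
    10 + 2 * Real.pi * Real.sqrt (2 / C.pst i) < rdist C.M h y z
  curv : ∀ y ∈ C.M, 2 / 5 ≤ Dsc C.n C.M h θ y

end Claimed.Agent.R315
end

/- ===== packed: Claimed.Agent.R315.Pk.Geom ===== -/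
section
/-!
# Row 315, packets: elementary geometry of a diagram (P Appendix A.2, first part)

Everything here follows from `IsDiag` and `Compat` alone.

* frame algebra (`Frame.t_drop_self`, ...), `Frame.isCompact_box`;
* `IsDiag.isCompact_trunc`: truncations `{z ∈ E α | q z ∈ K, |t i z| ≤ R}` are compact;
* `IsDiag.tail_induction`: THE induction principle ("sector decomposition", P (A.3)): to prove a
  property of all points over `K`, prove it on a truncation and show that it is inherited from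
  `F.drop i z` when `|t i z|` is large;
* `CC.exists_compact`, `CC.bounded`, `CC.pos_lower`: compatible continuous functions take their
  values over `K` in a compact set ("packetwise bounds").
-/

set_option autoImplicit false
open scoped ContDiff Topology
open MeasureTheory Claims.C0499

namespace Claimed.Agent.R315

variable {V W : Type} [NormedAddCommGroup V] [NormedSpace ℝ V] [NormedAddCommGroup W]
  [NormedSpace ℝ W] {ι : Type}

/-! ### frames -/

theorem Frame.q_drop (F : Frame V W ι) (i : ι) (z : W) : F.q (F.drop i z) = F.q z := by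
  simp [Frame.drop, F.q_e]

theorem Frame.t_drop_self (F : Frame V W ι) (i : ι) (z : W) : F.t i (F.drop i z) = 0 := by
  simp [Frame.drop, F.t_e]

theorem Frame.t_drop_ne (F : Frame V W ι) {i j : ι} (h : j ≠ i) (z : W) :
    F.t j (F.drop i z) = F.t j z := by
  simp [Frame.drop, F.t_e_ne j i h]

theorem Frame.drop_add_smul (F : Frame V W ι) (i : ι) (z : W) (s : ℝ) :
    F.drop i (z + s • F.e i) = F.drop i z := by
  simp only [Frame.drop, map_add, map_smul, F.t_e, smul_eq_mul, mul_one, add_smul]
  abel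

theorem Frame.drop_of_t_eq_zero (F : Frame V W ι) {i : ι} {z : W} (h : F.t i z = 0) :
    F.drop i z = z := by
  simp [Frame.drop, h]

theorem Frame.continuous_drop (F : Frame V W ι) (i : ι) : Continuous (F.drop i) := by
  unfold Frame.drop
  exact continuous_id.sub ((F.t i).continuous.smul continuous_const)

/-- `(q, t)` is proper. -/
theorem Frame.isCompact_box [FiniteDimensional ℝ W] (F : Frame V W ι) {K : Set V}
    (hK : IsCompact K) (R : ℝ) : IsCompact {z | F.q z ∈ K ∧ ∀ i, |F.t i z| ≤ R} := by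
  let L : W →L[ℝ] V × (ι → ℝ) := F.q.prod (ContinuousLinearMap.pi F.t)
  have hker : LinearMap.ker (L : W →ₗ[ℝ] V × (ι → ℝ)) = ⊥ := by
    rw [LinearMap.ker_eq_bot']
    intro z hz
    have h1 : F.q z = 0 := congrArg Prod.fst hz
    have h2 : ∀ i, F.t i z = 0 := fun i => congrFun (congrArg Prod.snd hz) i
    exact F.inj z h1 h2
  have hemb : Topology.IsClosedEmbedding L := LinearMap.isClosedEmbedding_of_injective hker
  have hc : IsCompact (K ×ˢ Set.pi Set.univ fun _ : ι => Set.Icc (-R) R) :=
    hK.prod (isCompact_univ_pi fun _ => isCompact_Icc)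
  have := hemb.isCompact_preimage hc
  convert this using 1
  ext z
  simp only [Set.mem_ofPred_eq, Set.mem_preimage, Set.mem_prod, Set.mem_pi, Set.mem_univ,
    forall_true_left, Set.mem_Icc, abs_le]
  rfl

theorem mem_tot {W ι : Type} {E : Stat ι → Set W} {z : W} : z ∈ tot E ↔ ∃ α, z ∈ E α :=
  Set.mem_iUnion

theorem cc_q (F : Frame V W ι) (E : Stat ι → Set W) : CC F E F.q :=
  ⟨fun _ => F.q.continuous.continuousOn, fun i _ _ => ⟨0, fun z _ _ _ => F.q_drop i z⟩⟩

/-! ### statuses -/

theorem hits_ext [Fintype ι] (α : Stat ι) (s : SignType) :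
    hits (α.ext s) = hits α + if s = 0 then 1 else 0 := by
  unfold hits
  rw [Fintype.sum_option]
  simp only [Stat.ext, Option.elim]
  exact add_comm _ _

theorem hits_le_parent [Fintype ι] (α' : Stat (Option ι)) :
    hits α' ≤ hits (fun i => α' (some i)) + 1 := by
  unfold hits
  rw [Fintype.sum_option]
  have : (if α' none = 0 then 1 else 0) ≤ 1 := by split_ifs <;> simp
  show _ ≤ (∑ i, if α' (some i) = 0 then 1 else 0) + 1
  omega

open Classical in
/-- the elementary face of `α` in the entry `i`. -/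
noncomputable def Stat.face (α : Stat ι) (i : ι) : Stat ι := Function.update α i 0

theorem Stat.isFace_face (α : Stat ι) {i : ι} (h : α i ≠ 0) : IsFace i α (α.face i) := by
  classical
  refine ⟨h, by simp [Stat.face], fun j hj => by simp [Stat.face, Function.update_of_ne hj]⟩

theorem IsFace.eq_face {i : ι} {α β : Stat ι} (h : IsFace i α β) : β = α.face i := by
  classical
  funext j
  by_cases hj : j = i
  · subst hj; simp [Stat.face, h.2.1]
  · simp [Stat.face, Function.update_of_ne hj, h.2.2 j hj]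

/-! ### diagrams -/

section diag

variable [Fintype ι] {n : ℕ} {M : Set V} {F : Frame V W ι} {E : Stat ι → Set W}

/-- on `E α` the coordinate `t i` has the sign `α i`. -/
theorem IsDiag.sign_mul (hD : IsDiag n M F E) {α : Stat ι} {z : W} (hz : z ∈ E α) (i : ι) :
    (α i : ℝ) * F.t i z = |F.t i z| := by
  rcases h : α i with _ | _ | _
  · have : α i = 0 := h
    simp [hD.t_hit α z hz i this]
  · have h' : α i = -1 := h
    have := hD.t_neg α z hz i h'
    rw [abs_of_nonpos this]
    simp
  · have h' : α i = 1 := h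
    have := hD.t_pos α z hz i h'
    rw [abs_of_nonneg this]
    simp

theorem IsDiag.ne_zero_of_t_ne (hD : IsDiag n M F E) {α : Stat ι} {z : W} (hz : z ∈ E α) {i : ι}
    (h : F.t i z ≠ 0) : α i ≠ 0 := fun h0 => h (hD.t_hit α z hz i h0)

theorem IsDiag.isCompact_trunc [FiniteDimensional ℝ W] (hD : IsDiag n M F E) (α : Stat ι)
    {K : Set V} (hK : IsCompact K) (R : ℝ) :
    IsCompact {z | z ∈ E α ∧ F.q z ∈ K ∧ ∀ i, |F.t i z| ≤ R} := by
  have := (F.isCompact_box hK R).inter_left (hD.closed α)
  exact this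

/-- one threshold for all tails over `K`. -/
theorem IsDiag.exists_tail (hD : IsDiag n M F E) {K : Set V} (hK : IsCompact K) :
    ∃ R : ℝ, ∀ (i : ι) (α : Stat ι), α i ≠ 0 → ∀ z : W, F.q z ∈ K → R < (α i : ℝ) * F.t i z →
      (z ∈ E α ↔ F.drop i z ∈ E (α.face i)) := by
  classical
  have h : ∀ p : ι × Stat ι, ∃ R : ℝ, p.2 p.1 ≠ 0 → ∀ z : W, F.q z ∈ K →
      R < (p.2 p.1 : ℝ) * F.t p.1 z → (z ∈ E p.2 ↔ F.drop p.1 z ∈ E (p.2.face p.1)) := by
    rintro ⟨i, α⟩
    by_cases hα : α i ≠ 0
    · obtain ⟨R, hR⟩ := hD.tail i α (α.face i) (α.isFace_face hα) K hK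
      exact ⟨R, fun _ => hR⟩
    · exact ⟨0, fun h => absurd h hα⟩
  choose R hR using h
  obtain ⟨C, hC⟩ := (Set.finite_range R).bddAbove
  refine ⟨C, fun i α hα z hz hlt => hR (i, α) hα z hz (lt_of_le_of_lt (hC ⟨(i, α), rfl⟩) hlt)⟩

/-- **Tail induction** (sector decomposition). -/
theorem IsDiag.tail_induction (hD : IsDiag n M F E) {K : Set V} (hK : IsCompact K) (R0 : ℝ) :
    ∃ R : ℝ, R0 ≤ R ∧ 0 ≤ R ∧
      (∀ α, ∀ z ∈ E α, F.q z ∈ K → ∀ i, R < |F.t i z| → F.drop i z ∈ E (α.face i)) ∧
      ∀ Pr : W → Prop,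
        (∀ z ∈ tot E, F.q z ∈ K → (∀ i, |F.t i z| ≤ R) → Pr z) →
        (∀ z ∈ tot E, F.q z ∈ K → ∀ i, R < |F.t i z| → F.drop i z ∈ tot E → Pr (F.drop i z) →
          Pr z) →
        ∀ z ∈ tot E, F.q z ∈ K → Pr z := by
  classical
  obtain ⟨R1, hR1⟩ := hD.exists_tail hK
  set R := max (max R0 R1) 0 with hRdef
  have hR0 : R0 ≤ R := le_trans (le_max_left _ _) (le_max_left _ _)
  have hR1' : R1 ≤ R := le_trans (le_max_right _ _) (le_max_left _ _)
  have hRpos : 0 ≤ R := le_max_right _ _
  have hdrop : ∀ α, ∀ z ∈ E α, F.q z ∈ K → ∀ i, R < |F.t i z| → F.drop i z ∈ E (α.face i) := by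
    intro α z hz hq i hi
    have hne : F.t i z ≠ 0 := by
      intro h0; rw [h0, abs_zero] at hi; linarith
    have hα := hD.ne_zero_of_t_ne hz hne
    refine (hR1 i α hα z hq ?_).1 hz
    rw [hD.sign_mul hz i]; linarith
  refine ⟨R, hR0, hRpos, hdrop, ?_⟩
  intro Pr hbase hstep
  -- induction on the number of large coordinates
  have key : ∀ N : ℕ, ∀ z ∈ tot E, F.q z ∈ K →
      (Finset.univ.filter fun i => R < |F.t i z|).card = N → Pr z := by
    intro N
    induction N with
    | zero =>
      intro z hz hq hcard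
      refine hbase z hz hq fun i => ?_
      by_contra hcon
      have : i ∈ Finset.univ.filter fun i => R < |F.t i z| := by simp; linarith [not_le.1 hcon]
      rw [Finset.card_eq_zero.1 hcard] at this
      simp at this
    | succ N ih =>
      intro z hz hq hcard
      have hne : (Finset.univ.filter fun i => R < |F.t i z|).Nonempty := by
        rw [← Finset.card_pos]; omega
      obtain ⟨i, hi⟩ := hne
      have hi' : R < |F.t i z| := (Finset.mem_filter.1 hi).2
      obtain ⟨α, hα⟩ := mem_tot.1 hz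
      have hd : F.drop i z ∈ tot E := mem_tot.2 ⟨_, hdrop α z hα hq i hi'⟩
      refine hstep z hz hq i hi' hd (ih _ hd (by rw [F.q_drop]; exact hq) ?_)
      have e : (Finset.univ.filter fun j => R < |F.t j (F.drop i z)|) =
          (Finset.univ.filter fun j => R < |F.t j z|).erase i := by
        ext j
        simp only [Finset.mem_filter, Finset.mem_univ, true_and, Finset.mem_erase]
        by_cases hj : j = i
        · subst hj
          simp [F.t_drop_self]
          linarith
        · simp [F.t_drop_ne hj, hj]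
      rw [e, Finset.card_erase_of_mem hi, hcard]
      rfl
  intro z hz hq
  exact key _ z hz hq rfl

/-- one threshold of compatibility for all entries. -/
theorem Compat.exists_threshold {X : Type} {φ : W → X} (h : Compat F E φ) {K : Set V}
    (hK : IsCompact K) :
    ∃ R : ℝ, ∀ i, ∀ z ∈ tot E, F.q z ∈ K → R < |F.t i z| → φ (F.drop i z) = φ z := by
  choose R hR using fun i => h i K hK
  obtain ⟨C, hC⟩ := (Set.finite_range R).bddAbove
  exact ⟨C, fun i z hz hq hlt => hR i z hz hq (lt_of_le_of_lt (hC ⟨i, rfl⟩) hlt)⟩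

/-- a continuous compatible function takes its values over `K` in a compact set, which consists
of values of the function over `K`. -/
theorem CC.exists_compact [FiniteDimensional ℝ W] (hD : IsDiag n M F E) {X : Type}
    [TopologicalSpace X] {φ : W → X} (h : CC F E φ) {K : Set V} (hK : IsCompact K) :
    ∃ C : Set X, IsCompact C ∧ (∀ z ∈ tot E, F.q z ∈ K → φ z ∈ C) ∧
      ∀ c ∈ C, ∃ z ∈ tot E, F.q z ∈ K ∧ φ z = c := by
  classical
  obtain ⟨R0, hR0⟩ := h.2.exists_threshold hK
  obtain ⟨R, hRR0, _, _, hind⟩ := hD.tail_induction hK R0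
  refine ⟨⋃ α, φ '' {z | z ∈ E α ∧ F.q z ∈ K ∧ ∀ i, |F.t i z| ≤ R}, ?_, ?_, ?_⟩
  · refine isCompact_iUnion fun α => (hD.isCompact_trunc α hK R).image_of_continuousOn ?_
    exact (h.1 α).mono fun z hz => hz.1
  · refine hind _ ?_ ?_
    · intro z hz hq hle
      obtain ⟨α, hα⟩ := mem_tot.1 hz
      exact Set.mem_iUnion.2 ⟨α, z, ⟨hα, hq, hle⟩, rfl⟩
    · intro z hz hq i hi _ hPr
      rw [← hR0 i z hz hq (lt_of_le_of_lt hRR0 hi)]
      exact hPr
  · intro c hc
    obtain ⟨α, z, ⟨hα, hq, _⟩, rfl⟩ := Set.mem_iUnion.1 hc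
    exact ⟨z, mem_tot.2 ⟨α, hα⟩, hq, rfl⟩

theorem CC.bounded [FiniteDimensional ℝ W] (hD : IsDiag n M F E) {φ : W → ℝ} (h : CC F E φ)
    {K : Set V} (hK : IsCompact K) : ∃ C : ℝ, ∀ z ∈ tot E, F.q z ∈ K → |φ z| ≤ C := by
  obtain ⟨S, hS, hmem, _⟩ := h.exists_compact hD hK
  obtain ⟨C, hC⟩ := hS.isBounded.exists_norm_le
  exact ⟨C, fun z hz hq => hC _ (hmem z hz hq)⟩

theorem CC.pos_lower [FiniteDimensional ℝ W] (hD : IsDiag n M F E) {φ : W → ℝ} (h : CC F E φ)
    (hpos : ∀ z ∈ tot E, 0 < φ z) {K : Set V} (hK : IsCompact K) :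
    ∃ δ : ℝ, 0 < δ ∧ ∀ z ∈ tot E, F.q z ∈ K → δ ≤ φ z := by
  obtain ⟨S, hS, hmem, hval⟩ := h.exists_compact hD hK
  rcases S.eq_empty_or_nonempty with he | hne
  · exact ⟨1, one_pos, fun z hz hq => by have := hmem z hz hq; rw [he] at this; exact this.elim⟩
  · obtain ⟨c, hc, hmin⟩ := hS.exists_isLeast hne
    obtain ⟨z, hz, _, rfl⟩ := hval c hc
    exact ⟨φ z, hpos z hz, fun y hy hq => hmin (hmem y hy hq)⟩

end diag

end Claimed.Agent.R315
end

/- ===== packed: Claimed.Agent.R315.Pk.Blend ===== -/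
section
/-!
# Row 315, packets: compatible blending (P Lemma A.4) WITHOUT recursion over faces

The paper constructs compatible data "from deeper faces to cofaces" with the ordered weights (A.5).
In the embedded model there is a closed formula.  Let `T : V → ℝ`, `T ≥ 0`, be a *threshold function*
(all thresholds are functions of `q z`), `f i z = st (|t i z| - T (q z) - 1)` (`st` = smooth transition:
`0` for `|t i z| ≤ T + 1`, `1` for `|t i z| ≥ T + 2`), and for `S ⊆ ι`

  `pkWt S z = ∏_{i ∈ S} f i z * ∏_{i ∉ S} (1 - f i z)`,   `dropS S z = z - ∑_{i ∈ S} t i z • e i`,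
  `pkBlend u z = ∑_S pkWt S z • u (dropS S z)`.

* `pkBlend_drop` : `pkBlend u (drop i z) = pkBlend u z` as soon as `T (q z) + 2 ≤ |t i z|`, for EVERY `u`
  (no hypothesis on `u`): the blend of arbitrary individual choices is compatible.
* `pkBlend_central` : `pkBlend u z = u z` if `|t i z| ≤ T (q z) + 1` for all `i`.
* `pkBlend_eq_of_forall` : `pkBlend u z = u z` if `u (dropS S z) = u z` whenever `pkWt S z ≠ 0`
  (a datum which is compatible beyond `T` is reproduced).
* `pkBlend_mem_convex` : convex constraints pass to the blend.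
-/

set_option autoImplicit false
open scoped ContDiff Topology
open MeasureTheory Claims.C0499

namespace Claimed.Agent.R315

variable {V W : Type} [NormedAddCommGroup V] [NormedSpace ℝ V] [NormedAddCommGroup W]
  [NormedSpace ℝ W] {ι : Type}

/-- projection to the face `t i = 0`, `i ∈ S`. -/
noncomputable def Frame.dropS (F : Frame V W ι) (S : Finset ι) (z : W) : W :=
  z - ∑ i ∈ S, F.t i z • F.e i

/-- the cutoff of the `i`-th tail. -/
noncomputable def pkF (F : Frame V W ι) (T : V → ℝ) (i : ι) (z : W) : ℝ :=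
  Real.smoothTransition (|F.t i z| - T (F.q z) - 1)

open Classical in
/-- multilinear weights. -/
noncomputable def pkWt [Fintype ι] (F : Frame V W ι) (T : V → ℝ) (S : Finset ι) (z : W) : ℝ :=
  ∏ i, if i ∈ S then pkF F T i z else 1 - pkF F T i z

/-- the blend of the individual choices `u`. -/
noncomputable def pkBlend [Fintype ι] {X : Type} [AddCommGroup X] [Module ℝ X] (F : Frame V W ι)
    (T : V → ℝ) (u : W → X) (z : W) : X :=
  ∑ S : Finset ι, pkWt F T S z • u (F.dropS S z)

/-! ### `dropS` -/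

theorem Frame.dropS_empty (F : Frame V W ι) (z : W) : F.dropS ∅ z = z := by
  simp [Frame.dropS]

theorem Frame.q_dropS (F : Frame V W ι) (S : Finset ι) (z : W) : F.q (F.dropS S z) = F.q z := by
  simp [Frame.dropS, F.q_e]

theorem Frame.t_dropS_mem (F : Frame V W ι) {S : Finset ι} {i : ι} (hi : i ∈ S) (z : W) :
    F.t i (F.dropS S z) = 0 := by
  classical
  simp only [Frame.dropS, map_sub, map_sum, map_smul, smul_eq_mul]
  rw [Finset.sum_eq_single i]
  · simp [F.t_e]
  · intro j _ hj
    rw [F.t_e_ne i j (Ne.symm hj), mul_zero]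
  · intro h; exact absurd hi h

theorem Frame.t_dropS_notMem (F : Frame V W ι) {S : Finset ι} {i : ι} (hi : i ∉ S) (z : W) :
    F.t i (F.dropS S z) = F.t i z := by
  classical
  simp only [Frame.dropS, map_sub, map_sum, map_smul, smul_eq_mul]
  rw [Finset.sum_eq_zero, sub_zero]
  intro j hj
  have : i ≠ j := fun h => hi (h ▸ hj)
  rw [F.t_e_ne i j this, mul_zero]

theorem Frame.dropS_insert [DecidableEq ι] (F : Frame V W ι) {S : Finset ι} {i : ι} (hi : i ∉ S)
    (z : W) : F.dropS (insert i S) z = F.dropS S (F.drop i z) := by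
  have h : ∀ j ∈ S, F.t j (F.drop i z) • F.e j = F.t j z • F.e j := by
    intro j hj
    have : j ≠ i := fun h => hi (h ▸ hj)
    rw [F.t_drop_ne this]
  simp only [Frame.dropS]
  rw [Finset.sum_insert hi, Finset.sum_congr rfl h, Frame.drop]
  abel

theorem Frame.continuous_dropS (F : Frame V W ι) (S : Finset ι) : Continuous (F.dropS S) := by
  unfold Frame.dropS
  exact continuous_id.sub (continuous_finsetSum _ fun i _ =>
    (F.t i).continuous.smul continuous_const)

/-! ### the cutoffs -/

theorem pkF_nonneg (F : Frame V W ι) (T : V → ℝ) (i : ι) (z : W) : 0 ≤ pkF F T i z :=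
  Real.smoothTransition.nonneg _

theorem pkF_le_one (F : Frame V W ι) (T : V → ℝ) (i : ι) (z : W) : pkF F T i z ≤ 1 :=
  Real.smoothTransition.le_one _

theorem pkF_eq_zero (F : Frame V W ι) {T : V → ℝ} {i : ι} {z : W}
    (h : |F.t i z| ≤ T (F.q z) + 1) : pkF F T i z = 0 :=
  Real.smoothTransition.zero_of_nonpos (by linarith)

theorem pkF_eq_one (F : Frame V W ι) {T : V → ℝ} {i : ι} {z : W}
    (h : T (F.q z) + 2 ≤ |F.t i z|) : pkF F T i z = 1 :=
  Real.smoothTransition.one_of_one_le (by linarith)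

theorem pkF_ne_zero (F : Frame V W ι) {T : V → ℝ} {i : ι} {z : W} (h : pkF F T i z ≠ 0) :
    T (F.q z) + 1 < |F.t i z| := by
  by_contra hc
  exact h (pkF_eq_zero F (not_lt.1 hc))

theorem pkF_ne_one (F : Frame V W ι) {T : V → ℝ} {i : ι} {z : W} (h : pkF F T i z ≠ 1) :
    |F.t i z| < T (F.q z) + 2 := by
  by_contra hc
  exact h (pkF_eq_one F (not_lt.1 hc))

theorem pkF_drop_ne (F : Frame V W ι) (T : V → ℝ) {i j : ι} (h : j ≠ i) (z : W) :
    pkF F T j (F.drop i z) = pkF F T j z := by
  simp only [pkF, F.t_drop_ne h, F.q_drop]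

theorem pkF_drop_self (F : Frame V W ι) {T : V → ℝ} (hT : ∀ x, 0 ≤ T x) (i : ι) (z : W) :
    pkF F T i (F.drop i z) = 0 := by
  apply pkF_eq_zero
  rw [F.t_drop_self, abs_zero]
  have := hT (F.q (F.drop i z))
  linarith

/-- smooth form of the cutoff. -/
theorem pkF_eq (F : Frame V W ι) {T : V → ℝ} (hT : ∀ x, 0 ≤ T x) (i : ι) (z : W) :
    pkF F T i z = Real.smoothTransition (F.t i z - T (F.q z) - 1) +
      Real.smoothTransition (-F.t i z - T (F.q z) - 1) := by
  have h0 := hT (F.q z)
  unfold pkF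
  rcases le_total 0 (F.t i z) with h | h
  · rw [abs_of_nonneg h, Real.smoothTransition.zero_of_nonpos
      (show -F.t i z - T (F.q z) - 1 ≤ 0 by linarith), add_zero]
  · rw [abs_of_nonpos h, Real.smoothTransition.zero_of_nonpos
      (show F.t i z - T (F.q z) - 1 ≤ 0 by linarith), zero_add]

theorem pkF_contDiff (F : Frame V W ι) {T : V → ℝ} (hT : ∀ x, 0 ≤ T x) (hTs : ContDiff ℝ ∞ T)
    (i : ι) : ContDiff ℝ ∞ (pkF F T i) := by
  have h : pkF F T i = fun z => Real.smoothTransition (F.t i z - T (F.q z) - 1) +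
      Real.smoothTransition (-F.t i z - T (F.q z) - 1) := funext (pkF_eq F hT i)
  rw [h]
  have h1 : ContDiff ℝ ∞ fun z => F.t i z := (F.t i).contDiff
  have h2 : ContDiff ℝ ∞ fun z => T (F.q z) := hTs.comp F.q.contDiff
  exact (Real.smoothTransition.contDiff.comp ((h1.sub h2).sub contDiff_const)).add
    (Real.smoothTransition.contDiff.comp ((h1.neg.sub h2).sub contDiff_const))

/-! ### the weights -/

section weights

variable [Fintype ι]

theorem pkWt_nonneg (F : Frame V W ι) (T : V → ℝ) (S : Finset ι) (z : W) : 0 ≤ pkWt F T S z := by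
  classical
  unfold pkWt
  refine Finset.prod_nonneg fun i _ => ?_
  split_ifs
  · exact pkF_nonneg F T i z
  · exact sub_nonneg.2 (pkF_le_one F T i z)

theorem pkWt_sum (F : Frame V W ι) (T : V → ℝ) (z : W) : ∑ S : Finset ι, pkWt F T S z = 1 := by
  classical
  have h := Finset.prod_add (fun i => pkF F T i z) (fun i => 1 - pkF F T i z) Finset.univ
  simp only [add_sub_cancel, Finset.prod_const_one, Finset.powerset_univ] at h
  rw [h]
  refine Finset.sum_congr rfl fun S _ => ?_
  unfold pkWt
  rw [Finset.prod_ite]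
  congr 1
  · refine Finset.prod_congr ?_ fun _ _ => rfl
    ext i; simp
  · refine Finset.prod_congr ?_ fun _ _ => rfl
    ext i; simp

theorem pkWt_ne_zero (F : Frame V W ι) {T : V → ℝ} {S : Finset ι} {z : W}
    (h : pkWt F T S z ≠ 0) :
    (∀ i ∈ S, T (F.q z) + 1 < |F.t i z|) ∧ ∀ i, i ∉ S → |F.t i z| < T (F.q z) + 2 := by
  classical
  unfold pkWt at h
  rw [Finset.prod_ne_zero_iff] at h
  constructor
  · intro i hi
    have := h i (Finset.mem_univ i)
    rw [if_pos hi] at this
    exact pkF_ne_zero F this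
  · intro i hi
    have := h i (Finset.mem_univ i)
    rw [if_neg hi] at this
    exact pkF_ne_one F fun h1 => this (by rw [h1, sub_self])

theorem pkWt_contDiff (F : Frame V W ι) {T : V → ℝ} (hT : ∀ x, 0 ≤ T x) (hTs : ContDiff ℝ ∞ T)
    (S : Finset ι) : ContDiff ℝ ∞ (pkWt F T S) := by
  classical
  unfold pkWt
  refine contDiff_prod fun i _ => ?_
  by_cases hi : i ∈ S
  · simp only [if_pos hi]; exact pkF_contDiff F hT hTs i
  · simp only [if_neg hi]; exact contDiff_const.sub (pkF_contDiff F hT hTs i)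

/-- weights with `i ∉ S` vanish where the `i`-th cutoff is one. -/
theorem pkWt_eq_zero_of_notMem (F : Frame V W ι) {T : V → ℝ} {S : Finset ι} {i : ι} {z : W}
    (hi : i ∉ S) (h : pkF F T i z = 1) : pkWt F T S z = 0 := by
  classical
  unfold pkWt
  refine Finset.prod_eq_zero (Finset.mem_univ i) ?_
  rw [if_neg hi, h, sub_self]

/-- weights with `i ∈ S` vanish where the `i`-th cutoff is zero. -/
theorem pkWt_eq_zero_of_mem (F : Frame V W ι) {T : V → ℝ} {S : Finset ι} {i : ι} {z : W}
    (hi : i ∈ S) (h : pkF F T i z = 0) : pkWt F T S z = 0 := by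
  classical
  unfold pkWt
  refine Finset.prod_eq_zero (Finset.mem_univ i) ?_
  rw [if_pos hi, h]

theorem pkWt_insert [DecidableEq ι] (F : Frame V W ι) {T : V → ℝ} (hT : ∀ x, 0 ≤ T x)
    {S : Finset ι} {i : ι} {z : W} (hi : i ∉ S) (h : pkF F T i z = 1) :
    pkWt F T (insert i S) z = pkWt F T S (F.drop i z) := by
  unfold pkWt
  refine Finset.prod_congr rfl fun j _ => ?_
  by_cases hj : j = i
  · subst hj
    simp only [Finset.mem_insert_self, if_true, hi, if_false]
    rw [h, pkF_drop_self F hT, sub_zero]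
  · have e : (j ∈ insert i S) = (j ∈ S) := by simp [hj]
    simp only [e, pkF_drop_ne F T hj]

end weights

/-! ### the blend -/

section blend

variable [Fintype ι] {X : Type} [AddCommGroup X] [Module ℝ X]

/-- **The blend is compatible**, whatever `u` is. -/
theorem pkBlend_drop (F : Frame V W ι) {T : V → ℝ} (hT : ∀ x, 0 ≤ T x) (u : W → X) {i : ι}
    {z : W} (h : T (F.q z) + 2 ≤ |F.t i z|) : pkBlend F T u (F.drop i z) = pkBlend F T u z := by
  classical
  have h1 : pkF F T i z = 1 := pkF_eq_one F h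
  have h0 : pkF F T i (F.drop i z) = 0 := pkF_drop_self F hT i z
  have hu : (Finset.univ : Finset (Finset ι)) = (insert i (Finset.univ.erase i)).powerset := by
    rw [Finset.insert_erase (Finset.mem_univ i), Finset.powerset_univ]
  have hni : i ∉ (Finset.univ : Finset ι).erase i := Finset.notMem_erase i _
  unfold pkBlend
  rw [hu, Finset.sum_powerset_insert hni, Finset.sum_powerset_insert hni]
  have hmem : ∀ S ∈ ((Finset.univ : Finset ι).erase i).powerset, i ∉ S := fun S hS hiS =>
    hni (Finset.mem_powerset.1 hS hiS)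
  have e1 : ∑ S ∈ ((Finset.univ : Finset ι).erase i).powerset,
      pkWt F T (insert i S) (F.drop i z) • u (F.dropS (insert i S) (F.drop i z)) = 0 :=
    Finset.sum_eq_zero fun S _ => by
      rw [pkWt_eq_zero_of_mem F (Finset.mem_insert_self i S) h0, zero_smul]
  have e2 : ∑ S ∈ ((Finset.univ : Finset ι).erase i).powerset,
      pkWt F T S z • u (F.dropS S z) = 0 :=
    Finset.sum_eq_zero fun S hS => by
      rw [pkWt_eq_zero_of_notMem F (hmem S hS) h1, zero_smul]
  rw [e1, e2, add_zero, zero_add]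
  refine Finset.sum_congr rfl fun S hS => ?_
  rw [pkWt_insert F hT (hmem S hS) h1, F.dropS_insert (hmem S hS)]

/-- a datum which is reproduced by all active projections is reproduced by the blend. -/
theorem pkBlend_eq_of_forall (F : Frame V W ι) (T : V → ℝ) (u : W → X) {z : W}
    (h : ∀ S, pkWt F T S z ≠ 0 → u (F.dropS S z) = u z) : pkBlend F T u z = u z := by
  classical
  unfold pkBlend
  have : ∀ S ∈ (Finset.univ : Finset (Finset ι)),
      pkWt F T S z • u (F.dropS S z) = pkWt F T S z • u z := by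
    intro S _
    by_cases hS : pkWt F T S z = 0
    · rw [hS, zero_smul, zero_smul]
    · rw [h S hS]
  rw [Finset.sum_congr rfl this, ← Finset.sum_smul, pkWt_sum, one_smul]

/-- in the central part nothing happens. -/
theorem pkBlend_central (F : Frame V W ι) (T : V → ℝ) (u : W → X) {z : W}
    (h : ∀ i, |F.t i z| ≤ T (F.q z) + 1) : pkBlend F T u z = u z := by
  refine pkBlend_eq_of_forall F T u fun S hS => ?_
  have hS' : S = ∅ := by
    rw [Finset.eq_empty_iff_forall_notMem]
    intro i hi
    exact absurd ((pkWt_ne_zero F hS).1 i hi) (not_lt.2 (h i))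
  rw [hS', F.dropS_empty]

/-- convex constraints. -/
theorem pkBlend_mem_convex (F : Frame V W ι) (T : V → ℝ) (u : W → X) {z : W} {C : Set X}
    (hC : Convex ℝ C) (h : ∀ S, pkWt F T S z ≠ 0 → u (F.dropS S z) ∈ C) :
    pkBlend F T u z ∈ C := by
  classical
  unfold pkBlend
  have hne : ∃ S, pkWt F T S z ≠ 0 := by
    by_contra hc
    push Not at hc
    have := pkWt_sum F T z
    rw [Finset.sum_eq_zero fun S _ => hc S] at this
    exact zero_ne_one this
  obtain ⟨S0, hS0⟩ := hne
  let v : Finset ι → X := fun S => if pkWt F T S z = 0 then u (F.dropS S0 z) else u (F.dropS S z)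
  have e : ∑ S : Finset ι, pkWt F T S z • u (F.dropS S z) = ∑ S : Finset ι, pkWt F T S z • v S := by
    refine Finset.sum_congr rfl fun S _ => ?_
    by_cases hS : pkWt F T S z = 0
    · rw [hS, zero_smul, zero_smul]
    · simp only [v, if_neg hS]
  rw [e]
  refine hC.sum_mem (fun S _ => pkWt_nonneg F T S z) (pkWt_sum F T z) fun S _ => ?_
  by_cases hS : pkWt F T S z = 0
  · simp only [v, if_pos hS]; exact h S0 hS0
  · simp only [v, if_neg hS]; exact h S hS

/-- error of the blend: if all active individual values are `δ`-close to `c` so is the blend. -/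
theorem pkBlend_sub_le (F : Frame V W ι) (T : V → ℝ) (u : W → ℝ) {z : W} {c δ : ℝ}
    (h : ∀ S, pkWt F T S z ≠ 0 → |u (F.dropS S z) - c| ≤ δ) : |pkBlend F T u z - c| ≤ δ := by
  have := pkBlend_mem_convex F T u (z := z) (convex_Icc (c - δ) (c + δ)) fun S hS => by
    have := abs_le.1 (h S hS)
    exact ⟨by linarith [this.1], by linarith [this.2]⟩
  exact abs_le.2 ⟨by linarith [this.1], by linarith [this.2]⟩

end blend

end Claimed.Agent.R315
end
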