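/- Packed by merge_tool.py (helper293): 6 modules of Claimed.Agent.R315 in one file, same declarations.
   Old modules, in this order: If.Dist, If.Lip, If.DistTop, If.Scale, If.Tder, If.Loc -/
import Mathlib
import Claimed.Agent.R315.Pack003
import Claimed.Agent.R315.Pack004

/- ===== packed: Claimed.Agent.R315.If.Dist ===== -/
section
/-!
# Row 315 (S0571), interface, part 14: `rdist` is a continuous pseudo-metric (prefix `if_`)

* `if_adm_of_param`, `if_speed_param` : curves in a parametrisation;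
* `if_rdist_le_of_segment`, `if_local_dist` : local upper bound by the chart norm;
* `if_join_of_connected` : any two points of a connected manifold are joined by a curve;
* `if_rdist_continuousOn`, `if_isRd`.
Owner: helper274.
-/

set_option autoImplicit false
set_option linter.unusedSectionVars false

open scoped Topology ContDiff
open Set Function

namespace Claimed.Agent.R315

variable {V : Type} [NormedAddCommGroup V] [NormedSpace ℝ V]
variable {d : ℕ} {M : Set V} {g : Ten V} {ψ : E d → V} {U : Set (E d)}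

/-! ## curves in a parametrisation -/

theorem if_adm_of_param (h : IsParam M ψ U) {γ : ℝ → E d} (hγ : ContDiff ℝ 1 γ)
    (hU : ∀ t, γ t ∈ U) : if_Adm M (ψ ∘ γ) :=
  ⟨((if_smooth h).of_le (by decide)).comp_contDiff hγ hU, fun t _ => if_mem h (hU t)⟩

theorem if_speed_param (g : Ten V) (h : IsParam M ψ U) {γ : ℝ → E d} {t : ℝ}
    (hγ : DifferentiableAt ℝ γ t) (hU : γ t ∈ U) :
    if_speed g (ψ ∘ γ) t = Real.sqrt (if_bil (cm g ψ (γ t)) (deriv γ t) (deriv γ t)) := by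
  have h1 : deriv (ψ ∘ γ) t = fderiv ℝ ψ (γ t) (deriv γ t) :=
    ((if_differentiableAt h hU).hasFDerivAt.comp_hasDerivAt t hγ.hasDerivAt).deriv
  unfold if_speed
  rw [h1, if_cm_bil]
  rfl

/-- the segment from `u` to `u'`, with vanishing velocity at the ends -/
noncomputable def if_seg (u u' : E d) (t : ℝ) : E d := u + if_st t • (u' - u)

theorem if_seg_contDiff (u u' : E d) : ContDiff ℝ 1 (if_seg u u') :=
  contDiff_const.add (if_st_contDiff.smul contDiff_const)

theorem if_seg_mem (u u' : E d) (t : ℝ) : if_seg u u' t ∈ segment ℝ u u' := by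
  rw [segment_eq_image']
  exact ⟨if_st t, if_st_mem t, rfl⟩

theorem if_seg_zero (u u' : E d) : if_seg u u' 0 = u := by simp [if_seg, if_st]

theorem if_seg_one (u u' : E d) : if_seg u u' 1 = u' := by simp [if_seg, if_st]

theorem if_seg_deriv (u u' : E d) (t : ℝ) : deriv (if_seg u u') t = deriv if_st t • (u' - u) := by
  have := (((if_st_differentiableAt t).hasDerivAt.smul_const (u' - u)).const_add u).deriv
  exact this

theorem if_join_of_segment (h : IsParam M ψ U) {u u' : E d} (hseg : segment ℝ u u' ⊆ U) :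
    if_Join M (ψ u) (ψ u') :=
  ⟨_, if_adm_of_param h (if_seg_contDiff u u') fun t => hseg (if_seg_mem u u' t),
    by rw [comp_apply, if_seg_zero], by rw [comp_apply, if_seg_one]⟩

theorem if_rdist_le_of_segment [FiniteDimensional ℝ V] (hM : IsMfd d M) (hg : IsTenOn d M g)
    (h : IsParam M ψ U) {u u' : E d} {K : ℝ} (hseg : segment ℝ u u' ⊆ U)
    (hK : ∀ w ∈ segment ℝ u u', ‖if_bil (cm g ψ w)‖ ≤ K) :
    rdist M g (ψ u) (ψ u') ≤ Real.sqrt K * ‖u' - u‖ := by
  have hadm := if_adm_of_param h (if_seg_contDiff u u') fun t => hseg (if_seg_mem u u' t)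
  refine (if_rdist_le' hadm g (by rw [comp_apply, if_seg_zero])
    (by rw [comp_apply, if_seg_one])).trans ?_
  have hsp : ∀ t, if_speed g (ψ ∘ if_seg u u') t ≤ Real.sqrt K * ‖u' - u‖ * deriv if_st t := by
    intro t
    rw [if_speed_param g h ((if_seg_contDiff u u').differentiable (by simp) t)
      (hseg (if_seg_mem u u' t)), if_seg_deriv,
      if_speed_smul (fun _ => if_bil (cm g ψ (if_seg u u' t))) (0 : E d) (u' - u)
        (if_st_deriv_nonneg t)]
    refine mul_le_mul_of_nonneg_right ?_ (if_st_deriv_nonneg t)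
    rw [← Real.sqrt_sq (norm_nonneg (u' - u)), ← Real.sqrt_mul' _ (sq_nonneg _)]
    refine Real.sqrt_le_sqrt ?_
    have h1 := (if_bil (cm g ψ (if_seg u u' t))).le_opNorm₂ (u' - u) (u' - u)
    have h2 := hK _ (if_seg_mem u u' t)
    calc if_bil (cm g ψ (if_seg u u' t)) (u' - u) (u' - u)
        ≤ ‖if_bil (cm g ψ (if_seg u u' t)) (u' - u) (u' - u)‖ := le_abs_self _
      _ ≤ ‖if_bil (cm g ψ (if_seg u u' t))‖ * ‖u' - u‖ * ‖u' - u‖ := h1
      _ ≤ K * ‖u' - u‖ * ‖u' - u‖ := by gcongr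
      _ = K * ‖u' - u‖ ^ 2 := by ring
  have hm0 : (0 : ℝ) ∈ Icc (0 : ℝ) 1 := ⟨le_rfl, zero_le_one⟩
  have hm1 : (1 : ℝ) ∈ Icc (0 : ℝ) 1 := ⟨zero_le_one, le_rfl⟩
  calc if_len g (ψ ∘ if_seg u u')
      ≤ ∫ t in (0 : ℝ)..1, Real.sqrt K * ‖u' - u‖ * deriv if_st t :=
        intervalIntegral.integral_mono_on zero_le_one
          (if_speed_intervalIntegrable hM hg hadm hm0 hm1)
          ((if_st_continuous_deriv.intervalIntegrable _ _).const_mul _) fun t _ => hsp t
    _ = Real.sqrt K * ‖u' - u‖ := by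
        rw [intervalIntegral.integral_const_mul, if_st_integral_deriv, mul_one]

/-- (stated for abstract spaces: unification fails for iterated spaces of linear maps) -/
theorem if_continuousAt_norm {X K : Type} [TopologicalSpace X] [SeminormedAddCommGroup K]
    {f : X → K} {x : X} (h : ContinuousAt f x) : ContinuousAt (fun w => ‖f w‖) x := h.norm

/-- local upper bound of the distance by the norm in a parametrisation -/
theorem if_local_dist [FiniteDimensional ℝ V] (hM : IsMfd d M) (hg : IsTenOn d M g)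
    (h : IsParam M ψ U) {u₀ : E d} (hu : u₀ ∈ U) :
    ∃ r > 0, ∃ C : ℝ, 0 ≤ C ∧ Metric.ball u₀ r ⊆ U ∧
      ∀ u ∈ Metric.ball u₀ r, ∀ u' ∈ Metric.ball u₀ r,
        rdist M g (ψ u) (ψ u') ≤ C * ‖u' - u‖ := by
  have hc : ContinuousAt (fun w => ‖if_bil (cm g ψ w)‖) u₀ :=
    if_continuousAt_norm (K := E d →L[ℝ] E d →L[ℝ] ℝ)
      ((if_bil_cm_continuousOn hg h).continuousAt ((if_open h).mem_nhds hu))
  have h1 : ∀ᶠ w in 𝓝 u₀, ‖if_bil (cm g ψ w)‖ < ‖if_bil (cm g ψ u₀)‖ + 1 :=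
    hc.eventually (gt_mem_nhds (by linarith))
  obtain ⟨r, hr, hball⟩ := Metric.eventually_nhds_iff_ball.1 (h1.and ((if_open h).mem_nhds hu))
  refine ⟨r, hr, Real.sqrt (‖if_bil (cm g ψ u₀)‖ + 1), Real.sqrt_nonneg _,
    fun w hw => (hball w hw).2, fun u hu u' hu' => ?_⟩
  have hseg : segment ℝ u u' ⊆ Metric.ball u₀ r := (convex_ball u₀ r).segment_subset hu hu'
  exact if_rdist_le_of_segment hM hg h (fun w hw => (hball w (hseg hw)).2)
    fun w hw => (hball w (hseg hw)).1.le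

/-! ## connectedness -/

theorem if_exists_join_nhd (hM : IsMfd d M) {p : V} (hp : p ∈ M) :
    ∃ O : Set V, IsOpen O ∧ p ∈ O ∧ ∀ q ∈ M ∩ O, if_Join M p q := by
  obtain ⟨ψ, U, h, u₀, hu, rfl⟩ := hM p hp
  obtain ⟨r, hr, hball⟩ := Metric.isOpen_iff.1 (if_open h) u₀ hu
  obtain ⟨O, hO, he⟩ := if_image_open h Metric.isOpen_ball hball
  have hmem : ψ u₀ ∈ M ∩ O := he ▸ mem_image_of_mem ψ (Metric.mem_ball_self hr)
  refine ⟨O, hO, hmem.2, fun q hq => ?_⟩
  rw [← he] at hq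
  obtain ⟨u, hu', rfl⟩ := hq
  exact if_join_of_segment h
    (((convex_ball u₀ r).segment_subset (Metric.mem_ball_self hr) hu').trans hball)

/-- any two points of a connected manifold are joined by an admissible curve -/
theorem if_join_of_connected (hM : IsMfd d M) (hc : IsPreconnected M) {x y : V} (hx : x ∈ M)
    (hy : y ∈ M) : if_Join M x y := by
  classical
  choose! O hO hpO hjoin using fun p (hp : p ∈ M) => if_exists_join_nhd hM hp
  set u : Set V := ⋃ p ∈ {p | p ∈ M ∧ if_Join M x p}, O p with hu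
  set v : Set V := ⋃ p ∈ {p | p ∈ M ∧ ¬ if_Join M x p}, O p with hv
  have huo : IsOpen u := isOpen_biUnion fun p hp => hO p hp.1
  have hvo : IsOpen v := isOpen_biUnion fun p hp => hO p hp.1
  have hcov : M ⊆ u ∪ v := by
    intro p hp
    by_cases hj : if_Join M x p
    · exact Or.inl (mem_biUnion (show p ∈ {p | p ∈ M ∧ if_Join M x p} from ⟨hp, hj⟩) (hpO p hp))
    · exact Or.inr (mem_biUnion (show p ∈ {p | p ∈ M ∧ ¬ if_Join M x p} from ⟨hp, hj⟩)
        (hpO p hp))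
  have hdisj : M ∩ (u ∩ v) = ∅ := by
    rw [eq_empty_iff_forall_notMem]
    rintro z ⟨hzM, hzu, hzv⟩
    obtain ⟨p, ⟨hpM, hxp⟩, hzp⟩ := mem_iUnion₂.1 hzu
    obtain ⟨q, ⟨hqM, hxq⟩, hzq⟩ := mem_iUnion₂.1 hzv
    exact hxq (if_join_trans (if_join_trans hxp (hjoin p hpM z ⟨hzM, hzp⟩))
      (if_join_symm (hjoin q hqM z ⟨hzM, hzq⟩)))
  rcases isPreconnected_iff_subset_of_disjoint.1 hc u v huo hvo hcov hdisj with h | h
  · obtain ⟨p, ⟨hpM, hxp⟩, hyp⟩ := mem_iUnion₂.1 (h hy)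
    exact if_join_trans hxp (hjoin p hpM y ⟨hy, hyp⟩)
  · obtain ⟨q, ⟨hqM, hxq⟩, hxq'⟩ := mem_iUnion₂.1 (h hx)
    exact absurd (if_join_symm (hjoin q hqM x ⟨hx, hxq'⟩)) hxq

/-! ## continuity -/

theorem if_abs_rdist_sub_le [FiniteDimensional ℝ V] (hM : IsMfd d M) (hc : IsPreconnected M)
    (hg : IsTenOn d M g) {x y y' : V} (hx : x ∈ M) (hy : y ∈ M) (hy' : y' ∈ M) :
    |rdist M g x y' - rdist M g x y| ≤ rdist M g y y' := by
  have j := fun {a b : V} (ha : a ∈ M) (hb : b ∈ M) => if_join_of_connected hM hc ha hb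
  have h1 := if_rdist_tri hM hg (j hx hy) (j hy hy')
  have h2 := if_rdist_tri hM hg (j hx hy') (j hy' hy)
  rw [if_rdist_symm M g y' y] at h2
  rw [abs_le]
  constructor <;> linarith

theorem if_rdist_continuousOn [FiniteDimensional ℝ V] (hM : IsMfd d M) (hc : IsPreconnected M)
    (hg : IsTenOn d M g) {x : V} (hx : x ∈ M) : ContinuousOn (rdist M g x) M := by
  intro y hy
  obtain ⟨ψ, U, h, u₀, hu, rfl⟩ := hM y hy
  obtain ⟨r, hr, C, hC, hball, hdist⟩ := if_local_dist hM hg h hu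
  have hinv : ContinuousWithinAt (invFunOn ψ U) M (ψ u₀) :=
    ((if_contInv h) _ (mem_image_of_mem ψ hu)).mono_of_mem_nhdsWithin
      (if_image_mem_nhdsWithin h hu)
  have hinv0 : invFunOn ψ U (ψ u₀) = u₀ := if_leftInv h hu
  unfold ContinuousWithinAt at hinv ⊢
  rw [hinv0] at hinv
  rw [tendsto_iff_norm_sub_tendsto_zero]
  have hlim : Filter.Tendsto (fun y' => C * ‖invFunOn ψ U y' - u₀‖) (𝓝[M] (ψ u₀)) (𝓝 0) := by
    have := (tendsto_iff_norm_sub_tendsto_zero.1 hinv).const_mul C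
    rwa [mul_zero] at this
  refine squeeze_zero' (Filter.Eventually.of_forall fun _ => norm_nonneg _) ?_ hlim
  filter_upwards [hinv (Metric.ball_mem_nhds u₀ hr), if_image_mem_nhdsWithin h hu,
    self_mem_nhdsWithin] with y' h1 h2 h3
  have e : ψ (invFunOn ψ U y') = y' := if_rightInv h2
  have := hdist u₀ (Metric.mem_ball_self hr) _ h1
  rw [e] at this
  exact (if_abs_rdist_sub_le hM hc hg hx hy h3).trans this

/-- metric properties of `rdist`. -/
structure IsRd (M : Set V) (g : Ten V) : Prop where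
  self : ∀ x ∈ M, rdist M g x x = 0
  symm : ∀ x ∈ M, ∀ y ∈ M, rdist M g x y = rdist M g y x
  tri : ∀ x ∈ M, ∀ y ∈ M, ∀ z ∈ M, rdist M g x z ≤ rdist M g x y + rdist M g y z
  cont : ∀ x ∈ M, ContinuousOn (rdist M g x) M

/-- **`rdist` is a continuous pseudo-metric on a connected manifold.** -/
theorem if_isRd [FiniteDimensional ℝ V] {n : ℕ} {M : Set V} {g : Ten V} (h1 : IsMfd n M)
    (h2 : IsConnected M) (h3 : IsMetricOn n M g) : IsRd M g := by
  have hg : IsTenOn n M g := (if_isMetricOn_iff.1 h3).1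
  have hc := h2.isPreconnected
  exact ⟨fun x hx => if_rdist_self g hx, fun x _ y _ => if_rdist_symm M g x y,
    fun x hx y hy z hz => if_rdist_tri h1 hg (if_join_of_connected h1 hc hx hy)
      (if_join_of_connected h1 hc hy hz),
    fun x hx => if_rdist_continuousOn h1 hc hg hx⟩

end Claimed.Agent.R315
end

/- ===== packed: Claimed.Agent.R315.If.Lip ===== -/
section
/-!
# Row 315 (S0571), interface, part 21: Lipschitz functions and comparison of distances

* `if_bil_nonneg`, `if_bil_cs`, `if_cs_dual` : Cauchy-Schwarz for a coordinate metric;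
* `if_fderiv_sq_le` : `(d(f∘ψ) X)² ≤ |df|² G(X,X)`;
* `if_lip_curve`, `if_lip` : `gradSq f ≤ L²` on `M` ⇒ `|f y - f x| ≤ L * rdist x y`;
* `if_speed_mono`, `if_len_mono`, `if_rdist_mono` : `MetLE g h` ⇒ `rdist g ≤ rdist h`.
Owner: helper274.
-/

set_option autoImplicit false
set_option linter.unusedSectionVars false

open scoped Topology ContDiff Matrix
open Claims.C0499 Set Function

namespace Claimed.Agent.R315

variable {d : ℕ}

/-! ## Cauchy-Schwarz -/

theorem if_bil_nonneg {A : Matrix (Fin d) (Fin d) ℝ} (hA : A.PosSemidef) (X : E d) :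
    0 ≤ if_bil A X X := by
  rw [if_bil_eq_dot]
  have := hA.dotProduct_mulVec_nonneg (X : Fin d → ℝ)
  rwa [star_trivial] at this

theorem if_isSymm_of_posSemidef {A : Matrix (Fin d) (Fin d) ℝ} (hA : A.PosSemidef) : A.IsSymm := by
  have := hA.1
  rwa [Matrix.IsHermitian, Matrix.conjTranspose_eq_transpose_of_trivial] at this

theorem if_bil_cs {A : Matrix (Fin d) (Fin d) ℝ} (hA : A.PosSemidef) (X Y : E d) :
    (if_bil A X Y) ^ 2 ≤ if_bil A X X * if_bil A Y Y := by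
  let B : LinearMap.BilinForm ℝ (E d) := LinearMap.mk₂ ℝ (fun X Y => if_bil A X Y)
    (fun X X' Y => by simp only [map_add, add_apply])
    (fun c X Y => by simp only [map_smul, smul_apply])
    (fun X Y Y' => by simp only [map_add]) (fun c X Y => by simp only [map_smul])
  exact B.apply_sq_le_of_symm (fun X => if_bil_nonneg hA X)
    ⟨fun X Y => if_bil_symm (if_isSymm_of_posSemidef hA) X Y⟩ X Y

theorem if_bil_sub (A B : Matrix (Fin d) (Fin d) ℝ) (X Y : E d) :
    if_bil (A - B) X Y = if_bil A X Y - if_bil B X Y := by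
  simp only [if_bil_apply, Matrix.sub_apply, sub_mul, Finset.sum_sub_distrib]

/-- dual form of the Cauchy-Schwarz inequality -/
theorem if_cs_dual {G : Matrix (Fin d) (Fin d) ℝ} (hG : G.PosDef) (φ : E d →L[ℝ] ℝ) (X : E d) :
    (φ X) ^ 2 ≤ (∑ i, ∑ j, G⁻¹ i j * φ (eb i) * φ (eb j)) * if_bil G X X := by
  have hs : G.IsSymm := if_isSymm_of_posSemidef hG.posSemidef
  have hu : IsUnit G.det := isUnit_iff_ne_zero.2 hG.det_pos.ne'
  set p : Fin d → ℝ := fun i => φ (eb i) with hp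
  set Y : E d := WithLp.toLp 2 (G⁻¹.mulVec p) with hY
  have hGY : G.mulVec (Y : Fin d → ℝ) = p := by
    show G.mulVec (G⁻¹.mulVec p) = p
    rw [Matrix.mulVec_mulVec, Matrix.mul_nonsing_inv G hu, Matrix.one_mulVec]
  have h1 : if_bil G X Y = φ X := by
    rw [if_bil_eq_dot, hGY, if_clm_expand φ X]
    rfl
  have h2 : if_bil G Y Y = ∑ i, ∑ j, G⁻¹ i j * φ (eb i) * φ (eb j) := by
    rw [if_bil_eq_dot, hGY]
    show (G⁻¹.mulVec p) ⬝ᵥ p = _
    simp only [dotProduct, Matrix.mulVec, Finset.sum_mul]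
    refine Finset.sum_congr rfl fun i _ => Finset.sum_congr rfl fun j _ => ?_
    ring
  have := if_bil_cs hG.posSemidef X Y
  rw [h1, h2] at this
  linarith

variable {V : Type} [NormedAddCommGroup V] [NormedSpace ℝ V]
variable {M : Set V} {ψ : E d → V} {U : Set (E d)} {g : Ten V} {c : ℝ → V}

theorem if_fderiv_sq_le (hg : IsMetricOn d M g) (h : IsParam M ψ U) (f : V → ℝ) {u : E d}
    (hu : u ∈ U) (X : E d) :
    (fderiv ℝ (f ∘ ψ) u X) ^ 2 ≤ gradSqC (cm g ψ) (f ∘ ψ) u * if_bil (cm g ψ u) X X :=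
  if_cs_dual ((hg ψ U h).2 u hu) (fderiv ℝ (f ∘ ψ) u) X

/-! ## Lipschitz functions -/

variable [FiniteDimensional ℝ V]

/-- the speed in a lift -/
theorem if_speed_sq_lift (g : Ten V) {υ : ℝ → E d} {t : ℝ} (e1 : c t = ψ (υ t))
    (e2 : deriv c t = fderiv ℝ ψ (υ t) (deriv υ t)) :
    g (c t) (deriv c t) (deriv c t) = if_bil (cm g ψ (υ t)) (deriv υ t) (deriv υ t) := by
  rw [if_cm_bil, ← e1, ← e2]

theorem if_lip_curve (hM : IsMfd d M) (hg : IsMetricOn d M g) {f : V → ℝ}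
    (hf : SmoothAlong d M f) {L : ℝ} (hL0 : 0 ≤ L) (hL : ∀ x ∈ M, gradSq d M g f x ≤ L ^ 2)
    (hc : if_Adm M c) : |f (c 1) - f (c 0)| ≤ L * if_len g c := by
  have hgT : IsTenOn d M g := (if_isMetricOn_iff.1 hg).1
  obtain ⟨f', ⟨Ω, hΩ, hMΩ, hf'⟩, heq⟩ := if_exists_extension hM hf
  have hm0 : (0 : ℝ) ∈ Icc (0 : ℝ) 1 := ⟨le_rfl, zero_le_one⟩
  have hm1 : (1 : ℝ) ∈ Icc (0 : ℝ) 1 := ⟨zero_le_one, le_rfl⟩
  have hcd : ∀ t, HasDerivAt c (deriv c t) t := fun t =>
    (hc.1.differentiable (by simp) t).hasDerivAt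
  have hfd : ∀ x ∈ Ω, HasFDerivAt f' (fderiv ℝ f' x) x := fun x hx =>
    ((hf'.contDiffAt (hΩ.mem_nhds hx)).differentiableAt (by simp)).hasFDerivAt
  have hder : ∀ t ∈ Icc (0 : ℝ) 1, HasDerivAt (fun t => f' (c t))
      (fderiv ℝ f' (c t) (deriv c t)) t := fun t ht =>
    (hfd _ (hMΩ (hc.2 t ht))).comp_hasDerivAt t (hcd t)
  have hcont : ContinuousOn (fun t => fderiv ℝ f' (c t) (deriv c t)) (Icc (0 : ℝ) 1) := by
    have a : ContinuousOn (fun t => fderiv ℝ f' (c t)) (Icc (0 : ℝ) 1) :=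
      (hf'.continuousOn_fderiv_of_isOpen hΩ (by simp)).comp hc.1.continuous.continuousOn
        fun t ht => hMΩ (hc.2 t ht)
    exact a.clm_apply (hc.1.continuous_deriv le_rfl).continuousOn
  have hbound : ∀ t ∈ Icc (0 : ℝ) 1, ‖fderiv ℝ f' (c t) (deriv c t)‖ ≤ L * if_speed g c t := by
    intro t ht
    obtain ⟨ψ, U, h, hct⟩ := hM (c t) (hc.2 t ht)
    obtain ⟨υ, I, hI, htI, -, hmaps, hlift⟩ := if_adm_lift hc h hct
    obtain ⟨e1, e2⟩ := hlift t ⟨htI, ht⟩
    have hu : υ t ∈ U := hmaps htI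
    have h1 : fderiv ℝ f' (c t) (deriv c t) = fderiv ℝ (f ∘ ψ) (υ t) (deriv υ t) := by
      have h2 : f ∘ ψ =ᶠ[𝓝 (υ t)] f' ∘ ψ := by
        filter_upwards [(if_open h).mem_nhds hu] with w hw
        exact (heq (if_mem h hw)).symm
      rw [h2.fderiv_eq, fderiv_comp (υ t) (e1 ▸ (hfd _ (hMΩ (hc.2 t ht))).differentiableAt)
        (if_differentiableAt h hu), e2, e1]
      rfl
    have h3 := if_fderiv_sq_le hg h f hu (deriv υ t)
    rw [← if_gradSq_eq hg hf h hu, ← e1, ← if_speed_sq_lift g e1 e2, ← h1] at h3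
    have h4 : 0 ≤ g (c t) (deriv c t) (deriv c t) := by
      rw [if_speed_sq_lift g e1 e2]
      exact if_bil_nonneg ((hg ψ U h).2 _ hu).posSemidef _
    rw [Real.norm_eq_abs]
    have h6 : (fderiv ℝ f' (c t) (deriv c t)) ^ 2 ≤ (L * if_speed g c t) ^ 2 := by
      rw [mul_pow]
      unfold if_speed
      rw [Real.sq_sqrt h4]
      exact h3.trans (mul_le_mul_of_nonneg_right (hL _ (hc.2 t ht)) h4)
    exact abs_le.2 (abs_le_of_sq_le_sq' h6 (mul_nonneg hL0 (if_speed_nonneg g c t)))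
  have hftc : ∫ t in (0 : ℝ)..1, fderiv ℝ f' (c t) (deriv c t) = f' (c 1) - f' (c 0) :=
    intervalIntegral.integral_eq_sub_of_hasDerivAt
      (fun t ht => hder t (by rwa [uIcc_of_le zero_le_one] at ht))
      ((hcont.mono (by rw [uIcc_of_le zero_le_one])).intervalIntegrable)
  rw [← heq (hc.2 1 hm1), ← heq (hc.2 0 hm0), ← hftc, ← Real.norm_eq_abs]
  refine (intervalIntegral.norm_integral_le_of_norm_le zero_le_one
    (Filter.Eventually.of_forall fun t ht => hbound t ⟨ht.1.le, ht.2⟩)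
    ((if_speed_intervalIntegrable hM hgT hc hm0 hm1).const_mul L)).trans ?_
  rw [intervalIntegral.integral_const_mul]
  rfl

/-- **Lipschitz test** -/
theorem if_lip (hM : IsMfd d M) (hg : IsMetricOn d M g) {f : V → ℝ}
    (hf : SmoothAlong d M f) {L : ℝ} (hL0 : 0 ≤ L) (hL : ∀ x ∈ M, gradSq d M g f x ≤ L ^ 2)
    {x y : V} (hj : if_Join M x y) : |f y - f x| ≤ L * rdist M g x y := by
  refine le_of_forall_pos_le_add fun ε hε => ?_
  have hδ : 0 < ε / (L + 1) := div_pos hε (by linarith)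
  obtain ⟨c, hc, hx, hy, hl⟩ := if_exists_len_lt (g := g) hj
    (show rdist M g x y < rdist M g x y + ε / (L + 1) by linarith)
  have h1 := if_lip_curve hM hg hf hL0 hL hc
  rw [hx, hy] at h1
  have h2 : L * (ε / (L + 1)) ≤ ε := by
    rw [mul_div_assoc', div_le_iff₀ (by linarith)]
    nlinarith
  calc |f y - f x| ≤ L * if_len g c := h1
    _ ≤ L * (rdist M g x y + ε / (L + 1)) := mul_le_mul_of_nonneg_left hl.le hL0
    _ ≤ L * rdist M g x y + ε := by linarith

/-! ## monotonicity in the metric -/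

theorem if_speed_mono (hM : IsMfd d M) {k : Ten V} (hle : MetLE d M g k) (hc : if_Adm M c) {t : ℝ}
    (ht : t ∈ Icc (0 : ℝ) 1) : if_speed g c t ≤ if_speed k c t := by
  obtain ⟨ψ, U, h, hct⟩ := hM (c t) (hc.2 t ht)
  obtain ⟨υ, I, hI, htI, -, hmaps, hlift⟩ := if_adm_lift hc h hct
  obtain ⟨e1, e2⟩ := hlift t ⟨htI, ht⟩
  unfold if_speed
  refine Real.sqrt_le_sqrt ?_
  rw [if_speed_sq_lift g e1 e2, if_speed_sq_lift k e1 e2, ← sub_nonneg, ← if_bil_sub]
  exact if_bil_nonneg (hle ψ U h _ (hmaps htI)) _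

theorem if_len_mono (hM : IsMfd d M) {k : Ten V} (hg : IsTenOn d M g) (hk : IsTenOn d M k)
    (hle : MetLE d M g k) (hc : if_Adm M c) : if_len g c ≤ if_len k c := by
  have hm0 : (0 : ℝ) ∈ Icc (0 : ℝ) 1 := ⟨le_rfl, zero_le_one⟩
  have hm1 : (1 : ℝ) ∈ Icc (0 : ℝ) 1 := ⟨zero_le_one, le_rfl⟩
  exact intervalIntegral.integral_mono_on zero_le_one
    (if_speed_intervalIntegrable hM hg hc hm0 hm1) (if_speed_intervalIntegrable hM hk hc hm0 hm1)
    fun t ht => if_speed_mono hM hle hc ht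

/-- **the distance is monotone in the metric** -/
theorem if_rdist_mono (hM : IsMfd d M) {k : Ten V} (hg : IsTenOn d M g) (hk : IsTenOn d M k)
    (hle : MetLE d M g k) (x y : V) : rdist M g x y ≤ rdist M k x y := by
  by_cases hj : if_Join M x y
  · refine if_le_rdist hj fun c hc hx hy => ?_
    exact (if_rdist_le' hc g hx hy).trans (if_len_mono hM hg hk hle hc)
  · have hempty : ∀ g' : Ten V, rdist M g' x y = 0 := by
      intro g'
      rw [if_rdist_eq]
      have : {L | ∃ c, if_Adm M c ∧ c 0 = x ∧ c 1 = y ∧ L = if_len g' c} = ∅ := by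
        rw [eq_empty_iff_forall_notMem]
        rintro L ⟨c, hc, hx, hy, -⟩
        exact hj ⟨c, hc, hx, hy⟩
      rw [this, Real.sInf_empty]
    rw [hempty g, hempty k]

end Claimed.Agent.R315
end

/- ===== packed: Claimed.Agent.R315.If.DistTop ===== -/
section
/-!
# Row 315 (S0571), interface, part 22: `rdist` is a metric which induces the topology of `M`

* `if_exists_sep` : separating functions with bounded gradient;
* `if_rdist_lower` : small `rdist`-balls are contained in a given neighbourhood; `if_rdist_pos`;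
* `if_rdist_continuousOn₂` : continuity on `M ×ˢ M`;
* `if_proper_of_le` : `IsProperOn M g`, `MetLE g h` ⇒ `IsProperOn M h`;
* `if_rdist_mono_set` : `S ⊆ M` ⇒ `rdist M ≤ rdist S`;
* `if_rdist_le_integral`, `if_rdist_add_le_len` : sub-arcs of a curve;
* `if_rdist_map_le` : linear maps `P` with `P(X) ⊆ M`, pulled back tensor.
Owner: helper274.
-/

set_option autoImplicit false
set_option linter.unusedSectionVars false

open scoped Topology ContDiff
open Claims.C0499 Set Function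

namespace Claimed.Agent.R315

variable {V : Type} [NormedAddCommGroup V] [NormedSpace ℝ V]
variable {d : ℕ} {M : Set V} {g : Ten V} {c : ℝ → V}

section sub

theorem if_adm_comp (hc : if_Adm M c) {φ : ℝ → ℝ} (hφ : ContDiff ℝ 1 φ)
    (hmaps : ∀ t ∈ Icc (0 : ℝ) 1, φ t ∈ Icc (0 : ℝ) 1) : if_Adm M (c ∘ φ) :=
  ⟨hc.1.comp hφ, fun t ht => hc.2 _ (hmaps t ht)⟩

/-- affine reparametrisation with vanishing velocity at the ends -/
noncomputable def if_aff (a b t : ℝ) : ℝ := a + (b - a) * if_st t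

theorem if_aff_contDiff (a b : ℝ) : ContDiff ℝ 1 (if_aff a b) :=
  contDiff_const.add (contDiff_const.mul if_st_contDiff)

theorem if_aff_deriv (a b t : ℝ) : deriv (if_aff a b) t = (b - a) * deriv if_st t := by
  have := (((if_st_differentiableAt t).hasDerivAt.const_mul (b - a)).const_add a).deriv
  exact this

theorem if_aff_mem {a b : ℝ} (hab : a ≤ b) (t : ℝ) : if_aff a b t ∈ Icc a b := by
  have h := if_st_mem t
  unfold if_aff
  constructor
  · nlinarith [h.1, h.2]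
  · nlinarith [h.1, h.2]

theorem if_aff_zero (a b : ℝ) : if_aff a b 0 = a := by simp [if_aff, if_st]

theorem if_aff_one (a b : ℝ) : if_aff a b 1 = b := by simp [if_aff, if_st]

variable [FiniteDimensional ℝ V]

/-- the distance of two points of a curve is at most the length of the arc between them -/
theorem if_rdist_le_integral (hM : IsMfd d M) (hg : IsTenOn d M g) (hc : if_Adm M c) {a b : ℝ}
    (ha : 0 ≤ a) (hab : a ≤ b) (hb : b ≤ 1) :
    rdist M g (c a) (c b) ≤ ∫ s in a..b, if_speed g c s := by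
  have hmaps : ∀ t ∈ Icc (0 : ℝ) 1, if_aff a b t ∈ Icc (0 : ℝ) 1 := fun t _ =>
    ⟨ha.trans (if_aff_mem hab t).1, (if_aff_mem hab t).2.trans hb⟩
  have h1 := if_rdist_le' (if_adm_comp hc (if_aff_contDiff a b) hmaps) g
    (x := c a) (y := c b) (by rw [comp_apply, if_aff_zero]) (by rw [comp_apply, if_aff_one])
  refine h1.trans (le_of_eq ?_)
  unfold if_len
  rw [if_integral_speed_comp hM hg hc (if_aff_contDiff a b) zero_le_one hmaps fun t _ => ?_,
    if_aff_zero, if_aff_one]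
  rw [if_aff_deriv]
  exact mul_nonneg (by linarith) (if_st_deriv_nonneg t)

/-- splitting a curve at an intermediate time -/
theorem if_rdist_add_le_len (hM : IsMfd d M) (hg : IsTenOn d M g) (hc : if_Adm M c) {s : ℝ}
    (hs : s ∈ Icc (0 : ℝ) 1) :
    rdist M g (c 0) (c s) + rdist M g (c s) (c 1) ≤ if_len g c := by
  have hm0 : (0 : ℝ) ∈ Icc (0 : ℝ) 1 := ⟨le_rfl, zero_le_one⟩
  have hm1 : (1 : ℝ) ∈ Icc (0 : ℝ) 1 := ⟨zero_le_one, le_rfl⟩
  have h1 := if_rdist_le_integral hM hg hc le_rfl hs.1 hs.2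
  have h2 := if_rdist_le_integral hM hg hc hs.1 hs.2 le_rfl
  have h3 := intervalIntegral.integral_add_adjacent_intervals
    (if_speed_intervalIntegrable hM hg hc hm0 hs) (if_speed_intervalIntegrable hM hg hc hs hm1)
  unfold if_len
  linarith

end sub

/-! ## subsets and linear maps -/

theorem if_rdist_mono_set {S : Set V} (hSM : S ⊆ M) (g : Ten V) {x y : V} (hj : if_Join S x y) :
    rdist M g x y ≤ rdist S g x y :=
  if_le_rdist hj fun _ hc hx hy => if_rdist_le' ⟨hc.1, fun t ht => hSM (hc.2 t ht)⟩ g hx hy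

section lin

variable {V' : Type} [NormedAddCommGroup V'] [NormedSpace ℝ V']

/-- pull-back of a tensor field by a linear map -/
noncomputable def if_pullL (P : V' →L[ℝ] V) (g : Ten V) : Ten V' :=
  fun z => (g (P z)).bilinearComp P P

theorem if_pullL_apply (P : V' →L[ℝ] V) (g : Ten V) (z a b : V') :
    if_pullL P g z a b = g (P z) (P a) (P b) := rfl

theorem if_speed_map (P : V' →L[ℝ] V) (g : Ten V) {c : ℝ → V'} {t : ℝ}
    (hc : DifferentiableAt ℝ c t) : if_speed g (P ∘ c) t = if_speed (if_pullL P g) c t := by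
  have h1 : deriv (P ∘ c) t = P (deriv c t) :=
    (P.hasFDerivAt.comp_hasDerivAt t hc.hasDerivAt).deriv
  unfold if_speed
  rw [h1, if_pullL_apply]
  rfl

theorem if_len_map (P : V' →L[ℝ] V) (g : Ten V) {c : ℝ → V'} (hc : ContDiff ℝ 1 c) :
    if_len g (P ∘ c) = if_len (if_pullL P g) c := by
  unfold if_len
  exact intervalIntegral.integral_congr fun t _ =>
    if_speed_map P g (hc.differentiable (by simp) t)

theorem if_rdist_map_le (P : V' →L[ℝ] V) (g : Ten V) {X : Set V'} (hX : MapsTo P X M) {x y : V'}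
    (hj : if_Join X x y) : rdist M g (P x) (P y) ≤ rdist X (if_pullL P g) x y := by
  refine if_le_rdist hj fun c hc hx hy => ?_
  rw [← if_len_map P g hc.1]
  exact if_rdist_le' ⟨P.contDiff.comp hc.1, fun t ht => hX (hc.2 t ht)⟩ g
    (by rw [comp_apply, hx]) (by rw [comp_apply, hy])

end lin

/-! ## separation -/

variable [FiniteDimensional ℝ V]

theorem if_gradSq_eq_zero (hM : IsMfd d M) (hg : IsMetricOn d M g) {f : V → ℝ}
    (hf : SmoothAlong d M f) {y : V} (hy : y ∈ M) (h0 : f =ᶠ[𝓝 y] 0) :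
    gradSq d M g f y = 0 := by
  obtain ⟨ψ, U, h, u, hu, rfl⟩ := hM y hy
  rw [if_gradSq_eq hg hf h hu]
  have h1 : f ∘ ψ =ᶠ[𝓝 u] fun _ => (0 : ℝ) :=
    ((if_differentiableAt h hu).continuousAt.eventually h0).mono fun w hw => hw
  unfold gradSqC pdiff
  rw [h1.fderiv_eq]
  simp

/-- separating functions with bounded gradient -/
theorem if_exists_sep (hM : IsMfd d M) (hg : IsMetricOn d M g) {x : V} (hx : x ∈ M) {O : Set V}
    (hO : O ∈ 𝓝 x) : ∃ (f : V → ℝ) (L : ℝ), ContDiff ℝ ∞ f ∧ 0 ≤ L ∧ f x = 1 ∧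
      (∀ y, y ∉ O → f y = 0) ∧ ∀ y ∈ M, gradSq d M g f y ≤ L ^ 2 := by
  obtain ⟨ψ, U, h, u₀, hu, rfl⟩ := hM x hx
  obtain ⟨r, hr, hball⟩ := Metric.nhds_basis_closedBall.mem_iff.1 ((if_open h).mem_nhds hu)
  obtain ⟨O₁, hO₁, he⟩ := if_image_open h Metric.isOpen_ball
    (Metric.ball_subset_closedBall.trans hball)
  have hmem : ψ u₀ ∈ M ∩ O₁ := he ▸ mem_image_of_mem ψ (Metric.mem_ball_self hr)
  obtain ⟨f, hsupp, -, hfs, -, hf1⟩ := exists_contDiff_tsupport_subset (n := ⊤)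
    (Filter.inter_mem hO (hO₁.mem_nhds hmem.2))
  have hfa : SmoothAlong d M f := if_smoothAlong_of_contDiff hfs
  have hK : IsCompact (ψ '' Metric.closedBall u₀ r) :=
    (isCompact_closedBall u₀ r).image_of_continuousOn ((if_continuousOn h).mono hball)
  have hKM : ψ '' Metric.closedBall u₀ r ⊆ M := (image_mono hball).trans (if_image_subset h)
  obtain ⟨C, hC⟩ := hK.exists_bound_of_continuousOn
    ((if_smoothAlong_continuousOn hM (if_gradSq_smoothAlong hg hfa)).mono hKM)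
  have hC0 : 0 ≤ C := (norm_nonneg _).trans
    (hC _ (mem_image_of_mem ψ (Metric.mem_closedBall_self hr.le)))
  refine ⟨f, Real.sqrt C, hfs, Real.sqrt_nonneg _, hf1, fun y hy => ?_, fun y hy => ?_⟩
  · by_contra h0
    exact hy (hsupp (subset_tsupport _ h0)).1
  · rw [Real.sq_sqrt hC0]
    by_cases hys : y ∈ tsupport f
    · have : y ∈ ψ '' Metric.ball u₀ r := he ▸ (⟨hy, (hsupp hys).2⟩ : y ∈ M ∩ O₁)
      exact (le_abs_self _).trans (hC y (image_mono Metric.ball_subset_closedBall this))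
    · rw [if_gradSq_eq_zero hM hg hfa hy (notMem_tsupport_iff_eventuallyEq.1 hys)]
      exact hC0

/-- small `rdist`-balls are contained in a given neighbourhood -/
theorem if_rdist_lower (hM : IsMfd d M) (hc : IsPreconnected M) (hg : IsMetricOn d M g) {x : V}
    (hx : x ∈ M) {O : Set V} (hO : O ∈ 𝓝 x) :
    ∃ ε > 0, ∀ y ∈ M, rdist M g x y < ε → y ∈ O := by
  obtain ⟨f, L, hfs, hL0, hf1, hf0, hL⟩ := if_exists_sep hM hg hx hO
  refine ⟨1 / (L + 1), by positivity, fun y hy hlt => ?_⟩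
  by_contra hyO
  have h1 := if_lip hM hg (if_smoothAlong_of_contDiff hfs) hL0 hL
    (if_join_of_connected hM hc hx hy)
  rw [hf1, hf0 y hyO] at h1
  have h2 : |(0 : ℝ) - 1| = 1 := by norm_num
  rw [h2] at h1
  have h3 : L * rdist M g x y ≤ L * (1 / (L + 1)) := mul_le_mul_of_nonneg_left hlt.le hL0
  have h4 : L * (1 / (L + 1)) < 1 := by
    rw [mul_one_div, div_lt_one (by linarith)]
    linarith
  linarith

theorem if_rdist_pos (hM : IsMfd d M) (hc : IsPreconnected M) (hg : IsMetricOn d M g) {x y : V}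
    (hx : x ∈ M) (hy : y ∈ M) (hxy : x ≠ y) : 0 < rdist M g x y := by
  obtain ⟨ε, hε, h⟩ := if_rdist_lower hM hc hg hx (isOpen_ne.mem_nhds hxy : {z | z ≠ y} ∈ 𝓝 x)
  by_contra h0
  exact h y hy (lt_of_le_of_lt (not_lt.1 h0) hε) rfl

theorem if_rdist_eq_zero_iff (hM : IsMfd d M) (hc : IsPreconnected M) (hg : IsMetricOn d M g)
    {x y : V} (hx : x ∈ M) (hy : y ∈ M) : rdist M g x y = 0 ↔ x = y := by
  constructor
  · intro h0
    by_contra hxy
    exact (if_rdist_pos hM hc hg hx hy hxy).ne' h0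
  · rintro rfl
    exact if_rdist_self g hx

/-! ## continuity on the product -/

theorem if_rdist_continuousOn₂ (hM : IsMfd d M) (hc : IsPreconnected M) (hg : IsTenOn d M g) :
    ContinuousOn (fun p : V × V => rdist M g p.1 p.2) (M ×ˢ M) := by
  rintro ⟨x, y⟩ ⟨hx, hy⟩
  have hx' : x ∈ M := hx
  have hy' : y ∈ M := hy
  unfold ContinuousWithinAt
  rw [tendsto_iff_norm_sub_tendsto_zero]
  have l1 : Filter.Tendsto (fun p : V × V => rdist M g x p.1) (𝓝[M ×ˢ M] (x, y)) (𝓝 0) := by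
    have := ((if_rdist_continuousOn hM hc hg hx') x hx').comp
      (continuousWithinAt_fst (s := M ×ˢ M) (p := (x, y))) fun p hp => hp.1
    unfold ContinuousWithinAt at this
    rw [comp_apply, if_rdist_self g hx'] at this
    exact this
  have l2 : Filter.Tendsto (fun p : V × V => rdist M g y p.2) (𝓝[M ×ˢ M] (x, y)) (𝓝 0) := by
    have := ((if_rdist_continuousOn hM hc hg hy') y hy').comp
      (continuousWithinAt_snd (s := M ×ˢ M) (p := (x, y))) fun p hp => hp.2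
    unfold ContinuousWithinAt at this
    rw [comp_apply, if_rdist_self g hy'] at this
    exact this
  have l3 := l1.add l2
  rw [add_zero] at l3
  refine squeeze_zero' (Filter.Eventually.of_forall fun _ => norm_nonneg _) ?_ l3
  filter_upwards [self_mem_nhdsWithin] with p hp
  have a1 := if_abs_rdist_sub_le hM hc hg hp.1 hy' hp.2
  have a2 := if_abs_rdist_sub_le hM hc hg hy' hx' hp.1
  rw [if_rdist_symm M g y p.1, if_rdist_symm M g y x] at a2
  rw [Real.norm_eq_abs]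
  calc |rdist M g p.1 p.2 - rdist M g x y|
      = |(rdist M g p.1 p.2 - rdist M g p.1 y) + (rdist M g p.1 y - rdist M g x y)| := by ring_nf
    _ ≤ |rdist M g p.1 p.2 - rdist M g p.1 y| + |rdist M g p.1 y - rdist M g x y| :=
        abs_add_le _ _
    _ ≤ rdist M g y p.2 + rdist M g x p.1 := add_le_add a1 a2
    _ = rdist M g x p.1 + rdist M g y p.2 := add_comm _ _

/-! ## properness -/

theorem if_proper_of_le (hM : IsMfd d M) (hc : IsPreconnected M) {k : Ten V}
    (hg : IsTenOn d M g) (hk : IsTenOn d M k) (hle : MetLE d M g k) (hp : IsProperOn M g) :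
    IsProperOn M k := by
  intro x hx R
  have hK := hp x hx R
  have hsub : {y | y ∈ M ∧ rdist M g x y ≤ R} ⊆ M := fun y hy => hy.1
  have hcl : {y | y ∈ M ∧ rdist M k x y ≤ R} =
      {y | y ∈ M ∧ rdist M g x y ≤ R} ∩ rdist M k x ⁻¹' Iic R := by
    ext y
    constructor
    · rintro ⟨hy, hR⟩
      exact ⟨⟨hy, (if_rdist_mono hM hg hk hle x y).trans hR⟩, hR⟩
    · rintro ⟨⟨hy, -⟩, hR⟩
      exact ⟨hy, hR⟩
  rw [hcl]
  have hcont : ContinuousOn (rdist M k x) {y | y ∈ M ∧ rdist M g x y ≤ R} :=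
    (if_rdist_continuousOn hM hc hk hx).mono hsub
  exact hK.of_isClosed_subset (hcont.preimage_isClosed_of_isClosed hK.isClosed isClosed_Iic)
    inter_subset_left

end Claimed.Agent.R315
end

/- ===== packed: Claimed.Agent.R315.If.Scale ===== -/
section
/-!
# Row 315 (S0571), interface, part 24: constant rescaling `c • g`, order of metrics, traces (prefix `if_`)

* coordinates: `if_inv_smul_mat`, `if_pdiff_const_mul`, `if_christoffel_smul`, `if_riemann_smul`,
  `if_ricci_smul`, `if_scalar_smul`, `if_gradIpC_smul`, `if_gradSqC_smul`, `if_lapC_smul`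
  (no smoothness hypotheses);
* `if_pv_mul`, `if_cm_smul`, `if_scal_smul`, `if_lap_smul`, `if_gradIp_smul`, `if_gradSq_smul`,
  `if_Dsc_smul`, `if_isTenOn_smul`, `if_isMetricOn_smul`, `if_metLE_smul`, `if_metLE_refl`,
  `if_metLE_trans`, `if_metLE_pointwise`;
* `if_speed_smul_ten`, `if_len_smul`, `if_rdist_smul`, `if_proper_smul`;
* traces: `if_trace_mul_nonneg`, `if_trM_self`, `if_trM_nonneg`, `if_trM_le`.
Owner: helper274.
-/

set_option autoImplicit false
set_option linter.unusedSectionVars false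

open scoped Topology ContDiff Pointwise
open Claims.C0499 Set Function Filter

namespace Claimed.Agent.R315

variable {d : ℕ}

section chart

variable (G : E d → Matrix (Fin d) (Fin d) ℝ) (f k : E d → ℝ) (u : E d) {c : ℝ}

theorem if_inv_smul_mat (hc : c ≠ 0) (A : Matrix (Fin d) (Fin d) ℝ) : (c • A)⁻¹ = c⁻¹ • A⁻¹ := by
  by_cases h : IsUnit A.det
  · exact Matrix.inv_smul' A (Units.mk0 c hc) h
  · have h2 : ¬ IsUnit (c • A).det := by
      rw [Matrix.det_smul]
      intro h3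
      exact h (isUnit_of_mul_isUnit_right h3)
    rw [Matrix.nonsing_inv_apply_not_isUnit _ h, Matrix.nonsing_inv_apply_not_isUnit _ h2,
      smul_zero]

theorem if_pdiff_const_mul (a : ℝ) (i : Fin d) :
    pdiff (fun w => a * f w) i u = a * pdiff f i u := by
  unfold pdiff
  have h := fderiv_const_smul_field (𝕜 := ℝ) (f := f) a
  have h2 : (fun w => a * f w) = a • f := rfl
  rw [h2, h]
  rfl

theorem if_christoffel_smul (hc : c ≠ 0) (a i j : Fin d) :
    christoffel (fun w => c • G w) u a i j = christoffel G u a i j := by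
  unfold christoffel
  simp only [if_inv_smul_mat hc, Matrix.smul_apply, smul_eq_mul, if_pdiff_const_mul]
  congr 1
  refine Finset.sum_congr rfl fun l _ => ?_
  field_simp

theorem if_riemann_smul (hc : c ≠ 0) (l i j a : Fin d) :
    riemannCoord (fun w => c • G w) u l i j a = riemannCoord G u l i j a := by
  unfold riemannCoord
  simp only [if_christoffel_smul G _ hc]

theorem if_ricci_smul (hc : c ≠ 0) (j a : Fin d) :
    ricciCoord (fun w => c • G w) u j a = ricciCoord G u j a := by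
  unfold ricciCoord
  simp only [if_riemann_smul G _ hc]

theorem if_scalar_smul (hc : c ≠ 0) :
    scalarCoord (fun w => c • G w) u = c⁻¹ * scalarCoord G u := by
  unfold scalarCoord
  simp only [if_ricci_smul G _ hc, if_inv_smul_mat hc, Matrix.smul_apply, smul_eq_mul,
    Finset.mul_sum, mul_assoc]

theorem if_gradIpC_smul (hc : c ≠ 0) :
    gradIpC (fun w => c • G w) f k u = c⁻¹ * gradIpC G f k u := by
  unfold gradIpC
  simp only [if_inv_smul_mat hc, Matrix.smul_apply, smul_eq_mul, Finset.mul_sum, mul_assoc]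

theorem if_gradSqC_smul (hc : c ≠ 0) :
    gradSqC (fun w => c • G w) f u = c⁻¹ * gradSqC G f u := if_gradIpC_smul G f f u hc

theorem if_lapC_smul (hc : 0 < c) : lapC (fun w => c • G w) f u = c⁻¹ * lapC G f u := by
  unfold lapC
  have hs : 0 < Real.sqrt (c ^ d) := Real.sqrt_pos.2 (pow_pos hc d)
  have h1 : ∀ w, Real.sqrt (c • G w).det = Real.sqrt (c ^ d) * Real.sqrt (G w).det := by
    intro w
    rw [Matrix.det_smul, Fintype.card_fin, Real.sqrt_mul (pow_pos hc d).le]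
  have h2 : ∀ i : Fin d, (fun w => Real.sqrt (c • G w).det *
      ∑ j : Fin d, (c • G w)⁻¹ i j * pdiff f j w) = fun w => (Real.sqrt (c ^ d) * c⁻¹) *
        (Real.sqrt (G w).det * ∑ j : Fin d, (G w)⁻¹ i j * pdiff f j w) := by
    intro i
    funext w
    rw [h1 w, if_inv_smul_mat hc.ne']
    simp only [Matrix.smul_apply, smul_eq_mul, Finset.mul_sum]
    refine Finset.sum_congr rfl fun j _ => ?_
    ring
  simp only [h2, if_pdiff_const_mul, h1 u, ← Finset.mul_sum]
  field_simp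

end chart

variable {V : Type} [NormedAddCommGroup V] [NormedSpace ℝ V]
variable {M : Set V} {ψ : E d → V} {U : Set (E d)}

theorem if_pv_mul {a : ℝ} (ha : 0 ≤ a) (Φ : (E d → V) → E d → ℝ) (x : V) :
    pv M (fun ψ u => a * Φ ψ u) x = a * pv M Φ x := by
  unfold pv
  rw [← smul_eq_mul, ← Real.sSup_smul_of_nonneg ha]
  congr 1
  ext r
  constructor
  · rintro ⟨ψ, U, u, h, hu, he, rfl⟩
    exact ⟨_, ⟨ψ, U, u, h, hu, he, rfl⟩, rfl⟩
  · rintro ⟨_, ⟨ψ, U, u, h, hu, he, rfl⟩, rfl⟩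
    exact ⟨ψ, U, u, h, hu, he, rfl⟩

theorem if_cm_smul (c : ℝ) (g : Ten V) (ψ : E d → V) : cm (c • g) ψ = fun w => c • cm g ψ w := by
  funext w
  ext i j
  rfl

theorem if_cm_add (g k : Ten V) (ψ : E d → V) (w : E d) :
    cm (g + k) ψ w = cm g ψ w + cm k ψ w := by
  ext i j
  rfl

section glob

variable {g k : Ten V} {c : ℝ}

theorem if_scal_smul (hc : 0 < c) (g : Ten V) (x : V) :
    scal d M (c • g) x = c⁻¹ * scal d M g x := by
  unfold scal
  rw [← if_pv_mul (inv_pos.2 hc).le]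
  simp only [if_cm_smul, if_scalar_smul _ _ hc.ne']

theorem if_lap_smul (hc : 0 < c) (g : Ten V) (f : V → ℝ) (x : V) :
    lap d M (c • g) f x = c⁻¹ * lap d M g f x := by
  unfold lap
  rw [← if_pv_mul (inv_pos.2 hc).le]
  simp only [if_cm_smul, if_lapC_smul _ _ _ hc]

theorem if_gradIp_smul (hc : 0 < c) (g : Ten V) (f k : V → ℝ) (x : V) :
    gradIp d M (c • g) f k x = c⁻¹ * gradIp d M g f k x := by
  unfold gradIp
  rw [← if_pv_mul (inv_pos.2 hc).le]
  simp only [if_cm_smul, if_gradIpC_smul _ _ _ _ hc.ne']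

theorem if_gradSq_smul (hc : 0 < c) (g : Ten V) (f : V → ℝ) (x : V) :
    gradSq d M (c • g) f x = c⁻¹ * gradSq d M g f x := if_gradIp_smul hc g f f x

theorem if_Dsc_smul (hc : 0 < c) (g : Ten V) (t : V → ℝ) (x : V) :
    Dsc d M (c • g) t x = c⁻¹ * Dsc d M g t x := by
  unfold Dsc
  rw [if_scal_smul hc, if_lap_smul hc, if_gradSq_smul hc]
  ring

theorem if_isTenOn_smul (c : ℝ) (hg : IsTenOn d M g) : IsTenOn d M (c • g) := by
  intro ψ U h i j
  exact contDiffOn_const.mul (hg ψ U h i j)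

theorem if_isTenOn_add (hg : IsTenOn d M g) (hk : IsTenOn d M k) : IsTenOn d M (g + k) := by
  intro ψ U h i j
  exact (hg ψ U h i j).add (hk ψ U h i j)

theorem if_isMetricOn_smul (hc : 0 < c) (hg : IsMetricOn d M g) : IsMetricOn d M (c • g) := by
  rw [if_isMetricOn_iff] at hg ⊢
  refine ⟨if_isTenOn_smul c hg.1, fun ψ U h u hu => ?_⟩
  rw [if_cm_smul]
  exact (hg.2 ψ U h u hu).smul hc

theorem if_metLE_smul (hc : 0 ≤ c) (H : MetLE d M g k) : MetLE d M (c • g) (c • k) := by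
  intro ψ U h u hu
  rw [if_cm_smul, if_cm_smul, ← smul_sub]
  exact (H ψ U h u hu).smul hc

theorem if_metLE_refl (g : Ten V) : MetLE d M g g := by
  intro ψ U _ u _
  rw [sub_self]
  exact Matrix.PosSemidef.zero

theorem if_metLE_trans {l : Ten V} (h1 : MetLE d M g k) (h2 : MetLE d M k l) : MetLE d M g l := by
  intro ψ U h u hu
  have := (h2 ψ U h u hu).add (h1 ψ U h u hu)
  rwa [sub_add_sub_cancel] at this

theorem if_cm_congr {g g' : Ten V} {ψ : E d → V} {u : E d} (H : g (ψ u) = g' (ψ u)) :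
    cm g ψ u = cm g' ψ u := by
  unfold cm
  rw [H]

theorem if_metLE_pointwise (H : ∀ x ∈ M, ∃ k' : Ten V, MetLE d M g k' ∧ k x = k' x) :
    MetLE d M g k := by
  intro ψ U h u hu
  obtain ⟨k', h1, h2⟩ := H (ψ u) (if_mem h hu)
  rw [if_cm_congr h2]
  exact h1 ψ U h u hu

/-! ## lengths -/

theorem if_speed_smul_ten (hc : 0 ≤ c) (g : Ten V) (γ : ℝ → V) (t : ℝ) :
    if_speed (c • g) γ t = Real.sqrt c * if_speed g γ t := by
  unfold if_speed
  rw [← Real.sqrt_mul hc]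
  rfl

theorem if_len_smul (hc : 0 ≤ c) (g : Ten V) (γ : ℝ → V) :
    if_len (c • g) γ = Real.sqrt c * if_len g γ := by
  unfold if_len
  simp only [if_speed_smul_ten hc]
  rw [intervalIntegral.integral_const_mul]

theorem if_rdist_smul (hc : 0 ≤ c) (M : Set V) (g : Ten V) (x y : V) :
    rdist M (c • g) x y = Real.sqrt c * rdist M g x y := by
  rw [if_rdist_eq, if_rdist_eq, ← smul_eq_mul, ← Real.sInf_smul_of_nonneg (Real.sqrt_nonneg c)]
  congr 1
  ext L
  constructor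
  · rintro ⟨γ, h1, h2, h3, rfl⟩
    exact ⟨_, ⟨γ, h1, h2, h3, rfl⟩, (if_len_smul hc g γ).symm⟩
  · rintro ⟨_, ⟨γ, h1, h2, h3, rfl⟩, rfl⟩
    exact ⟨γ, h1, h2, h3, (if_len_smul hc g γ).symm⟩

theorem if_proper_smul (hc : 0 < c) (hp : IsProperOn M g) : IsProperOn M (c • g) := by
  intro x hx R
  have hs : 0 < Real.sqrt c := Real.sqrt_pos.2 hc
  have : {y | y ∈ M ∧ rdist M (c • g) x y ≤ R} = {y | y ∈ M ∧ rdist M g x y ≤ R / Real.sqrt c} := by
    ext y
    simp only [Set.mem_ofPred_eq, if_rdist_smul hc.le, le_div_iff₀ hs, mul_comm]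
  rw [this]
  exact hp x hx _

end glob

/-! ## traces -/

open scoped MatrixOrder in
theorem if_trace_mul_nonneg {A B : Matrix (Fin d) (Fin d) ℝ} (hA : A.PosSemidef)
    (hB : B.PosSemidef) : 0 ≤ (A * B).trace := by
  obtain ⟨C, rfl⟩ := CStarAlgebra.nonneg_iff_eq_star_mul_self.mp hA.nonneg
  rw [Matrix.mul_assoc, Matrix.trace_mul_comm, Matrix.star_eq_conjTranspose]
  exact (hB.mul_mul_conjTranspose_same C).trace_nonneg

section tr

variable [FiniteDimensional ℝ V] {g k : Ten V}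

theorem if_trM_self (hM : IsMfd d M) (hg : IsMetricOn d M g) {x : V} (hx : x ∈ M) :
    trM d M g g x = d := by
  obtain ⟨ψ, U, h, u, hu, rfl⟩ := hM x hx
  rw [if_trM_eq hg g h hu]
  unfold trC
  rw [Matrix.nonsing_inv_mul _ (isUnit_iff_ne_zero.2 ((hg ψ U h).2 u hu).det_pos.ne'),
    Matrix.trace_one, Fintype.card_fin]

/-- `0 ≤ tr_g k` for `k ≥ 0` -/
theorem if_trM_nonneg (hM : IsMfd d M) (hg : IsMetricOn d M g)
    (hk : ∀ (ψ : E d → V) (U : Set (E d)), IsParam M ψ U → ∀ u ∈ U, (cm k ψ u).PosSemidef)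
    {x : V} (hx : x ∈ M) : 0 ≤ trM d M g k x := by
  obtain ⟨ψ, U, h, u, hu, rfl⟩ := hM x hx
  rw [if_trM_eq hg k h hu]
  exact if_trace_mul_nonneg ((hg ψ U h).2 u hu).inv.posSemidef (hk ψ U h u hu)

/-- `tr_g k ≤ d` for `k ≤ g` -/
theorem if_trM_le (hM : IsMfd d M) (hg : IsMetricOn d M g) (hle : MetLE d M k g) {x : V}
    (hx : x ∈ M) : trM d M g k x ≤ d := by
  obtain ⟨ψ, U, h, u, hu, rfl⟩ := hM x hx
  rw [if_trM_eq hg k h hu]
  have h1 := if_trace_mul_nonneg ((hg ψ U h).2 u hu).inv.posSemidef (hle ψ U h u hu)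
  rw [Matrix.mul_sub, Matrix.trace_sub,
    Matrix.nonsing_inv_mul _ (isUnit_iff_ne_zero.2 ((hg ψ U h).2 u hu).det_pos.ne'),
    Matrix.trace_one, Fintype.card_fin] at h1
  unfold trC
  linarith

/-- monotonicity of the trace in the second argument -/
theorem if_trM_mono (hM : IsMfd d M) (hg : IsMetricOn d M g) {k l : Ten V} (hle : MetLE d M k l)
    {x : V} (hx : x ∈ M) : trM d M g k x ≤ trM d M g l x := by
  obtain ⟨ψ, U, h, u, hu, rfl⟩ := hM x hx
  rw [if_trM_eq hg k h hu, if_trM_eq hg l h hu]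
  have h1 := if_trace_mul_nonneg ((hg ψ U h).2 u hu).inv.posSemidef (hle ψ U h u hu)
  rw [Matrix.mul_sub, Matrix.trace_sub] at h1
  unfold trC
  linarith

end tr

end Claimed.Agent.R315
end

/- ===== packed: Claimed.Agent.R315.If.Tder ===== -/
section
/-!
# Row 315 (S0571), interface, part 26: the differential along `M` (`tder`), `dsqT`, `pullT` (prefix `if_`)

* `if_tder_apply`: `tder d M f (ψ u) (fderiv ℝ ψ u a) = fderiv ℝ (f ∘ ψ) u a`;
* `if_Tan d M x`: tangent vectors; `if_tan_iff`, `if_tan_of_adm` (velocities of curves);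
* `if_tder_eq_fderiv`: agreement with the ambient derivative on tangent vectors;
* `if_hasDerivWithinAt_comp`, `if_hasDerivAt_comp`: `(f ∘ c)' = tder d M f (c s) (c' s)`;
* `if_tder_sq_le`: `(tder d M f x v)² ≤ gradSq d M g f x * g x v v`;
* `if_cm_dsqT`, `if_cm_pullT`, `if_isTenOn_dsqT`.
Owner: helper274.
-/

set_option autoImplicit false
set_option linter.unusedSectionVars false

open scoped Topology ContDiff
open Claims.C0499 Set Function Filter

namespace Claimed.Agent.R315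

variable {d : ℕ}
variable {V : Type} [NormedAddCommGroup V] [NormedSpace ℝ V] [FiniteDimensional ℝ V]
variable {F : Type} [NormedAddCommGroup F] [NormedSpace ℝ F]
variable {M : Set V} {ψ : E d → V} {U : Set (E d)}

theorem if_exists_leftInv (h : IsParam M ψ U) {u : E d} (hu : u ∈ U) :
    ∃ L : V →L[ℝ] E d, L.comp (fderiv ℝ ψ u) = ContinuousLinearMap.id ℝ (E d) := by
  obtain ⟨P, hP⟩ := ContinuousLinearMap.HasLeftInverse.of_injective_of_finiteDimensional
    (if_imm h hu)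
  exact ⟨P, ContinuousLinearMap.ext fun a => hP a⟩

/-- chain rule through a transition map -/
theorem if_fderiv_comp_tr {ψ' : E d → V} {U' : Set (E d)} {f : V → F} (h : IsParam M ψ U)
    (h' : IsParam M ψ' U') {u u' : E d} (hu : u ∈ U) (hu' : u' ∈ U') (he : ψ u = ψ' u')
    (hf : DifferentiableAt ℝ (f ∘ ψ') u') :
    fderiv ℝ (f ∘ ψ) u = (fderiv ℝ (f ∘ ψ') u').comp (fderiv ℝ (if_tr ψ' U' ψ) u) := by
  have hT := if_mem_trDom hu hu' he
  have e := if_tr_eq h' hu' he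
  rw [(if_comp_eventuallyEq f h h' hT).fderiv_eq]
  have := fderiv_comp u (g := f ∘ ψ') (f := if_tr ψ' U' ψ) (by rw [e]; exact hf)
    (if_tr_differentiableAt h h' hT)
  rw [this, e]

/-- **the defining property of `tder`** -/
theorem if_tder_apply {f : V → F} (hf : SmoothAlong d M f) (h : IsParam M ψ U) {u : E d}
    (hu : u ∈ U) (a : E d) : tder d M f (ψ u) (fderiv ℝ ψ u a) = fderiv ℝ (f ∘ ψ) u a := by
  classical
  have H : ∃ (ψ' : E d → V) (U' : Set (E d)) (u' : E d) (L : V →L[ℝ] E d),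
      IsParam M ψ' U' ∧ u' ∈ U' ∧ ψ' u' = ψ u ∧
        L.comp (fderiv ℝ ψ' u') = ContinuousLinearMap.id ℝ (E d) := by
    obtain ⟨L, hL⟩ := if_exists_leftInv h hu
    exact ⟨ψ, U, u, L, h, hu, rfl, hL⟩
  unfold tder
  rw [dif_pos H]
  set ψ' := H.choose
  set U' := H.choose_spec.choose
  set u' := H.choose_spec.choose_spec.choose
  set L := H.choose_spec.choose_spec.choose_spec.choose
  obtain ⟨h', hu', he, hL⟩ : IsParam M ψ' U' ∧ u' ∈ U' ∧ ψ' u' = ψ u ∧
        L.comp (fderiv ℝ ψ' u') = ContinuousLinearMap.id ℝ (E d) :=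
    H.choose_spec.choose_spec.choose_spec.choose_spec
  have hT := if_mem_trDom hu hu' he.symm
  have e := if_tr_eq h' hu' he.symm
  rw [if_fderiv_comp_tr h h' hu hu' he.symm (if_smoothAlong_differentiableAt hf h' hu'),
    if_fderiv_eq h h' hT, e]
  simp only [ContinuousLinearMap.comp_apply]
  have := congrArg (fun A : E d →L[ℝ] E d => A (fderiv ℝ (if_tr ψ' U' ψ) u a)) hL
  simp only [ContinuousLinearMap.comp_apply, ContinuousLinearMap.id_apply] at this
  rw [this]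

/-- tangent vectors of `M` at `x` -/
def if_Tan (d : ℕ) (M : Set V) (x : V) : Set V :=
  {v | ∃ (ψ : E d → V) (U : Set (E d)) (u a : E d), IsParam M ψ U ∧ u ∈ U ∧ ψ u = x ∧
    v = fderiv ℝ ψ u a}

theorem if_tan_mk (h : IsParam M ψ U) {u : E d} (hu : u ∈ U) (a : E d) :
    fderiv ℝ ψ u a ∈ if_Tan d M (ψ u) := ⟨ψ, U, u, a, h, hu, rfl, rfl⟩

/-- the tangent vectors at `ψ u` are the vectors `dψ_u a` -/
theorem if_tan_iff (h : IsParam M ψ U) {u : E d} (hu : u ∈ U) {v : V} :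
    v ∈ if_Tan d M (ψ u) ↔ ∃ a, v = fderiv ℝ ψ u a := by
  constructor
  · rintro ⟨ψ', U', u', a, h', hu', he, rfl⟩
    have hT := if_mem_trDom hu' hu he
    have e := if_tr_eq h hu he
    refine ⟨fderiv ℝ (if_tr ψ U ψ') u' a, ?_⟩
    rw [if_fderiv_eq h' h hT, e]
    rfl
  · rintro ⟨a, rfl⟩
    exact if_tan_mk h hu a

theorem if_tan_add {x v w : V} (hv : v ∈ if_Tan d M x) (hw : w ∈ if_Tan d M x) :
    v + w ∈ if_Tan d M x := by
  obtain ⟨ψ, U, u, a, h, hu, rfl, rfl⟩ := hv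
  obtain ⟨b, rfl⟩ := (if_tan_iff h hu).1 hw
  rw [← map_add]
  exact if_tan_mk h hu _

theorem if_tan_smul {x v : V} (c : ℝ) (hv : v ∈ if_Tan d M x) : c • v ∈ if_Tan d M x := by
  obtain ⟨ψ, U, u, a, h, hu, rfl, rfl⟩ := hv
  rw [← map_smul]
  exact if_tan_mk h hu _

theorem if_tan_zero (hM : IsMfd d M) {x : V} (hx : x ∈ M) : (0 : V) ∈ if_Tan d M x := by
  obtain ⟨ψ, U, h, u, hu, rfl⟩ := hM x hx
  have := if_tan_mk h hu 0
  rwa [map_zero] at this

/-- velocities of admissible curves are tangent -/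
theorem if_tan_of_adm (hM : IsMfd d M) {c : ℝ → V} (hc : if_Adm M c) {t : ℝ}
    (ht : t ∈ Icc (0 : ℝ) 1) : deriv c t ∈ if_Tan d M (c t) := by
  obtain ⟨ψ, U, h, hct⟩ := hM (c t) (hc.2 t ht)
  obtain ⟨υ, I, -, htI, -, hmaps, hlift⟩ := if_adm_lift hc h hct
  obtain ⟨e1, e2⟩ := hlift t ⟨htI, ht⟩
  rw [e1, e2]
  exact if_tan_mk h (hmaps htI) _

/-- on tangent vectors `tder` is the ambient derivative -/
theorem if_tder_eq_fderiv {f : V → F} (hf : SmoothAlong d M f) {x v : V}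
    (hd : DifferentiableAt ℝ f x) (hv : v ∈ if_Tan d M x) : tder d M f x v = fderiv ℝ f x v := by
  obtain ⟨ψ, U, u, a, h, hu, rfl, rfl⟩ := hv
  rw [if_tder_apply hf h hu, fderiv_comp u hd (if_differentiableAt h hu)]
  rfl

/-- `tder` only depends on the values on `M` near `x` -/
theorem if_tder_congr {f f' : V → F} (hf : SmoothAlong d M f) (hf' : SmoothAlong d M f') {x v : V}
    {O : Set V} (hO : O ∈ 𝓝 x) (H : ∀ y ∈ M ∩ O, f y = f' y) (hv : v ∈ if_Tan d M x) :
    tder d M f x v = tder d M f' x v := by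
  obtain ⟨ψ, U, u, a, h, hu, rfl, rfl⟩ := hv
  rw [if_tder_apply hf h hu, if_tder_apply hf' h hu]
  have : f ∘ ψ =ᶠ[𝓝 u] f' ∘ ψ := by
    filter_upwards [(if_open h).mem_nhds hu, (if_differentiableAt h hu).continuousAt hO]
      with w h1 h2
    exact H _ ⟨if_mem h h1, h2⟩
  rw [this.fderiv_eq]

/-- derivative of a function along a curve -/
theorem if_hasDerivWithinAt_comp (hM : IsMfd d M) {f : V → F} (hf : SmoothAlong d M f)
    {c : ℝ → V} (hc : if_Adm M c) {t : ℝ} (ht : t ∈ Icc (0 : ℝ) 1) :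
    HasDerivWithinAt (f ∘ c) (tder d M f (c t) (deriv c t)) (Icc (0 : ℝ) 1) t := by
  obtain ⟨ψ, U, h, hct⟩ := hM (c t) (hc.2 t ht)
  obtain ⟨υ, I, hI, htI, hυ, hmaps, hlift⟩ := if_adm_lift hc h hct
  obtain ⟨e1, e2⟩ := hlift t ⟨htI, ht⟩
  rw [e1, e2, if_tder_apply hf h (hmaps htI)]
  have hυd : HasDerivAt υ (deriv υ t) t :=
    ((hυ.contDiffAt (hI.mem_nhds htI)).differentiableAt (by simp)).hasDerivAt
  have h1 : HasDerivAt ((f ∘ ψ) ∘ υ) (fderiv ℝ (f ∘ ψ) (υ t) (deriv υ t)) t :=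
    (if_smoothAlong_differentiableAt hf h (hmaps htI)).hasFDerivAt.comp_hasDerivAt t hυd
  refine h1.hasDerivWithinAt.congr_of_eventuallyEq ?_ ?_
  · filter_upwards [mem_nhdsWithin_of_mem_nhds (hI.mem_nhds htI), self_mem_nhdsWithin]
      with s hs1 hs2
    simp only [comp_apply, (hlift s ⟨hs1, hs2⟩).1]
  · simp only [comp_apply, e1]

theorem if_hasDerivAt_comp (hM : IsMfd d M) {f : V → F} (hf : SmoothAlong d M f)
    {c : ℝ → V} (hc : if_Adm M c) {t : ℝ} (ht : t ∈ Ioo (0 : ℝ) 1) :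
    HasDerivAt (f ∘ c) (tder d M f (c t) (deriv c t)) t :=
  (if_hasDerivWithinAt_comp hM hf hc (Ioo_subset_Icc_self ht)).hasDerivAt (Icc_mem_nhds ht.1 ht.2)

/-- Cauchy-Schwarz for the differential -/
theorem if_tder_sq_le {g : Ten V} (hg : IsMetricOn d M g) {f : V → ℝ} (hf : SmoothAlong d M f)
    {x v : V} (hv : v ∈ if_Tan d M x) : (tder d M f x v) ^ 2 ≤ gradSq d M g f x * g x v v := by
  obtain ⟨ψ, U, u, a, h, hu, rfl, rfl⟩ := hv
  rw [if_tder_apply hf h hu, if_gradSq_eq hg hf h hu, ← if_cm_bil]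
  exact if_fderiv_sq_le hg h f hu a

/-- positivity of a metric on tangent vectors -/
theorem if_metric_nonneg {g : Ten V} (hg : IsMetricOn d M g) {x v : V} (hv : v ∈ if_Tan d M x) :
    0 ≤ g x v v := by
  obtain ⟨ψ, U, u, a, h, hu, rfl, rfl⟩ := hv
  rw [← if_cm_bil]
  exact if_bil_nonneg ((hg ψ U h).2 u hu).posSemidef a

/-- `MetLE` on tangent vectors -/
theorem if_metLE_apply {g k : Ten V} (hle : MetLE d M g k) {x v : V} (hv : v ∈ if_Tan d M x) :
    g x v v ≤ k x v v := by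
  obtain ⟨ψ, U, u, a, h, hu, rfl, rfl⟩ := hv
  rw [← if_cm_bil, ← if_cm_bil, ← sub_nonneg, ← if_bil_sub]
  exact if_bil_nonneg (hle ψ U h u hu) a

/-! ## `dsqT`, `pullT` -/

theorem if_cm_dsqT {f : V → ℝ} (hf : SmoothAlong d M f) (h : IsParam M ψ U) {u : E d}
    (hu : u ∈ U) (i j : Fin d) :
    cm (dsqT d M f) ψ u i j = pdiff (f ∘ ψ) i u * pdiff (f ∘ ψ) j u := by
  show (tder d M f (ψ u)).smulRight (tder d M f (ψ u)) (fderiv ℝ ψ u (eb i))
    (fderiv ℝ ψ u (eb j)) = _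
  simp only [ContinuousLinearMap.smulRight_apply, smul_apply, smul_eq_mul,
    if_tder_apply hf h hu]
  rfl

theorem if_dsqT_apply (f : V → ℝ) (x v w : V) :
    dsqT d M f x v w = tder d M f x v * tder d M f x w := by
  simp [dsqT]

theorem if_isTenOn_dsqT {f : V → ℝ} (hf : SmoothAlong d M f) : IsTenOn d M (dsqT d M f) := by
  intro ψ U h i j
  have h1 : ∀ i : Fin d, ContDiffOn ℝ ∞ (fun u => pdiff (f ∘ ψ) i u) U := fun i =>
    ((hf ψ U h).fderiv_of_isOpen (if_open h) (by simp)).clm_apply contDiffOn_const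
  exact ((h1 i).mul (h1 j)).congr fun u hu => if_cm_dsqT hf h hu i j

theorem if_cm_pullT {κ : V → V} (hκ : SmoothAlong d M κ) (k : Ten V) (h : IsParam M ψ U)
    {u : E d} (hu : u ∈ U) : cm (pullT d M κ k) ψ u = cm k (κ ∘ ψ) u := by
  ext i j
  show (k (κ (ψ u))).bilinearComp (tder d M κ (ψ u)) (tder d M κ (ψ u)) (fderiv ℝ ψ u (eb i))
    (fderiv ℝ ψ u (eb j)) = _
  simp only [ContinuousLinearMap.bilinearComp_apply, if_tder_apply hκ h hu]
  rfl

theorem if_pullT_apply (κ : V → V) (k : Ten V) (x v w : V) :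
    pullT d M κ k x v w = k (κ x) (tder d M κ x v) (tder d M κ x w) := rfl

end Claimed.Agent.R315
end

/- ===== packed: Claimed.Agent.R315.If.Loc ===== -/
section
/-!
# Row 315 (S0571), interface, part 27: everything is local (prefix `if_`)

* `if_pv_inter'`: `pv (M ∩ O) Φ x = pv M Φ x` for `x ∈ O`, `O` open, NO hypothesis on `Φ`;
  `if_scal/lap/gradIp/gradSq/trM/Dsc_inter'`;
* criteria on open pieces: `if_smoothAlong_of_pieces`, `if_isTenOn_of_pieces`,
  `if_isMetricOn_of_pieces`, `if_metLE_of_pieces`, `if_mfd_of_pieces`;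
* criteria on an atlas: `if_smoothAlong_of_atlas`, `if_isTenOn_of_atlas`, `if_isMetricOn_of_atlas`,
  `if_metLE_of_atlas` (`if_posDef_pull`, `if_posSemidef_pull`);
* values in a chart for data which are good only on `M ∩ O`: `if_scal_eq'`, `if_lap_eq'`,
  `if_gradIp_eq'`, `if_gradSq_eq'`, `if_Dsc_eq'`, `if_trM_eq'`;
* extension by zero, cutoffs: `if_smoothAlong_congr`, `if_smoothAlong_of_zero_off`,
  `if_smoothAlong_cutoff`, `if_isTenOn_cutoff`.
Owner: helper274.
-/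

set_option autoImplicit false
set_option linter.unusedSectionVars false

open scoped Topology ContDiff
open Claims.C0499 Set Function Filter

namespace Claimed.Agent.R315

variable {d : ℕ}
variable {V : Type} [NormedAddCommGroup V] [NormedSpace ℝ V]
variable {F : Type} [NormedAddCommGroup F] [NormedSpace ℝ F]
variable {M O : Set V} {ψ : E d → V} {U : Set (E d)}

/-! ## `pv` -/

theorem if_pv_inter' (hO : IsOpen O) (Φ : (E d → V) → E d → ℝ) {x : V} (hx : x ∈ O) :
    pv (M ∩ O) Φ x = pv M Φ x := by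
  unfold pv
  congr 1
  ext r
  constructor
  · rintro ⟨ψ, U, u, h, hu, he, rfl⟩
    exact ⟨ψ, U, u, if_param_of_inter hO h, hu, he, rfl⟩
  · rintro ⟨ψ, U, u, h, hu, he, rfl⟩
    exact ⟨ψ, U ∩ ψ ⁻¹' O, u, if_param_restrict hO h, ⟨hu, by rw [mem_preimage, he]; exact hx⟩,
      he, rfl⟩

section inter

variable (g k : Ten V) (f f' : V → ℝ) {x : V}

theorem if_scal_inter' (hO : IsOpen O) (hx : x ∈ O) : scal d (M ∩ O) g x = scal d M g x :=
  if_pv_inter' hO _ hx

theorem if_lap_inter' (hO : IsOpen O) (hx : x ∈ O) : lap d (M ∩ O) g f x = lap d M g f x :=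
  if_pv_inter' hO _ hx

theorem if_gradIp_inter' (hO : IsOpen O) (hx : x ∈ O) :
    gradIp d (M ∩ O) g f f' x = gradIp d M g f f' x := if_pv_inter' hO _ hx

theorem if_gradSq_inter' (hO : IsOpen O) (hx : x ∈ O) :
    gradSq d (M ∩ O) g f x = gradSq d M g f x := if_pv_inter' hO _ hx

theorem if_trM_inter' (hO : IsOpen O) (hx : x ∈ O) : trM d (M ∩ O) g k x = trM d M g k x :=
  if_pv_inter' hO _ hx

theorem if_Dsc_inter' (hO : IsOpen O) (hx : x ∈ O) : Dsc d (M ∩ O) g f x = Dsc d M g f x := by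
  unfold Dsc
  rw [if_scal_inter' g hO hx, if_lap_inter' g f hO hx, if_gradSq_inter' g f hO hx]

end inter

/-! ## open pieces -/

theorem if_restrict_mem_nhds (hO : IsOpen O) (h : IsParam M ψ U) {u : E d} (hu : u ∈ U)
    (hx : ψ u ∈ O) : U ∩ ψ ⁻¹' O ∈ 𝓝 u :=
  (if_open (if_param_restrict hO h)).mem_nhds ⟨hu, hx⟩

theorem if_smoothAlong_of_pieces {f : V → F}
    (H : ∀ x ∈ M, ∃ O, IsOpen O ∧ x ∈ O ∧ SmoothAlong d (M ∩ O) f) : SmoothAlong d M f := by
  intro ψ U h u hu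
  obtain ⟨O, hO, hx, hf⟩ := H (ψ u) (if_mem h hu)
  exact ((hf ψ _ (if_param_restrict hO h)).contDiffAt
    (if_restrict_mem_nhds hO h hu hx)).contDiffWithinAt

theorem if_isTenOn_of_pieces {g : Ten V}
    (H : ∀ x ∈ M, ∃ O, IsOpen O ∧ x ∈ O ∧ IsTenOn d (M ∩ O) g) : IsTenOn d M g := by
  intro ψ U h i j u hu
  obtain ⟨O, hO, hx, hf⟩ := H (ψ u) (if_mem h hu)
  exact ((hf ψ _ (if_param_restrict hO h) i j).contDiffAt
    (if_restrict_mem_nhds hO h hu hx)).contDiffWithinAt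

theorem if_isMetricOn_of_pieces {g : Ten V}
    (H : ∀ x ∈ M, ∃ O, IsOpen O ∧ x ∈ O ∧ IsMetricOn d (M ∩ O) g) : IsMetricOn d M g := by
  rw [if_isMetricOn_iff]
  refine ⟨if_isTenOn_of_pieces fun x hx => ?_, fun ψ U h u hu => ?_⟩
  · obtain ⟨O, hO, hxO, hg⟩ := H x hx
    exact ⟨O, hO, hxO, (if_isMetricOn_iff.1 hg).1⟩
  · obtain ⟨O, hO, hx, hg⟩ := H (ψ u) (if_mem h hu)
    exact (hg ψ _ (if_param_restrict hO h)).2 u ⟨hu, hx⟩

theorem if_metLE_of_pieces {g k : Ten V}
    (H : ∀ x ∈ M, ∃ O, IsOpen O ∧ x ∈ O ∧ MetLE d (M ∩ O) g k) : MetLE d M g k := by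
  intro ψ U h u hu
  obtain ⟨O, hO, hx, hg⟩ := H (ψ u) (if_mem h hu)
  exact hg ψ _ (if_param_restrict hO h) u ⟨hu, hx⟩

theorem if_mfd_of_pieces (H : ∀ x ∈ M, ∃ O, IsOpen O ∧ x ∈ O ∧ IsMfd d (M ∩ O)) : IsMfd d M := by
  intro x hx
  obtain ⟨O, hO, hxO, hM⟩ := H x hx
  obtain ⟨ψ, U, h, hmem⟩ := hM x ⟨hx, hxO⟩
  exact ⟨ψ, U, if_param_of_inter hO h, hmem⟩

/-! ## congruence, extension by zero, cutoffs -/

theorem if_smoothAlong_congr {f f' : V → F} (hf : SmoothAlong d M f) (he : ∀ x ∈ M, f' x = f x) :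
    SmoothAlong d M f' :=
  fun ψ U hp => (hf ψ U hp).congr fun _ hu => he _ (if_mem hp hu)

theorem if_isTenOn_congr {g g' : Ten V} (hg : IsTenOn d M g) (he : ∀ x ∈ M, g' x = g x) :
    IsTenOn d M g' := by
  intro ψ U hp i j
  refine (hg ψ U hp i j).congr fun u hu => ?_
  rw [if_cm_congr (he _ (if_mem hp hu))]

theorem if_isMetricOn_congr {g g' : Ten V} (hg : IsMetricOn d M g) (he : ∀ x ∈ M, g' x = g x) :
    IsMetricOn d M g' := by
  rw [if_isMetricOn_iff] at hg ⊢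
  refine ⟨if_isTenOn_congr hg.1 he, fun ψ U hp u hu => ?_⟩
  rw [if_cm_congr (he _ (if_mem hp hu))]
  exact hg.2 ψ U hp u hu

theorem if_smoothAlong_const (c : F) : SmoothAlong d M fun _ => c :=
  fun _ _ _ => contDiffOn_const

/-- a function which is smooth along `M ∩ O` and vanishes on `M` off a closed subset `K ⊆ O` -/
theorem if_smoothAlong_of_zero_off {f : V → F} {K : Set V} (hO : IsOpen O) (hK : IsClosed K)
    (hKO : K ⊆ O) (hf : SmoothAlong d (M ∩ O) f) (h0 : ∀ x ∈ M, x ∉ K → f x = 0) :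
    SmoothAlong d M f := by
  refine if_smoothAlong_of_pieces fun x hx => ?_
  by_cases hxK : x ∈ K
  · exact ⟨O, hO, hKO hxK, hf⟩
  · exact ⟨Kᶜ, hK.isOpen_compl, hxK,
      if_smoothAlong_congr (if_smoothAlong_const 0) fun y hy => h0 y hy.1 hy.2⟩

/-- `χ f` is smooth along `M` if `f` is smooth along `M ∩ O` and `tsupport χ ⊆ O` -/
theorem if_smoothAlong_cutoff {f : V → F} {χ : V → ℝ} (hO : IsOpen O) (hχ : SmoothAlong d M χ)
    (hsub : tsupport χ ⊆ O) (hf : SmoothAlong d (M ∩ O) f) :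
    SmoothAlong d M fun x => χ x • f x := by
  refine if_smoothAlong_of_zero_off hO (isClosed_tsupport χ) hsub ?_ fun x _ hx => ?_
  · intro ψ U h
    exact (hχ ψ U (if_param_of_inter hO h)).smul (hf ψ U h)
  · rw [image_eq_zero_of_notMem_tsupport hx, zero_smul]

/-- `χ g` is a smooth tensor on `M` if `g` is one on `M ∩ O` and `tsupport χ ⊆ O` -/
theorem if_isTenOn_cutoff {g : Ten V} {χ : V → ℝ} (hO : IsOpen O) (hχ : SmoothAlong d M χ)
    (hsub : tsupport χ ⊆ O) (hg : IsTenOn d (M ∩ O) g) : IsTenOn d M fun x => χ x • g x := by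
  refine if_isTenOn_of_pieces fun x hx => ?_
  by_cases hxK : x ∈ tsupport χ
  · refine ⟨O, hO, hsub hxK, fun ψ U h i j => ?_⟩
    exact (hχ ψ U (if_param_of_inter hO h)).mul (hg ψ U h i j)
  · refine ⟨(tsupport χ)ᶜ, (isClosed_tsupport χ).isOpen_compl, hxK, fun ψ U h i j => ?_⟩
    refine contDiffOn_const (c := (0 : ℝ)) |>.congr fun u hu => ?_
    have : χ (ψ u) = 0 := image_eq_zero_of_notMem_tsupport (if_mem h hu).2
    show χ (ψ u) * g (ψ u) _ _ = 0
    rw [this, zero_mul]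

/-! ## atlas criteria -/

theorem if_posSemidef_pull {S S' : Matrix (Fin d) (Fin d) ℝ} {A : E d →L[ℝ] E d}
    (hS' : S'.PosSemidef) (h : ∀ i j, S i j = if_bil S' (A (eb i)) (A (eb j))) :
    S.PosSemidef := by
  have hs' := if_isSymm_of_posSemidef hS'
  refine Matrix.PosSemidef.of_dotProduct_mulVec_nonneg ?_ fun x => ?_
  · rw [Matrix.IsHermitian, Matrix.conjTranspose_eq_transpose_of_trivial]
    ext i j
    rw [Matrix.transpose_apply, h, h, if_bil_symm hs']
  · have h1 := if_bil_of_basis h ((WithLp.toLp 2 x : E d)) (WithLp.toLp 2 x)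
    rw [if_bil_eq_dot] at h1
    rw [star_trivial]
    have h2 := if_bil_nonneg hS' (A (WithLp.toLp 2 x))
    rw [← h1] at h2
    exact h2

theorem if_posDef_pull {S S' : Matrix (Fin d) (Fin d) ℝ} {A : E d →L[ℝ] E d}
    (hS' : S'.PosDef) (hA : Injective A) (h : ∀ i j, S i j = if_bil S' (A (eb i)) (A (eb j))) :
    S.PosDef := by
  have hs' := if_isSymm_of_posSemidef hS'.posSemidef
  refine Matrix.PosDef.of_dotProduct_mulVec_pos (if_posSemidef_pull hS'.posSemidef h).1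
    fun x hx => ?_
  have h1 := if_bil_of_basis h ((WithLp.toLp 2 x : E d)) (WithLp.toLp 2 x)
  rw [if_bil_eq_dot, if_bil_eq_dot] at h1
  rw [star_trivial]
  have hne : (A (WithLp.toLp 2 x) : Fin d → ℝ) ≠ 0 := by
    intro h0
    have h3 : A (WithLp.toLp 2 x) = 0 := by
      ext i
      exact congrFun h0 i
    have h4 : (WithLp.toLp 2 x : E d) = 0 := hA (by rw [h3, map_zero])
    exact hx (by
      funext i
      exact congrFun (congrArg (fun y : E d => (y : Fin d → ℝ)) h4) i)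
  have h2 := hS'.dotProduct_mulVec_pos hne
  rw [star_trivial, ← h1] at h2
  exact h2

variable [FiniteDimensional ℝ V]

/-- smoothness may be tested on an atlas -/
theorem if_smoothAlong_of_atlas {f : V → F}
    (H : ∀ x ∈ M, ∃ (ψ : E d → V) (U : Set (E d)), IsParam M ψ U ∧ x ∈ ψ '' U ∧
      ContDiffOn ℝ ∞ (f ∘ ψ) U) : SmoothAlong d M f := by
  intro ψ U h u hu
  obtain ⟨ψ', U', h', ⟨u', hu', he⟩, hf⟩ := H (ψ u) (if_mem h hu)
  have hT := if_mem_trDom hu hu' he.symm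
  have e := if_tr_eq h' hu' he.symm
  have h1 : ContDiffAt ℝ ∞ (f ∘ ψ') (if_tr ψ' U' ψ u) := by
    rw [e]
    exact hf.contDiffAt ((if_open h').mem_nhds hu')
  exact ((h1.comp u (if_tr_contDiffAt h h' hT)).congr_of_eventuallyEq
    (if_comp_eventuallyEq f h h' hT)).contDiffWithinAt

theorem if_isTenOn_of_atlas {g : Ten V}
    (H : ∀ x ∈ M, ∃ (ψ : E d → V) (U : Set (E d)), IsParam M ψ U ∧ x ∈ ψ '' U ∧
      ∀ i j, ContDiffOn ℝ ∞ (fun u => cm g ψ u i j) U) : IsTenOn d M g := by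
  intro ψ U h i j u hu
  obtain ⟨ψ', U', h', ⟨u', hu', he⟩, hg⟩ := H (ψ u) (if_mem h hu)
  have hT := if_mem_trDom hu hu' he.symm
  have e := if_tr_eq h' hu' he.symm
  have hτ := if_tr_contDiffAt h h' hT
  have hdτ : ContDiffAt ℝ ∞ (fderiv ℝ (if_tr ψ' U' ψ)) u := hτ.fderiv_right (by simp)
  have h1 : ∀ a b, ContDiffAt ℝ ∞ (fun w => cm g ψ' (if_tr ψ' U' ψ w) a b) u := by
    intro a b
    have : ContDiffAt ℝ ∞ (fun w => cm g ψ' w a b) (if_tr ψ' U' ψ u) := by
      rw [e]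
      exact (hg a b).contDiffAt ((if_open h').mem_nhds hu')
    exact this.comp u hτ
  have h2 : ∀ (i a : Fin d), ContDiffAt ℝ ∞ (fun w => fderiv ℝ (if_tr ψ' U' ψ) w (eb i) a) u := by
    intro i a
    have h3 : ContDiffAt ℝ ∞ (fun w => fderiv ℝ (if_tr ψ' U' ψ) w (eb i)) u :=
      hdτ.clm_apply contDiffAt_const
    exact (contDiffAt_euclidean.1 h3) a
  have h4 : (fun w => cm g ψ w i j) =ᶠ[𝓝 u] fun w => ∑ a, ∑ b,
      cm g ψ' (if_tr ψ' U' ψ w) a b * (fderiv ℝ (if_tr ψ' U' ψ) w (eb i) a *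
        fderiv ℝ (if_tr ψ' U' ψ) w (eb j) b) := by
    filter_upwards [(if_isOpen_trDom h h').mem_nhds hT] with w hw
    rw [if_cm_tr g h h' hw, if_bil_apply]
  refine ContDiffAt.contDiffWithinAt (ContDiffAt.congr_of_eventuallyEq ?_ h4)
  exact ContDiffAt.sum fun a _ => ContDiffAt.sum fun b _ => (h1 a b).mul ((h2 i a).mul (h2 j b))

theorem if_isMetricOn_of_atlas {g : Ten V}
    (H : ∀ x ∈ M, ∃ (ψ : E d → V) (U : Set (E d)), IsParam M ψ U ∧ x ∈ ψ '' U ∧
      (∀ i j, ContDiffOn ℝ ∞ (fun u => cm g ψ u i j) U) ∧ ∀ u ∈ U, (cm g ψ u).PosDef) :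
    IsMetricOn d M g := by
  rw [if_isMetricOn_iff]
  refine ⟨if_isTenOn_of_atlas fun x hx => ?_, fun ψ U h u hu => ?_⟩
  · obtain ⟨ψ, U, h, hmem, h1, -⟩ := H x hx
    exact ⟨ψ, U, h, hmem, h1⟩
  · obtain ⟨ψ', U', h', ⟨u', hu', he⟩, -, hg⟩ := H (ψ u) (if_mem h hu)
    have hT := if_mem_trDom hu hu' he.symm
    exact if_posDef_pull (hg _ (if_tr_mem hT)) (if_fderiv_tr_injective h h' hT)
      (if_cm_tr g h h' hT)

theorem if_metLE_of_atlas {g k : Ten V}
    (H : ∀ x ∈ M, ∃ (ψ : E d → V) (U : Set (E d)), IsParam M ψ U ∧ x ∈ ψ '' U ∧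
      ∀ u ∈ U, (cm k ψ u - cm g ψ u).PosSemidef) : MetLE d M g k := by
  intro ψ U h u hu
  obtain ⟨ψ', U', h', ⟨u', hu', he⟩, hg⟩ := H (ψ u) (if_mem h hu)
  have hT := if_mem_trDom hu hu' he.symm
  refine if_posSemidef_pull (hg _ (if_tr_mem hT)) (A := fderiv ℝ (if_tr ψ' U' ψ) u) fun i j => ?_
  rw [Matrix.sub_apply, if_cm_tr k h h' hT, if_cm_tr g h h' hT, if_bil_sub]

/-! ## values in a chart for data which are good on `M ∩ O` only -/

section val

variable {g : Ten V} {u : E d}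

theorem if_scal_eq' (hO : IsOpen O) (hg : IsMetricOn d (M ∩ O) g) (h : IsParam M ψ U)
    (hu : u ∈ U) (hx : ψ u ∈ O) : scal d M g (ψ u) = scalarCoord (cm g ψ) u := by
  rw [← if_scal_inter' g hO hx, if_scal_eq hg (if_param_restrict hO h) ⟨hu, hx⟩]

theorem if_lap_eq' (hO : IsOpen O) (hg : IsMetricOn d (M ∩ O) g) {f : V → ℝ}
    (hf : SmoothAlong d (M ∩ O) f) (h : IsParam M ψ U) (hu : u ∈ U) (hx : ψ u ∈ O) :
    lap d M g f (ψ u) = lapC (cm g ψ) (f ∘ ψ) u := by
  rw [← if_lap_inter' g f hO hx, if_lap_eq hg hf (if_param_restrict hO h) ⟨hu, hx⟩]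

theorem if_gradIp_eq' (hO : IsOpen O) (hg : IsMetricOn d (M ∩ O) g) {f k : V → ℝ}
    (hf : SmoothAlong d (M ∩ O) f) (hk : SmoothAlong d (M ∩ O) k) (h : IsParam M ψ U)
    (hu : u ∈ U) (hx : ψ u ∈ O) :
    gradIp d M g f k (ψ u) = gradIpC (cm g ψ) (f ∘ ψ) (k ∘ ψ) u := by
  rw [← if_gradIp_inter' g f k hO hx, if_gradIp_eq hg hf hk (if_param_restrict hO h) ⟨hu, hx⟩]

theorem if_gradSq_eq' (hO : IsOpen O) (hg : IsMetricOn d (M ∩ O) g) {f : V → ℝ}
    (hf : SmoothAlong d (M ∩ O) f) (h : IsParam M ψ U) (hu : u ∈ U) (hx : ψ u ∈ O) :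
    gradSq d M g f (ψ u) = gradSqC (cm g ψ) (f ∘ ψ) u := if_gradIp_eq' hO hg hf hf h hu hx

theorem if_trM_eq' (hO : IsOpen O) (hg : IsMetricOn d (M ∩ O) g) (k : Ten V) (h : IsParam M ψ U)
    (hu : u ∈ U) (hx : ψ u ∈ O) : trM d M g k (ψ u) = trC (cm g ψ) (cm k ψ) u := by
  rw [← if_trM_inter' g k hO hx, if_trM_eq hg k (if_param_restrict hO h) ⟨hu, hx⟩]

theorem if_Dsc_eq' (hO : IsOpen O) (hg : IsMetricOn d (M ∩ O) g) {t : V → ℝ}
    (ht : SmoothAlong d (M ∩ O) t) (h : IsParam M ψ U) (hu : u ∈ U) (hx : ψ u ∈ O) :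
    Dsc d M g t (ψ u) = scalarCoord (cm g ψ) u + 2 * lapC (cm g ψ) (t ∘ ψ) u -
      gradSqC (cm g ψ) (t ∘ ψ) u := by
  rw [← if_Dsc_inter' g t hO hx, if_Dsc_eq hg ht (if_param_restrict hO h) ⟨hu, hx⟩]

end val

/-! ## tangent vectors and `tder` on open pieces -/

theorem if_tan_inter (hO : IsOpen O) {x : V} (hx : x ∈ O) :
    if_Tan d (M ∩ O) x = if_Tan d M x := by
  ext v
  constructor
  · rintro ⟨ψ, U, u, a, h, hu, he, rfl⟩
    exact ⟨ψ, U, u, a, if_param_of_inter hO h, hu, he, rfl⟩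
  · rintro ⟨ψ, U, u, a, h, hu, he, rfl⟩
    exact ⟨ψ, U ∩ ψ ⁻¹' O, u, a, if_param_restrict hO h,
      ⟨hu, by rw [mem_preimage, he]; exact hx⟩, he, rfl⟩

theorem if_tder_inter (hO : IsOpen O) {f : V → F} (hf : SmoothAlong d M f) {x v : V}
    (hx : x ∈ O) (hv : v ∈ if_Tan d M x) : tder d (M ∩ O) f x v = tder d M f x v := by
  obtain ⟨ψ, U, u, a, h, hu, rfl, rfl⟩ := hv
  rw [if_tder_apply hf h hu,
    if_tder_apply (if_smoothAlong_inter hf hO) (if_param_restrict hO h) ⟨hu, hx⟩]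

end Claimed.Agent.R315
end
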