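/- Packed by merge_tool.py (helper293): 4 modules of Claimed.Agent.R315 in one file, same declarations.
   Old modules, in this order: Rm.Low, Rm.Adm, Pk.Tan, Pk.Geo -/
import Claimed.Agent.R315.Pk.Thr
import Claimed.Agent.R315.Pack006
import Claimed.Agent.R315.Pack002
import Claimed.Agent.R315.Pack004

/- ===== packed: Claimed.Agent.R315.Rm.Low ===== -/
section
/-!
# Row 315, SC-RIEM: the lowered curvature tensor (prefix `rm_`)

MAIN LEMMA `rm_riem_low`: `R^l_{ijk} = G^{lm} R_{ijkm}` where `R_{ijkm} = rm_low G u i j k m` is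

  `½(∂_i∂_k G_{jm} + ∂_j∂_m G_{ik} - ∂_i∂_m G_{jk} - ∂_j∂_k G_{im})
      + G^{ab}([ik,a][jm,b] - [jk,a][im,b])`,

a formula WITHOUT derivatives of Christoffel symbols.  All later curvature computations (block
metrics, graphs, conformal changes) use `rm_scal_low` / `rm_ricci_low` and only need the first kind symbols
at ONE point and the second partials of the entries of `G`.

PROOF of `rm_riem_low` (leaf RM-LOW-1).  Write `c_{jk,m} = rm_c1 G · j k m`, `Γ^l_{jk} = G^{lm} c_{jk,m}`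
(`rm_christoffel_eq`).  Product rule: `∂_i Γ^l_{jk} = (∂_i G^{lm}) c_{jk,m} + G^{lm} ∂_i c_{jk,m}`.
By `rm_pdiff_invM` and `rm_c1_add` (`∂_i G_{ab} = c_{ia,b} + c_{ib,a}`):
`(∂_i G^{lm}) c_{jk,m} = - G^{la} (c_{ia,b} + c_{ib,a}) Γ^b_{jk}`, and
`Γ^l_{ip} Γ^p_{jk} = G^{la} c_{ip,a} Γ^p_{jk}` cancels the second half.  So
`∂_i Γ^l_{jk} + Γ^l_{ip} Γ^p_{jk} = G^{lm} ∂_i c_{jk,m} - G^{la} c_{ia,b} G^{bm} c_{jk,m}`.
Antisymmetrise in `i,j`; `∂_i c_{jk,m} - ∂_j c_{ik,m}` = the second order bracket (the terms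
`∂_i∂_j G_{km}` cancel by `rm_p2_symm`).
Owner of the statements: helper39.
-/

set_option autoImplicit false
open scoped ContDiff Topology
open Claims.C0499

namespace Claimed.Agent.R315

variable {d : ℕ} {G : rm_MF d} {U : Set (E d)} {u : E d}

/-- derivative of a first kind symbol. -/
theorem rm_pdiff_c1 (h : rm_Met G U) (hu : u ∈ U) (i j k m : Fin d) :
    pdiff (fun w => rm_c1 G w j k m) i u =
      (1 / 2) * (rm_p2 (fun w => G w k m) i j u + rm_p2 (fun w => G w j m) i k u -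
        rm_p2 (fun w => G w j k) i m u) := by
  have d1 := rm_da h.opn (rm_pdiff_smooth h.opn (h.smooth k m) j) hu
  have d2 := rm_da h.opn (rm_pdiff_smooth h.opn (h.smooth j m) k) hu
  have d3 := rm_da h.opn (rm_pdiff_smooth h.opn (h.smooth j k) m) hu
  have d12 : DifferentiableAt ℝ (fun w => pdiff (fun u => G u k m) j w +
      pdiff (fun u => G u j m) k w) u := d1.add d2
  have d123 : DifferentiableAt ℝ (fun w => pdiff (fun u => G u k m) j w +
      pdiff (fun u => G u j m) k w - pdiff (fun u => G u j k) m w) u := d12.sub d3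
  unfold rm_c1 rm_p2
  rw [rm_pdiff_const_mul _ d123, rm_pdiff_sub d12 d3, rm_pdiff_add d1 d2]

/-- `∂_i Γ^l_{jk} + Γ^l_{ip} Γ^p_{jk} = G^{lm} (∂_i c_{jk,m} - c_{im,b} G^{ba} c_{jk,a})`. -/
theorem rm_pdiff_christoffel (h : rm_Met G U) (hu : u ∈ U) (l i j k : Fin d) :
    pdiff (fun w => christoffel G w l j k) i u +
        ∑ p : Fin d, christoffel G u l i p * christoffel G u p j k =
      ∑ m : Fin d, (G u)⁻¹ l m * (pdiff (fun w => rm_c1 G w j k m) i u -
        ∑ a : Fin d, ∑ b : Fin d, (G u)⁻¹ a b * (rm_c1 G u j k a * rm_c1 G u i m b)) := by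
  have hPs : ∀ a b, (G u)⁻¹ a b = (G u)⁻¹ b a := rm_inv_symm h hu
  have e0 : (fun w => christoffel G w l j k) =
      fun w => ∑ m : Fin d, (G w)⁻¹ l m * rm_c1 G w j k m := by
    funext w; exact rm_christoffel_eq G w l j k
  have dI : ∀ m, DifferentiableAt ℝ (fun w => (G w)⁻¹ l m) u := fun m =>
    rm_da h.opn (rm_inv_smooth h l m) hu
  have dC : ∀ m, DifferentiableAt ℝ (fun w => rm_c1 G w j k m) u := fun m =>
    rm_da h.opn (rm_c1_smooth h j k m) hu
  have e1 : pdiff (fun w => christoffel G w l j k) i u =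
      ∑ m : Fin d, pdiff (fun w => (G w)⁻¹ l m) i u * rm_c1 G u j k m +
      ∑ m : Fin d, (G u)⁻¹ l m * pdiff (fun w => rm_c1 G w j k m) i u := by
    rw [e0, rm_pdiff_sum (F := fun m w => (G w)⁻¹ l m * rm_c1 G w j k m) Finset.univ
      (fun m _ => (dI m).mul (dC m)), ← Finset.sum_add_distrib]
    exact Finset.sum_congr rfl fun m _ => rm_pdiff_mul (dI m) (dC m)
  -- the two cubic sums
  have T1 : ∑ m : Fin d, pdiff (fun w => (G w)⁻¹ l m) i u * rm_c1 G u j k m =
      - (∑ c : Fin d, ∑ e : Fin d, ∑ m : Fin d,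
          (G u)⁻¹ l c * rm_c1 G u i c e * (G u)⁻¹ e m * rm_c1 G u j k m) -
        ∑ c : Fin d, ∑ e : Fin d, ∑ m : Fin d,
          (G u)⁻¹ l c * rm_c1 G u i e c * (G u)⁻¹ e m * rm_c1 G u j k m := by
    rw [← neg_add', ← Finset.sum_add_distrib]
    simp only [← Finset.sum_add_distrib]
    rw [rm_sum3_rot, ← Finset.sum_neg_distrib]
    refine Finset.sum_congr rfl fun m _ => ?_
    rw [rm_pdiff_invM h hu, neg_mul, Finset.sum_mul]
    congr 1
    refine Finset.sum_congr rfl fun c _ => ?_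
    rw [Finset.sum_mul]
    refine Finset.sum_congr rfl fun e _ => ?_
    rw [← rm_c1_add h hu i c e]; ring
  have T2 : ∑ p : Fin d, christoffel G u l i p * christoffel G u p j k =
      ∑ c : Fin d, ∑ e : Fin d, ∑ m : Fin d,
          (G u)⁻¹ l c * rm_c1 G u i e c * (G u)⁻¹ e m * rm_c1 G u j k m := by
    simp only [rm_christoffel_eq, Finset.sum_mul_sum]
    rw [Finset.sum_comm]
    refine Finset.sum_congr rfl fun c _ => Finset.sum_congr rfl fun e _ =>
      Finset.sum_congr rfl fun m _ => by ring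
  have T3 : ∑ m : Fin d, (G u)⁻¹ l m * (pdiff (fun w => rm_c1 G w j k m) i u -
        ∑ a : Fin d, ∑ b : Fin d, (G u)⁻¹ a b * (rm_c1 G u j k a * rm_c1 G u i m b)) =
      ∑ m : Fin d, (G u)⁻¹ l m * pdiff (fun w => rm_c1 G w j k m) i u -
      ∑ c : Fin d, ∑ e : Fin d, ∑ m : Fin d,
          (G u)⁻¹ l c * rm_c1 G u i c e * (G u)⁻¹ e m * rm_c1 G u j k m := by
    simp only [mul_sub, Finset.sum_sub_distrib, Finset.mul_sum]
    congr 1
    refine Finset.sum_congr rfl fun c _ => ?_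
    rw [Finset.sum_comm]
    refine Finset.sum_congr rfl fun e _ => Finset.sum_congr rfl fun m _ => ?_
    rw [hPs m e]; ring
  rw [e1, T1, T2, T3]; ring

/-- **the lowered curvature formula.** -/
theorem rm_riem_low (h : rm_Met G U) (hu : u ∈ U) (l i j k : Fin d) :
    riemannCoord G u l i j k = ∑ m : Fin d, (G u)⁻¹ l m * rm_low G u i j k m := by
  have k1 := rm_pdiff_christoffel h hu l i j k
  have k2 := rm_pdiff_christoffel h hu l j i k
  have e : riemannCoord G u l i j k =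
      (pdiff (fun w => christoffel G w l j k) i u +
        ∑ p : Fin d, christoffel G u l i p * christoffel G u p j k) -
      (pdiff (fun w => christoffel G w l i k) j u +
        ∑ p : Fin d, christoffel G u l j p * christoffel G u p i k) := by
    unfold riemannCoord
    rw [Finset.sum_sub_distrib]; ring
  rw [e, k1, k2, ← Finset.sum_sub_distrib]
  refine Finset.sum_congr rfl fun m _ => ?_
  rw [← mul_sub]
  congr 1
  rw [rm_pdiff_c1 h hu, rm_pdiff_c1 h hu]
  unfold rm_low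
  rw [rm_p2_symm h.opn (h.smooth k m) hu j i]
  have : ∑ a : Fin d, ∑ b : Fin d, (G u)⁻¹ a b *
      (rm_c1 G u i k a * rm_c1 G u j m b - rm_c1 G u j k a * rm_c1 G u i m b) =
      ∑ a : Fin d, ∑ b : Fin d, (G u)⁻¹ a b * (rm_c1 G u i k a * rm_c1 G u j m b) -
      ∑ a : Fin d, ∑ b : Fin d, (G u)⁻¹ a b * (rm_c1 G u j k a * rm_c1 G u i m b) := by
    simp only [mul_sub, Finset.sum_sub_distrib]
  rw [this]; ring

theorem rm_low_eq (h : rm_Met G U) (hu : u ∈ U) (i j k l : Fin d) :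
    rm_low G u i j k l = ∑ m : Fin d, G u l m * riemannCoord G u m i j k := by
  simp only [rm_riem_low h hu, Finset.mul_sum]
  rw [Finset.sum_comm]
  have : ∀ m, ∑ p : Fin d, G u l p * ((G u)⁻¹ p m * rm_low G u i j k m) =
      (if l = m then 1 else 0) * rm_low G u i j k m := by
    intro m
    rw [← rm_mul_inv h hu l m, Finset.sum_mul]
    exact Finset.sum_congr rfl fun p _ => by ring
  simp only [this]
  simp

theorem rm_low_smooth (h : rm_Met G U) (i j k l : Fin d) :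
    ContDiffOn ℝ ∞ (fun w => rm_low G w i j k l) U := by
  unfold rm_low
  have p2 : ∀ a b c e : Fin d, ContDiffOn ℝ ∞ (fun w => rm_p2 (fun w => G w a b) c e w) U :=
    fun a b c e => rm_p2_smooth h.opn (h.smooth a b) c e
  refine (contDiffOn_const.mul ((((p2 j l i k).add (p2 i k j l)).sub (p2 j k i l)).sub
    (p2 i l j k))).add (ContDiffOn.sum fun a _ => ContDiffOn.sum fun b _ => ?_)
  exact (rm_inv_smooth h a b).mul (((rm_c1_smooth h i k a).mul (rm_c1_smooth h j l b)).sub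
    ((rm_c1_smooth h j k a).mul (rm_c1_smooth h i l b)))

theorem rm_low_anti₁ (G : rm_MF d) (u : E d) (i j k l : Fin d) :
    rm_low G u i j k l = - rm_low G u j i k l := by
  unfold rm_low
  have : ∑ a : Fin d, ∑ b : Fin d, (G u)⁻¹ a b *
      (rm_c1 G u i k a * rm_c1 G u j l b - rm_c1 G u j k a * rm_c1 G u i l b) =
      - ∑ a : Fin d, ∑ b : Fin d, (G u)⁻¹ a b *
      (rm_c1 G u j k a * rm_c1 G u i l b - rm_c1 G u i k a * rm_c1 G u j l b) := by
    simp only [← Finset.sum_neg_distrib]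
    exact Finset.sum_congr rfl fun a _ => Finset.sum_congr rfl fun b _ => by ring
  rw [this]; ring

theorem rm_low_anti₂ (h : rm_Met G U) (hu : u ∈ U) (i j k l : Fin d) :
    rm_low G u i j k l = - rm_low G u i j l k := by
  unfold rm_low
  have : ∑ a : Fin d, ∑ b : Fin d, (G u)⁻¹ a b *
      (rm_c1 G u i k a * rm_c1 G u j l b - rm_c1 G u j k a * rm_c1 G u i l b) =
      - ∑ a : Fin d, ∑ b : Fin d, (G u)⁻¹ a b *
      (rm_c1 G u i l a * rm_c1 G u j k b - rm_c1 G u j l a * rm_c1 G u i k b) := by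
    rw [Finset.sum_comm]
    simp only [← Finset.sum_neg_distrib]
    exact Finset.sum_congr rfl fun a _ => Finset.sum_congr rfl fun b _ => by
      rw [rm_inv_symm h hu b a]; ring
  rw [this]; ring

theorem rm_low_pair (h : rm_Met G U) (hu : u ∈ U) (i j k l : Fin d) :
    rm_low G u i j k l = rm_low G u k l i j := by
  unfold rm_low
  have hq : ∀ a b c e : Fin d, rm_p2 (fun w => G w a b) c e u = rm_p2 (fun w => G w b a) e c u := by
    intro a b c e
    rw [rm_p2_symm h.opn (h.smooth a b) hu c e]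
    unfold rm_p2
    exact rm_pdiff_congr_on h.opn hu fun w hw => rm_pdiff_symm h hw a b c
  have : ∑ a : Fin d, ∑ b : Fin d, (G u)⁻¹ a b *
      (rm_c1 G u k i a * rm_c1 G u l j b - rm_c1 G u l i a * rm_c1 G u k j b) =
      ∑ a : Fin d, ∑ b : Fin d, (G u)⁻¹ a b * (rm_c1 G u i k a * rm_c1 G u j l b) -
      ∑ a : Fin d, ∑ b : Fin d, (G u)⁻¹ a b * (rm_c1 G u j k a * rm_c1 G u i l b) := by
    simp only [mul_sub, Finset.sum_sub_distrib]
    congr 1
    · exact Finset.sum_congr rfl fun a _ => Finset.sum_congr rfl fun b _ => by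
        rw [rm_c1_symm h hu k i, rm_c1_symm h hu l j]
    · rw [Finset.sum_comm]
      exact Finset.sum_congr rfl fun a _ => Finset.sum_congr rfl fun b _ => by
        rw [rm_c1_symm h hu l i, rm_c1_symm h hu k j, rm_inv_symm h hu b a]; ring
  rw [this, hq l j k i, hq k i l j, hq l i k j, hq k j l i]
  simp only [mul_sub, Finset.sum_sub_distrib]
  ring

theorem rm_ricci_low (h : rm_Met G U) (hu : u ∈ U) (j k : Fin d) :
    ricciCoord G u j k = ∑ i : Fin d, ∑ l : Fin d, (G u)⁻¹ i l * rm_low G u i j k l := by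
  unfold ricciCoord
  exact Finset.sum_congr rfl fun i _ => rm_riem_low h hu i i j k

theorem rm_ricci_symm (h : rm_Met G U) (hu : u ∈ U) (j k : Fin d) :
    ricciCoord G u j k = ricciCoord G u k j := by
  rw [rm_ricci_low h hu, rm_ricci_low h hu, Finset.sum_comm]
  refine Finset.sum_congr rfl fun i _ => Finset.sum_congr rfl fun l _ => ?_
  rw [rm_inv_symm h hu l i, rm_low_pair h hu l j k i, rm_low_anti₁ G u k i l j,
    rm_low_anti₂ h hu i k l j, neg_neg]

theorem rm_ricci_smooth (h : rm_Met G U) (j k : Fin d) :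
    ContDiffOn ℝ ∞ (fun w => ricciCoord G w j k) U := by
  exact if_ricci_contDiffOn h.opn h.smooth (rm_det_ne h) j k

theorem rm_scal_low (h : rm_Met G U) (hu : u ∈ U) :
    scalarCoord G u = ∑ j : Fin d, ∑ k : Fin d, ∑ i : Fin d, ∑ l : Fin d,
      (G u)⁻¹ j k * ((G u)⁻¹ i l * rm_low G u i j k l) := by
  unfold scalarCoord
  refine Finset.sum_congr rfl fun j _ => Finset.sum_congr rfl fun k _ => ?_
  rw [rm_ricci_low h hu, Finset.mul_sum]
  exact Finset.sum_congr rfl fun i _ => Finset.mul_sum _ _ _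

theorem rm_scal_smooth (h : rm_Met G U) : ContDiffOn ℝ ∞ (fun w => scalarCoord G w) U := by
  exact if_scalar_contDiffOn h.opn h.smooth (rm_det_ne h)

end Claimed.Agent.R315
end

/- ===== packed: Claimed.Agent.R315.Rm.Adm ===== -/
section
/-!
# Row 315, SC-RIEM: lapse coordinates `G = v² dq² + γ_q` (ADM / foliation identities, prefix `rm_`)

`G` is a smooth metric matrix on the open set `U ⊆ E (d+1)`, index `0` = the coordinate `q`, indices `a.succ` =
tangential coordinates, `rm_Orth G U`: `G_{0a} = 0`.  Notation (see `Rm/Defs.lean`):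
`v = rm_lps G`, `γ = rm_tan G`, `J = rm_sff G = (2v)⁻¹ ∂_q γ`, `H = rm_H G = tr_γ J`, `|J|² = rm_Jsq G`,
`e = rm_e G = v⁻¹ ∂_q`; slice operators `rm_scalS`, `rm_lapS`, `rm_ipS`, `rm_DscS`.

MASTER IDENTITIES
* `rm_adm_scal` : `Scal_G = Scal_γ - |J|² - H² - 2 e(H) - 2 Δ_γ v / v`;
* `rm_adm_ric00`: `Ric_G(e,e) = - e(H) - |J|² - Δ_γ v / v`   (Riccati);
* `rm_adm_lap`  : `Δ_G f = Δ_γ f + e(e f) + H e f + ⟨dv, df⟩_γ / v`;
* `rm_adm_ip`   : `⟨df,dk⟩_G = ⟨df,dk⟩_γ + e f · e k`;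
* `rm_adm_Dsc`  : `D(G,t) = D(γ,t) - |J|² - S² - 2 e(S) - 2 Δ_γ v / v + 2 ⟨dv,dt⟩_γ / v`, `S = H - e t`.

PROOFS (all in components, via `rm_scal_low`; sums over `Fin (d+1)` are split with `Fin.sum_univ_succ`).
Section A (leaf RM-ADM-A): block algebra.  `G u = Matrix.fromBlocks`-like; easiest: exhibit the inverse
  `N 0 0 = (G u 0 0)⁻¹, N 0 a.succ = 0 = N a.succ 0, N a.succ b.succ = γ⁻¹ a b`, check `G u * N = 1` entrywise with
  `Fin.cases`, use `Matrix.inv_eq_right_inv`.  Determinant: `Matrix.det_succ_row_zero` (only the term `j = 0` survives).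
Section B (leaf RM-ADM-B): first kind symbols of the block metric.  `G_{00} = v²`, `G_{0a} = 0` ON THE OPEN SET `U`
  (use `rm_pdiff_congr_on`), tangential derivatives of slices: `rm_pdiff_fs`.
Section C (leaf RM-ADM-C): curvature.
  Gauss: in `rm_low G u a' b' c' e'` (all tangential) the second order bracket is the one of the slice (`rm_p2_fs`), the sum over
  `(a,b)` splits into `(0,0)`: `v⁻² ((-vJ_{ac})(-vJ_{be}) - (-vJ_{bc})(-vJ_{ae}))` and the tangential part.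
  Mixed: `R_{0ab0} = -½∂_q²γ_{ab} - ½∂_a∂_b(v²) + G(Γ_{0b},Γ_{a0}) - G(Γ_{ab},Γ_{00})` with
  `G(Γ_{0b},Γ_{a0}) = v_a v_b + v² (Jγ⁻¹J)_{ab}`, `G(Γ_{ab},Γ_{00}) = - J_{ab} v_q - v Γ^{γ,c}_{ab} v_c`,
  `½∂_q²γ = v_q J + v ∂_q J`.
  `∂_q H = γ^{ab} ∂_q J_{ab} - 2 v |J|²` by `rm_pdiff_invM` for the field `γ` (NOT a slice: apply the derivative of the inverse
  to the matrix field `w ↦ rm_tan G w`; statement `rm_pdiff_tanInv` below).
Section D (leaf RM-ADM-D): assembly of `rm_adm_scal` from Gauss + mixed: in `rm_scal_low` split all four sums; only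
  `(j,k),(i,l)` both tangential, or one pair `(0,0)` survive; `R_{0000} = 0`, `R_{a00b} = R_{0ba0}` by `rm_low_pair`.
Section E (leaf RM-ADM-E): operators.
Owner of the statements: helper39.
-/

set_option autoImplicit false
open scoped ContDiff Topology
open Claims.C0499

namespace Claimed.Agent.R315

variable {d : ℕ} {G : rm_MF (d + 1)} {U : Set (E (d + 1))} {u : E (d + 1)}

/-! ## Section A: block algebra -/

theorem rm_orth' (h : rm_Met G U) (ho : rm_Orth G U) (hu : u ∈ U) (a : Fin d) :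
    G u a.succ 0 = 0 := by
  rw [rm_symm h hu]; exact ho u hu a

theorem rm_G00_pos (h : rm_Met G U) (hu : u ∈ U) : 0 < G u 0 0 := by
  exact (h.pos u hu).diag_pos

theorem rm_lps_pos (h : rm_Met G U) (hu : u ∈ U) : 0 < rm_lps G u :=
  Real.sqrt_pos.2 (rm_G00_pos h hu)

theorem rm_lps_sq (h : rm_Met G U) (hu : u ∈ U) : rm_lps G u ^ 2 = G u 0 0 :=
  Real.sq_sqrt (rm_G00_pos h hu).le

theorem rm_lps_smooth (h : rm_Met G U) : ContDiffOn ℝ ∞ (rm_lps G) U := by
  exact (h.smooth 0 0).sqrt fun w hw => (rm_G00_pos h hw).ne'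

theorem rm_tan_pos (h : rm_Met G U) (hu : u ∈ U) : (rm_tan G u).PosDef := by
  exact (h.pos u hu).submatrix (Fin.succ_injective _)

/-- the slices are Riemannian. -/
theorem rm_sl_met (h : rm_Met G U) (q : ℝ) : rm_Met (rm_sl G q) (rm_Us U q) := by
  refine ⟨rm_Us_open h.opn q, fun a b => ?_, fun y hy => rm_tan_pos h hy⟩
  exact rm_fs_smooth (h.smooth a.succ b.succ) q

theorem rm_tan_det_ne (h : rm_Met G U) (hu : u ∈ U) : (rm_tan G u).det ≠ 0 :=
  (rm_tan_pos h hu).det_pos.ne'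

theorem rm_blk_inv (h : rm_Met G U) (ho : rm_Orth G U) (hu : u ∈ U) :
    (G u)⁻¹ = Matrix.of (fun i j : Fin (d + 1) =>
      (Fin.cases (Fin.cases (G u 0 0)⁻¹ (fun _ => 0) j)
        (fun a => Fin.cases 0 (fun b => (rm_tan G u)⁻¹ a b) j) i : ℝ)) := by
  apply Matrix.inv_eq_right_inv
  ext i j
  rw [Matrix.mul_apply, Fin.sum_univ_succ]
  refine Fin.cases ?_ (fun a => ?_) i <;> refine Fin.cases ?_ (fun b => ?_) j
  · simp [ho u hu, mul_inv_cancel₀ (rm_G00_pos h hu).ne']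
  · simp [ho u hu, (Fin.succ_ne_zero b).symm]
  · simp [rm_orth' h ho hu, Fin.succ_ne_zero a]
  · have := rm_gmul_inv (rm_tan_det_ne h hu) a b
    simp only [Matrix.of_apply, Fin.cases_zero, Fin.cases_succ, mul_zero, zero_add,
      Matrix.one_apply, Fin.succ_inj]
    exact this

theorem rm_blk_inv00 (h : rm_Met G U) (ho : rm_Orth G U) (hu : u ∈ U) :
    (G u)⁻¹ 0 0 = (G u 0 0)⁻¹ := by
  rw [rm_blk_inv h ho hu]; simp

theorem rm_blk_inv0s (h : rm_Met G U) (ho : rm_Orth G U) (hu : u ∈ U) (a : Fin d) :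
    (G u)⁻¹ 0 a.succ = 0 := by
  rw [rm_blk_inv h ho hu]; simp

theorem rm_blk_invs0 (h : rm_Met G U) (ho : rm_Orth G U) (hu : u ∈ U) (a : Fin d) :
    (G u)⁻¹ a.succ 0 = 0 := by
  rw [rm_blk_inv h ho hu]; simp

theorem rm_blk_invss (h : rm_Met G U) (ho : rm_Orth G U) (hu : u ∈ U) (a b : Fin d) :
    (G u)⁻¹ a.succ b.succ = (rm_tan G u)⁻¹ a b := by
  rw [rm_blk_inv h ho hu]; simp

theorem rm_blk_det (h : rm_Met G U) (ho : rm_Orth G U) (hu : u ∈ U) :
    (G u).det = G u 0 0 * (rm_tan G u).det := by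
  rw [Matrix.det_succ_row_zero, Fin.sum_univ_succ]
  have : ∀ a : Fin d, (-1 : ℝ) ^ (a.succ : ℕ) * G u 0 a.succ *
      ((G u).submatrix Fin.succ a.succ.succAbove).det = 0 := by
    intro a; rw [ho u hu a]; ring
  simp only [this, Finset.sum_const_zero, add_zero]
  simp [rm_tan, Fin.succAbove_zero]

/-- splitting of a `G⁻¹`-contraction. -/
theorem rm_blk_sum (h : rm_Met G U) (ho : rm_Orth G U) (hu : u ∈ U)
    (F : Fin (d + 1) → Fin (d + 1) → ℝ) :
    ∑ i : Fin (d + 1), ∑ j : Fin (d + 1), (G u)⁻¹ i j * F i j =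
      (rm_lps G u ^ 2)⁻¹ * F 0 0 +
        ∑ a : Fin d, ∑ b : Fin d, (rm_tan G u)⁻¹ a b * F a.succ b.succ := by
  rw [Fin.sum_univ_succ]
  simp only [Fin.sum_univ_succ, rm_blk_inv00 h ho hu, rm_blk_inv0s h ho hu, rm_blk_invs0 h ho hu,
    rm_blk_invss h ho hu, zero_mul, Finset.sum_const_zero, add_zero, zero_add, rm_lps_sq h hu]

theorem rm_tanInv_smooth (h : rm_Met G U) (a b : Fin d) :
    ContDiffOn ℝ ∞ (fun w => (rm_tan G w)⁻¹ a b) U := by
  exact rm_ginv_smooth (A := fun w => rm_tan G w) (fun a b => h.smooth a.succ b.succ)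
    (fun w hw => rm_tan_det_ne h hw) a b

/-- derivative (in ANY direction) of the inverse of the tangential block. -/
theorem rm_pdiff_tanInv (h : rm_Met G U) (hu : u ∈ U) (a b : Fin d) (i : Fin (d + 1)) :
    pdiff (fun w => (rm_tan G w)⁻¹ a b) i u =
      - ∑ c : Fin d, ∑ e : Fin d, (rm_tan G u)⁻¹ a c *
        pdiff (fun w => G w c.succ e.succ) i u * (rm_tan G u)⁻¹ e b := by
  exact rm_gpdiff_inv (A := fun w => rm_tan G w) h.opn (fun a b => h.smooth a.succ b.succ)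
    (fun w hw => rm_tan_det_ne h hw) hu a b i

/-- Jacobi's formula for the tangential block (ANY direction). -/
theorem rm_pdiff_tanDet (h : rm_Met G U) (hu : u ∈ U) (i : Fin (d + 1)) :
    pdiff (fun w => (rm_tan G w).det) i u =
      (rm_tan G u).det * ∑ a : Fin d, ∑ b : Fin d, (rm_tan G u)⁻¹ a b *
        pdiff (fun w => G w a.succ b.succ) i u := by
  rw [rm_gpdiff_det (A := fun w => rm_tan G w)
    (fun a b => rm_da h.opn (h.smooth a.succ b.succ) hu) (rm_tan_det_ne h hu)]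
  congr 1
  refine Finset.sum_congr rfl fun a _ => Finset.sum_congr rfl fun b _ => ?_
  have := (rm_tan_pos h hu).inv.isHermitian.apply a b
  simp only [star_trivial] at this
  rw [this]; rfl

theorem rm_tanDet_smooth (h : rm_Met G U) : ContDiffOn ℝ ∞ (fun w => (rm_tan G w).det) U := by
  exact rm_gdet_smooth (A := fun w => rm_tan G w) (fun a b => h.smooth a.succ b.succ)

theorem rm_sff_smooth (h : rm_Met G U) (a b : Fin d) :
    ContDiffOn ℝ ∞ (fun w => rm_sff G w a b) U := by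
  unfold rm_sff
  simp only [Matrix.of_apply]
  exact ((contDiffOn_const.mul (rm_lps_smooth h)).inv
    (fun w hw => (mul_pos two_pos (rm_lps_pos h hw)).ne')).mul
    (rm_pdiff_smooth h.opn (h.smooth a.succ b.succ) 0)

theorem rm_sff_symm (h : rm_Met G U) (hu : u ∈ U) (a b : Fin d) :
    rm_sff G u a b = rm_sff G u b a := by
  unfold rm_sff
  simp only [Matrix.of_apply]
  rw [rm_pdiff_symm h hu]

theorem rm_H_smooth (h : rm_Met G U) : ContDiffOn ℝ ∞ (rm_H G) U := by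
  have e : rm_H G = fun u => ∑ a : Fin d, ∑ b : Fin d, (rm_tan G u)⁻¹ a b * rm_sff G u b a := by
    funext u
    simp [rm_H, Matrix.trace, Matrix.mul_apply]
  rw [e]
  exact ContDiffOn.sum fun a _ => ContDiffOn.sum fun b _ =>
    (rm_tanInv_smooth h a b).mul (rm_sff_smooth h b a)

theorem rm_H_eq_sum (G : rm_MF (d + 1)) (u : E (d + 1)) :
    rm_H G u = ∑ a : Fin d, ∑ b : Fin d, (rm_tan G u)⁻¹ a b * rm_sff G u b a := by
  simp [rm_H, Matrix.trace, Matrix.mul_apply]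

theorem rm_Jsq_eq_sum (G : rm_MF (d + 1)) (u : E (d + 1)) :
    rm_Jsq G u = ∑ a : Fin d, ∑ b : Fin d, ∑ c : Fin d, ∑ e : Fin d,
      (rm_tan G u)⁻¹ a b * rm_sff G u b c * ((rm_tan G u)⁻¹ c e * rm_sff G u e a) := by
  simp only [rm_Jsq, Matrix.trace, Matrix.diag_apply, Matrix.mul_apply, Finset.sum_mul_sum]
  refine Finset.sum_congr rfl fun a _ => ?_
  rw [Finset.sum_comm]

open scoped MatrixOrder in
theorem rm_exists_factor {n : ℕ} {P : Matrix (Fin n) (Fin n) ℝ} (hP : P.PosSemidef) :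
    ∃ B : Matrix (Fin n) (Fin n) ℝ, P = B.transpose * B := by
  obtain ⟨a, ha⟩ := CStarAlgebra.nonneg_iff_eq_star_mul_self.mp hP.nonneg
  exact ⟨a, by rw [ha, Matrix.star_eq_conjTranspose, Matrix.conjTranspose_eq_transpose_of_trivial]⟩

/-- reduction of `tr(PK)`, `tr(PKPK)` to a symmetric matrix `C = B K Bᵀ`, `P = Bᵀ B`. -/
theorem rm_tr_factor {n : ℕ} {P K : Matrix (Fin n) (Fin n) ℝ} (hP : P.PosSemidef)
    (hK : K.IsSymm) : ∃ C : Matrix (Fin n) (Fin n) ℝ, (P * K).trace = ∑ i, C i i ∧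
      (P * K * (P * K)).trace = ∑ i, ∑ j, C i j ^ 2 := by
  obtain ⟨B, rfl⟩ := rm_exists_factor hP
  refine ⟨B * K * B.transpose, ?_, ?_⟩
  · rw [Matrix.mul_assoc, Matrix.trace_mul_comm]; rfl
  · have hC : (B * K * B.transpose).transpose = B * K * B.transpose := by
      rw [Matrix.transpose_mul, Matrix.transpose_mul, Matrix.transpose_transpose, hK.eq,
        Matrix.mul_assoc]
    have e1 : B.transpose * B * K * (B.transpose * B * K) =
        B.transpose * (B * K * B.transpose * B * K) := by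
      simp only [Matrix.mul_assoc]
    have e2 : B * K * B.transpose * B * K * B.transpose =
        (B * K * B.transpose) * (B * K * B.transpose).transpose := by
      rw [hC]; simp only [Matrix.mul_assoc]
    rw [e1, Matrix.trace_mul_comm, e2]
    simp only [Matrix.trace, Matrix.diag_apply, Matrix.mul_apply, Matrix.transpose_apply]
    exact Finset.sum_congr rfl fun i _ => Finset.sum_congr rfl fun j _ => by ring

theorem rm_tr_sq_nonneg {n : ℕ} {P K : Matrix (Fin n) (Fin n) ℝ} (hP : P.PosSemidef)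
    (hK : K.IsSymm) : 0 ≤ (P * K * (P * K)).trace := by
  obtain ⟨C, -, h2⟩ := rm_tr_factor hP hK
  rw [h2]
  exact Finset.sum_nonneg fun i _ => Finset.sum_nonneg fun j _ => sq_nonneg _

theorem rm_tr_sq_le {n : ℕ} {P K : Matrix (Fin n) (Fin n) ℝ} (hP : P.PosSemidef)
    (hK : K.IsSymm) : (P * K).trace ^ 2 ≤ n * (P * K * (P * K)).trace := by
  obtain ⟨C, h1, h2⟩ := rm_tr_factor hP hK
  rw [h1, h2]
  have a1 : (∑ i, C i i) ^ 2 ≤ (n : ℝ) * ∑ i, C i i ^ 2 := by
    have := sq_sum_le_card_mul_sum_sq (s := (Finset.univ : Finset (Fin n))) (f := fun i => C i i)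
    simpa using this
  have a2 : ∑ i, C i i ^ 2 ≤ ∑ i, ∑ j, C i j ^ 2 :=
    Finset.sum_le_sum fun i _ =>
      Finset.single_le_sum (f := fun j => C i j ^ 2) (fun j _ => sq_nonneg _) (Finset.mem_univ i)
  exact a1.trans (mul_le_mul_of_nonneg_left a2 (Nat.cast_nonneg n))

theorem rm_sff_isSymm (h : rm_Met G U) (hu : u ∈ U) : (rm_sff G u).IsSymm := by
  ext a b; exact rm_sff_symm h hu b a

theorem rm_Jsq_nonneg (h : rm_Met G U) (hu : u ∈ U) : 0 ≤ rm_Jsq G u := by
  exact rm_tr_sq_nonneg (rm_tan_pos h hu).inv.posSemidef (rm_sff_isSymm h hu)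

/-- `H² ≤ d |J|²`. -/
theorem rm_H_sq_le (h : rm_Met G U) (hu : u ∈ U) : rm_H G u ^ 2 ≤ d * rm_Jsq G u := by
  exact rm_tr_sq_le (rm_tan_pos h hu).inv.posSemidef (rm_sff_isSymm h hu)

/-- `H = e (log √det γ)`. -/
theorem rm_H_eq_log (h : rm_Met G U) (hu : u ∈ U) :
    rm_H G u = rm_e G (fun w => Real.log (Real.sqrt (rm_tan G w).det)) u := by
  have hdp : 0 < (rm_tan G u).det := (rm_tan_pos h hu).det_pos
  have hsp : 0 < Real.sqrt (rm_tan G u).det := Real.sqrt_pos.2 hdp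
  have hd : DifferentiableAt ℝ (fun w => (rm_tan G w).det) u := rm_da h.opn (rm_tanDet_smooth h) hu
  have hv := rm_lps_pos h hu
  unfold rm_e
  rw [rm_pdiff_log (f := fun w => Real.sqrt (rm_tan G w).det) (hd.sqrt hdp.ne') hsp.ne',
    rm_pdiff_sqrt hd hdp.ne', rm_pdiff_tanDet h hu, rm_H_eq_sum]
  have e1 : ∑ a : Fin d, ∑ b : Fin d, (rm_tan G u)⁻¹ a b * rm_sff G u b a =
      (2 * rm_lps G u)⁻¹ * ∑ a : Fin d, ∑ b : Fin d, (rm_tan G u)⁻¹ a b *
        pdiff (fun w => G w a.succ b.succ) 0 u := by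
    simp only [Finset.mul_sum]
    refine Finset.sum_congr rfl fun a _ => Finset.sum_congr rfl fun b _ => ?_
    rw [rm_sff_symm h hu b a]
    simp only [rm_sff, Matrix.of_apply]; ring
  rw [e1]
  set S := ∑ a : Fin d, ∑ b : Fin d, (rm_tan G u)⁻¹ a b * pdiff (fun w => G w a.succ b.succ) 0 u
  have h1 : (rm_tan G u).det = Real.sqrt (rm_tan G u).det * Real.sqrt (rm_tan G u).det :=
    (Real.mul_self_sqrt hdp.le).symm
  set r := Real.sqrt (rm_tan G u).det
  rw [h1]
  field_simp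

/-! ## Section B: first kind symbols -/

theorem rm_pdiff_G00 (h : rm_Met G U) (hu : u ∈ U) (i : Fin (d + 1)) :
    pdiff (fun w => G w 0 0) i u = 2 * rm_lps G u * pdiff (rm_lps G) i u := by
  have hd := rm_da h.opn (rm_lps_smooth h) hu
  rw [rm_pdiff_congr_on (g := fun w => rm_lps G w * rm_lps G w) h.opn hu
    (fun w hw => by rw [← rm_lps_sq h hw]; ring), rm_pdiff_mul hd hd]
  ring

theorem rm_pdiff_G0s (h : rm_Met G U) (ho : rm_Orth G U) (hu : u ∈ U) (a : Fin d)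
    (i : Fin (d + 1)) : pdiff (fun w => G w 0 a.succ) i u = 0 := by
  rw [rm_pdiff_congr_on (g := fun _ => 0) h.opn hu (fun w hw => ho w hw a), rm_pdiff_const]

theorem rm_pdiff_Gs0 (h : rm_Met G U) (ho : rm_Orth G U) (hu : u ∈ U) (a : Fin d)
    (i : Fin (d + 1)) : pdiff (fun w => G w a.succ 0) i u = 0 := by
  rw [rm_pdiff_congr_on (g := fun _ => 0) h.opn hu (fun w hw => rm_orth' h ho hw a),
    rm_pdiff_const]

theorem rm_pdiff_Gss (h : rm_Met G U) (hu : u ∈ U) (a b : Fin d) :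
    pdiff (fun w => G w a.succ b.succ) 0 u = 2 * rm_lps G u * rm_sff G u a b := by
  have hv := rm_lps_pos h hu
  simp only [rm_sff, Matrix.of_apply]
  field_simp

/-- tangential derivative of a tangential entry = derivative in the slice. -/
theorem rm_pdiff_sl (h : rm_Met G U) (hu : u ∈ U) (a b c : Fin d) :
    pdiff (fun y => rm_sl G (u 0) y a b) c (rm_tl d u) =
      pdiff (fun w => G w a.succ b.succ) c.succ u := by
  have := rm_pdiff_fs (F := fun w => G w a.succ b.succ) (q := u 0) (y := rm_tl d u)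
    (by rw [rm_J_tl]; exact rm_da h.opn (h.smooth a.succ b.succ) hu) c
  rw [rm_J_tl] at this
  exact this

theorem rm_blk_c1_000 (h : rm_Met G U) (ho : rm_Orth G U) (hu : u ∈ U) :
    rm_c1 G u 0 0 0 = rm_lps G u * pdiff (rm_lps G) 0 u := by
  unfold rm_c1
  rw [rm_pdiff_G00 h hu]; ring

theorem rm_blk_c1_00s (h : rm_Met G U) (ho : rm_Orth G U) (hu : u ∈ U) (c : Fin d) :
    rm_c1 G u 0 0 c.succ = - (rm_lps G u * pdiff (rm_lps G) c.succ u) := by
  unfold rm_c1
  rw [rm_pdiff_G00 h hu, rm_pdiff_G0s h ho hu]; ring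

theorem rm_blk_c1_0s0 (h : rm_Met G U) (ho : rm_Orth G U) (hu : u ∈ U) (b : Fin d) :
    rm_c1 G u 0 b.succ 0 = rm_lps G u * pdiff (rm_lps G) b.succ u := by
  unfold rm_c1
  rw [rm_pdiff_G00 h hu, rm_pdiff_G0s h ho hu, rm_pdiff_Gs0 h ho hu]; ring

theorem rm_blk_c1_s00 (h : rm_Met G U) (ho : rm_Orth G U) (hu : u ∈ U) (b : Fin d) :
    rm_c1 G u b.succ 0 0 = rm_lps G u * pdiff (rm_lps G) b.succ u := by
  unfold rm_c1
  rw [rm_pdiff_G00 h hu, rm_pdiff_Gs0 h ho hu]; ring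

theorem rm_blk_c1_0ss (h : rm_Met G U) (ho : rm_Orth G U) (hu : u ∈ U) (b c : Fin d) :
    rm_c1 G u 0 b.succ c.succ = rm_lps G u * rm_sff G u b c := by
  unfold rm_c1
  rw [rm_pdiff_Gss h hu, rm_pdiff_G0s h ho hu, rm_pdiff_G0s h ho hu]; ring

theorem rm_blk_c1_s0s (h : rm_Met G U) (ho : rm_Orth G U) (hu : u ∈ U) (b c : Fin d) :
    rm_c1 G u b.succ 0 c.succ = rm_lps G u * rm_sff G u b c := by
  unfold rm_c1
  rw [rm_pdiff_Gss h hu, rm_pdiff_G0s h ho hu, rm_pdiff_Gs0 h ho hu]; ring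

theorem rm_blk_c1_ss0 (h : rm_Met G U) (ho : rm_Orth G U) (hu : u ∈ U) (a b : Fin d) :
    rm_c1 G u a.succ b.succ 0 = - (rm_lps G u * rm_sff G u a b) := by
  unfold rm_c1
  rw [rm_pdiff_Gss h hu, rm_pdiff_Gs0 h ho hu, rm_pdiff_Gs0 h ho hu]; ring

theorem rm_blk_c1_sss (h : rm_Met G U) (hu : u ∈ U) (a b c : Fin d) :
    rm_c1 G u a.succ b.succ c.succ = rm_c1 (rm_sl G (u 0)) (rm_tl d u) a b c := by
  unfold rm_c1
  rw [rm_pdiff_sl h hu, rm_pdiff_sl h hu, rm_pdiff_sl h hu]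

/-! ## Section C: curvature -/

theorem rm_sl_at (G : rm_MF (d + 1)) (u : E (d + 1)) : rm_sl G (u 0) (rm_tl d u) = rm_tan G u := by
  unfold rm_sl; rw [rm_J_tl]

theorem rm_p2_sl (h : rm_Met G U) (hu : u ∈ U) (a b c e : Fin d) :
    rm_p2 (fun y => rm_sl G (u 0) y a b) c e (rm_tl d u) =
      rm_p2 (fun w => G w a.succ b.succ) c.succ e.succ u := by
  have := rm_p2_fs (F := fun w => G w a.succ b.succ) h.opn (h.smooth a.succ b.succ) (q := u 0)
    (y := rm_tl d u) (by rw [rm_J_tl]; exact hu) c e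
  rw [rm_J_tl] at this
  exact this

theorem rm_p2_zero_on {n : ℕ} {W : Set (E n)} {F : E n → ℝ} {w : E n} (hW : IsOpen W) (hw : w ∈ W)
    (hF : ∀ x ∈ W, F x = 0) (i j : Fin n) : rm_p2 F i j w = 0 := by
  unfold rm_p2
  rw [rm_pdiff_congr_on (g := fun _ => 0) hW hw (fun x hx => by
    rw [rm_pdiff_congr_on (g := fun _ => 0) hW hx hF, rm_pdiff_const]), rm_pdiff_const]

theorem rm_sum2_mul_sum2 {n : ℕ} (X Y : Fin n → Fin n → ℝ) :
    (∑ b, ∑ c, X b c) * (∑ a, ∑ e, Y a e) = ∑ b, ∑ c, ∑ a, ∑ e, X b c * Y a e := by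
  rw [Finset.sum_mul]
  refine Finset.sum_congr rfl fun b _ => ?_
  rw [Finset.sum_mul]
  refine Finset.sum_congr rfl fun c _ => ?_
  rw [Finset.mul_sum]
  exact Finset.sum_congr rfl fun a _ => Finset.mul_sum _ _ _

theorem rm_tanInv_symm (h : rm_Met G U) (hu : u ∈ U) (a b : Fin d) :
    (rm_tan G u)⁻¹ a b = (rm_tan G u)⁻¹ b a := by
  have := (rm_tan_pos h hu).inv.isHermitian.apply a b
  simpa using this.symm

/-- **Gauss equation** in lapse coordinates. -/
theorem rm_blk_gauss (h : rm_Met G U) (ho : rm_Orth G U) (hu : u ∈ U) (a b c e : Fin d) :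
    rm_low G u a.succ b.succ c.succ e.succ =
      rm_low (rm_sl G (u 0)) (rm_tl d u) a b c e +
        (rm_sff G u a c * rm_sff G u b e - rm_sff G u b c * rm_sff G u a e) := by
  have hv := rm_lps_pos h hu
  unfold rm_low
  rw [rm_blk_sum h ho hu, rm_sl_at]
  simp only [rm_blk_c1_ss0 h ho hu, rm_blk_c1_sss h hu, rm_p2_sl h hu]
  field_simp
  ring

/-- **mixed curvature** `R_{0ab0} = - v ∂_q J_{ab} - v Hess_γ v_{ab} + v² (J γ⁻¹ J)_{ab}`. -/
theorem rm_blk_mixed (h : rm_Met G U) (ho : rm_Orth G U) (hu : u ∈ U) (a b : Fin d) :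
    rm_low G u 0 a.succ b.succ 0 =
      - (rm_lps G u * pdiff (fun w => rm_sff G w a b) 0 u)
      - rm_lps G u * hessC (rm_sl G (u 0)) (rm_fs (rm_lps G) (u 0)) (rm_tl d u) a b
      + rm_lps G u ^ 2 * ∑ c : Fin d, ∑ e : Fin d,
          rm_sff G u a c * (rm_tan G u)⁻¹ c e * rm_sff G u e b := by
  have hv := rm_lps_pos h hu
  have hvd : ∀ i, DifferentiableAt ℝ (fun w => pdiff (rm_lps G) i w) u := fun i =>
    rm_da h.opn (rm_pdiff_smooth h.opn (rm_lps_smooth h) i) hu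
  have hv1 := rm_da h.opn (rm_lps_smooth h) hu
  -- the four second order terms
  have q1 : rm_p2 (fun w => G w a.succ 0) 0 b.succ u = 0 :=
    rm_p2_zero_on h.opn hu (fun x hx => rm_orth' h ho hx a) _ _
  have q2 : rm_p2 (fun w => G w 0 b.succ) a.succ 0 u = 0 :=
    rm_p2_zero_on h.opn hu (fun x hx => ho x hx b) _ _
  have q3 : rm_p2 (fun w => G w a.succ b.succ) 0 0 u =
      2 * (pdiff (rm_lps G) 0 u * rm_sff G u a b +
        rm_lps G u * pdiff (fun w => rm_sff G w a b) 0 u) := by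
    unfold rm_p2
    rw [rm_pdiff_congr_on (g := fun w => 2 * (rm_lps G w * rm_sff G w a b)) h.opn hu
      (fun w hw => by rw [rm_pdiff_Gss h hw]; ring),
      rm_pdiff_const_mul _ (rm_da_mul hv1 (rm_da h.opn (rm_sff_smooth h a b) hu)),
      rm_pdiff_mul hv1 (rm_da h.opn (rm_sff_smooth h a b) hu)]
  have q4 : rm_p2 (fun w => G w 0 0) a.succ b.succ u =
      2 * (pdiff (rm_lps G) a.succ u * pdiff (rm_lps G) b.succ u +
        rm_lps G u * rm_p2 (rm_lps G) a.succ b.succ u) := by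
    unfold rm_p2
    rw [rm_pdiff_congr_on (g := fun w => 2 * (rm_lps G w * pdiff (rm_lps G) b.succ w)) h.opn hu
      (fun w hw => by rw [rm_pdiff_G00 h hw]; ring),
      rm_pdiff_const_mul _ (rm_da_mul hv1 (hvd b.succ)), rm_pdiff_mul hv1 (hvd b.succ)]
  -- the Hessian of the lapse in the slice
  have hH : hessC (rm_sl G (u 0)) (rm_fs (rm_lps G) (u 0)) (rm_tl d u) a b =
      rm_p2 (rm_lps G) a.succ b.succ u -
        ∑ x : Fin d, ∑ y : Fin d, (rm_tan G u)⁻¹ x y *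
          (rm_c1 (rm_sl G (u 0)) (rm_tl d u) a b x * pdiff (rm_lps G) y.succ u) := by
    unfold hessC
    have e1 := rm_p2_fs h.opn (rm_lps_smooth h) (q := u 0) (y := rm_tl d u)
      (by rw [rm_J_tl]; exact hu) a b
    rw [rm_J_tl] at e1
    unfold rm_p2 at e1 ⊢
    rw [e1]
    congr 1
    have e2 : ∀ k : Fin d, pdiff (rm_fs (rm_lps G) (u 0)) k (rm_tl d u) =
        pdiff (rm_lps G) k.succ u := by
      intro k
      have := rm_pdiff_fs (F := rm_lps G) (q := u 0) (y := rm_tl d u)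
        (by rw [rm_J_tl]; exact hv1) k
      rw [rm_J_tl] at this
      exact this
    simp only [e2, rm_christoffel_eq, rm_sl_at, Finset.sum_mul]
    rw [Finset.sum_comm]
    refine Finset.sum_congr rfl fun x _ => Finset.sum_congr rfl fun y _ => ?_
    rw [rm_tanInv_symm h hu y x]; ring
  have hJ : ∑ c : Fin d, ∑ e : Fin d, rm_sff G u a c * (rm_tan G u)⁻¹ c e * rm_sff G u e b =
      ∑ x : Fin d, ∑ y : Fin d, (rm_tan G u)⁻¹ x y * (rm_sff G u b x * rm_sff G u a y) := by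
    rw [Finset.sum_comm]
    refine Finset.sum_congr rfl fun x _ => Finset.sum_congr rfl fun y _ => ?_
    rw [rm_tanInv_symm h hu y x, rm_sff_symm h hu x b]; ring
  unfold rm_low
  rw [rm_blk_sum h ho hu, q1, q2, q3, q4, hH, hJ]
  simp only [rm_blk_c1_ss0 h ho hu, rm_blk_c1_sss h hu, rm_blk_c1_0s0 h ho hu,
    rm_blk_c1_s00 h ho hu, rm_blk_c1_000 h ho hu, rm_blk_c1_00s h ho hu, rm_blk_c1_0ss h ho hu,
    rm_blk_c1_s0s h ho hu]
  have split : ∑ x : Fin d, ∑ y : Fin d, (rm_tan G u)⁻¹ x y *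
      (rm_lps G u * rm_sff G u b x * (rm_lps G u * rm_sff G u a y) -
        rm_c1 (rm_sl G (u 0)) (rm_tl d u) a b x * -(rm_lps G u * pdiff (rm_lps G) y.succ u)) =
      rm_lps G u ^ 2 * ∑ x : Fin d, ∑ y : Fin d, (rm_tan G u)⁻¹ x y *
        (rm_sff G u b x * rm_sff G u a y) +
      rm_lps G u * ∑ x : Fin d, ∑ y : Fin d, (rm_tan G u)⁻¹ x y *
          (rm_c1 (rm_sl G (u 0)) (rm_tl d u) a b x * pdiff (rm_lps G) y.succ u) := by
    simp only [Finset.mul_sum, ← Finset.sum_add_distrib]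
    exact Finset.sum_congr rfl fun x _ => Finset.sum_congr rfl fun y _ => by ring
  rw [split]
  field_simp
  ring

/-- `∂_q H = γ^{ab} ∂_q J_{ab} - 2 v |J|²`. -/
theorem rm_blk_dH (h : rm_Met G U) (hu : u ∈ U) :
    pdiff (rm_H G) 0 u =
      ∑ a : Fin d, ∑ b : Fin d, (rm_tan G u)⁻¹ a b * pdiff (fun w => rm_sff G w a b) 0 u -
        2 * rm_lps G u * rm_Jsq G u := by
  have e : rm_H G = fun u => ∑ a : Fin d, ∑ b : Fin d, (rm_tan G u)⁻¹ a b * rm_sff G u b a := by
    funext u; exact rm_H_eq_sum G u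
  have dI : ∀ a b, DifferentiableAt ℝ (fun w => (rm_tan G w)⁻¹ a b) u := fun a b =>
    rm_da h.opn (rm_tanInv_smooth h a b) hu
  have dJ : ∀ a b, DifferentiableAt ℝ (fun w => rm_sff G w a b) u := fun a b =>
    rm_da h.opn (rm_sff_smooth h a b) hu
  have e1 : pdiff (rm_H G) 0 u = ∑ a : Fin d, ∑ b : Fin d,
      (pdiff (fun w => (rm_tan G w)⁻¹ a b) 0 u * rm_sff G u b a +
        (rm_tan G u)⁻¹ a b * pdiff (fun w => rm_sff G w b a) 0 u) := by
    rw [e, rm_pdiff_sum (F := fun a w => ∑ b : Fin d, (rm_tan G w)⁻¹ a b * rm_sff G w b a)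
      Finset.univ (fun a _ => rm_da_sum _ fun b _ => rm_da_mul (dI a b) (dJ b a))]
    refine Finset.sum_congr rfl fun a _ => ?_
    rw [rm_pdiff_sum (F := fun b w => (rm_tan G w)⁻¹ a b * rm_sff G w b a)
      Finset.univ (fun b _ => rm_da_mul (dI a b) (dJ b a))]
    exact Finset.sum_congr rfl fun b _ => rm_pdiff_mul (dI a b) (dJ b a)
  rw [e1]
  simp only [Finset.sum_add_distrib]
  have t2 : ∑ a : Fin d, ∑ b : Fin d, (rm_tan G u)⁻¹ a b * pdiff (fun w => rm_sff G w b a) 0 u =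
      ∑ a : Fin d, ∑ b : Fin d, (rm_tan G u)⁻¹ a b * pdiff (fun w => rm_sff G w a b) 0 u :=
    Finset.sum_congr rfl fun a _ => Finset.sum_congr rfl fun b _ => by
      rw [rm_pdiff_congr_on (g := fun w => rm_sff G w a b) h.opn hu
        (fun w hw => rm_sff_symm h hw b a)]
  have t1 : ∑ a : Fin d, ∑ b : Fin d, pdiff (fun w => (rm_tan G w)⁻¹ a b) 0 u * rm_sff G u b a =
      - (2 * rm_lps G u * rm_Jsq G u) := by
    rw [rm_Jsq_eq_sum, Finset.mul_sum, ← Finset.sum_neg_distrib]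
    refine Finset.sum_congr rfl fun a _ => ?_
    rw [rm_sum3_rot, Finset.mul_sum, ← Finset.sum_neg_distrib]
    refine Finset.sum_congr rfl fun b _ => ?_
    rw [rm_pdiff_tanInv h hu, neg_mul, Finset.sum_mul, Finset.mul_sum]
    congr 1
    refine Finset.sum_congr rfl fun c _ => ?_
    rw [Finset.sum_mul, Finset.mul_sum]
    refine Finset.sum_congr rfl fun e _ => ?_
    rw [rm_pdiff_Gss h hu]; ring
  rw [t1, t2]; ring

/-- contracted Gauss equation. -/
theorem rm_blk_gauss_tr (h : rm_Met G U) (ho : rm_Orth G U) (hu : u ∈ U) :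
    ∑ b : Fin d, ∑ c : Fin d, ∑ a : Fin d, ∑ e : Fin d,
      (rm_tan G u)⁻¹ b c * ((rm_tan G u)⁻¹ a e * rm_low G u a.succ b.succ c.succ e.succ) =
      rm_scalS G u + rm_Jsq G u - rm_H G u ^ 2 := by
  have hs := rm_scal_low (rm_sl_met h (u 0)) (rm_mem_Us hu)
  unfold rm_scalS
  rw [hs, rm_sl_at]
  simp only [rm_blk_gauss h ho hu, mul_add, mul_sub, Finset.sum_add_distrib,
    Finset.sum_sub_distrib]
  have tJ : ∑ b : Fin d, ∑ c : Fin d, ∑ a : Fin d, ∑ e : Fin d, (rm_tan G u)⁻¹ b c *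
      ((rm_tan G u)⁻¹ a e * (rm_sff G u a c * rm_sff G u b e)) = rm_Jsq G u := by
    rw [rm_Jsq_eq_sum]
    refine Finset.sum_congr rfl fun b _ => Finset.sum_congr rfl fun c _ =>
      Finset.sum_congr rfl fun a _ => Finset.sum_congr rfl fun e _ => ?_
    rw [rm_sff_symm h hu a c, rm_sff_symm h hu b e]; ring
  have tH : ∑ b : Fin d, ∑ c : Fin d, ∑ a : Fin d, ∑ e : Fin d, (rm_tan G u)⁻¹ b c *
      ((rm_tan G u)⁻¹ a e * (rm_sff G u b c * rm_sff G u a e)) = rm_H G u ^ 2 := by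
    rw [rm_H_eq_sum, sq, rm_sum2_mul_sum2]
    refine Finset.sum_congr rfl fun b _ => Finset.sum_congr rfl fun c _ =>
      Finset.sum_congr rfl fun a _ => Finset.sum_congr rfl fun e _ => ?_
    rw [rm_sff_symm h hu b c, rm_sff_symm h hu a e]; ring
  rw [tJ, tH]; ring

/-- contracted mixed curvature. -/
theorem rm_blk_mixed_tr (h : rm_Met G U) (ho : rm_Orth G U) (hu : u ∈ U) :
    ∑ a : Fin d, ∑ b : Fin d, (rm_tan G u)⁻¹ a b * rm_low G u 0 a.succ b.succ 0 =
      rm_lps G u ^ 2 * (- rm_e G (rm_H G) u - rm_Jsq G u - rm_lapS G (rm_lps G) u / rm_lps G u) := by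
  have hv := rm_lps_pos h hu
  have hl := rm_lapC_eq (rm_sl_met h (u 0)) (rm_mem_Us hu) (rm_fs_smooth (rm_lps_smooth h) (u 0))
  have hdH := rm_blk_dH h hu
  simp only [rm_blk_mixed h ho hu, mul_add, mul_sub, mul_neg, Finset.sum_add_distrib,
    Finset.sum_sub_distrib, Finset.sum_neg_distrib]
  have t1 : ∑ a : Fin d, ∑ b : Fin d, (rm_tan G u)⁻¹ a b *
      (rm_lps G u * pdiff (fun w => rm_sff G w a b) 0 u) =
      rm_lps G u * (pdiff (rm_H G) 0 u + 2 * rm_lps G u * rm_Jsq G u) := by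
    rw [hdH, sub_add_cancel]
    simp only [Finset.mul_sum]
    exact Finset.sum_congr rfl fun a _ => Finset.sum_congr rfl fun b _ => by ring
  have t2 : ∑ a : Fin d, ∑ b : Fin d, (rm_tan G u)⁻¹ a b *
      (rm_lps G u * hessC (rm_sl G (u 0)) (rm_fs (rm_lps G) (u 0)) (rm_tl d u) a b) =
      rm_lps G u * rm_lapS G (rm_lps G) u := by
    unfold rm_lapS
    rw [hl, rm_sl_at]
    simp only [Finset.mul_sum]
    exact Finset.sum_congr rfl fun a _ => Finset.sum_congr rfl fun b _ => by ring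
  have t3 : ∑ a : Fin d, ∑ b : Fin d, (rm_tan G u)⁻¹ a b *
      (rm_lps G u ^ 2 * ∑ c : Fin d, ∑ e : Fin d,
          rm_sff G u a c * (rm_tan G u)⁻¹ c e * rm_sff G u e b) =
      rm_lps G u ^ 2 * rm_Jsq G u := by
    rw [rm_Jsq_eq_sum, Finset.sum_comm]
    simp only [Finset.mul_sum]
    refine Finset.sum_congr rfl fun b _ => Finset.sum_congr rfl fun a _ =>
      Finset.sum_congr rfl fun c _ => Finset.sum_congr rfl fun e _ => ?_
    rw [rm_tanInv_symm h hu a b]; ring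
  rw [t1, t2, t3]
  unfold rm_e
  field_simp
  ring

/-! ## Section D: the master identities for the curvature -/

/-- **Riccati equation**: `Ric(e,e) = - e(H) - |J|² - Δ_γ v / v`. -/
theorem rm_adm_ric00 (h : rm_Met G U) (ho : rm_Orth G U) (hu : u ∈ U) :
    ricciCoord G u 0 0 / rm_lps G u ^ 2 =
      - rm_e G (rm_H G) u - rm_Jsq G u - rm_lapS G (rm_lps G) u / rm_lps G u := by
  have hv := rm_lps_pos h hu
  rw [rm_ricci_low h hu, rm_blk_sum h ho hu]
  have z : rm_low G u 0 0 0 0 = 0 := by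
    have := rm_low_anti₁ G u 0 0 0 0
    linarith
  have t : ∑ a : Fin d, ∑ b : Fin d, (rm_tan G u)⁻¹ a b * rm_low G u a.succ 0 0 b.succ =
      ∑ a : Fin d, ∑ b : Fin d, (rm_tan G u)⁻¹ a b * rm_low G u 0 a.succ b.succ 0 := by
    rw [Finset.sum_comm]
    refine Finset.sum_congr rfl fun a _ => Finset.sum_congr rfl fun b _ => ?_
    rw [rm_tanInv_symm h hu b a, rm_low_pair h hu b.succ 0 0 a.succ]
  rw [z, t, rm_blk_mixed_tr h ho hu]
  field_simp
  ring

/-- **ADM formula**: `Scal_G = Scal_γ - |J|² - H² - 2 e(H) - 2 Δ_γ v / v`. -/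
theorem rm_adm_scal (h : rm_Met G U) (ho : rm_Orth G U) (hu : u ∈ U) :
    scalarCoord G u = rm_scalS G u - rm_Jsq G u - rm_H G u ^ 2 - 2 * rm_e G (rm_H G) u -
      2 * rm_lapS G (rm_lps G) u / rm_lps G u := by
  have hv := rm_lps_pos h hu
  have hr := rm_adm_ric00 h ho hu
  rw [div_eq_iff (by positivity)] at hr
  unfold scalarCoord
  rw [rm_blk_sum h ho hu, hr]
  have t : ∑ b : Fin d, ∑ c : Fin d, (rm_tan G u)⁻¹ b c * ricciCoord G u b.succ c.succ =
      (rm_lps G u ^ 2)⁻¹ * (∑ b : Fin d, ∑ c : Fin d,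
        (rm_tan G u)⁻¹ b c * rm_low G u 0 b.succ c.succ 0) +
      ∑ b : Fin d, ∑ c : Fin d, ∑ a : Fin d, ∑ e : Fin d,
      (rm_tan G u)⁻¹ b c * ((rm_tan G u)⁻¹ a e * rm_low G u a.succ b.succ c.succ e.succ) := by
    simp only [Finset.mul_sum, ← Finset.sum_add_distrib]
    refine Finset.sum_congr rfl fun b _ => Finset.sum_congr rfl fun c _ => ?_
    rw [rm_ricci_low h hu, rm_blk_sum h ho hu, mul_add]
    simp only [Finset.mul_sum]
    ring
  rw [t, rm_blk_mixed_tr h ho hu, rm_blk_gauss_tr h ho hu]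
  field_simp
  ring

/-! ## Section E: operators -/

theorem rm_pdiff_fs_at {F : E (d + 1) → ℝ} (hF : DifferentiableAt ℝ F u) (a : Fin d) :
    pdiff (rm_fs F (u 0)) a (rm_tl d u) = pdiff F a.succ u := by
  have := rm_pdiff_fs (F := F) (q := u 0) (y := rm_tl d u) (by rw [rm_J_tl]; exact hF) a
  rw [rm_J_tl] at this
  exact this

theorem rm_ipS_eq {f k : E (d + 1) → ℝ} (hf : DifferentiableAt ℝ f u)
    (hk : DifferentiableAt ℝ k u) :
    rm_ipS G f k u = ∑ a : Fin d, ∑ b : Fin d,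
      (rm_tan G u)⁻¹ a b * (pdiff f a.succ u * pdiff k b.succ u) := by
  unfold rm_ipS gradIpC
  simp only [rm_sl_at, rm_pdiff_fs_at hf, rm_pdiff_fs_at hk, mul_assoc]

/-- `Γ^k_{ij} ∂_k f` in lapse coordinates. -/
theorem rm_blk_Gam_df (h : rm_Met G U) (ho : rm_Orth G U) (hu : u ∈ U) (f : E (d + 1) → ℝ)
    (i j : Fin (d + 1)) :
    ∑ k : Fin (d + 1), christoffel G u k i j * pdiff f k u =
      (rm_lps G u ^ 2)⁻¹ * (rm_c1 G u i j 0 * pdiff f 0 u) +
        ∑ a : Fin d, ∑ b : Fin d, (rm_tan G u)⁻¹ a b *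
          (rm_c1 G u i j b.succ * pdiff f a.succ u) := by
  rw [← rm_blk_sum h ho hu (fun k l => rm_c1 G u i j l * pdiff f k u)]
  refine Finset.sum_congr rfl fun k _ => ?_
  rw [rm_christoffel_eq, Finset.sum_mul]
  exact Finset.sum_congr rfl fun l _ => by ring

theorem rm_adm_ip (h : rm_Met G U) (ho : rm_Orth G U) (hu : u ∈ U) {f k : E (d + 1) → ℝ}
    (hf : ContDiffOn ℝ ∞ f U) (hk : ContDiffOn ℝ ∞ k U) :
    gradIpC G f k u = rm_ipS G f k u + rm_e G f u * rm_e G k u := by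
  have hv := rm_lps_pos h hu
  rw [rm_ipS_eq (rm_da h.opn hf hu) (rm_da h.opn hk hu)]
  unfold gradIpC rm_e
  simp only [mul_assoc]
  rw [rm_blk_sum h ho hu (fun i j => pdiff f i u * pdiff k j u)]
  field_simp
  ring

theorem rm_adm_sq (h : rm_Met G U) (ho : rm_Orth G U) (hu : u ∈ U) {f : E (d + 1) → ℝ}
    (hf : ContDiffOn ℝ ∞ f U) :
    gradSqC G f u = rm_ipS G f f u + rm_e G f u ^ 2 := by
  rw [if_gradSqC_eq, rm_adm_ip h ho hu hf hf]; ring

theorem rm_e_smooth (h : rm_Met G U) {f : E (d + 1) → ℝ} (hf : ContDiffOn ℝ ∞ f U) :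
    ContDiffOn ℝ ∞ (rm_e G f) U := by
  unfold rm_e
  exact ((rm_lps_smooth h).inv fun w hw => (rm_lps_pos h hw).ne').mul (rm_pdiff_smooth h.opn hf 0)

/-- `Δ_G f = Δ_γ f + e(e f) + H e f + ⟨dv, df⟩_γ / v`. -/
theorem rm_adm_lap (h : rm_Met G U) (ho : rm_Orth G U) (hu : u ∈ U) {f : E (d + 1) → ℝ}
    (hf : ContDiffOn ℝ ∞ f U) :
    lapC G f u = rm_lapS G f u + rm_e G (rm_e G f) u + rm_H G u * rm_e G f u +
      rm_ipS G (rm_lps G) f u / rm_lps G u := by
  have hv := rm_lps_pos h hu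
  have hfd := rm_da h.opn hf hu
  have hv1 := rm_da h.opn (rm_lps_smooth h) hu
  have hl := rm_lapC_eq (rm_sl_met h (u 0)) (rm_mem_Us hu) (rm_fs_smooth hf (u 0))
  rw [rm_lapC_eq h hu hf, rm_blk_sum h ho hu]
  -- the normal-normal Hessian
  have h00 : hessC G f u 0 0 = rm_p2 f 0 0 u - (rm_lps G u)⁻¹ * pdiff (rm_lps G) 0 u * pdiff f 0 u +
      rm_lps G u * rm_ipS G (rm_lps G) f u := by
    unfold hessC
    rw [rm_blk_Gam_df h ho hu, rm_blk_c1_000 h ho hu, rm_ipS_eq hv1 hfd]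
    simp only [rm_blk_c1_00s h ho hu]
    have : ∑ a : Fin d, ∑ b : Fin d, (rm_tan G u)⁻¹ a b *
        (-(rm_lps G u * pdiff (rm_lps G) b.succ u) * pdiff f a.succ u) =
        - (rm_lps G u * ∑ a : Fin d, ∑ b : Fin d, (rm_tan G u)⁻¹ a b *
          (pdiff (rm_lps G) a.succ u * pdiff f b.succ u)) := by
      rw [Finset.sum_comm]
      simp only [Finset.mul_sum, ← Finset.sum_neg_distrib]
      refine Finset.sum_congr rfl fun a _ => Finset.sum_congr rfl fun b _ => ?_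
      rw [rm_tanInv_symm h hu b a]; ring
    rw [this]
    unfold rm_p2
    field_simp
    ring
  -- the tangential Hessian
  have hab : ∀ a b : Fin d, hessC G f u a.succ b.succ =
      hessC (rm_sl G (u 0)) (rm_fs f (u 0)) (rm_tl d u) a b +
        (rm_lps G u)⁻¹ * rm_sff G u a b * pdiff f 0 u := by
    intro a b
    unfold hessC
    rw [rm_blk_Gam_df h ho hu, rm_blk_c1_ss0 h ho hu]
    simp only [rm_blk_c1_sss h hu]
    have e1 := rm_p2_fs h.opn hf (q := u 0) (y := rm_tl d u) (by rw [rm_J_tl]; exact hu) a b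
    rw [rm_J_tl] at e1
    unfold rm_p2 at e1
    rw [e1]
    have e2 : ∑ k : Fin d, christoffel (rm_sl G (u 0)) (rm_tl d u) k a b *
        pdiff (rm_fs f (u 0)) k (rm_tl d u) =
        ∑ x : Fin d, ∑ y : Fin d, (rm_tan G u)⁻¹ x y *
          (rm_c1 (rm_sl G (u 0)) (rm_tl d u) a b y * pdiff f x.succ u) := by
      refine Finset.sum_congr rfl fun x _ => ?_
      rw [rm_christoffel_eq, rm_sl_at, rm_pdiff_fs_at hfd, Finset.sum_mul]
      exact Finset.sum_congr rfl fun y _ => by ring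
    rw [e2]
    field_simp
    ring
  have hee : rm_e G (rm_e G f) u = (rm_lps G u ^ 2)⁻¹ * rm_p2 f 0 0 u -
      (rm_lps G u ^ 3)⁻¹ * pdiff (rm_lps G) 0 u * pdiff f 0 u := by
    have hinv : DifferentiableAt ℝ (fun w => (rm_lps G w)⁻¹) u := hv1.inv hv.ne'
    have hp : DifferentiableAt ℝ (fun w => pdiff f 0 w) u :=
      rm_da h.opn (rm_pdiff_smooth h.opn hf 0) hu
    have : pdiff (rm_e G f) 0 u = pdiff (fun w => (rm_lps G w)⁻¹) 0 u * pdiff f 0 u +
        (rm_lps G u)⁻¹ * rm_p2 f 0 0 u := rm_pdiff_mul hinv hp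
    show (rm_lps G u)⁻¹ * pdiff (rm_e G f) 0 u = _
    rw [this, rm_pdiff_inv hv1 hv.ne']
    field_simp
    ring
  simp only [hab, mul_add, Finset.sum_add_distrib]
  have tH : ∑ a : Fin d, ∑ b : Fin d, (rm_tan G u)⁻¹ a b *
      ((rm_lps G u)⁻¹ * rm_sff G u a b * pdiff f 0 u) = rm_H G u * rm_e G f u := by
    rw [rm_H_eq_sum]
    unfold rm_e
    simp only [Finset.sum_mul]
    refine Finset.sum_congr rfl fun a _ => Finset.sum_congr rfl fun b _ => ?_
    rw [rm_sff_symm h hu b a]; ring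
  rw [tH, h00, hee]
  unfold rm_lapS
  rw [hl, rm_sl_at]
  field_simp
  ring

/-- **drift ADM formula** (S (3.11), T L4.1, P B8). -/
theorem rm_adm_Dsc (h : rm_Met G U) (ho : rm_Orth G U) (hu : u ∈ U) {t : E (d + 1) → ℝ}
    (ht : ContDiffOn ℝ ∞ t U) :
    rm_DscC G t u = rm_DscS G t u - rm_Jsq G u - rm_S G t u ^ 2 - 2 * rm_e G (rm_S G t) u -
      2 * rm_lapS G (rm_lps G) u / rm_lps G u + 2 * rm_ipS G (rm_lps G) t u / rm_lps G u := by
  have hS : rm_e G (rm_S G t) u = rm_e G (rm_H G) u - rm_e G (rm_e G t) u := by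
    unfold rm_e
    rw [← mul_sub]
    congr 1
    exact rm_pdiff_sub (rm_da h.opn (rm_H_smooth h) hu) (rm_da h.opn (rm_e_smooth h ht) hu)
  have hD : rm_DscS G t u = rm_scalS G u + 2 * rm_lapS G t u - rm_ipS G t t u := rfl
  unfold rm_DscC
  rw [rm_adm_scal h ho hu, rm_adm_lap h ho hu ht, rm_adm_sq h ho hu ht, hS, hD]
  unfold rm_S
  ring

end Claimed.Agent.R315
end

/- ===== packed: Claimed.Agent.R315.Pk.Tan ===== -/
section
/-!
# Row 315, packets: tangent vectors, duality for `gradSq`, the metric in the tails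

* `TanAt d X z w` : `w` is tangent to the `d`-manifold `X` at `z`; independent of the parametrisation
  (`TanAt.exists_param`), contains derivatives of maps into `X` (`tanAt_of_map`).
* metric on tangent vectors: `TanAt.met_nonneg/pos/symm/cs`.
* duality: `pk_tan_sq_le` : `(df w)² ≤ |df|² h(w,w)`; `pk_gradSq_le` : if `(df w)² ≤ c h(w,w)` for all tangent
  `w` then `|df|² ≤ c` (`f` ambient differentiable at the point and smooth along `X`).
* tails: `IsPMetric.tail_form` : `h z w w' = h (drop z) (drop w) (drop w') + t w * t w'` for ALL `w w'`;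
  `DThr.tanAt_e`, `DThr.tanAt_drop`.
-/

set_option autoImplicit false
set_option linter.unusedSectionVars false
open scoped ContDiff Topology
open MeasureTheory Claims.C0499

namespace Claimed.Agent.R315

variable {V W : Type} [NormedAddCommGroup V] [NormedSpace ℝ V] [NormedAddCommGroup W]
  [NormedSpace ℝ W] {ι : Type}

/-- `w` is tangent to the `d`-manifold `X` at `z`. -/
def TanAt (d : ℕ) (X : Set W) (z w : W) : Prop :=
  ∃ (ψ : E d → W) (U : Set (E d)) (u a : E d), IsParam X ψ U ∧ u ∈ U ∧ ψ u = z ∧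
    fderiv ℝ ψ u a = w

section tan

variable {d : ℕ} {X : Set W} {z w w' : W} {ψ : E d → W} {U : Set (E d)} {u : E d}

theorem TanAt.mem (h : TanAt d X z w) : z ∈ X := by
  obtain ⟨ψ, U, u, a, hp, hu, rfl, -⟩ := h
  exact if_mem hp hu

theorem tanAt_param (hp : IsParam X ψ U) (hu : u ∈ U) (a : E d) :
    TanAt d X (ψ u) (fderiv ℝ ψ u a) := ⟨ψ, U, u, a, hp, hu, rfl, rfl⟩

variable [FiniteDimensional ℝ W]

theorem TanAt.exists_param (h : TanAt d X z w) (hp : IsParam X ψ U) (hu : u ∈ U) (hz : ψ u = z) :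
    ∃ a, fderiv ℝ ψ u a = w := by
  obtain ⟨ψ', U', u', a', hp', hu', hz', rfl⟩ := h
  have hm : u' ∈ if_trDom ψ' U' ψ U := if_mem_trDom hu' hu (hz'.trans hz.symm)
  have e := if_fderiv_eq hp' hp hm
  have e2 : if_tr ψ U ψ' u' = u := if_tr_eq hp hu (hz'.trans hz.symm)
  refine ⟨fderiv ℝ (if_tr ψ U ψ') u' a', ?_⟩
  rw [e, e2]; rfl

theorem TanAt.add (h : TanAt d X z w) (h' : TanAt d X z w') : TanAt d X z (w + w') := by
  obtain ⟨ψ, U, u, a, hp, hu, hz, rfl⟩ := h
  obtain ⟨a', rfl⟩ := h'.exists_param hp hu hz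
  exact ⟨ψ, U, u, a + a', hp, hu, hz, map_add _ _ _⟩

theorem TanAt.smul (h : TanAt d X z w) (c : ℝ) : TanAt d X z (c • w) := by
  obtain ⟨ψ, U, u, a, hp, hu, hz, rfl⟩ := h
  exact ⟨ψ, U, u, c • a, hp, hu, hz, map_smul _ _ _⟩

theorem tanAt_zero (hX : IsMfd d X) (hz : z ∈ X) : TanAt d X z 0 := by
  obtain ⟨ψ, U, hp, u, hu, rfl⟩ := hX z hz
  exact ⟨ψ, U, u, 0, hp, hu, rfl, map_zero _⟩

/-- derivatives of maps into `X` are tangent. -/
theorem tanAt_of_map {A : Type} [NormedAddCommGroup A] [NormedSpace ℝ A] (hX : IsMfd d X)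
    {Φ : A → W} {a : A} (hΦ : DifferentiableAt ℝ Φ a) (hmem : ∀ᶠ b in 𝓝 a, Φ b ∈ X) (v : A) :
    TanAt d X (Φ a) (fderiv ℝ Φ a v) := by
  obtain ⟨ψ, U, hp, u₀, hu₀, he⟩ := hX (Φ a) hmem.self_of_nhds
  obtain ⟨ρ, O, hO, hmO, hρ, hmaps, hinv⟩ := if_exists_retr hp hu₀
  rw [he] at hmO
  have hρd : DifferentiableAt ℝ ρ (Φ a) :=
    (hρ.contDiffAt (hO.mem_nhds hmO)).differentiableAt (by simp)
  have hσ : DifferentiableAt ℝ (ρ ∘ Φ) a := hρd.comp a hΦ
  have hσa : (ρ ∘ Φ) a = u₀ := by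
    obtain ⟨-, h2⟩ := hinv (Φ a) ⟨hmem.self_of_nhds, hmO⟩
    simp only [Function.comp_apply]
    rw [h2, ← he, if_leftInv hp hu₀]
  have heq : Φ =ᶠ[𝓝 a] ψ ∘ (ρ ∘ Φ) := by
    filter_upwards [hmem, hΦ.continuousAt.eventually (hO.mem_nhds hmO)] with b hb hbO
    obtain ⟨h1, h2⟩ := hinv (Φ b) ⟨hb, hbO⟩
    simp only [Function.comp_apply]
    rw [h2, if_rightInv h1]
  have hd : fderiv ℝ Φ a = (fderiv ℝ ψ u₀).comp (fderiv ℝ (ρ ∘ Φ) a) := by
    rw [heq.fderiv_eq, ← hσa]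
    exact fderiv_comp a (by rw [hσa]; exact if_differentiableAt hp hu₀) hσ
  refine ⟨ψ, U, u₀, fderiv ℝ (ρ ∘ Φ) a v, hp, hu₀, he, ?_⟩
  rw [hd]; rfl

/-! ### the metric on tangent vectors -/

variable {h : Ten W}

theorem TanAt.met_nonneg (hh : IsMetricOn d X h) (hw : TanAt d X z w) : 0 ≤ h z w w := by
  obtain ⟨ψ, U, u, a, hp, hu, rfl, rfl⟩ := hw
  rw [← if_cm_bil]
  exact if_bil_nonneg ((hh ψ U hp).2 u hu).posSemidef a

theorem TanAt.met_symm (hh : IsMetricOn d X h) (hw : TanAt d X z w) (hw' : TanAt d X z w') :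
    h z w w' = h z w' w := by
  obtain ⟨ψ, U, u, a, hp, hu, hz, rfl⟩ := hw
  obtain ⟨a', rfl⟩ := hw'.exists_param hp hu hz
  rw [← hz, ← if_cm_bil, ← if_cm_bil]
  exact if_bil_symm (if_isSymm_of_posSemidef ((hh ψ U hp).2 u hu).posSemidef) _ _

theorem TanAt.cs (hh : IsMetricOn d X h) (hw : TanAt d X z w) (hw' : TanAt d X z w') :
    (h z w w') ^ 2 ≤ h z w w * h z w' w' := by
  obtain ⟨ψ, U, u, a, hp, hu, hz, rfl⟩ := hw
  obtain ⟨a', rfl⟩ := hw'.exists_param hp hu hz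
  rw [← hz, ← if_cm_bil, ← if_cm_bil, ← if_cm_bil]
  exact if_bil_cs ((hh ψ U hp).2 u hu).posSemidef _ _

theorem TanAt.met_pos (hh : IsMetricOn d X h) (hw : TanAt d X z w) (h0 : w ≠ 0) :
    0 < h z w w := by
  obtain ⟨ψ, U, u, a, hp, hu, rfl, rfl⟩ := hw
  have ha : a ≠ 0 := by
    rintro rfl
    exact h0 (map_zero _)
  rw [← if_cm_bil, if_bil_eq_dot]
  have hne : (a : Fin d → ℝ) ≠ 0 := by
    intro hc
    apply ha
    ext i
    exact congrFun hc i
  have := ((hh ψ U hp).2 u hu).dotProduct_mulVec_pos hne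
  rwa [star_trivial] at this

/-! ### duality -/

theorem pk_fderiv_comp_param {f : W → ℝ} (hp : IsParam X ψ U) (hu : u ∈ U)
    (hf : DifferentiableAt ℝ f (ψ u)) (a : E d) :
    fderiv ℝ (f ∘ ψ) u a = fderiv ℝ f (ψ u) (fderiv ℝ ψ u a) := by
  rw [fderiv_comp u hf (if_differentiableAt hp hu)]; rfl

theorem pk_tan_sq_le (hh : IsMetricOn d X h) {f : W → ℝ} (hfs : SmoothAlong d X f)
    (hfd : DifferentiableAt ℝ f z) (hw : TanAt d X z w) :
    (fderiv ℝ f z w) ^ 2 ≤ gradSq d X h f z * h z w w := by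
  obtain ⟨ψ, U, u, a, hp, hu, rfl, rfl⟩ := hw
  rw [if_gradSq_eq hh hfs hp hu, ← if_cm_bil, ← pk_fderiv_comp_param hp hu hfd]
  exact if_fderiv_sq_le hh hp f hu a

/-- the gradient vector in coordinates. -/
theorem pk_exists_grad {G : Matrix (Fin d) (Fin d) ℝ} (hG : G.PosDef) (φ : E d →L[ℝ] ℝ) :
    ∃ Y : E d, φ Y = ∑ i, ∑ j, G⁻¹ i j * φ (eb i) * φ (eb j) ∧
      if_bil G Y Y = ∑ i, ∑ j, G⁻¹ i j * φ (eb i) * φ (eb j) := by
  have hu : IsUnit G.det := isUnit_iff_ne_zero.2 hG.det_pos.ne'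
  set p : Fin d → ℝ := fun i => φ (eb i) with hp
  set Y : E d := WithLp.toLp 2 (G⁻¹.mulVec p) with hY
  have hGY : G.mulVec (Y : Fin d → ℝ) = p := by
    show G.mulVec (G⁻¹.mulVec p) = p
    rw [Matrix.mulVec_mulVec, Matrix.mul_nonsing_inv G hu, Matrix.one_mulVec]
  have h2 : if_bil G Y Y = ∑ i, ∑ j, G⁻¹ i j * φ (eb i) * φ (eb j) := by
    rw [if_bil_eq_dot, hGY]
    show (G⁻¹.mulVec p) ⬝ᵥ p = _
    simp only [dotProduct, Matrix.mulVec, Finset.sum_mul]
    refine Finset.sum_congr rfl fun i _ => Finset.sum_congr rfl fun j _ => ?_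
    ring
  have h1 : if_bil G Y Y = φ Y := by
    rw [if_bil_eq_dot, hGY, if_clm_expand φ Y]
    rfl
  exact ⟨Y, h1 ▸ h2, h2⟩

theorem pk_gradSq_le (hX : IsMfd d X) (hh : IsMetricOn d X h) {f : W → ℝ}
    (hfs : SmoothAlong d X f) (hz : z ∈ X) (hfd : DifferentiableAt ℝ f z) {c : ℝ} (hc0 : 0 ≤ c)
    (hc : ∀ w, TanAt d X z w → (fderiv ℝ f z w) ^ 2 ≤ c * h z w w) : gradSq d X h f z ≤ c := by
  obtain ⟨ψ, U, hp, u, hu, rfl⟩ := hX z hz
  rw [if_gradSq_eq hh hfs hp hu]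
  obtain ⟨Y, h1, h2⟩ := pk_exists_grad ((hh ψ U hp).2 u hu) (fderiv ℝ (f ∘ ψ) u)
  have e : gradSqC (cm h ψ) (f ∘ ψ) u =
      ∑ i, ∑ j, (cm h ψ u)⁻¹ i j * fderiv ℝ (f ∘ ψ) u (eb i) * fderiv ℝ (f ∘ ψ) u (eb j) := rfl
  rw [e]
  set γ := ∑ i, ∑ j, (cm h ψ u)⁻¹ i j * fderiv ℝ (f ∘ ψ) u (eb i) * fderiv ℝ (f ∘ ψ) u (eb j)
  have h3 := hc _ (tanAt_param hp hu Y)
  rw [← pk_fderiv_comp_param hp hu hfd, ← if_cm_bil, h1, h2] at h3
  by_contra hlt
  push Not at hlt
  have hγ : 0 < γ := lt_of_le_of_lt hc0 hlt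
  nlinarith

end tan

/-! ### the tails -/

section tails

variable [Fintype ι] {n : ℕ} {M : Set V} {F : Frame V W ι} {E : Stat ι → Set W} {h : Ten W}

/-- linear part of `F.drop i` (`F.drop i` is linear). -/
theorem Frame.drop_add (F : Frame V W ι) (i : ι) (a b : W) :
    F.drop i (a + b) = F.drop i a + F.drop i b := by
  simp only [Frame.drop, map_add, add_smul]; abel

theorem Frame.self_eq_drop_add (F : Frame V W ι) (i : ι) (w : W) :
    w = F.drop i w + F.t i w • F.e i := by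
  simp [Frame.drop]

/-- **the metric in a tail** is `h_face + dt_i²`, on ALL vectors of `W`. -/
theorem IsPMetric.tail_form (hD : IsDiag n M F E) (hh : IsPMetric n F E h) {T : V → ℝ}
    (hT0 : ∀ x, 0 ≤ T x) (hT : DThr F E T) (hTh : Thr F E h T) {α : Stat ι} {z : W}
    (hz : z ∈ E α) {i : ι} (hi : T (F.q z) < |F.t i z|) (w w' : W) :
    h z w w' = h (F.drop i z) (F.drop i w) (F.drop i w') + F.t i w * F.t i w' := by
  classical
  have hy := hT.drop_mem hD hT0 hz hi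
  have hn := hh.normal (α.face i) (F.drop i z) hy i (by simp [Stat.face])
  rw [← hTh i z (mem_tot.2 ⟨α, hz⟩) hi]
  conv_lhs => rw [F.self_eq_drop_add i w, F.self_eq_drop_add i w']
  simp only [map_add, map_smul, add_apply, smul_apply,
    smul_eq_mul, (hn _).1, (hn _).2, F.t_drop_self, F.t_e]
  ring

variable [FiniteDimensional ℝ W]

/-- in the `i`-th tail `e i` is tangent. -/
theorem DThr.tanAt_e (hD : IsDiag n M F E) {T : V → ℝ} (hT0 : ∀ x, 0 ≤ T x) (hT : DThr F E T)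
    {α : Stat ι} {z : W} (hz : z ∈ E α) {i : ι} (hi : T (F.q z) < |F.t i z|) :
    TanAt (n - hits α) (E α) z (F.e i) := by
  have h0 : F.t i z ≠ 0 := by
    intro h
    rw [h, abs_zero] at hi
    exact absurd hi (not_lt.2 (hT0 _))
  have hα : α i ≠ 0 := hD.ne_zero_of_t_ne hz h0
  have hy := hT.drop_mem hD hT0 hz hi
  let Φ : ℝ → W := fun s => z + s • F.e i
  have hΦ : HasDerivAt Φ (F.e i) 0 := by
    have h1 : HasDerivAt (fun s : ℝ => s • F.e i) ((1 : ℝ) • F.e i) 0 :=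
      (hasDerivAt_id (0 : ℝ)).smul_const (F.e i)
    rw [one_smul] at h1
    exact h1.const_add z
  have hc : Continuous fun s : ℝ => (α i : ℝ) * F.t i (Φ s) :=
    continuous_const.mul ((F.t i).continuous.comp (by fun_prop))
  have hmem : ∀ᶠ s in 𝓝 (0 : ℝ), Φ s ∈ E α := by
    have h1 : T (F.q z) < (α i : ℝ) * F.t i (Φ 0) := by
      simp only [Φ, zero_smul, add_zero]
      rw [hD.sign_mul hz i]; exact hi
    filter_upwards [hc.continuousAt.eventually (lt_mem_nhds h1)] with s hs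
    have hq : F.q (Φ s) = F.q z := by simp [Φ, F.q_e]
    refine (hT i α hα (Φ s) (by rw [hq]; exact hs)).2 ?_
    rw [F.drop_add_smul]; exact hy
  have := tanAt_of_map (hD.mfd α) hΦ.differentiableAt hmem 1
  rw [hΦ.hasFDerivAt.fderiv] at this
  simpa [Φ] using this

/-- the projection of a tangent vector is tangent to the face. -/
theorem DThr.tanAt_drop (hD : IsDiag n M F E) {T : V → ℝ} (hT0 : ∀ x, 0 ≤ T x)
    (hTc : Continuous T) (hT : DThr F E T) {α : Stat ι} {z w : W} {i : ι}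
    (hi : T (F.q z) < |F.t i z|) (hw : TanAt (n - hits α) (E α) z w) :
    TanAt (n - hits (α.face i)) (E (α.face i)) (F.drop i z) (F.drop i w) := by
  obtain ⟨ψ, U, u, a, hp, hu, rfl, rfl⟩ := hw
  let L : W →L[ℝ] W := ContinuousLinearMap.id ℝ W - (F.t i).smulRight (F.e i)
  have hL : ∀ x, L x = F.drop i x := fun x => by simp [L, Frame.drop]
  have hψ := if_differentiableAt hp hu
  have hΦ : DifferentiableAt ℝ (fun b => L (ψ b)) u := L.differentiableAt.comp u hψ
  have hc : ContinuousAt (fun b => |F.t i (ψ b)| - T (F.q (ψ b))) u :=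
    (((F.t i).continuous.continuousAt.comp hψ.continuousAt).abs).sub
      ((hTc.comp F.q.continuous).continuousAt.comp hψ.continuousAt)
  have hmem : ∀ᶠ b in 𝓝 u, L (ψ b) ∈ E (α.face i) := by
    filter_upwards [hc.eventually (lt_mem_nhds (sub_pos.2 hi)), (if_open hp).mem_nhds hu]
      with b hb hbU
    rw [hL]
    exact hT.drop_mem hD hT0 (if_mem hp hbU) (sub_pos.1 hb)
  have := tanAt_of_map (hD.mfd (α.face i)) hΦ hmem a
  have e : fderiv ℝ (fun b => L (ψ b)) u a = L (fderiv ℝ ψ u a) := by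
    have := (L.hasFDerivAt.comp u hψ.hasFDerivAt).fderiv
    have h2 : fderiv ℝ (fun b => L (ψ b)) u = L.comp (fderiv ℝ ψ u) := this
    rw [h2]; rfl
  rw [e, hL, hL] at this
  exact this

end tails

end Claimed.Agent.R315
end

/- ===== packed: Claimed.Agent.R315.Pk.Geo ===== -/
section
/-!
# Row 315, packets: metric geometry of a diagram (P Lemmas A.2, A.3)

* `pk_comp_inter`, `pk_comp_closed` : a packet (`connectedComponentIn (E α) z`) is `E α ∩ O`, `O` open, and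
  is closed.
* `pkRho R z = ∑ i, (ramp (t i z - R) + ramp (- t i z - R))` : smooth exhaustion in the tail directions;
  `pkRho_gradSq_le` : `|dρ|²_h ≤ (L card ι)²` over `{x | T x ≤ R}` ([exh]).
* `pk_proper_of_conf`, `pk_complete` : a packet which lies over a compact subset of `V` is proper
  ([complete]).
-/

set_option autoImplicit false
set_option linter.unusedSectionVars false
open scoped ContDiff Topology
open MeasureTheory Claims.C0499

namespace Claimed.Agent.R315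

variable {V W : Type} [NormedAddCommGroup V] [NormedSpace ℝ V] [NormedAddCommGroup W]
  [NormedSpace ℝ W] {ι : Type}

/-! ### components -/

theorem pk_comp_closed {X : Set W} (hX : IsClosed X) (z : W) :
    IsClosed (connectedComponentIn X z) := by
  by_cases hz : z ∈ X
  · rw [← closure_subset_iff_isClosed]
    exact isPreconnected_connectedComponentIn.closure.subset_connectedComponentIn
      (subset_closure (mem_connectedComponentIn hz))
      (hX.closure_subset_iff.2 (connectedComponentIn_subset X z))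
  · rw [connectedComponentIn_eq_empty hz]; exact isClosed_empty

theorem pk_exists_conn_nhd {d : ℕ} {X : Set W} (hX : IsMfd d X) {y : W} (hy : y ∈ X) :
    ∃ O : Set W, IsOpen O ∧ y ∈ O ∧ IsPreconnected (X ∩ O) := by
  obtain ⟨ψ, U, hp, u, hu, rfl⟩ := hX y hy
  obtain ⟨r, hr, hb⟩ := Metric.isOpen_iff.1 (if_open hp) u hu
  obtain ⟨O, hO, hOe⟩ := if_image_open hp Metric.isOpen_ball hb
  have hm : ψ u ∈ ψ '' Metric.ball u r := ⟨u, Metric.mem_ball_self hr, rfl⟩
  refine ⟨O, hO, (hOe ▸ hm : ψ u ∈ X ∩ O).2, ?_⟩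
  rw [← hOe]
  exact (convex_ball u r).isPreconnected.image ψ ((if_continuousOn hp).mono hb)

theorem pk_comp_inter {d : ℕ} {X : Set W} (hX : IsMfd d X) (z : W) :
    ∃ O : Set W, IsOpen O ∧ connectedComponentIn X z = X ∩ O := by
  choose! O hO hyO hpre using fun y (hy : y ∈ X) => pk_exists_conn_nhd hX hy
  refine ⟨⋃ y ∈ connectedComponentIn X z, O y, isOpen_biUnion fun y hy =>
    hO y (connectedComponentIn_subset X z hy), ?_⟩
  ext x
  constructor
  · intro hx
    have hxX := connectedComponentIn_subset X z hx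
    exact ⟨hxX, Set.mem_biUnion hx (hyO x hxX)⟩
  · rintro ⟨hxX, hx⟩
    obtain ⟨y, hy, hxy⟩ := Set.mem_iUnion₂.1 hx
    have hyX := connectedComponentIn_subset X z hy
    rw [connectedComponentIn_eq hy]
    exact (hpre y hyX).subset_connectedComponentIn ⟨hyX, hyO y hyX⟩ Set.inter_subset_left
      ⟨hxX, hxy⟩

/-! ### the ramp -/

/-- smooth, `0` on `(-∞, 0]`, `s` on `[1, ∞)`. -/
noncomputable def pkRamp (s : ℝ) : ℝ := s * Real.smoothTransition s

theorem pkRamp_contDiff : ContDiff ℝ ∞ pkRamp := contDiff_id.mul Real.smoothTransition.contDiff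

theorem pkRamp_of_nonpos {s : ℝ} (h : s ≤ 0) : pkRamp s = 0 := by
  rw [pkRamp, Real.smoothTransition.zero_of_nonpos h, mul_zero]

theorem pkRamp_nonneg (s : ℝ) : 0 ≤ pkRamp s := by
  rcases le_total s 0 with h | h
  · rw [pkRamp_of_nonpos h]
  · exact mul_nonneg h (Real.smoothTransition.nonneg s)

theorem pkRamp_ge (s : ℝ) : s - 1 ≤ pkRamp s := by
  rcases le_total 1 s with h | h
  · rw [pkRamp, Real.smoothTransition.one_of_one_le h]; linarith
  · linarith [pkRamp_nonneg s]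

theorem pkRamp_deriv_of_neg {s : ℝ} (h : s < 0) : deriv pkRamp s = 0 := by
  have : pkRamp =ᶠ[𝓝 s] fun _ => (0 : ℝ) := by
    filter_upwards [gt_mem_nhds h] with x hx
    exact pkRamp_of_nonpos hx.le
  rw [this.deriv_eq, deriv_const]

theorem pkRamp_deriv_of_one_lt {s : ℝ} (h : 1 < s) : deriv pkRamp s = 1 := by
  have : pkRamp =ᶠ[𝓝 s] fun x => x := by
    filter_upwards [lt_mem_nhds h] with x hx
    rw [pkRamp, Real.smoothTransition.one_of_one_le hx.le, mul_one]
  rw [this.deriv_eq]; exact deriv_id s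

theorem pkRamp_exists_bound : ∃ L : ℝ, 1 ≤ L ∧ ∀ s, |deriv pkRamp s| ≤ L := by
  have hc : Continuous (deriv pkRamp) := pkRamp_contDiff.continuous_deriv (by simp)
  obtain ⟨C, hC⟩ := (isCompact_Icc (a := (0 : ℝ)) (b := 1)).exists_bound_of_continuousOn
    hc.continuousOn
  refine ⟨max C 1, le_max_right _ _, fun s => ?_⟩
  rcases lt_or_ge s 0 with h | h
  · rw [pkRamp_deriv_of_neg h, abs_zero]; exact le_trans zero_le_one (le_max_right _ _)
  · rcases lt_or_ge 1 s with h' | h'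
    · rw [pkRamp_deriv_of_one_lt h', abs_one]; exact le_max_right _ _
    · exact le_trans (hC s ⟨h, h'⟩) (le_max_left _ _)

/-- a bound for the slope of the ramp. -/
noncomputable def pkRampL : ℝ := pkRamp_exists_bound.choose

theorem pkRampL_ge : 1 ≤ pkRampL := pkRamp_exists_bound.choose_spec.1

theorem pkRamp_deriv_le (s : ℝ) : |deriv pkRamp s| ≤ pkRampL := pkRamp_exists_bound.choose_spec.2 s

theorem pkRamp_hasDerivAt (s : ℝ) : HasDerivAt pkRamp (deriv pkRamp s) s :=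
  (pkRamp_contDiff.differentiable (by simp) s).hasDerivAt

theorem pkRamp_deriv_of_nonpos {s : ℝ} (h : s ≤ 0) : deriv pkRamp s = 0 := by
  have h1 : HasDerivAt pkRamp (1 * Real.smoothTransition s + s * deriv if_st s) s :=
    (hasDerivAt_id s).mul (if_st_differentiableAt s).hasDerivAt
  rw [h1.deriv, Real.smoothTransition.zero_of_nonpos h, if_st_deriv_of_nonpos h]
  ring

/-! ### the exhaustion in the tail directions ([exh]) -/

section rho

variable [Fintype ι]

/-- `ρ_R`. -/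
noncomputable def pkRho (F : Frame V W ι) (R : ℝ) (z : W) : ℝ :=
  ∑ i, (pkRamp (F.t i z - R) + pkRamp (-F.t i z - R))

theorem pkRho_contDiff (F : Frame V W ι) (R : ℝ) : ContDiff ℝ ∞ (pkRho F R) := by
  unfold pkRho
  refine ContDiff.sum fun i _ => ?_
  exact (pkRamp_contDiff.comp ((F.t i).contDiff.sub contDiff_const)).add
    (pkRamp_contDiff.comp ((F.t i).contDiff.neg.sub contDiff_const))

theorem pkRho_nonneg (F : Frame V W ι) (R : ℝ) (z : W) : 0 ≤ pkRho F R z :=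
  Finset.sum_nonneg fun _ _ => add_nonneg (pkRamp_nonneg _) (pkRamp_nonneg _)

theorem pkRho_ge (F : Frame V W ι) (R : ℝ) (z : W) (i : ι) : |F.t i z| - R - 1 ≤ pkRho F R z := by
  have h1 : pkRamp (F.t i z - R) + pkRamp (-F.t i z - R) ≤ pkRho F R z :=
    Finset.single_le_sum (f := fun i => pkRamp (F.t i z - R) + pkRamp (-F.t i z - R))
      (fun _ _ => add_nonneg (pkRamp_nonneg _) (pkRamp_nonneg _)) (Finset.mem_univ i)
  have h2 := pkRamp_ge (F.t i z - R)
  have h3 := pkRamp_ge (-F.t i z - R)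
  have h4 := pkRamp_nonneg (F.t i z - R)
  have h5 := pkRamp_nonneg (-F.t i z - R)
  rcases abs_cases (F.t i z) with ⟨h, _⟩ | ⟨h, _⟩ <;> rw [h] <;> linarith

/-- the coefficient of `dt_i` in `dρ_R`. -/
noncomputable def pkRhoC (F : Frame V W ι) (R : ℝ) (i : ι) (z : W) : ℝ :=
  deriv pkRamp (F.t i z - R) - deriv pkRamp (-F.t i z - R)

theorem pkRho_hasFDerivAt (F : Frame V W ι) (R : ℝ) (z : W) :
    HasFDerivAt (pkRho F R) (∑ i, pkRhoC F R i z • F.t i) z := by
  unfold pkRho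
  refine HasFDerivAt.fun_sum fun i _ => ?_
  have h1 : HasFDerivAt (fun z => F.t i z - R) (F.t i) z := (F.t i).hasFDerivAt.sub_const R
  have h2 : HasFDerivAt (fun z => -F.t i z - R) (-F.t i) z := (F.t i).hasFDerivAt.neg.sub_const R
  have h3 := (pkRamp_hasDerivAt (F.t i z - R)).comp_hasFDerivAt z h1
  have h4 := (pkRamp_hasDerivAt (-F.t i z - R)).comp_hasFDerivAt z h2
  have h5 := h3.add h4
  have e : deriv pkRamp (F.t i z - R) • F.t i + deriv pkRamp (-F.t i z - R) • -F.t i =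
      pkRhoC F R i z • F.t i := by
    ext v
    simp only [pkRhoC, add_apply, smul_apply, neg_apply, smul_eq_mul]
    ring
  rw [e] at h5
  exact h5

theorem pkRhoC_abs_le (F : Frame V W ι) (R : ℝ) (i : ι) (z : W) :
    |pkRhoC F R i z| ≤ 2 * pkRampL := by
  have h1 := pkRamp_deriv_le (F.t i z - R)
  have h2 := pkRamp_deriv_le (-F.t i z - R)
  have h3 := abs_sub (deriv pkRamp (F.t i z - R)) (deriv pkRamp (-F.t i z - R))
  unfold pkRhoC
  linarith

theorem pkRhoC_eq_zero (F : Frame V W ι) {R : ℝ} {i : ι} {z : W} (h : |F.t i z| ≤ R) :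
    pkRhoC F R i z = 0 := by
  have h1 := abs_le.1 h
  rw [pkRhoC, pkRamp_deriv_of_nonpos (by linarith [h1.2]), pkRamp_deriv_of_nonpos
    (by linarith [h1.1]), sub_zero]

variable {n : ℕ} {M : Set V} {F : Frame V W ι} {E : Stat ι → Set W} {h : Ten W}
  [FiniteDimensional ℝ W]

/-- in the `i`-th tail `dt_i` has norm `≤ 1`. -/
theorem pk_t_sq_le (hD : IsDiag n M F E) (hh : IsPMetric n F E h) {T : V → ℝ}
    (hT0 : ∀ x, 0 ≤ T x) (hT : DThr F E T) (hTh : Thr F E h T) {α : Stat ι} {z w : W}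
    (hz : z ∈ E α) {i : ι} (hi : T (F.q z) < |F.t i z|) (hw : TanAt (n - hits α) (E α) z w) :
    (F.t i w) ^ 2 ≤ h z w w := by
  have he := hT.tanAt_e hD hT0 hz hi
  have hd : F.drop i (F.e i) = 0 := by simp [Frame.drop, F.t_e]
  have h1 : ∀ v, h z (F.e i) v = F.t i v := by
    intro v
    rw [hh.tail_form hD hT0 hT hTh hz hi, hd, map_zero, F.t_e]
    simp
  have h2 := he.cs (hh.met α) hw
  rw [h1, h1, F.t_e, one_mul] at h2
  exact h2

/-- **[exh]** the gradient of `ρ_R` is bounded over `{x | T x ≤ R}`. -/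
theorem pkRho_gradSq_le (hD : IsDiag n M F E) (hh : IsPMetric n F E h) {T : V → ℝ}
    (hT0 : ∀ x, 0 ≤ T x) (hT : DThr F E T) (hTh : Thr F E h T) {R : ℝ} {α : Stat ι} {z : W}
    (hz : z ∈ E α) (hR : T (F.q z) ≤ R) :
    gradSq (n - hits α) (E α) h (pkRho F R) z ≤ (Fintype.card ι * (2 * pkRampL)) ^ 2 := by
  have hL : 0 ≤ 2 * pkRampL := by linarith [pkRampL_ge]
  refine pk_gradSq_le (hD.mfd α) (hh.met α) (if_smoothAlong_of_contDiff (pkRho_contDiff F R)) hz
    (pkRho_hasFDerivAt F R z).differentiableAt (sq_nonneg _) fun w hw => ?_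
  rw [(pkRho_hasFDerivAt F R z).fderiv]
  have h0 := hw.met_nonneg (hh.met α)
  set s := Real.sqrt (h z w w) with hs
  have hs2 : s ^ 2 = h z w w := Real.sq_sqrt h0
  have hs0 : 0 ≤ s := Real.sqrt_nonneg _
  have hterm : ∀ i, |pkRhoC F R i z * F.t i w| ≤ 2 * pkRampL * s := by
    intro i
    by_cases hi : |F.t i z| ≤ R
    · rw [pkRhoC_eq_zero F hi, zero_mul, abs_zero]; exact mul_nonneg hL hs0
    · have h1 := pk_t_sq_le hD hh hT0 hT hTh hz (lt_of_le_of_lt hR (not_le.1 hi)) hw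
      have h2 : |F.t i w| ≤ s := by
        rw [← hs2] at h1
        exact abs_le_of_sq_le_sq h1 hs0
      rw [abs_mul]
      exact mul_le_mul (pkRhoC_abs_le F R i z) h2 (abs_nonneg _) hL
  have hsum : |(∑ i, pkRhoC F R i z • F.t i) w| ≤ Fintype.card ι * (2 * pkRampL) * s := by
    have e : (∑ i, pkRhoC F R i z • F.t i) w = ∑ i, pkRhoC F R i z * F.t i w := by
      simp
    rw [e]
    refine (Finset.abs_sum_le_sum_abs _ _).trans ?_
    refine (Finset.sum_le_sum fun i _ => hterm i).trans ?_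
    rw [Finset.sum_const, Finset.card_univ, nsmul_eq_mul]
    exact le_of_eq (by ring)
  calc ((∑ i, pkRhoC F R i z • F.t i) w) ^ 2 = |(∑ i, pkRhoC F R i z • F.t i) w| ^ 2 :=
        (sq_abs _).symm
    _ ≤ (Fintype.card ι * (2 * pkRampL) * s) ^ 2 := by
        exact pow_le_pow_left₀ (abs_nonneg _) hsum 2
    _ = (Fintype.card ι * (2 * pkRampL)) ^ 2 * h z w w := by rw [mul_pow, hs2]

/-! ### completeness ([complete]) -/

variable [FiniteDimensional ℝ V]

/-- **[complete]** a packet which lies over a compact subset of `V` is proper. -/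
theorem pk_proper_of_conf (hD : IsDiag n M F E) (hh : IsPMetric n F E h) {α : Stat ι} {z₀ : W}
    {K : Set V} (hK : IsCompact K) (hKq : ∀ y ∈ connectedComponentIn (E α) z₀, F.q y ∈ K) :
    IsProperOn (connectedComponentIn (E α) z₀) h := by
  obtain ⟨T1, h1s, h10, h1⟩ := hD.exists_thr
  obtain ⟨T2, h2s, h20, h2⟩ := hh.compat.exists_thr
  set T : V → ℝ := fun x => T1 x + T2 x with hTdef
  have hTc : Continuous T := (h1s.add h2s).continuous
  have hT0 : ∀ x, 0 ≤ T x := fun x => add_nonneg (h10 x) (h20 x)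
  have hT : DThr F E T := h1.mono fun x => by have := h20 x; simp only [hTdef]; linarith
  have hTh : Thr F E h T := h2.mono fun x => by have := h10 x; simp only [hTdef]; linarith
  obtain ⟨R, hR⟩ := (hK.image hTc).bddAbove
  obtain ⟨O, hO, hOe⟩ := pk_comp_inter (hD.mfd α) z₀
  set X₀ := connectedComponentIn (E α) z₀ with hX₀
  have hpre : IsPreconnected X₀ := isPreconnected_connectedComponentIn
  have hcl : IsClosed X₀ := pk_comp_closed (hD.closed α) z₀
  have hM0 : IsMfd (n - hits α) X₀ := by rw [hOe]; exact if_mfd_inter (hD.mfd α) hO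
  have hg0 : IsMetricOn (n - hits α) X₀ h := by rw [hOe]; exact if_isMetricOn_inter (hh.met α) hO
  have hρs : ∀ Y : Set W, SmoothAlong (n - hits α) Y (pkRho F R) := fun Y =>
    if_smoothAlong_of_contDiff (pkRho_contDiff F R)
  set L := (Fintype.card ι : ℝ) * (2 * pkRampL) with hLdef
  have hL0 : 0 ≤ L := mul_nonneg (Nat.cast_nonneg _) (by linarith [pkRampL_ge])
  have hgrad : ∀ x ∈ X₀, gradSq (n - hits α) X₀ h (pkRho F R) x ≤ L ^ 2 := by
    intro x hx
    have hx' : x ∈ E α ∩ O := hOe ▸ hx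
    have e : gradSq (n - hits α) X₀ h (pkRho F R) x = gradSq (n - hits α) (E α) h (pkRho F R) x := by
      rw [hOe]; exact if_gradSq_inter (hD.mfd α) (hh.met α) hO (hρs _) hx'
    rw [e]
    exact pkRho_gradSq_le hD hh hT0 hT hTh hx'.1 (hR ⟨_, hKq x hx, rfl⟩)
  intro x hx r
  have hsub : {y | y ∈ X₀ ∧ rdist X₀ h x y ≤ r} ⊆
      {y | y ∈ E α ∧ F.q y ∈ K ∧ ∀ i, |F.t i y| ≤ R + 1 + pkRho F R x + L * r} := by
    rintro y ⟨hy, hr⟩
    refine ⟨connectedComponentIn_subset _ _ hy, hKq y hy, fun i => ?_⟩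
    have h3 := if_lip hM0 hg0 (hρs _) hL0 hgrad (if_join_of_connected hM0 hpre hx hy)
    have h4 := pkRho_ge F R y i
    have h5 := (abs_le.1 h3).2
    have h6 : L * rdist X₀ h x y ≤ L * r := mul_le_mul_of_nonneg_left hr hL0
    linarith
  have hclosed : IsClosed {y | y ∈ X₀ ∧ rdist X₀ h x y ≤ r} :=
    (if_rdist_continuousOn hM0 hpre (if_isMetricOn_iff.1 hg0).1 hx).preimage_isClosed_of_isClosed
      hcl isClosed_Iic
  exact (hD.isCompact_trunc α hK _).of_isClosed_subset hclosed hsub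

/-- **[complete]** after the radial stage all packets are proper. -/
theorem pk_complete (hD : IsDiag n M F E) (hh : IsPMetric n F E h) (hc : Conf F E) :
    ∀ α, ∀ z ∈ E α, IsProperOn (connectedComponentIn (E α) z) h := by
  intro α z hz
  obtain ⟨K, hK, hKq⟩ := hc α z hz
  exact pk_proper_of_conf hD hh hK hKq

end rho

end Claimed.Agent.R315
end
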