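/- Packed by merge_tool.py (helper293): 4 modules of Claimed.Agent.R315 in one file, same declarations.
   Old modules, in this order: Rm.Orth, Rm.Min, Rm.Bd, Rm.Compat -/
import Claimed.Agent.R316.Base.ODE.Flow
import Claimed.Agent.R315.Pack005
import Claimed.Agent.R315.Pack006
import Claimed.Agent.R315.Pack003
import Claimed.Agent.R315.Pack002
import Claimed.Agent.R315.Pack004

/- ===== packed: Claimed.Agent.R315.Rm.Orth ===== -/
section
/-!
# Row 315, SC-RIEM: LAPSE COORDINATES adapted to a function `q` with `dq ≠ 0` (prefix `rm_`)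

THE TOOL of the package: near a point where `dq ≠ 0` there are coordinates `w = (w 0, y)` with `q = w 0` and
`G = v² dq² + γ_q` (`rm_Orth`).  In these coordinates all identities of `Rm/Adm.lean` apply, with
`v = 1/|dq|`, `e f = ⟨dq,df⟩/|dq|`, slices `{w 0 = c}` = level sets of `q`.

* Section A (leaf RM-ORTH-A): pull-back of metric matrices, invariance of `lapC`, `rm_DscC` (from `If/Pull.lean` + `rm_lapC_eq`).
* Section B (leaf RM-ORTH-B): `rm_orth_chart` (chart level existence).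
* Section C (leaf RM-ORTH-C): manifold level: `rm_orth_param`; level sets are manifolds, slices are parametrisations.
* Section D (leaf RM-ORTH-D): dictionary: the ADM quantities in lapse coordinates in terms of invariant scalar expressions in `q`.

PROOF of `rm_orth_chart`.  `N^i = G^{ij} ∂_j q / |dq|²` is a smooth field on the open set `U' = U ∩ {|dq|² > 0}`, `dq(N) = 1`, `G(N,X) = dq(X)/|dq|²`.
`Φ = R316.ODE.fl N U'` is smooth on the open set `dom N U'` (`contDiffOn_fl_infty`, `isOpen_dom`: PROVED there), `∂_t Φ = N(Φ)`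
(`hasDerivAt_fl`), hence `q(Φ(t,x)) = q x + t` (derivative `1` on the segment; `mem_dom_of_mem_uIcc`).
Choose `k` with `N^k(u0) ≠ 0`, `L y = ∑_a y_a e_{k.succAbove a}`, `σ y = u0 + L y`, and
`τ w = Φ(w 0 - q(σ y), σ y)`, `y = rm_tl d w`.  Then `q(τ w) = w 0`; `Dτ(w⁰)(δ,η) = (δ - dq(Lη)) N(u0) + L η` is injective (apply `dq`, then use
`N(u0) ∉ range L`).  Inverse function theorem: `τ` is injective with injective derivative on a neighbourhood of `w⁰ = (q u0, 0)`; take a box inside.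
Orthogonality: `Dτ(w) e_0 = N(τ w)` and `G(N, Dτ e_a) = dq(Dτ e_a)/|dq|² = ∂_a (q ∘ τ)/|dq|² = ∂_a (w 0)/|dq|² = 0`.
Owner of the statements: helper39.
-/

set_option autoImplicit false
set_option linter.unusedSectionVars false
set_option linter.unusedVariables false
open scoped ContDiff Topology
open Claims.C0499

namespace Claimed.Agent.R315

/-! ## Section A: pull-backs -/

section A

variable {d : ℕ} {G G' : rm_MF d} {U T : Set (E d)} {τ : E d → E d} {u : E d}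

theorem rm_Met.toIf (h : rm_Met G U) : if_MetC U G := ⟨h.opn, h.smooth, h.pos⟩

theorem if_MetC.toRm (h : if_MetC U G) : rm_Met G U := ⟨h.isOpen, h.smooth, h.posDef⟩

/-- pull-back of a metric matrix by a map `τ`. -/
noncomputable def rm_pull (τ : E d → E d) (G : rm_MF d) : rm_MF d :=
  fun w => Matrix.of fun i j => if_bil (G (τ w)) (fderiv ℝ τ w (eb i)) (fderiv ℝ τ w (eb j))

/-- the pull-back by a local diffeomorphism is a metric. -/
theorem rm_pull_met (h : rm_Met G U) (hT : IsOpen T) (hτ : ContDiffOn ℝ ∞ τ T)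
    (hmaps : Set.MapsTo τ T U) (himm : ∀ w ∈ T, Function.Injective (fderiv ℝ τ w)) :
    rm_Met (rm_pull τ G) T := by
  refine ⟨hT, fun i j => ?_, fun w hw => ?_⟩
  · have h1 : ∀ k : Fin d, ContDiffOn ℝ ∞ (fun w => fderiv ℝ τ w (eb k)) T := fun k =>
      (hτ.fderiv_of_isOpen hT (m := ∞) (by simp)).clm_apply contDiffOn_const
    have h2 : ∀ k a : Fin d, ContDiffOn ℝ ∞ (fun w => fderiv ℝ τ w (eb k) a) T := fun k a =>
      (if_pr a).contDiff.comp_contDiffOn (h1 k)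
    have h3 : ∀ a b : Fin d, ContDiffOn ℝ ∞ (fun w => G (τ w) a b) T := fun a b =>
      (h.smooth a b).comp hτ hmaps
    have e : (fun w => rm_pull τ G w i j) = fun w => ∑ a, ∑ b,
        G (τ w) a b * fderiv ℝ τ w (eb i) a * fderiv ℝ τ w (eb j) b := by
      funext w
      simp only [rm_pull, Matrix.of_apply, if_bil_apply, mul_assoc]
    rw [e]
    exact ContDiffOn.sum fun a _ => ContDiffOn.sum fun b _ => ((h3 a b).mul (h2 i a)).mul (h2 j b)
  · have e : rm_pull τ G w =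
        (if_jac (fderiv ℝ τ w)).transpose * G (τ w) * if_jac (fderiv ℝ τ w) := by
      ext i j
      rw [← if_bil_jac]
      rfl
    rw [e]
    have hJ := if_jac_isUnit (himm w hw)
    rw [← Matrix.isUnit_iff_isUnit_det, ← Matrix.mulVec_injective_iff_isUnit] at hJ
    have := (h.pos (τ w) (hmaps hw)).conjTranspose_mul_mul_same (B := if_jac (fderiv ℝ τ w)) hJ
    simpa using this

theorem rm_pullC (h : rm_Met G U) (hT : IsOpen T) (hτ : ContDiffOn ℝ ∞ τ T)
    (hmaps : Set.MapsTo τ T U) (himm : ∀ w ∈ T, Function.Injective (fderiv ℝ τ w)) :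
    if_PullC T U τ (rm_pull τ G) G :=
  ⟨(rm_pull_met h hT hτ hmaps himm).toIf, h.toIf, hτ, hmaps, himm, fun _ _ _ _ => rfl⟩

/-- invariance of the Laplacian. -/
theorem rm_pull_lap (h : if_PullC T U τ G G') (hu : u ∈ T) {f : E d → ℝ}
    (hf : ContDiffOn ℝ ∞ f U) : lapC G (f ∘ τ) u = lapC G' f (τ u) := by
  rw [rm_lapC_eq h.metT.toRm hu (hf.comp h.smooth h.mapsTo),
    rm_lapC_eq h.metU.toRm (h.mapsTo hu) hf]
  exact h.trHess hu ((hf.contDiffAt (h.metU.isOpen.mem_nhds (h.mapsTo hu))).of_le (by decide))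

/-- invariance of the drift scalar curvature. -/
theorem rm_pull_Dsc (h : if_PullC T U τ G G') (hu : u ∈ T) {t : E d → ℝ}
    (ht : ContDiffOn ℝ ∞ t U) : rm_DscC G (t ∘ τ) u = rm_DscC G' t (τ u) := by
  unfold rm_DscC
  rw [h.scalar hu, rm_pull_lap h hu ht, h.gradSq hu
    ((ht.contDiffAt (h.metU.isOpen.mem_nhds (h.mapsTo hu))).differentiableAt (by simp))]

/-- tensoriality of the Ricci matrix, quadratic form version. -/
theorem rm_pull_ric (h : if_PullC T U τ G G') (hu : u ∈ T) (i j : Fin d) :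
    ricciCoord G u i j = if_bil (Matrix.of fun a b => ricciCoord G' (τ u) a b)
      (fderiv ℝ τ u (eb i)) (fderiv ℝ τ u (eb j)) := by
  rw [← if_ric_eb (h.metT.diff_chr hu), h.ric hu, ← if_ric_bil]
  simp only [if_ric_eb (h.metU.diff_chr (h.mapsTo hu))]

end A

/-! ## Section B: existence in a chart -/


open Claimed.Agent.R316.ODE in
/-- time derivative of the maximal flow (own proof; same statement as `R316.ODE.hasDerivAt_fl`). -/
theorem rm_hasDerivAt_fl {F : Type} [NormedAddCommGroup F] [NormedSpace ℝ F] [CompleteSpace F]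
    {f : F → F} {Ω : Set F} {t : ℝ} {x : F} (hΩ : IsOpen Ω) (hf : ContDiffOn ℝ 1 f Ω)
    (h : (t, x) ∈ dom f Ω) : HasDerivAt (fun r => fl f Ω r x) (f (fl f Ω t x)) t := by
  have hD := isOpen_dom hΩ hf
  have hΦ : ContDiffAt ℝ 1 (fun p : ℝ × F => fl f Ω p.1 p.2) (t, x) :=
    (contDiffOn_fl (n := 1) le_rfl hΩ hf).contDiffAt (hD.mem_nhds h)
  have hφ : DifferentiableAt ℝ (fun r => fl f Ω r x) t :=
    DifferentiableAt.comp (g := fun p : ℝ × F => fl f Ω p.1 p.2) (f := fun r : ℝ => (r, x)) t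
      (hΦ.differentiableAt (by simp)) (differentiableAt_id.prodMk (differentiableAt_const x))
  obtain ⟨t₁, ht₁0, ht₁, htm⟩ : ∃ t₁ : ℝ, t₁ ≠ 0 ∧ (t₁, x) ∈ dom f Ω ∧ t ∈ Set.uIcc 0 t₁ := by
    by_cases ht : t = 0
    · subst ht
      obtain ⟨ε, hε, hball⟩ := Metric.isOpen_iff.1 hD _ h
      refine ⟨ε / 2, by positivity, hball ?_, Set.left_mem_uIcc⟩
      rw [Metric.mem_ball, Prod.dist_eq]
      simp only [dist_self, Real.dist_eq, sub_zero]
      rw [abs_of_pos (by positivity)]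
      simp only [max_lt_iff]
      exact ⟨by linarith, hε⟩
    · exact ⟨t, ht, h, Set.right_mem_uIcc⟩
  obtain ⟨c, hc, -⟩ := dom_spec ht₁
  have heq : Set.EqOn (fun r => fl f Ω r x) c (Set.uIcc 0 t₁) :=
    fun s hs => (hc.fl_eq hΩ hf s hs).2
  have h1 : HasDerivWithinAt c (f (c t)) (Set.uIcc 0 t₁) t := (hc.2 t htm).2
  have h2 : HasDerivWithinAt (fun r => fl f Ω r x) (f (c t)) (Set.uIcc 0 t₁) t :=
    h1.congr heq (heq htm)
  have hlt : min 0 t₁ < max 0 t₁ := by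
    rcases lt_or_gt_of_ne ht₁0 with h' | h'
    · simp [h', h'.le]
    · simp [h', h'.le]
  have hu : UniqueDiffWithinAt ℝ (Set.uIcc 0 t₁) t := (uniqueDiffOn_Icc hlt) t htm
  have h3 := hφ.hasDerivAt.hasDerivWithinAt (s := Set.uIcc 0 t₁)
  have h4 : deriv (fun r => fl f Ω r x) t = f (c t) := hu.eq_deriv _ h3 h2
  have h5 : c t = fl f Ω t x := (heq htm).symm
  rw [← h5, ← h4]
  exact hφ.hasDerivAt

section B0

variable {n : ℕ}

/-- local diffeomorphism from an injective derivative at one point. -/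
theorem rm_local_diffeo {τ : E n → E n} {W : Set (E n)} (hW : IsOpen W)
    (hτ : ContDiffOn ℝ ∞ τ W) {w0 : E n} (hw0 : w0 ∈ W)
    (hinj : Function.Injective (fderiv ℝ τ w0)) :
    ∃ W' : Set (E n), W' ⊆ W ∧ IsOpen W' ∧ w0 ∈ W' ∧ Set.InjOn τ W' ∧
      ∀ w ∈ W', Function.Injective (fderiv ℝ τ w) := by
  have h1 : ContDiffAt ℝ ∞ τ w0 := hτ.contDiffAt (hW.mem_nhds hw0)
  have hs : HasStrictFDerivAt τ ((if_equiv _ hinj : E n ≃L[ℝ] E n) : E n →L[ℝ] E n) w0 := by
    rw [if_equiv_coe]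
    exact h1.hasStrictFDerivAt (by simp)
  set e := HasStrictFDerivAt.toOpenPartialHomeomorph τ hs with he
  have hecoe : (e : E n → E n) = τ := HasStrictFDerivAt.toOpenPartialHomeomorph_coe hs
  have hsrc : w0 ∈ e.source := HasStrictFDerivAt.mem_toOpenPartialHomeomorph_source hs
  set S : Set (E n) := W ∩ fderiv ℝ τ ⁻¹'
    (Set.range (ContinuousLinearEquiv.toContinuousLinearMap : (E n ≃L[ℝ] E n) → E n →L[ℝ] E n))
    with hS
  have hSo : IsOpen S :=
    (hτ.continuousOn_fderiv_of_isOpen hW (by simp)).isOpen_inter_preimage hW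
      ContinuousLinearEquiv.isOpen
  have hw0S : w0 ∈ S := ⟨hw0, if_equiv _ hinj, if_equiv_coe _ hinj⟩
  refine ⟨e.source ∩ S, fun w hw => hw.2.1, e.open_source.inter hSo, ⟨hsrc, hw0S⟩, ?_, ?_⟩
  · intro a ha b hb hab
    exact e.injOn ha.1 hb.1 (by rw [hecoe]; exact hab)
  · intro w hw
    obtain ⟨f, hf⟩ := hw.2.2
    rw [← hf]
    exact f.injective

/-- the normalised gradient field `N = ∇q/|∇q|²`. -/
noncomputable def rm_N (G : rm_MF n) (q : E n → ℝ) (u : E n) : E n :=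
  ∑ i : Fin n, ((∑ j : Fin n, (G u)⁻¹ i j * pdiff q j u) / gradSqC G q u) • (eb i : E n)

/-- the open set where `dq ≠ 0`. -/
def rm_reg (G : rm_MF n) (q : E n → ℝ) (U : Set (E n)) : Set (E n) :=
  {u | u ∈ U ∧ 0 < gradSqC G q u}

variable {G : rm_MF n} {U : Set (E n)} {q : E n → ℝ} {u : E n}

theorem rm_reg_open (h : rm_Met G U) (hq : ContDiffOn ℝ ∞ q U) : IsOpen (rm_reg G q U) := by
  have hc : ContinuousOn (fun u => gradSqC G q u) U :=
    (if_gradSqC_contDiffOn h.opn h.smooth (rm_det_ne h) hq).continuousOn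
  have := hc.isOpen_inter_preimage h.opn (isOpen_Ioi (a := (0 : ℝ)))
  exact this

theorem rm_N_smooth (h : rm_Met G U) (hq : ContDiffOn ℝ ∞ q U) :
    ContDiffOn ℝ ∞ (rm_N G q) (rm_reg G q U) := by
  unfold rm_N
  refine ContDiffOn.sum fun i _ => ?_
  have hc : ContDiffOn ℝ ∞ (fun x => (∑ j : Fin n, (G x)⁻¹ i j * pdiff q j x) / gradSqC G q x)
      (rm_reg G q U) := ?_
  · exact hc.smul contDiffOn_const
  refine ContDiffOn.div ?_ ?_ fun u hu => hu.2.ne'
  · exact (ContDiffOn.sum fun j _ => (rm_inv_smooth h i j).mul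
      (rm_pdiff_smooth h.opn hq j)).mono fun u hu => hu.1
  · exact (if_gradSqC_contDiffOn h.opn h.smooth (rm_det_ne h) hq).mono fun u hu => hu.1

theorem rm_N_apply (G : rm_MF n) (q : E n → ℝ) (u : E n) (k : Fin n) :
    rm_N G q u k = (∑ j : Fin n, (G u)⁻¹ k j * pdiff q j u) / gradSqC G q u := by
  unfold rm_N
  simp [Finset.sum_apply, Pi.single_apply, Finset.sum_ite_eq]

/-- `dq(N) = 1`. -/
theorem rm_dq_N (hu : u ∈ rm_reg G q U) : fderiv ℝ q u (rm_N G q u) = 1 := by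
  unfold rm_N
  rw [map_sum]
  simp only [map_smul, smul_eq_mul]
  have : ∑ i : Fin n, (∑ j : Fin n, (G u)⁻¹ i j * pdiff q j u) / gradSqC G q u *
      fderiv ℝ q u (eb i) = gradSqC G q u / gradSqC G q u := by
    rw [eq_div_iff hu.2.ne', Finset.sum_mul]
    unfold gradSqC pdiff
    refine Finset.sum_congr rfl fun i _ => ?_
    have h0 := hu.2.ne'
    unfold gradSqC pdiff at h0
    rw [Finset.sum_div, Finset.sum_mul, Finset.sum_mul]
    refine Finset.sum_congr rfl fun j _ => ?_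
    field_simp
  rw [this, div_self hu.2.ne']

/-- `G(N, X) = dq(X)/|dq|²`. -/
theorem rm_G_N (h : rm_Met G U) (hu : u ∈ rm_reg G q U) (X : E n) :
    if_bil (G u) (rm_N G q u) X = fderiv ℝ q u X / gradSqC G q u := by
  rw [if_bil_apply, if_clm_expand (fderiv ℝ q u) X]
  simp only [rm_N_apply]
  rw [Finset.sum_comm, Finset.sum_div]
  refine Finset.sum_congr rfl fun l _ => ?_
  have key : ∑ k : Fin n, G u k l * ∑ j : Fin n, (G u)⁻¹ k j * pdiff q j u = pdiff q l u := by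
    simp only [Finset.mul_sum]
    rw [Finset.sum_comm]
    have : ∀ j, ∑ k : Fin n, G u k l * ((G u)⁻¹ k j * pdiff q j u) =
        (if l = j then 1 else 0) * pdiff q j u := by
      intro j
      rw [← rm_mul_inv h hu.1 l j, Finset.sum_mul]
      exact Finset.sum_congr rfl fun k _ => by rw [rm_symm h hu.1 k l]; ring
    simp only [this]; simp
  have h0 := hu.2.ne'
  calc ∑ k : Fin n, G u k l * ((∑ j : Fin n, (G u)⁻¹ k j * pdiff q j u) / gradSqC G q u * X l)
      = (∑ k : Fin n, G u k l * ∑ j : Fin n, (G u)⁻¹ k j * pdiff q j u) * X l / gradSqC G q u := by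
        rw [Finset.sum_mul, Finset.sum_div]
        exact Finset.sum_congr rfl fun k _ => by field_simp
    _ = X l * fderiv ℝ q u (eb l) / gradSqC G q u := by
        rw [key]; unfold pdiff; ring

open Claimed.Agent.R316.ODE in
/-- `q` grows with unit speed along the flow of `N`. -/
theorem rm_q_fl (h : rm_Met G U) (hq : ContDiffOn ℝ ∞ q U) {t : ℝ} {x : E n}
    (hd : (t, x) ∈ dom (rm_N G q) (rm_reg G q U)) :
    q (fl (rm_N G q) (rm_reg G q U) t x) = q x + t := by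
  obtain ⟨c, hc, he⟩ := dom_spec hd
  rw [he]
  have hder : ∀ s ∈ Set.uIcc 0 t, HasDerivWithinAt (fun r => q (c r) - r) 0 (Set.uIcc 0 t) s := by
    intro s hs
    obtain ⟨hm, hds⟩ := hc.2 s hs
    have hqd : HasFDerivAt q (fderiv ℝ q (c s)) (c s) := (rm_da h.opn hq hm.1).hasFDerivAt
    have h1 := hqd.comp_hasDerivWithinAt s hds
    rw [rm_dq_N hm] at h1
    have h2 := h1.sub (hasDerivWithinAt_id s (Set.uIcc 0 t))
    rw [sub_self] at h2
    exact h2
  have hconst := constant_of_derivWithin_zero (f := fun r => q (c r) - r) (a := min 0 t)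
    (b := max 0 t) (fun s hs => (hder s hs).differentiableWithinAt)
    (fun s hs => by
      have hs' : s ∈ Set.uIcc 0 t := ⟨hs.1, hs.2.le⟩
      have hlt : min 0 t < max 0 t := lt_of_le_of_lt hs.1 hs.2
      exact (hder s hs').derivWithin ((uniqueDiffOn_Icc hlt) s hs'))
  have e0 := hconst 0 (Set.left_mem_uIcc (a := (0:ℝ)) (b := t))
  have e1 := hconst t (Set.right_mem_uIcc (a := (0:ℝ)) (b := t))
  rw [hc.1] at e0
  linarith

end B0

section B1

variable {d : ℕ}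

/-- embedding of `E d` into `E (d+1)` which omits the coordinate `k`. -/
noncomputable def rm_Lk (d : ℕ) (k : Fin (d + 1)) : E d →L[ℝ] E (d + 1) :=
  ∑ a : Fin d, (EuclideanSpace.proj a : E d →L[ℝ] ℝ).smulRight (eb (k.succAbove a))

theorem rm_Lk_self (k : Fin (d + 1)) (y : E d) : rm_Lk d k y k = 0 := by
  simp [rm_Lk, (Fin.succAbove_ne k _).symm]

theorem rm_Lk_succAbove (k : Fin (d + 1)) (y : E d) (a : Fin d) :
    rm_Lk d k y (k.succAbove a) = y a := by
  simp [rm_Lk, Pi.single_apply, Finset.sum_ite_eq]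

theorem rm_Lk_inj (k : Fin (d + 1)) : Function.Injective (rm_Lk d k) := by
  intro y y' hyy
  ext a
  rw [← rm_Lk_succAbove k y a, ← rm_Lk_succAbove k y' a, hyy]

theorem rm_tl_eb0 : rm_tl d (eb 0) = 0 := by
  ext a
  rw [rm_tl_apply]
  simp [Fin.succ_ne_zero]

theorem rm_box_open' (c r : ℝ) : IsOpen {w : E (d + 1) | |w 0 - c| < r ∧ ‖rm_tl d w‖ < r} := by
  have h1 : Continuous fun w : E (d + 1) => |w 0 - c| :=
    (((EuclideanSpace.proj (0 : Fin (d + 1)) : E (d + 1) →L[ℝ] ℝ).continuous).sub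
      continuous_const).abs
  have h2 : Continuous fun w : E (d + 1) => ‖rm_tl d w‖ := (rm_tl d).continuous.norm
  exact (isOpen_lt h1 continuous_const).inter (isOpen_lt h2 continuous_const)

/-- small boxes are contained in a given neighbourhood of the centre. -/
theorem rm_box_subset {W : Set (E (d + 1))} (hW : IsOpen W) {c : ℝ}
    (hc : rm_J c (0 : E d) ∈ W) :
    ∃ r > 0, {w : E (d + 1) | |w 0 - c| < r ∧ ‖rm_tl d w‖ < r} ⊆ W := by
  obtain ⟨ε, hε, hball⟩ := Metric.isOpen_iff.1 hW _ hc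
  refine ⟨ε / (1 + ‖rm_in d‖ + 1), by positivity, fun w hw => hball ?_⟩
  set r := ε / (1 + ‖rm_in d‖ + 1) with hr
  have hrpos : 0 < r := by positivity
  have e : w - rm_J c (0 : E d) = (w 0 - c) • (eb 0 : E (d + 1)) + rm_in d (rm_tl d w) := by
    conv_lhs => rw [← rm_J_tl w]
    unfold rm_J
    rw [map_zero, sub_smul]; abel
  rw [Metric.mem_ball, dist_eq_norm, e]
  have n1 : ‖(w 0 - c) • (eb 0 : E (d + 1))‖ ≤ r := by
    rw [norm_smul]
    simp only [PiLp.norm_single, norm_one, mul_one, Real.norm_eq_abs]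
    exact hw.1.le
  have n2 : ‖rm_in d (rm_tl d w)‖ ≤ ‖rm_in d‖ * r :=
    ((rm_in d).le_opNorm _).trans (mul_le_mul_of_nonneg_left hw.2.le (norm_nonneg _))
  have n3 : r * (1 + ‖rm_in d‖ + 1) = ε := by
    rw [hr]; field_simp
  calc ‖(w 0 - c) • (eb 0 : E (d + 1)) + rm_in d (rm_tl d w)‖ ≤ r + ‖rm_in d‖ * r :=
        (norm_add_le _ _).trans (add_le_add n1 n2)
    _ < r * (1 + ‖rm_in d‖ + 1) := by nlinarith
    _ = ε := n3

end B1


section B

variable {d : ℕ}

/-- the open box `|w 0 - c| < r`, `|y| < r`. -/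
def rm_box (d : ℕ) (c r : ℝ) : Set (E (d + 1)) := {w | |w 0 - c| < r ∧ ‖rm_tl d w‖ < r}

theorem rm_box_open (c r : ℝ) : IsOpen (rm_box d c r) := rm_box_open' c r

theorem rm_box_slice {c r c' : ℝ} (hc : |c' - c| < r) :
    rm_Us (rm_box d c r) c' = Metric.ball 0 r := by
  ext y
  simp only [rm_Us, rm_box, Set.mem_ofPred_eq, rm_J_zero, rm_tl_J, mem_ball_zero_iff, hc, true_and]

/-- `(τ, T)` are lapse coordinates for `(G, q)` centred at `u0`. -/
structure rm_Lapse (G : rm_MF (d + 1)) (U : Set (E (d + 1))) (q : E (d + 1) → ℝ)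
    (u0 : E (d + 1)) (τ : E (d + 1) → E (d + 1)) (r : ℝ) : Prop where
  pos : 0 < r
  pull : if_PullC (rm_box d (q u0) r) U τ (rm_pull τ G) G
  inj : Set.InjOn τ (rm_box d (q u0) r)
  base : τ (rm_J (q u0) 0) = u0
  lvl : ∀ w ∈ rm_box d (q u0) r, q (τ w) = w 0
  orth : rm_Orth (rm_pull τ G) (rm_box d (q u0) r)

open Claimed.Agent.R316.ODE in
/-- **existence of lapse coordinates.** -/
theorem rm_orth_chart {G : rm_MF (d + 1)} {U : Set (E (d + 1))} (h : rm_Met G U)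
    {q : E (d + 1) → ℝ} (hq : ContDiffOn ℝ ∞ q U) {u0 : E (d + 1)} (hu0 : u0 ∈ U)
    (hdq : 0 < gradSqC G q u0) : ∃ τ r, rm_Lapse G U q u0 τ r := by
  classical
  set Ω := rm_reg G q U with hΩdef
  set N := rm_N G q with hNdef
  have hΩ : IsOpen Ω := rm_reg_open h hq
  have hN : ContDiffOn ℝ ∞ N Ω := rm_N_smooth h hq
  have hN1 : ContDiffOn ℝ 1 N Ω := hN.of_le (by simp)
  have hu0Ω : u0 ∈ Ω := ⟨hu0, hdq⟩
  have hD : IsOpen (dom N Ω) := isOpen_dom hΩ hN1
  have hΦ : ContDiffOn ℝ ∞ (fun p : ℝ × E (d + 1) => fl N Ω p.1 p.2) (dom N Ω) :=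
    contDiffOn_fl_infty hΩ hN
  have hNne : N u0 ≠ 0 := by
    intro h0
    have := rm_dq_N hu0Ω
    rw [← hNdef, h0, map_zero] at this
    exact zero_ne_one this
  obtain ⟨k, hk⟩ : ∃ k, N u0 k ≠ 0 := by
    by_contra hcon
    exact hNne (by
      ext i
      by_contra hi
      exact hcon ⟨i, by simpa using hi⟩)
  set L := rm_Lk d k with hL
  set σ : E (d + 1) → E (d + 1) := fun w => u0 + L (rm_tl d w) with hσdef
  have hσ : ContDiff ℝ ∞ σ := contDiff_const.add (L.contDiff.comp (rm_tl d).contDiff)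
  set θ : E (d + 1) → ℝ × E (d + 1) := fun w => (w 0 - q (σ w), σ w) with hθdef
  set W0 : Set (E (d + 1)) := σ ⁻¹' U with hW0def
  have hW0 : IsOpen W0 := h.opn.preimage hσ.continuous
  have hp0 : ContDiff ℝ ∞ (fun w : E (d + 1) => w 0) :=
    (EuclideanSpace.proj (0 : Fin (d + 1)) : E (d + 1) →L[ℝ] ℝ).contDiff
  have hqσ : ContDiffOn ℝ ∞ (fun w => q (σ w)) W0 := hq.comp hσ.contDiffOn (fun w hw => hw)
  have hθs : ContDiffOn ℝ ∞ θ W0 := (hp0.contDiffOn.sub hqσ).prodMk hσ.contDiffOn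
  set W1 : Set (E (d + 1)) := W0 ∩ θ ⁻¹' (dom N Ω) with hW1def
  have hW1 : IsOpen W1 := hθs.continuousOn.isOpen_inter_preimage hW0 hD
  set w0 : E (d + 1) := rm_J (q u0) (0 : E d) with hw0def
  have hσw0 : σ w0 = u0 := by simp [hσdef, hw0def, rm_tl_J]
  have hθw0 : θ w0 = (0, u0) := by
    simp only [hθdef, hσw0]
    rw [hw0def, rm_J_zero, sub_self]
  have hw0 : w0 ∈ W1 :=
    ⟨by show σ w0 ∈ U; rw [hσw0]; exact hu0,
      by show θ w0 ∈ dom N Ω; rw [hθw0]; exact zero_mem_dom.2 hu0Ω⟩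
  set τ : E (d + 1) → E (d + 1) := fun w => fl N Ω (θ w).1 (θ w).2 with hτdef
  have hτ : ContDiffOn ℝ ∞ τ W1 :=
    hΦ.comp (hθs.mono Set.inter_subset_left) (fun w hw => hw.2)
  have hτd : ∀ w ∈ W1, DifferentiableAt ℝ τ w := fun w hw =>
    (hτ.contDiffAt (hW1.mem_nhds hw)).differentiableAt (by simp)
  have hτΩ : ∀ w ∈ W1, τ w ∈ Ω := fun w hw => fl_mem hw.2
  have hlvl : ∀ w ∈ W1, q (τ w) = w 0 := by
    intro w hw
    have := rm_q_fl h hq hw.2
    show q (fl N Ω (θ w).1 (θ w).2) = _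
    rw [this]
    simp
  have hτw0 : τ w0 = u0 := by
    show fl N Ω (θ w0).1 (θ w0).2 = u0
    rw [hθw0]; exact fl_zero
  -- `d(q ∘ τ) = d(w 0)`
  have hdq : ∀ w ∈ W1, ∀ Z : E (d + 1), fderiv ℝ q (τ w) (fderiv ℝ τ w Z) = Z 0 := by
    intro w hw Z
    have e1 : (q ∘ τ) =ᶠ[𝓝 w] fun w : E (d + 1) => w 0 :=
      Filter.eventuallyEq_of_mem (hW1.mem_nhds hw) hlvl
    have e2 := e1.fderiv_eq (𝕜 := ℝ)
    rw [fderiv_comp w (rm_da h.opn hq (hτΩ w hw).1) (hτd w hw)] at e2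
    have e3 : fderiv ℝ (fun w : E (d + 1) => w 0) w =
        (EuclideanSpace.proj (0 : Fin (d + 1)) : E (d + 1) →L[ℝ] ℝ) :=
      (EuclideanSpace.proj (0 : Fin (d + 1)) : E (d + 1) →L[ℝ] ℝ).fderiv
    rw [e3] at e2
    have := congrArg (fun A : E (d + 1) →L[ℝ] ℝ => A Z) e2
    simpa using this
  -- derivative in the direction `eb 0`
  have hD0 : ∀ w ∈ W1, fderiv ℝ τ w (eb 0) = N (τ w) := by
    intro w hw
    have hl : HasDerivAt (fun r : ℝ => w + r • (eb 0 : E (d + 1))) (eb 0) 0 := by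
      simpa using ((hasDerivAt_id (0 : ℝ)).smul_const (eb 0 : E (d + 1))).const_add w
    have hτw : HasFDerivAt τ (fderiv ℝ τ w) (w + (0 : ℝ) • (eb 0 : E (d + 1))) := by
      rw [zero_smul, add_zero]; exact (hτd w hw).hasFDerivAt
    have hline : HasDerivAt (fun r : ℝ => τ (w + r • (eb 0 : E (d + 1))))
        (fderiv ℝ τ w (eb 0)) 0 :=
      HasFDerivAt.comp_hasDerivAt (f := fun r : ℝ => w + r • (eb 0 : E (d + 1))) 0 hτw hl
    have e : (fun r : ℝ => τ (w + r • (eb 0 : E (d + 1)))) =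
        fun r => fl N Ω ((θ w).1 + r) (θ w).2 := by
      funext r
      have s1 : σ (w + r • (eb 0 : E (d + 1))) = σ w := by
        simp only [hσdef, map_add, map_smul, rm_tl_eb0, smul_zero, add_zero]
      show fl N Ω (θ (w + r • (eb 0 : E (d + 1)))).1 (θ (w + r • (eb 0 : E (d + 1)))).2 = _
      simp only [hθdef, s1]
      congr 1
      simp
      ring
    have h1 : HasDerivAt (fun r => fl N Ω r (θ w).2) (N (fl N Ω ((θ w).1 + 0) (θ w).2))
        ((θ w).1 + 0) := by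
      rw [add_zero]; exact rm_hasDerivAt_fl hΩ hN1 hw.2
    have hline2 : HasDerivAt (fun r => fl N Ω ((θ w).1 + r) (θ w).2)
        (N (fl N Ω ((θ w).1 + 0) (θ w).2)) 0 := h1.comp_const_add (θ w).1 0
    rw [add_zero, ← e] at hline2
    exact hline.unique hline2
  -- the derivative of the flow at `(0, u0)`
  set Φ : ℝ × E (d + 1) → E (d + 1) := fun p => fl N Ω p.1 p.2 with hΦdef
  have h0D : ((0 : ℝ), u0) ∈ dom N Ω := zero_mem_dom.2 hu0Ω
  have hΦd : DifferentiableAt ℝ Φ (0, u0) :=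
    (hΦ.contDiffAt (hD.mem_nhds h0D)).differentiableAt (by simp)
  set A := fderiv ℝ Φ (0, u0) with hA
  have hA1 : A (1, 0) = N u0 := by
    have c1 : HasDerivAt (fun r : ℝ => (r, u0)) ((1 : ℝ), (0 : E (d + 1))) 0 :=
      (hasDerivAt_id (0 : ℝ)).prodMk (hasDerivAt_const (0 : ℝ) u0)
    have c2 : HasDerivAt (fun r : ℝ => Φ (r, u0)) (A (1, 0)) 0 :=
      HasFDerivAt.comp_hasDerivAt (f := fun r : ℝ => (r, u0)) 0 hΦd.hasFDerivAt c1
    have c3 := rm_hasDerivAt_fl hΩ hN1 h0D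
    rw [fl_zero] at c3
    exact c2.unique c3
  have hA2 : ∀ Y, A (0, Y) = Y := by
    intro Y
    have c1 : HasFDerivAt (fun y : E (d + 1) => ((0 : ℝ), y))
        (ContinuousLinearMap.inr ℝ ℝ (E (d + 1))) u0 :=
      (ContinuousLinearMap.inr ℝ ℝ (E (d + 1))).hasFDerivAt
    have c2 : HasFDerivAt (fun y => Φ (0, y)) (A.comp (ContinuousLinearMap.inr ℝ ℝ (E (d + 1)))) u0 :=
      HasFDerivAt.comp (g := Φ) u0 hΦd.hasFDerivAt c1
    have c3 : (fun y => Φ (0, y)) = id := by funext y; exact fl_zero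
    rw [c3] at c2
    have c4 := c2.unique (hasFDerivAt_id u0)
    have c5 := congrArg (fun B : E (d + 1) →L[ℝ] E (d + 1) => B Y) c4
    simpa using c5
  have hθd : HasFDerivAt θ
      (((EuclideanSpace.proj (0 : Fin (d + 1)) : E (d + 1) →L[ℝ] ℝ) -
        (fderiv ℝ q u0).comp (L.comp (rm_tl d))).prod (L.comp (rm_tl d))) w0 := by
    have s1 : HasFDerivAt σ (L.comp (rm_tl d)) w0 := ((L.comp (rm_tl d)).hasFDerivAt).const_add u0
    have s2 : HasFDerivAt (fun w => q (σ w)) ((fderiv ℝ q u0).comp (L.comp (rm_tl d))) w0 := by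
      have : HasFDerivAt q (fderiv ℝ q u0) (σ w0) := by
        rw [hσw0]; exact (rm_da h.opn hq hu0).hasFDerivAt
      exact this.comp w0 s1
    exact ((EuclideanSpace.proj (0 : Fin (d + 1)) : E (d + 1) →L[ℝ] ℝ).hasFDerivAt.sub s2).prodMk s1
  have hτ0 : ∀ X, fderiv ℝ τ w0 X =
      (X 0 - fderiv ℝ q u0 (L (rm_tl d X))) • N u0 + L (rm_tl d X) := by
    intro X
    have hΦ' : HasFDerivAt Φ A (θ w0) := by rw [hθw0]; exact hΦd.hasFDerivAt
    have c : HasFDerivAt τ (A.comp _) w0 := HasFDerivAt.comp (g := Φ) w0 hΦ' hθd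
    rw [c.fderiv]
    simp only [ContinuousLinearMap.comp_apply, ContinuousLinearMap.prod_apply,
      sub_apply]
    have e : ((EuclideanSpace.proj (0 : Fin (d + 1)) : E (d + 1) →L[ℝ] ℝ) X -
        fderiv ℝ q u0 (L (rm_tl d X)), L (rm_tl d X)) =
        (X 0 - fderiv ℝ q u0 (L (rm_tl d X))) • ((1 : ℝ), (0 : E (d + 1))) +
          ((0 : ℝ), L (rm_tl d X)) := by
      ext1 <;> simp
    rw [e, map_add, map_smul, hA1, hA2]
  have hinj0 : Function.Injective (fderiv ℝ τ w0) := by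
    rw [injective_iff_map_eq_zero]
    intro X hX
    rw [hτ0] at hX
    have hk0 := congrArg (fun Z : E (d + 1) => Z k) hX
    simp only [PiLp.add_apply, PiLp.smul_apply, smul_eq_mul, PiLp.zero_apply] at hk0
    rw [hL, rm_Lk_self, add_zero] at hk0
    have ha : X 0 - fderiv ℝ q u0 (rm_Lk d k (rm_tl d X)) = 0 :=
      (mul_eq_zero.1 hk0).resolve_right hk
    rw [hL, ha, zero_smul, zero_add] at hX
    have hη : rm_tl d X = 0 := rm_Lk_inj k (by rw [hX, map_zero])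
    rw [hη, map_zero, map_zero, sub_zero] at ha
    rw [← rm_J_tl X, ha, hη]
    simp [rm_J]
  obtain ⟨W', hW'W, hW'o, hw0W', hinjW', himmW'⟩ := rm_local_diffeo hW1 hτ hw0 hinj0
  obtain ⟨r, hr, hbox⟩ := rm_box_subset hW'o hw0W'
  have hb1 : rm_box d (q u0) r ⊆ W1 := fun w hw => hW'W (hbox hw)
  refine ⟨τ, r, hr, rm_pullC h (rm_box_open _ _) (hτ.mono hb1) (fun w hw => (hτΩ w (hb1 hw)).1)
    (fun w hw => himmW' w (hbox hw)), hinjW'.mono hbox, hτw0, fun w hw => hlvl w (hb1 hw), ?_⟩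
  intro w hw a
  show if_bil (G (τ w)) (fderiv ℝ τ w (eb 0)) (fderiv ℝ τ w (eb a.succ)) = 0
  rw [hD0 w (hb1 hw), rm_G_N h (hτΩ w (hb1 hw)), hdq w (hb1 hw)]
  simp [Fin.succ_ne_zero]

end B

/-! ## Section C: manifold level -/

section C

variable {V : Type} [NormedAddCommGroup V] [NormedSpace ℝ V] [FiniteDimensional ℝ V]
variable {d : ℕ} {M : Set V} {g : Ten V} {q : V → ℝ}

/-- `(ψ, box)` is a lapse parametrisation of `(M, g, q)` centred at `x0`. -/
structure rm_LapseP (M : Set V) (g : Ten V) (q : V → ℝ) (x0 : V) (ψ : E (d + 1) → V) (r : ℝ) :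
    Prop where
  pos : 0 < r
  par : IsParam M ψ (rm_box d (q x0) r)
  base : ψ (rm_J (q x0) 0) = x0
  lvl : ∀ w ∈ rm_box d (q x0) r, q (ψ w) = w 0
  orth : rm_Orth (cm g ψ) (rm_box d (q x0) r)

/-- coordinate matrix of a reparametrisation. -/
theorem rm_cm_comp {k : ℕ} (g : Ten V) {ψ : E k → V} {τ : E k → E k} {w : E k}
    (hψ : DifferentiableAt ℝ ψ (τ w)) (hτ : DifferentiableAt ℝ τ w) :
    cm g (ψ ∘ τ) w = rm_pull τ (cm g ψ) w := by
  ext i j
  simp only [rm_pull, Matrix.of_apply, if_cm_bil]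
  show g (ψ (τ w)) (fderiv ℝ (ψ ∘ τ) w (eb i)) (fderiv ℝ (ψ ∘ τ) w (eb j)) = _
  rw [fderiv_comp w hψ hτ]
  rfl

theorem rm_orth_param (hM : IsMfd (d + 1) M) (hg : IsMetricOn (d + 1) M g)
    (hq : SmoothAlong (d + 1) M q) {x0 : V} (hx0 : x0 ∈ M) (hdq : 0 < gradSq (d + 1) M g q x0) :
    ∃ (ψ : E (d + 1) → V) (r : ℝ), rm_LapseP M g q x0 ψ r := by
  obtain ⟨ψ₀, U₀, h₀, u0, hu0, rfl⟩ := hM x0 hx0
  rw [if_gradSq_eq hg hq h₀ hu0] at hdq
  obtain ⟨τ, r, hL⟩ := rm_orth_chart (if_metC hg h₀).toRm (hq ψ₀ U₀ h₀) hu0 hdq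
  have hbox : IsOpen (rm_box d ((q ∘ ψ₀) u0) r) := rm_box_open _ _
  refine ⟨ψ₀ ∘ τ, r, hL.pos, if_comp h₀ hbox hL.pull.smooth hL.inj hL.pull.inj hL.pull.mapsTo,
    ?_, fun w hw => hL.lvl w hw, fun w hw a => ?_⟩
  · show ψ₀ (τ (rm_J ((q ∘ ψ₀) u0) 0)) = ψ₀ u0
    rw [hL.base]
  · rw [rm_cm_comp g (if_differentiableAt h₀ (hL.pull.mapsTo hw))
      ((hL.pull.contDiffAt hw).differentiableAt (by simp))]
    exact hL.orth w hw a

theorem rm_LapseP.met {x0 : V} {ψ : E (d + 1) → V} {r : ℝ} (hg : IsMetricOn (d + 1) M g)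
    (h : rm_LapseP M g q x0 ψ r) : rm_Met (cm g ψ) (rm_box d (q x0) r) :=
  (if_metC hg h.par).toRm

/-- the slices of a lapse parametrisation parametrise the level sets. -/
theorem rm_LapseP.slice {x0 : V} {ψ : E (d + 1) → V} {r c : ℝ} (h : rm_LapseP M g q x0 ψ r)
    (hc : |c - q x0| < r) :
    IsParam {x | x ∈ M ∧ q x = c} (fun y => ψ (rm_J c y)) (Metric.ball 0 r) := by
  have hmaps : ∀ y ∈ Metric.ball (0 : E d) r, rm_J c y ∈ rm_box d (q x0) r := by
    intro y hy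
    refine ⟨by rw [rm_J_zero]; exact hc, ?_⟩
    rw [rm_tl_J]
    exact mem_ball_zero_iff.1 hy
  have hJinj : Function.Injective (rm_J (d := d) c) := fun y y' hyy => by
    rw [← rm_tl_J c y, hyy, rm_tl_J]
  have hinj : Set.InjOn (fun y => ψ (rm_J c y)) (Metric.ball 0 r) := fun y hy y' hy' hyy =>
    hJinj (if_injOn h.par (hmaps y hy) (hmaps y' hy') hyy)
  have hinv : ∀ x ∈ (fun y => ψ (rm_J c y)) '' Metric.ball 0 r,
      Function.invFunOn (fun y => ψ (rm_J c y)) (Metric.ball 0 r) x =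
        rm_tl d (Function.invFunOn ψ (rm_box d (q x0) r) x) := by
    rintro _ ⟨y, hy, rfl⟩
    rw [hinj.leftInvOn_invFunOn hy]
    show y = rm_tl d (Function.invFunOn ψ (rm_box d (q x0) r) (ψ (rm_J c y)))
    rw [if_leftInv h.par (hmaps y hy), rm_tl_J]
  refine ⟨Metric.isOpen_ball, (if_smooth h.par).comp (rm_J_contDiff c).contDiffOn hmaps,
    fun y hy => ?_, hinj, ?_, ?_⟩
  · have h1 : HasFDerivAt (fun y => ψ (rm_J c y))
        ((fderiv ℝ ψ (rm_J c y)).comp (rm_in d)) y :=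
      (if_differentiableAt h.par (hmaps y hy)).hasFDerivAt.comp y (rm_J_hasFDerivAt c y)
    rw [h1.fderiv]
    intro a b hab
    have h2 : rm_in d a = rm_in d b := if_imm h.par (hmaps y hy) hab
    have h3 : ∀ z : E d, rm_tl d (rm_in d z) = z := fun z => by
      ext i; rw [rm_tl_apply, rm_in_succ]
    rw [← h3 a, h2, h3]
  · obtain ⟨O, hO, hOe⟩ := if_image h.par
    refine ⟨O, hO, ?_⟩
    ext x
    constructor
    · rintro ⟨y, hy, rfl⟩
      have h1 : ψ (rm_J c y) ∈ M ∩ O := hOe ▸ Set.mem_image_of_mem ψ (hmaps y hy)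
      refine ⟨⟨h1.1, ?_⟩, h1.2⟩
      rw [h.lvl _ (hmaps y hy), rm_J_zero]
    · rintro ⟨⟨hxM, hxc⟩, hxO⟩
      have h1 : x ∈ ψ '' rm_box d (q x0) r := hOe ▸ (⟨hxM, hxO⟩ : x ∈ M ∩ O)
      obtain ⟨w, hw, rfl⟩ := h1
      rw [h.lvl w hw] at hxc
      refine ⟨rm_tl d w, mem_ball_zero_iff.2 hw.2, ?_⟩
      show ψ (rm_J c (rm_tl d w)) = ψ w
      rw [← hxc, rm_J_tl]
  · refine ContinuousOn.congr ?_ hinv
    refine (rm_tl d).continuous.comp_continuousOn ((if_contInv h.par).mono ?_)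
    rintro _ ⟨y, hy, rfl⟩
    exact Set.mem_image_of_mem ψ (hmaps y hy)

/-- the coordinate matrix of the slice parametrisation is the slice of the coordinate matrix. -/
theorem rm_LapseP.slice_cm {x0 : V} {ψ : E (d + 1) → V} {r c : ℝ} (h : rm_LapseP M g q x0 ψ r)
    (hc : |c - q x0| < r) {y : E d} (hy : y ∈ Metric.ball (0 : E d) r) :
    cm g (fun y => ψ (rm_J c y)) y = rm_sl (cm g ψ) c y := by
  have hmem : rm_J c y ∈ rm_box d (q x0) r := by
    refine ⟨by rw [rm_J_zero]; exact hc, ?_⟩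
    rw [rm_tl_J]
    exact mem_ball_zero_iff.1 hy
  have h1 : HasFDerivAt (fun y => ψ (rm_J c y))
      ((fderiv ℝ ψ (rm_J c y)).comp (rm_in d)) y :=
    (if_differentiableAt h.par hmem).hasFDerivAt.comp y (rm_J_hasFDerivAt c y)
  ext a b
  show g (ψ (rm_J c y)) (fderiv ℝ (fun y => ψ (rm_J c y)) y (eb a))
    (fderiv ℝ (fun y => ψ (rm_J c y)) y (eb b)) =
    g (ψ (rm_J c y)) (fderiv ℝ ψ (rm_J c y) (eb a.succ)) (fderiv ℝ ψ (rm_J c y) (eb b.succ))
  rw [h1.fderiv]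
  simp only [ContinuousLinearMap.comp_apply, rm_in_eb]

/-- restriction of smooth functions to a submanifold (any dimensions).
PROOF: for a parametrisation `χ` of `L` and a parametrisation `ψ` of `M` near `χ u`, `f ∘ χ = (f ∘ ψ) ∘ (ρ ∘ χ)` near `u`, `ρ` the smooth
ambient left inverse of `ψ` (`if_exists_retr`). -/
theorem rm_sub_smooth {F : Type} [NormedAddCommGroup F] [NormedSpace ℝ F] {d' : ℕ} {L : Set V}
    (hLM : L ⊆ M) (hM : IsMfd d' M) {f : V → F} (hf : SmoothAlong d' M f) : SmoothAlong d L f := by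
  obtain ⟨f', ⟨O, hO, hMO, hf'⟩, heq⟩ := if_exists_extension hM hf
  intro χ U hχ
  have h1 : ContDiffOn ℝ ∞ (f' ∘ χ) U :=
    hf'.comp (if_smooth hχ) fun u hu => hMO (hLM (if_mem hχ hu))
  exact h1.congr fun u hu => (heq (hLM (if_mem hχ hu))).symm

/-- restriction of a metric to a submanifold (any dimensions). -/
theorem rm_sub_metric {d' : ℕ} {L : Set V} (hLM : L ⊆ M) (hM : IsMfd d' M)
    (hg : IsMetricOn d' M g) : IsMetricOn d L g := by
  intro χ U hχ
  -- local factorisation `χ = ψ ∘ σ`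
  have key : ∀ u₀ ∈ U, ∃ (ψ : E d' → V) (W : Set (E d')) (σ : E d → E d') (T : Set (E d)),
      IsParam M ψ W ∧ IsOpen T ∧ u₀ ∈ T ∧ T ⊆ U ∧ ContDiffOn ℝ ∞ σ T ∧ Set.MapsTo σ T W ∧
      ∀ u ∈ T, ψ (σ u) = χ u := by
    intro u₀ hu₀
    obtain ⟨ψ, W, hψ, w₀, hw₀, hw₀e⟩ := hM (χ u₀) (hLM (if_mem hχ hu₀))
    obtain ⟨ρ, O, hO, hmem, hρ, hmaps, hinv⟩ := if_exists_retr hψ hw₀
    have hT : IsOpen (U ∩ χ ⁻¹' O) := (if_continuousOn hχ).isOpen_inter_preimage (if_open hχ) hO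
    refine ⟨ψ, W, ρ ∘ χ, U ∩ χ ⁻¹' O, hψ, hT, ⟨hu₀, by rw [Set.mem_preimage, ← hw₀e]; exact hmem⟩,
      Set.inter_subset_left, hρ.comp ((if_smooth hχ).mono Set.inter_subset_left) fun u hu => hu.2,
      fun u hu => hmaps hu.2, fun u hu => ?_⟩
    obtain ⟨h1, h2⟩ := hinv (χ u) ⟨hLM (if_mem hχ hu.1), hu.2⟩
    show ψ (ρ (χ u)) = χ u
    rw [h2, if_rightInv h1]
  have key2 : ∀ u₀ ∈ U, ∃ (ψ : E d' → V) (W : Set (E d')) (σ : E d → E d') (T : Set (E d)),
      IsParam M ψ W ∧ IsOpen T ∧ u₀ ∈ T ∧ T ⊆ U ∧ ContDiffOn ℝ ∞ σ T ∧ Set.MapsTo σ T W ∧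
      ∀ u ∈ T, (fderiv ℝ χ u = (fderiv ℝ ψ (σ u)).comp (fderiv ℝ σ u)) ∧ ∀ i j, cm g χ u i j =
        ∑ a, ∑ b, cm g ψ (σ u) a b * (fderiv ℝ σ u (eb i) a * fderiv ℝ σ u (eb j) b) := by
    intro u₀ hu₀
    obtain ⟨ψ, W, σ, T, hψ, hT, hu₀T, hTU, hσ, hmaps, he⟩ := key u₀ hu₀
    refine ⟨ψ, W, σ, T, hψ, hT, hu₀T, hTU, hσ, hmaps, fun u hu => ?_⟩
    have h1 : χ =ᶠ[𝓝 u] ψ ∘ σ := by
      filter_upwards [hT.mem_nhds hu] with w hw
      exact (he w hw).symm
    have h2 : fderiv ℝ χ u = (fderiv ℝ ψ (σ u)).comp (fderiv ℝ σ u) := by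
      rw [h1.fderiv_eq]
      exact fderiv_comp u (if_differentiableAt hψ (hmaps hu))
        ((hσ.contDiffAt (hT.mem_nhds hu)).differentiableAt (by simp))
    refine ⟨h2, fun i j => ?_⟩
    rw [← if_bil_apply, if_cm_bil, he u hu]
    show g (χ u) (fderiv ℝ χ u (eb i)) (fderiv ℝ χ u (eb j)) = _
    rw [h2]
    rfl
  refine ⟨fun i j u₀ hu₀ => ?_, fun u₀ hu₀ => ?_⟩
  · obtain ⟨ψ, W, σ, T, hψ, hT, hu₀T, hTU, hσ, hmaps, he⟩ := key2 u₀ hu₀
    have h1 : ∀ k : Fin d, ContDiffOn ℝ ∞ (fun w => fderiv ℝ σ w (eb k)) T := fun k =>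
      (hσ.fderiv_of_isOpen hT (m := ∞) (by simp)).clm_apply contDiffOn_const
    have h2 : ∀ (k : Fin d) (a : Fin d'), ContDiffOn ℝ ∞ (fun w => fderiv ℝ σ w (eb k) a) T :=
      fun k a => (if_pr a).contDiff.comp_contDiffOn (h1 k)
    have h3 : ∀ a b : Fin d', ContDiffOn ℝ ∞ (fun w => cm g ψ (σ w) a b) T := fun a b =>
      ((hg ψ W hψ).1 a b).comp hσ hmaps
    have h4 : ContDiffOn ℝ ∞ (fun u => cm g χ u i j) T :=
      (ContDiffOn.sum fun a _ => ContDiffOn.sum fun b _ =>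
        (h3 a b).mul ((h2 i a).mul (h2 j b))).congr fun u hu => (he u hu).2 i j
    exact (h4.contDiffAt (hT.mem_nhds hu₀T)).contDiffWithinAt
  · obtain ⟨ψ, W, σ, T, hψ, hT, hu₀T, hTU, hσ, hmaps, he⟩ := key2 u₀ hu₀
    set B : Matrix (Fin d') (Fin d) ℝ := Matrix.of fun a i => fderiv ℝ σ u₀ (eb i) a with hB
    have e : cm g χ u₀ = B.conjTranspose * cm g ψ (σ u₀) * B := by
      ext i j
      rw [(he u₀ hu₀T).2 i j]
      simp only [Matrix.mul_apply, Matrix.conjTranspose_apply, hB, Matrix.of_apply, star_trivial,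
        Finset.sum_mul]
      rw [Finset.sum_comm]
      refine Finset.sum_congr rfl fun a _ => Finset.sum_congr rfl fun b _ => ?_
      ring
    rw [e]
    refine ((hg ψ W hψ).2 _ (hmaps hu₀T)).conjTranspose_mul_mul_same ?_
    intro v w hvw
    have hmv : ∀ (X : E d) (a : Fin d'), B.mulVec (X : Fin d → ℝ) a = fderiv ℝ σ u₀ X a := by
      intro X a
      conv_rhs => rw [← if_sum_eb X]
      simp only [Matrix.mulVec, dotProduct, hB, Matrix.of_apply, map_sum, map_smul]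
      simp [mul_comm]
    have h1 : fderiv ℝ σ u₀ (WithLp.toLp 2 v) = fderiv ℝ σ u₀ (WithLp.toLp 2 w) := by
      ext a
      rw [← hmv, ← hmv]
      exact congrFun hvw a
    have h2 : fderiv ℝ χ u₀ (WithLp.toLp 2 v) = fderiv ℝ χ u₀ (WithLp.toLp 2 w) := by
      rw [(he u₀ hu₀T).1]
      simp only [ContinuousLinearMap.comp_apply, h1]
    exact (WithLp.toLp_injective 2) (if_imm hχ hu₀ h2)

/-- a regular level set is a manifold. -/
theorem rm_level_mfd (hM : IsMfd (d + 1) M) (hg : IsMetricOn (d + 1) M g)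
    (hq : SmoothAlong (d + 1) M q) {c : ℝ}
    (hreg : ∀ x ∈ M, q x = c → 0 < gradSq (d + 1) M g q x) : IsMfd d {x | x ∈ M ∧ q x = c} := by
  rintro x ⟨hxM, hxc⟩
  obtain ⟨ψ, r, hL⟩ := rm_orth_param hM hg hq hxM (hreg x hxM hxc)
  refine ⟨fun y => ψ (rm_J c y), Metric.ball 0 r, hL.slice (by rw [hxc, sub_self, abs_zero]; exact hL.pos),
    0, Metric.mem_ball_self hL.pos, ?_⟩
  show ψ (rm_J c 0) = x
  rw [← hxc, hL.base]

/-- restriction of a metric to a regular level set. -/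
theorem rm_level_metric (hM : IsMfd (d + 1) M) (hg : IsMetricOn (d + 1) M g)
    (hq : SmoothAlong (d + 1) M q) {c : ℝ}
    (hreg : ∀ x ∈ M, q x = c → 0 < gradSq (d + 1) M g q x) :
    IsMetricOn d {x | x ∈ M ∧ q x = c} g :=
  rm_sub_metric (fun _ hx => hx.1) hM hg

/-- restriction of a smooth function to a regular level set. -/
theorem rm_level_smooth (hM : IsMfd (d + 1) M) (hg : IsMetricOn (d + 1) M g)
    (hq : SmoothAlong (d + 1) M q) {c : ℝ}
    (hreg : ∀ x ∈ M, q x = c → 0 < gradSq (d + 1) M g q x) {f : V → ℝ}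
    (hf : SmoothAlong (d + 1) M f) : SmoothAlong d {x | x ∈ M ∧ q x = c} f :=
  rm_sub_smooth (fun _ hx => hx.1) hM hf

end C

/-! ## Section D: dictionary -/

section D

variable {d : ℕ} {G : rm_MF (d + 1)} {U : Set (E (d + 1))} {u : E (d + 1)}

/-- the coordinate function `w ↦ w 0`. -/
noncomputable def rm_q0 (d : ℕ) : E (d + 1) → ℝ := fun w => w 0

theorem rm_q0_smooth : ContDiff ℝ ∞ (rm_q0 d) := (if_pr (0 : Fin (d + 1))).contDiff

theorem rm_pdiff_q0 (i : Fin (d + 1)) (u : E (d + 1)) :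
    pdiff (rm_q0 d) i u = if i = 0 then 1 else 0 := by
  have h1 : HasFDerivAt (rm_q0 d) (if_pr (0 : Fin (d + 1))) u := (if_pr (0 : Fin (d + 1))).hasFDerivAt
  unfold pdiff
  rw [h1.fderiv]
  show (eb i : E (d + 1)) 0 = _
  rw [if_eb_apply]
  simp only [eq_comm]

/-- `⟨dq, df⟩ = e f / v`. -/
theorem rm_dict_ip (h : rm_Met G U) (ho : rm_Orth G U) (hu : u ∈ U) (f : E (d + 1) → ℝ) :
    gradIpC G (rm_q0 d) f u = rm_e G f u / rm_lps G u := by
  have hv := rm_lps_pos h hu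
  unfold gradIpC rm_e
  simp only [rm_pdiff_q0]
  rw [Fin.sum_univ_succ]
  simp only [Fin.succ_ne_zero, if_false, mul_zero, zero_mul, Finset.sum_const_zero, add_zero,
    if_true, mul_one]
  rw [Fin.sum_univ_succ]
  simp only [rm_blk_inv0s h ho hu, zero_mul, Finset.sum_const_zero, add_zero,
    rm_blk_inv00 h ho hu, ← rm_lps_sq h hu]
  field_simp

/-- `|dq|² = v⁻²`. -/
theorem rm_dict_sq (h : rm_Met G U) (ho : rm_Orth G U) (hu : u ∈ U) :
    gradSqC G (rm_q0 d) u = (rm_lps G u ^ 2)⁻¹ := by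
  have hv := rm_lps_pos h hu
  rw [if_gradSqC_eq, rm_dict_ip h ho hu]
  unfold rm_e
  rw [rm_pdiff_q0]
  simp only [if_true]
  field_simp

theorem rm_e_q0 (G : rm_MF (d + 1)) : rm_e G (rm_q0 d) = fun w => (rm_lps G w)⁻¹ := by
  funext w
  unfold rm_e
  rw [rm_pdiff_q0]
  simp

theorem rm_fs_q0 (c : ℝ) : rm_fs (rm_q0 d) c = fun _ => c := by
  funext y
  exact rm_J_zero c y

/-- `Δ q = H/v - e(v)/v²`. -/
theorem rm_dict_lap (h : rm_Met G U) (ho : rm_Orth G U) (hu : u ∈ U) :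
    lapC G (rm_q0 d) u = rm_H G u / rm_lps G u - rm_e G (rm_lps G) u / rm_lps G u ^ 2 := by
  have hv := rm_lps_pos h hu
  rw [rm_adm_lap h ho hu rm_q0_smooth.contDiffOn, rm_e_q0]
  have h1 : rm_lapS G (rm_q0 d) u = 0 := by
    unfold rm_lapS
    rw [rm_fs_q0, rm_lap_const]
  have h2 : rm_ipS G (rm_lps G) (rm_q0 d) u = 0 := by
    unfold rm_ipS
    rw [rm_fs_q0, rm_ip_const_right]
  have h3 : rm_e G (fun w => (rm_lps G w)⁻¹) u = - rm_e G (rm_lps G) u / rm_lps G u ^ 2 := by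
    unfold rm_e
    rw [rm_pdiff_inv (rm_da h.opn (rm_lps_smooth h) hu) hv.ne']
    ring
  rw [h1, h2, h3]
  ring

/-- `H = (Δq - e(|dq|))/|dq|` (the `ssH` of `Ss/ChartDefs.lean`). -/
theorem rm_dict_H (h : rm_Met G U) (ho : rm_Orth G U) (hu : u ∈ U) :
    rm_H G u = (lapC G (rm_q0 d) u -
      gradIpC G (rm_q0 d) (fun w => Real.sqrt (gradSqC G (rm_q0 d) w)) u /
        Real.sqrt (gradSqC G (rm_q0 d) u)) / Real.sqrt (gradSqC G (rm_q0 d) u) := by
  have hv := rm_lps_pos h hu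
  have hs : ∀ w ∈ U, Real.sqrt (gradSqC G (rm_q0 d) w) = (rm_lps G w)⁻¹ := by
    intro w hw
    rw [rm_dict_sq h ho hw, ← inv_pow, Real.sqrt_sq (inv_pos.2 (rm_lps_pos h hw)).le]
  rw [rm_dict_ip h ho hu, hs u hu, rm_dict_lap h ho hu]
  have h3 : rm_e G (fun w => Real.sqrt (gradSqC G (rm_q0 d) w)) u =
      - rm_e G (rm_lps G) u / rm_lps G u ^ 2 := by
    unfold rm_e
    rw [rm_pdiff_congr_on h.opn hu hs, rm_pdiff_inv (rm_da h.opn (rm_lps_smooth h) hu) hv.ne']
    ring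
  rw [h3]
  field_simp
  ring

end D

end Claimed.Agent.R315
end

/- ===== packed: Claimed.Agent.R315.Rm.Min ===== -/
section
/-!
# Row 315, SC-RIEM: first and second order conditions at a local minimum (prefix `rm_`)

* `rm_min_pdiff`  : `∂_i f = 0`;
* `rm_min_p2`     : the matrix `∂_i∂_j f` is positive semidefinite;
* `rm_min_tr`     : `∑ P_{ij} ∂_i∂_j f ≥ 0` for `P` positive semidefinite;
* `rm_min_hess`, `rm_min_lap` : `hessC G f = ∂²f`, `0 ≤ lapC G f`.
Owner: helper39.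
-/

set_option autoImplicit false
open scoped ContDiff Topology
open Claims.C0499

namespace Claimed.Agent.R315

/-- one variable: `φ'' ≥ 0` at a local minimum. -/
theorem rm_min_1d {φ : ℝ → ℝ} {s : ℝ} (hc : ContinuousAt φ s) (hmin : IsLocalMin φ s) :
    0 ≤ deriv (deriv φ) s := by
  by_contra hneg
  rw [not_le] at hneg
  have hd : deriv φ s = 0 := hmin.deriv_eq_zero
  have hmax : IsLocalMax φ s := isLocalMax_of_deriv_deriv_neg hneg hd hc
  have hconst : φ =ᶠ[𝓝 s] fun _ => φ s := by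
    filter_upwards [hmin, hmax] with x h1 h2
    exact le_antisymm h2 h1
  have h1 : deriv φ =ᶠ[𝓝 s] fun _ => 0 := by
    filter_upwards [hconst.eventuallyEq_nhds] with x hx
    rw [hx.deriv_eq, deriv_const]
  rw [h1.deriv_eq, deriv_const] at hneg
  exact lt_irrefl _ hneg

variable {d : ℕ} {U : Set (E d)} {f : E d → ℝ} {u : E d}

theorem rm_min_pdiff (hmin : IsLocalMin f u) (i : Fin d) : pdiff f i u = 0 := by
  unfold pdiff
  rw [hmin.fderiv_eq_zero]
  rfl

/-- the Hessian matrix is positive semidefinite at a local minimum. -/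
theorem rm_min_p2 (hU : IsOpen U) (hu : u ∈ U) (hf : ContDiffOn ℝ ∞ f U) (hmin : IsLocalMin f u)
    (X : Fin d → ℝ) : 0 ≤ ∑ i, ∑ j, X i * X j * rm_p2 f i j u := by
  set Y : E d := ∑ i, X i • (eb i : E d) with hY
  have hYi : ∀ i, Y i = X i := by
    intro i
    simp [hY, Finset.sum_apply, Pi.single_apply]
  set c : ℝ → E d := fun s => u + s • Y with hc
  have hc0 : c 0 = u := by simp [hc]
  have hcd : ∀ s, HasDerivAt c Y s := by
    intro s
    have h1 : HasDerivAt (fun x : ℝ => x • Y) ((1 : ℝ) • Y) s := (hasDerivAt_id s).smul_const Y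
    rw [one_smul] at h1
    exact h1.const_add u
  have hcc : Continuous c := by
    rw [hc]; fun_prop
  have hnear : ∀ᶠ s in 𝓝 (0 : ℝ), c s ∈ U :=
    hcc.continuousAt.eventually (by rw [hc0]; exact hU.mem_nhds hu)
  have hφc : ContinuousAt (fun s => f (c s)) 0 := by
    have : ContinuousAt f (c 0) := by
      rw [hc0]; exact (rm_da hU hf hu).continuousAt
    exact ContinuousAt.comp (f := c) (g := f) this hcc.continuousAt
  have hφmin : IsLocalMin (fun s => f (c s)) 0 := by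
    have : ∀ᶠ w in 𝓝 (c 0), f u ≤ f w := by rw [hc0]; exact hmin
    have h2 := hcc.continuousAt.eventually this
    filter_upwards [h2] with s hs
    rw [hc0]; exact hs
  have h1 := rm_min_1d hφc hφmin
  have hd1 : deriv (fun s => f (c s)) =ᶠ[𝓝 0] fun s => ∑ j, X j * pdiff f j (c s) := by
    filter_upwards [hnear] with s hs
    have := ((rm_da hU hf hs).hasFDerivAt.comp_hasDerivAt s (hcd s)).deriv
    have e : (f ∘ c) = fun s => f (c s) := rfl
    rw [e] at this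
    rw [this, if_clm_expand]
    exact Finset.sum_congr rfl fun j _ => by rw [hYi]; rfl
  rw [hd1.deriv_eq] at h1
  have hd2 : HasDerivAt (fun s => ∑ j, X j * pdiff f j (c s))
      (∑ j, X j * ∑ i, X i * rm_p2 f i j u) 0 := by
    refine HasDerivAt.fun_sum fun j _ => HasDerivAt.const_mul _ ?_
    have hp : DifferentiableAt ℝ (fun w => pdiff f j w) (c 0) := by
      rw [hc0]; exact rm_da hU (rm_pdiff_smooth hU hf j) hu
    have := hp.hasFDerivAt.comp_hasDerivAt 0 (hcd 0)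
    rw [if_clm_expand, hc0] at this
    have e : ∑ k, Y k * fderiv ℝ (fun w => pdiff f j w) u (eb k) = ∑ i, X i * rm_p2 f i j u :=
      Finset.sum_congr rfl fun i _ => by rw [hYi]; rfl
    rw [e] at this
    exact this
  rw [hd2.deriv] at h1
  have e : ∑ j, X j * ∑ i, X i * rm_p2 f i j u = ∑ i, ∑ j, X i * X j * rm_p2 f i j u := by
    simp only [Finset.mul_sum]
    rw [Finset.sum_comm]
    exact Finset.sum_congr rfl fun i _ => Finset.sum_congr rfl fun j _ => by ring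
  rw [← e]
  exact h1

/-- trace against a positive semidefinite matrix. -/
theorem rm_min_tr (hU : IsOpen U) (hu : u ∈ U) (hf : ContDiffOn ℝ ∞ f U) (hmin : IsLocalMin f u)
    {P : Matrix (Fin d) (Fin d) ℝ} (hP : P.PosSemidef) :
    0 ≤ ∑ i, ∑ j, P i j * rm_p2 f i j u := by
  obtain ⟨B, rfl⟩ := rm_exists_factor hP
  have e : ∑ i, ∑ j, (B.transpose * B) i j * rm_p2 f i j u =
      ∑ k, ∑ i, ∑ j, B k i * B k j * rm_p2 f i j u := by
    simp only [Matrix.mul_apply, Matrix.transpose_apply, Finset.sum_mul]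
    rw [Finset.sum_comm]
    have : ∀ j, ∑ i, ∑ k, B k i * B k j * rm_p2 f i j u =
        ∑ k, ∑ i, B k i * B k j * rm_p2 f i j u := fun j => Finset.sum_comm
    simp only [this]
    rw [Finset.sum_comm]
    exact Finset.sum_congr rfl fun k _ => Finset.sum_comm
  rw [e]
  exact Finset.sum_nonneg fun k _ => rm_min_p2 hU hu hf hmin (fun i => B k i)

/-- at a critical point the covariant Hessian is the matrix of second partial derivatives. -/
theorem rm_crit_hess (G : rm_MF d) (hcrit : ∀ i, pdiff f i u = 0) (i j : Fin d) :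
    hessC G f u i j = rm_p2 f i j u := by
  unfold hessC rm_p2
  simp [hcrit]

/-- trace of the covariant Hessian against a positive semidefinite matrix. -/
theorem rm_min_tr_hess (G : rm_MF d) (hU : IsOpen U) (hu : u ∈ U) (hf : ContDiffOn ℝ ∞ f U)
    (hmin : IsLocalMin f u) {P : Matrix (Fin d) (Fin d) ℝ} (hP : P.PosSemidef) :
    0 ≤ ∑ i, ∑ j, P i j * hessC G f u i j := by
  simp only [rm_crit_hess G (rm_min_pdiff hmin)]
  exact rm_min_tr hU hu hf hmin hP

/-- `0 ≤ Δ f` at a local minimum (= leaf GS-MIN). -/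
theorem rm_min_lap {G : rm_MF d} (hG : rm_Met G U) (hu : u ∈ U) (hf : ContDiffOn ℝ ∞ f U)
    (hmin : IsLocalMin f u) : 0 ≤ lapC G f u := by
  rw [rm_lapC_eq hG hu hf]
  exact rm_min_tr_hess G hG.opn hu hf hmin (rm_inv_pos hG hu).posSemidef

/-- trace of the covariant Hessian against a positive semidefinite matrix, local maximum. -/
theorem rm_max_tr_hess (G : rm_MF d) (hU : IsOpen U) (hu : u ∈ U) (hf : ContDiffOn ℝ ∞ f U)
    (hmax : IsLocalMax f u) {P : Matrix (Fin d) (Fin d) ℝ} (hP : P.PosSemidef) :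
    ∑ i, ∑ j, P i j * hessC G f u i j ≤ 0 := by
  have h1 := rm_min_tr_hess G hU hu (f := fun w => (-1) * f w) (contDiffOn_const.mul hf)
    (by
      have := hmax.neg
      simpa using this) hP
  simp only [rm_hess_smul hU hu (-1) hf] at h1
  have e : ∑ i, ∑ j, P i j * (-1 * hessC G f u i j) = - ∑ i, ∑ j, P i j * hessC G f u i j := by
    simp only [← Finset.sum_neg_distrib]
    exact Finset.sum_congr rfl fun i _ => Finset.sum_congr rfl fun j _ => by ring
  rw [e] at h1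
  linarith

theorem rm_max_pdiff (hmax : IsLocalMax f u) (i : Fin d) : pdiff f i u = 0 := by
  unfold pdiff
  rw [hmax.fderiv_eq_zero]
  rfl

end Claimed.Agent.R315
end

/- ===== packed: Claimed.Agent.R315.Rm.Bd ===== -/
section
/-!
# Row 315, SC-RIEM: uniform bounds of symmetric tensors on compact sets (prefix `rm_`)

* `rm_bd_chart` : in a chart, on a compact set, `|B(X,X)| ≤ C G(X,X)`;
* `rm_IsT`      : a family of chart matrices which transforms like a `(0,2)` tensor;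
* `rm_bd_ten`   : on a compact `K ⊆ M`: `|B_ψ(w)(X,X)| ≤ C (cm h ψ w)(X,X)` in EVERY parametrisation;
* `rm_isT_ric`, `rm_isT_hess`, `rm_bd_ric_hess` : the tensors `Ric_h`, `Hess_h t`.
Owner: helper39.
-/

set_option autoImplicit false
set_option linter.unusedSectionVars false
open scoped ContDiff Topology
open Claims.C0499

namespace Claimed.Agent.R315

section chart

variable {d : ℕ} {G B : rm_MF d} {U Kc : Set (E d)}

theorem rm_bil_pos {A : Matrix (Fin d) (Fin d) ℝ} (hA : A.PosDef) {X : E d} (hX : X ≠ 0) :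
    0 < if_bil A X X := by
  rw [if_bil_eq_dot]
  have h0 : (X : Fin d → ℝ) ≠ 0 := by
    intro h
    apply hX
    ext i
    exact congrFun h i
  have := hA.dotProduct_mulVec_pos h0
  rwa [star_trivial] at this

theorem rm_bil_continuousOn (hB : ∀ i j, ContinuousOn (fun w => B w i j) U) (S : Set (E d)) :
    ContinuousOn (fun p : E d × E d => if_bil (B p.1) p.2 p.2) (U ×ˢ S) := by
  simp only [if_bil_apply]
  refine continuousOn_finsetSum _ fun i _ => continuousOn_finsetSum _ fun j _ => ?_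
  have h1 : ContinuousOn (fun p : E d × E d => B p.1 i j) (U ×ˢ S) :=
    (hB i j).comp continuousOn_fst fun p hp => hp.1
  have h2 : ∀ k : Fin d, Continuous fun p : E d × E d => p.2 k := fun k =>
    ((EuclideanSpace.proj k : E d →L[ℝ] ℝ).continuous).comp continuous_snd
  exact h1.mul ((h2 i).mul (h2 j)).continuousOn

theorem rm_bd_chart (hG : rm_Met G U) (hB : ∀ i j, ContinuousOn (fun w => B w i j) U)
    (hK : IsCompact Kc) (hKU : Kc ⊆ U) :
    ∃ C : ℝ, 0 ≤ C ∧ ∀ w ∈ Kc, ∀ X : E d, |if_bil (B w) X X| ≤ C * if_bil (G w) X X := by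
  have hS : IsCompact (Metric.sphere (0 : E d) 1) := isCompact_sphere 0 1
  have hne : ∀ p ∈ Kc ×ˢ Metric.sphere (0 : E d) 1, 0 < if_bil (G p.1) p.2 p.2 := by
    intro p hp
    refine rm_bil_pos (hG.pos _ (hKU hp.1)) ?_
    intro h0
    have := hp.2
    rw [h0] at this
    simp at this
  have hc : ContinuousOn (fun p : E d × E d => if_bil (B p.1) p.2 p.2 / if_bil (G p.1) p.2 p.2)
      (Kc ×ˢ Metric.sphere (0 : E d) 1) :=
    ((rm_bil_continuousOn hB _).mono (Set.prod_mono hKU subset_rfl)).div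
      ((rm_bil_continuousOn (fun i j => (hG.smooth i j).continuousOn) _).mono
        (Set.prod_mono hKU subset_rfl)) fun p hp => (hne p hp).ne'
  obtain ⟨C, hC⟩ := (hK.prod hS).exists_bound_of_continuousOn hc
  refine ⟨max C 0, le_max_right _ _, fun w hw X => ?_⟩
  by_cases hX : X = 0
  · subst hX
    simp
  have hn : 0 < ‖X‖ := norm_pos_iff.2 hX
  set Y : E d := ‖X‖⁻¹ • X with hY
  have hYS : Y ∈ Metric.sphere (0 : E d) 1 := by
    rw [mem_sphere_zero_iff_norm, hY, norm_smul, norm_inv, norm_norm, inv_mul_cancel₀ hn.ne']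
  have hXY : X = ‖X‖ • Y := by
    rw [hY, smul_smul, mul_inv_cancel₀ hn.ne', one_smul]
  have hsc : ∀ A : Matrix (Fin d) (Fin d) ℝ, if_bil A X X = ‖X‖ ^ 2 * if_bil A Y Y := by
    intro A
    conv_lhs => rw [hXY]
    simp only [map_smul, smul_apply, smul_eq_mul]
    ring
  have h1 := hC (w, Y) ⟨hw, hYS⟩
  have h2 := hne (w, Y) ⟨hw, hYS⟩
  simp only [Real.norm_eq_abs, abs_div, abs_of_pos h2] at h1 h2
  rw [div_le_iff₀ h2] at h1
  rw [hsc, hsc, abs_mul, abs_of_nonneg (by positivity : (0 : ℝ) ≤ ‖X‖ ^ 2)]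
  have h3 : C * if_bil (G w) Y Y ≤ max C 0 * if_bil (G w) Y Y :=
    mul_le_mul_of_nonneg_right (le_max_left _ _) h2.le
  calc ‖X‖ ^ 2 * |if_bil (B w) Y Y| ≤ ‖X‖ ^ 2 * (max C 0 * if_bil (G w) Y Y) :=
        mul_le_mul_of_nonneg_left (h1.trans h3) (by positivity)
    _ = max C 0 * (‖X‖ ^ 2 * if_bil (G w) Y Y) := by ring

end chart

section mfd

variable {V : Type} [NormedAddCommGroup V] [NormedSpace ℝ V] [FiniteDimensional ℝ V]
variable {d : ℕ} {M K : Set V} {h : Ten V} {t : V → ℝ} {B B' : (E d → V) → rm_MF d}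

/-- a family of chart matrices with continuous entries which transforms like a `(0,2)` tensor. -/
structure rm_IsT (d : ℕ) (M : Set V) (B : (E d → V) → rm_MF d) : Prop where
  cont : ∀ (ψ : E d → V) (U : Set (E d)), IsParam M ψ U →
    ∀ i j, ContinuousOn (fun w => B ψ w i j) U
  tens : ∀ (ψ ψ' : E d → V) (U U' : Set (E d)), IsParam M ψ U → IsParam M ψ' U' →
    ∀ u ∈ if_trDom ψ U ψ' U', ∀ i j, B ψ u i j =
      if_bil (B ψ' (if_tr ψ' U' ψ u)) (fderiv ℝ (if_tr ψ' U' ψ) u (eb i))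
        (fderiv ℝ (if_tr ψ' U' ψ) u (eb j))

theorem rm_bil_add (A A' : Matrix (Fin d) (Fin d) ℝ) (X Y : E d) :
    if_bil (A + A') X Y = if_bil A X Y + if_bil A' X Y := by
  simp only [if_bil_apply, Matrix.add_apply, add_mul, Finset.sum_add_distrib]

theorem rm_IsT.add (hB : rm_IsT d M B) (hB' : rm_IsT d M B') :
    rm_IsT d M (fun ψ w => B ψ w + B' ψ w) := by
  refine ⟨fun ψ U hp i j => ?_, fun ψ ψ' U U' hp hp' u hu i j => ?_⟩
  · exact (hB.cont ψ U hp i j).add (hB'.cont ψ U hp i j)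
  · rw [rm_bil_add, Matrix.add_apply, hB.tens ψ ψ' U U' hp hp' u hu i j,
      hB'.tens ψ ψ' U U' hp hp' u hu i j]

/-- **uniform bound of a tensor on a compact set, in every parametrisation.** -/
theorem rm_bd_ten (hM : IsMfd d M) (hh : IsMetricOn d M h) (hB : rm_IsT d M B)
    (hK : IsCompact K) (hKM : K ⊆ M) :
    ∃ C : ℝ, 0 ≤ C ∧ ∀ (ψ : E d → V) (U : Set (E d)), IsParam M ψ U → ∀ w ∈ U, ψ w ∈ K →
      ∀ X : E d, |if_bil (B ψ w) X X| ≤ C * if_bil (cm h ψ w) X X := by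
  refine hK.induction_on (p := fun S => ∃ C : ℝ, 0 ≤ C ∧ ∀ (ψ : E d → V) (U : Set (E d)),
    IsParam M ψ U → ∀ w ∈ U, ψ w ∈ S → ∀ X : E d,
      |if_bil (B ψ w) X X| ≤ C * if_bil (cm h ψ w) X X) ?_ ?_ ?_ ?_
  · exact ⟨0, le_rfl, fun ψ U _ w _ hw => absurd hw (Set.notMem_empty _)⟩
  · rintro S S' hSS ⟨C, hC, H⟩
    exact ⟨C, hC, fun ψ U hp w hw hwS => H ψ U hp w hw (hSS hwS)⟩
  · rintro S S' ⟨C, hC, H⟩ ⟨C', hC', H'⟩
    refine ⟨max C C', le_max_of_le_left hC, fun ψ U hp w hw hwS X => ?_⟩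
    have h0 : 0 ≤ if_bil (cm h ψ w) X X := if_bil_nonneg ((hh ψ U hp).2 w hw).posSemidef X
    rcases hwS with hwS | hwS
    · exact (H ψ U hp w hw hwS X).trans (mul_le_mul_of_nonneg_right (le_max_left _ _) h0)
    · exact (H' ψ U hp w hw hwS X).trans (mul_le_mul_of_nonneg_right (le_max_right _ _) h0)
  · intro x hx
    obtain ⟨ψ₀, U₀, h₀, u₀, hu₀, rfl⟩ := hM x (hKM hx)
    obtain ⟨ρ, hρ, hball⟩ := Metric.nhds_basis_closedBall.mem_iff.1 ((if_open h₀).mem_nhds hu₀)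
    have hsub : Metric.ball u₀ ρ ⊆ U₀ := Metric.ball_subset_closedBall.trans hball
    refine ⟨ψ₀ '' Metric.ball u₀ ρ, nhdsWithin_mono _ hKM
      (if_image_mem_nhdsWithin (if_mono h₀ Metric.isOpen_ball hsub) (Metric.mem_ball_self hρ)), ?_⟩
    obtain ⟨C, hC, H⟩ := rm_bd_chart (G := cm h ψ₀) (B := B ψ₀) (if_metC hh h₀).toRm
      (hB.cont ψ₀ U₀ h₀) (isCompact_closedBall u₀ ρ) hball
    refine ⟨C, hC, fun ψ U hp w hw hwS X => ?_⟩
    obtain ⟨u', hu', he⟩ := hwS
    have hu'U : u' ∈ U₀ := hsub hu'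
    have hT : w ∈ if_trDom ψ U ψ₀ U₀ := if_mem_trDom hw hu'U he.symm
    have hτ : if_tr ψ₀ U₀ ψ w = u' := if_tr_eq h₀ hu'U he.symm
    have e1 := if_bil_of_basis (hB.tens ψ ψ₀ U U₀ hp h₀ w hT) X X
    have e2 := (if_pullC hh hp h₀).rel_bil hT X X
    rw [e1, e2, hτ]
    exact H u' (Metric.ball_subset_closedBall hu') _

theorem rm_isT_ric (hh : IsMetricOn d M h) :
    rm_IsT d M (fun ψ w => Matrix.of fun a b => ricciCoord (cm h ψ) w a b) := by
  refine ⟨fun ψ U hp i j => ?_, fun ψ ψ' U U' hp hp' u hu i j => ?_⟩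
  · exact (rm_ricci_smooth (if_metC hh hp).toRm i j).continuousOn
  · exact rm_pull_ric (if_pullC hh hp hp') hu i j

theorem rm_isT_hess (hh : IsMetricOn d M h) (ht : SmoothAlong d M t) :
    rm_IsT d M (fun ψ w => Matrix.of fun a b => hessC (cm h ψ) (t ∘ ψ) w a b) := by
  refine ⟨fun ψ U hp i j => ?_, fun ψ ψ' U U' hp hp' u hu i j => ?_⟩
  · exact (rm_hessC_smooth (if_metC hh hp).toRm (ht ψ U hp) i j).continuousOn
  · have P := if_pullC hh hp hp'
    show hessC (cm h ψ) (t ∘ ψ) u i j = _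
    rw [if_hessC_congr _ (if_comp_eventuallyEq t hp hp' hu) i j]
    exact P.hess hu ((if_smoothAlong_contDiffAt ht hp' (P.mapsTo hu)).of_le (by decide)) i j

/-- `-(Ric + Hess t)(∂_i,∂_i) ≤ C h(∂_i,∂_i)` over a compact set, in every parametrisation. -/
theorem rm_bd_ric_hess (hM : IsMfd d M) (hh : IsMetricOn d M h) (ht : SmoothAlong d M t)
    (hK : IsCompact K) (hKM : K ⊆ M) :
    ∃ C : ℝ, 0 ≤ C ∧ ∀ (ψ : E d → V) (U : Set (E d)), IsParam M ψ U → ∀ w ∈ U, ψ w ∈ K →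
      ∀ i : Fin d, - (ricciCoord (cm h ψ) w i i + hessC (cm h ψ) (t ∘ ψ) w i i) ≤
        C * cm h ψ w i i := by
  obtain ⟨C, hC, H⟩ := rm_bd_ten hM hh ((rm_isT_ric hh).add (rm_isT_hess hh ht)) hK hKM
  refine ⟨C, hC, fun ψ U hp w hw hwK i => ?_⟩
  have := H ψ U hp w hw hwK (eb i)
  rw [if_bil_eb, if_bil_eb] at this
  exact (neg_le_abs _).trans this

end mfd

end Claimed.Agent.R315
end

/- ===== packed: Claimed.Agent.R315.Rm.Compat ===== -/
section
/-!
# Row 315, SC-RIEM: metric compatibility, pointwise (`C²`) versions (prefix `rm_`)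

* `rm_up G f y`     : components of `∇f`;
* `rm_lapC_eq_pt`   : `Δ f = G^{ij} Hess f_{ij}` as soon as the `∂_j f` are differentiable at the point;
* `rm_pdiff_ip`     : `∂_i ⟨df,dk⟩ = Hess f(∂_i,∇k) + Hess k(∂_i,∇f)`;
* `rm_ip_ip`, `rm_ip_sq` : `⟨d⟨df,dk⟩,dl⟩`, `⟨d|df|²,dl⟩ = 2 Hess f(∇l,∇f)`;
* `rm_d1`, `rm_d2`, `rm_p2_symm2`, `rm_hessC_symm2` : `C²` functions.
Owner: helper39.
-/

set_option autoImplicit false
open scoped ContDiff Topology
open Claims.C0499

namespace Claimed.Agent.R315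

variable {d : ℕ} {G : rm_MF d} {U : Set (E d)} {u : E d} {f k l : E d → ℝ}

/-- components of the gradient. -/
noncomputable def rm_up (G : rm_MF d) (f : E d → ℝ) (y : E d) (i : Fin d) : ℝ :=
  ∑ k, (G y)⁻¹ i k * pdiff f k y

theorem rm_sum4_swap {n : ℕ} (F : Fin n → Fin n → Fin n → Fin n → ℝ) :
    ∑ a, ∑ b, ∑ c, ∑ e, F a b c e = ∑ c, ∑ e, ∑ a, ∑ b, F a b c e := by
  calc ∑ a, ∑ b, ∑ c, ∑ e, F a b c e = ∑ a, ∑ c, ∑ b, ∑ e, F a b c e :=
        Finset.sum_congr rfl fun a _ => Finset.sum_comm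
    _ = ∑ c, ∑ a, ∑ b, ∑ e, F a b c e := Finset.sum_comm
    _ = ∑ c, ∑ a, ∑ e, ∑ b, F a b c e :=
        Finset.sum_congr rfl fun c _ => Finset.sum_congr rfl fun a _ => Finset.sum_comm
    _ = ∑ c, ∑ e, ∑ a, ∑ b, F a b c e := Finset.sum_congr rfl fun c _ => Finset.sum_comm

/-! ### `C²` functions -/

theorem rm_d1 (hU : IsOpen U) (hf : ContDiffOn ℝ 2 f U) (hu : u ∈ U) : DifferentiableAt ℝ f u :=
  (hf.contDiffAt (hU.mem_nhds hu)).differentiableAt (by norm_num)

theorem rm_d2 (hU : IsOpen U) (hf : ContDiffOn ℝ 2 f U) (hu : u ∈ U) (j : Fin d) :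
    DifferentiableAt ℝ (fun w => pdiff f j w) u := by
  have h1 : DifferentiableAt ℝ (fderiv ℝ f) u :=
    ((hf.contDiffAt (hU.mem_nhds hu)).fderiv_right (m := 1) (by norm_num)).differentiableAt
      (by norm_num)
  exact h1.clm_apply (differentiableAt_const _)

theorem rm_p2_symm2 (hU : IsOpen U) (hf : ContDiffOn ℝ 2 f U) (hu : u ∈ U) (i j : Fin d) :
    rm_p2 f i j u = rm_p2 f j i u := by
  have hc : ContDiffAt ℝ 2 f u := hf.contDiffAt (hU.mem_nhds hu)
  have hs : IsSymmSndFDerivAt ℝ f u := hc.isSymmSndFDerivAt (by simp)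
  have h1 : DifferentiableAt ℝ (fderiv ℝ f) u :=
    (hc.fderiv_right (m := 1) (by norm_num)).differentiableAt (by norm_num)
  have key : ∀ a b : Fin d, rm_p2 f a b u = fderiv ℝ (fderiv ℝ f) u (eb a) (eb b) := by
    intro a b
    unfold rm_p2 pdiff
    have := (h1.hasFDerivAt.clm_apply (hasFDerivAt_const (eb b) u)).fderiv
    rw [this]; simp
  rw [key, key]; exact hs _ _

theorem rm_hessC_symm2 (h : rm_Met G U) (hu : u ∈ U) (hf : ContDiffOn ℝ 2 f U) (i j : Fin d) :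
    hessC G f u i j = hessC G f u j i := by
  unfold hessC
  have := rm_p2_symm2 h.opn hf hu i j
  unfold rm_p2 at this
  rw [this]
  congr 1
  exact Finset.sum_congr rfl fun k _ => by rw [rm_christoffel_symm h hu]

/-- `Γ^m_{ij} ∂_m f = [ij,l] ∇^l f`. -/
theorem rm_Gam_df (h : rm_Met G U) (hu : u ∈ U) (f : E d → ℝ) (i j : Fin d) :
    ∑ m, christoffel G u m i j * pdiff f m u = ∑ l, rm_c1 G u i j l * rm_up G f u l := by
  unfold rm_up
  simp only [rm_christoffel_eq, Finset.sum_mul, Finset.mul_sum]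
  rw [Finset.sum_comm]
  exact Finset.sum_congr rfl fun l _ => Finset.sum_congr rfl fun m _ => by
    rw [rm_inv_symm h hu l m]; ring

/-- **metric compatibility.** -/
theorem rm_pdiff_ip (h : rm_Met G U) (hu : u ∈ U)
    (hf : ∀ j, DifferentiableAt ℝ (fun w => pdiff f j w) u)
    (hk : ∀ j, DifferentiableAt ℝ (fun w => pdiff k j w) u) (i : Fin d) :
    pdiff (gradIpC G f k) i u =
      ∑ j, hessC G f u i j * rm_up G k u j + ∑ j, hessC G k u i j * rm_up G f u j := by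
  have hA : ∀ a b, DifferentiableAt ℝ (fun w => (G w)⁻¹ a b) u := fun a b =>
    rm_da h.opn (rm_inv_smooth h a b) hu
  have e0 : gradIpC G f k = fun w => ∑ a, ∑ b, (G w)⁻¹ a b * (pdiff f a w * pdiff k b w) := by
    funext w
    unfold gradIpC
    exact Finset.sum_congr rfl fun a _ => Finset.sum_congr rfl fun b _ => by ring
  have e1 : pdiff (gradIpC G f k) i u = ∑ a, ∑ b,
      (pdiff (fun w => (G w)⁻¹ a b) i u * (pdiff f a u * pdiff k b u) +
        (G u)⁻¹ a b * (rm_p2 f i a u * pdiff k b u + pdiff f a u * rm_p2 k i b u)) := by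
    rw [e0, rm_pdiff_sum (F := fun a w => ∑ b, (G w)⁻¹ a b * (pdiff f a w * pdiff k b w))
      Finset.univ (fun a _ => rm_da_sum _ fun b _ => rm_da_mul (hA a b) (rm_da_mul (hf a) (hk b)))]
    refine Finset.sum_congr rfl fun a _ => ?_
    rw [rm_pdiff_sum (F := fun b w => (G w)⁻¹ a b * (pdiff f a w * pdiff k b w))
      Finset.univ (fun b _ => rm_da_mul (hA a b) (rm_da_mul (hf a) (hk b)))]
    refine Finset.sum_congr rfl fun b _ => ?_
    rw [rm_pdiff_mul (hA a b) (rm_da_mul (hf a) (hk b)), rm_pdiff_mul (hf a) (hk b)]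
    rfl
  -- the three groups of terms
  have t1 : ∑ a, ∑ b, pdiff (fun w => (G w)⁻¹ a b) i u * (pdiff f a u * pdiff k b u) =
      - ∑ c, ∑ e, pdiff (fun w => G w c e) i u * (rm_up G f u c * rm_up G k u e) := by
    simp only [rm_pdiff_invM h hu, neg_mul, Finset.sum_neg_distrib, Finset.sum_mul]
    congr 1
    rw [rm_sum4_swap]
    refine Finset.sum_congr rfl fun c _ => Finset.sum_congr rfl fun e _ => ?_
    unfold rm_up
    rw [Finset.sum_mul_sum, Finset.mul_sum]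
    refine Finset.sum_congr rfl fun a _ => ?_
    rw [Finset.mul_sum]
    exact Finset.sum_congr rfl fun b _ => by rw [rm_inv_symm h hu c a]; ring
  have t2 : ∑ a, ∑ b, (G u)⁻¹ a b * (rm_p2 f i a u * pdiff k b u) =
      ∑ j, rm_p2 f i j u * rm_up G k u j := by
    unfold rm_up
    refine Finset.sum_congr rfl fun a _ => ?_
    rw [Finset.mul_sum]
    exact Finset.sum_congr rfl fun b _ => by ring
  have t3 : ∑ a, ∑ b, (G u)⁻¹ a b * (pdiff f a u * rm_p2 k i b u) =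
      ∑ j, rm_p2 k i j u * rm_up G f u j := by
    unfold rm_up
    rw [Finset.sum_comm]
    refine Finset.sum_congr rfl fun b _ => ?_
    rw [Finset.mul_sum]
    exact Finset.sum_congr rfl fun a _ => by rw [rm_inv_symm h hu b a]; ring
  have t4 : ∑ c, ∑ e, pdiff (fun w => G w c e) i u * (rm_up G f u c * rm_up G k u e) =
      ∑ j, (∑ l, rm_c1 G u i j l * rm_up G f u l) * rm_up G k u j +
        ∑ j, (∑ l, rm_c1 G u i j l * rm_up G k u l) * rm_up G f u j := by
    simp only [← rm_c1_add h hu, add_mul, Finset.sum_add_distrib, Finset.sum_mul]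
    rw [add_comm]
    congr 1
    · rw [Finset.sum_comm]
      exact Finset.sum_congr rfl fun c _ => Finset.sum_congr rfl fun e _ => by ring
    · exact Finset.sum_congr rfl fun c _ => Finset.sum_congr rfl fun e _ => by ring
  rw [e1]
  simp only [mul_add, Finset.sum_add_distrib]
  rw [t1, t2, t3, t4]
  unfold hessC
  simp only [rm_Gam_df h hu, sub_mul, Finset.sum_sub_distrib]
  unfold rm_p2
  ring

/-- `Hess f(X,Y)`. -/
noncomputable def rm_hs (G : rm_MF d) (f : E d → ℝ) (u : E d) (X Y : Fin d → ℝ) : ℝ :=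
  ∑ i, ∑ j, hessC G f u i j * X i * Y j

theorem rm_hs_comm (h : rm_Met G U) (hu : u ∈ U) (hf : ContDiffOn ℝ 2 f U) (X Y : Fin d → ℝ) :
    rm_hs G f u X Y = rm_hs G f u Y X := by
  unfold rm_hs
  rw [Finset.sum_comm]
  exact Finset.sum_congr rfl fun i _ => Finset.sum_congr rfl fun j _ => by
    rw [rm_hessC_symm2 h hu hf j i]; ring

theorem rm_ip_up (G : rm_MF d) (F l : E d → ℝ) (u : E d) :
    gradIpC G F l u = ∑ i, pdiff F i u * rm_up G l u i := by
  unfold gradIpC rm_up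
  refine Finset.sum_congr rfl fun i _ => ?_
  rw [Finset.mul_sum]
  exact Finset.sum_congr rfl fun j _ => by ring

/-- `⟨d⟨df,dk⟩,dl⟩ = Hess f(∇l,∇k) + Hess k(∇l,∇f)`. -/
theorem rm_ip_ip (h : rm_Met G U) (hu : u ∈ U)
    (hf : ∀ j, DifferentiableAt ℝ (fun w => pdiff f j w) u)
    (hk : ∀ j, DifferentiableAt ℝ (fun w => pdiff k j w) u) (l : E d → ℝ) :
    gradIpC G (gradIpC G f k) l u =
      rm_hs G f u (rm_up G l u) (rm_up G k u) + rm_hs G k u (rm_up G l u) (rm_up G f u) := by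
  rw [rm_ip_up]
  simp only [rm_pdiff_ip h hu hf hk, add_mul, Finset.sum_add_distrib, Finset.sum_mul]
  unfold rm_hs
  congr 1 <;>
  exact Finset.sum_congr rfl fun i _ => Finset.sum_congr rfl fun j _ => by ring

/-- `⟨d|df|²,dl⟩ = 2 Hess f(∇l,∇f)`. -/
theorem rm_ip_sq (h : rm_Met G U) (hu : u ∈ U)
    (hf : ∀ j, DifferentiableAt ℝ (fun w => pdiff f j w) u) (l : E d → ℝ) :
    gradIpC G (gradSqC G f) l u = 2 * rm_hs G f u (rm_up G l u) (rm_up G f u) := by
  have : gradSqC G f = gradIpC G f f := rfl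
  rw [this, rm_ip_ip h hu hf hf]; ring

/-- the Laplacian is the trace of the Hessian (pointwise hypotheses). -/
theorem rm_lapC_eq_pt (h : rm_Met G U) (hu : u ∈ U)
    (hd2 : ∀ j, DifferentiableAt ℝ (fun w => pdiff f j w) u) :
    lapC G f u = ∑ i : Fin d, ∑ j : Fin d, (G u)⁻¹ i j * hessC G f u i j := by
  have hs : 0 < Real.sqrt (G u).det := Real.sqrt_pos.2 (rm_det_pos h hu)
  have hsm := rm_sqrtdet_smooth h
  have step1 : ∀ i, pdiff (fun w => Real.sqrt (G w).det * ∑ j : Fin d, (G w)⁻¹ i j * pdiff f j w) i u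
      = ∑ j : Fin d, (pdiff (fun w => Real.sqrt (G w).det * (G w)⁻¹ i j) i u * pdiff f j u +
          Real.sqrt (G u).det * ((G u)⁻¹ i j * pdiff (fun w => pdiff f j w) i u)) := by
    intro i
    have e1 : (fun w => Real.sqrt (G w).det * ∑ j : Fin d, (G w)⁻¹ i j * pdiff f j w) =
        fun w => ∑ j : Fin d, (Real.sqrt (G w).det * (G w)⁻¹ i j) * pdiff f j w := by
      funext w
      rw [Finset.mul_sum]
      exact Finset.sum_congr rfl fun j _ => by ring
    have hd1 : ∀ j, DifferentiableAt ℝ (fun w => Real.sqrt (G w).det * (G w)⁻¹ i j) u := fun j =>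
      (rm_da h.opn hsm hu).mul (rm_da h.opn (rm_inv_smooth h i j) hu)
    rw [e1, rm_pdiff_sum (F := fun j w => (Real.sqrt (G w).det * (G w)⁻¹ i j) * pdiff f j w)
      Finset.univ (fun j _ => (hd1 j).mul (hd2 j))]
    refine Finset.sum_congr rfl fun j _ => ?_
    rw [rm_pdiff_mul (hd1 j) (hd2 j)]; ring
  unfold lapC
  simp only [step1, Finset.sum_add_distrib, mul_add]
  have t2 : (Real.sqrt (G u).det)⁻¹ * ∑ i : Fin d, ∑ j : Fin d,
      Real.sqrt (G u).det * ((G u)⁻¹ i j * pdiff (fun w => pdiff f j w) i u) =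
      ∑ i : Fin d, ∑ j : Fin d, (G u)⁻¹ i j * pdiff (fun w => pdiff f j w) i u := by
    simp only [← Finset.mul_sum]
    rw [← mul_assoc, inv_mul_cancel₀ hs.ne', one_mul]
  have t1 : (Real.sqrt (G u).det)⁻¹ * ∑ i : Fin d, ∑ j : Fin d,
      pdiff (fun w => Real.sqrt (G w).det * (G w)⁻¹ i j) i u * pdiff f j u =
      - ∑ i : Fin d, ∑ j : Fin d, (G u)⁻¹ i j * ∑ k : Fin d, christoffel G u k i j * pdiff f k u := by
    have c : ∀ k, (Real.sqrt (G u).det)⁻¹ *
        ∑ i : Fin d, pdiff (fun w => Real.sqrt (G w).det * (G w)⁻¹ i k) i u =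
        - ∑ i : Fin d, ∑ j : Fin d, (G u)⁻¹ i j * christoffel G u k i j := by
      intro k
      rw [rm_christoffel_contr h hu k]; ring
    rw [Finset.sum_comm, Finset.mul_sum]
    have : ∀ k, (Real.sqrt (G u).det)⁻¹ * ∑ i : Fin d,
        pdiff (fun w => Real.sqrt (G w).det * (G w)⁻¹ i k) i u * pdiff f k u =
        - ∑ i : Fin d, ∑ j : Fin d, (G u)⁻¹ i j * (christoffel G u k i j * pdiff f k u) := by
      intro k
      rw [← Finset.sum_mul, ← mul_assoc, c k, neg_mul, Finset.sum_mul]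
      congr 1
      refine Finset.sum_congr rfl fun i _ => ?_
      rw [Finset.sum_mul]
      exact Finset.sum_congr rfl fun j _ => by ring
    simp only [this, Finset.sum_neg_distrib, Finset.mul_sum]
    congr 1
    exact (rm_sum3_rot (fun i j k => (G u)⁻¹ i j * (christoffel G u k i j * pdiff f k u))).symm
  rw [t1, t2]
  unfold hessC
  simp only [mul_sub, Finset.sum_sub_distrib]
  ring

end Claimed.Agent.R315
end
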