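/- Packed by merge_tool.py (helper293): 12 modules of Claimed.Agent.R315 in one file, same declarations.
   Old modules, in this order: Gs.Abs, Ss.PdeDefs, Ss.Bridge, Pk.ColDef, Pk.LinkA, Pk.LinkB, Ss.ExtDefs, Ss.LsDefs, Ss.ResDefs, T3.Slab, T3.Max, T3.Abs -/
import Mathlib
import Claimed.Agent.R315.Pk.Split
import Claimed.Agent.R315.Pk.Mfd
import Claimed.Agent.R315.T3.Wall
import Claimed.Agent.R315.T3.Fin
import Claimed.Agent.R315.T3.Cover
import Claimed.Agent.R315.Pack006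
import Claimed.Agent.R315.Pack003
import Claimed.Agent.R315.Pack004
import Claimed.Agent.R315.Pack002

/- ===== packed: Claimed.Agent.R315.Gs.Abs ===== -/
section
/-!
# Row 315, package Gs, part 3: the abstract minimising sequence (proved)

`B` a symmetric nonnegative bilinear form on a real vector space `T`, `ℓ` a linear functional with
`ℓ(a)² ≤ c B(a,a)`.  A minimising sequence of `J(a) = B(a,a) - 2 ℓ(a)` is `B`-Cauchy and solves the
equation `B(a_k, b) → ℓ(b)` with an explicit rate.  `P` is a property (nonnegativity) which can be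
enforced without increasing `J` by more than `δ`.
Owner: helper209.
-/

set_option autoImplicit false

namespace Claimed.Agent.R315

theorem gs_abs {T : Type} [AddCommGroup T] [Module ℝ T] (B : T → T → ℝ) (ℓ : T → ℝ)
    (P : T → Prop)
    (hadd : ∀ a b c, B (a + b) c = B a c + B b c) (hsmul : ∀ (r : ℝ) a c, B (r • a) c = r * B a c)
    (hsymm : ∀ a b, B a b = B b a) (ladd : ∀ a b, ℓ (a + b) = ℓ a + ℓ b)
    (lsmul : ∀ (r : ℝ) a, ℓ (r • a) = r * ℓ a) (c : ℝ) (hc : 0 < c)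
    (hbd : ∀ a, ℓ a ^ 2 ≤ c * B a a)
    (hP : ∀ a, ∀ δ > 0, ∃ a', P a' ∧ B a' a' - 2 * ℓ a' ≤ B a a - 2 * ℓ a + δ)
    (e : ℕ → ℝ) (he : ∀ k, 0 < e k) :
    ∃ a : ℕ → T, (∀ k, P (a k)) ∧ (∀ k l, B (a k - a l) (a k - a l) ≤ 2 * (e k + e l)) ∧
      ∀ k b, (B (a k) b - ℓ b) ^ 2 ≤ e k * B b b := by
  have hadd' : ∀ a b c, B c (a + b) = B c a + B c b := fun a b c => by
    rw [hsymm, hadd, hsymm a, hsymm b]
  have hsmul' : ∀ (r : ℝ) a c, B c (r • a) = r * B c a := fun r a c => by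
    rw [hsymm, hsmul, hsymm a]
  set J : T → ℝ := fun a => B a a - 2 * ℓ a with hJ
  have hlow : ∀ a, -c ≤ J a := by
    intro a
    have h1 := hbd a
    have h2 : 0 ≤ (ℓ a - c) ^ 2 := sq_nonneg _
    have h3 : c * (2 * ℓ a) ≤ c * (B a a + c) := by nlinarith
    have h4 := le_of_mul_le_mul_left h3 hc
    simp only [hJ]; linarith
  have hbdd : BddBelow (Set.range J) := ⟨-c, by rintro _ ⟨a, rfl⟩; exact hlow a⟩
  set m := sInf (Set.range J) with hm
  have hmle : ∀ a, m ≤ J a := fun a => csInf_le hbdd ⟨a, rfl⟩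
  have hex : ∀ k, ∃ a, P a ∧ J a ≤ m + e k := by
    intro k
    have h1 : m < m + e k / 2 := by linarith [he k]
    obtain ⟨_, ⟨a0, rfl⟩, ha0⟩ := exists_lt_of_csInf_lt (Set.range_nonempty J) h1
    obtain ⟨a', hPa, ha'⟩ := hP a0 (e k / 2) (by linarith [he k])
    refine ⟨a', hPa, ?_⟩
    have : J a' ≤ J a0 + e k / 2 := ha'
    linarith
  choose a hPa haJ using hex
  refine ⟨a, hPa, ?_, ?_⟩
  · intro k l
    have hpar : ∀ x y : T, B (x - y) (x - y) = 2 * J x + 2 * J y - 4 * J ((1 / 2 : ℝ) • (x + y)) := by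
      intro x y
      have e1 : x - y = x + (-1 : ℝ) • y := by simp [sub_eq_add_neg]
      simp only [hJ]
      rw [e1]
      simp only [hadd, hadd', hsmul, hsmul', ladd, lsmul]
      rw [hsymm y x]
      ring
    rw [hpar]
    have := hmle ((1 / 2 : ℝ) • (a k + a l))
    linarith [haJ k, haJ l]
  · intro k b
    have hq : ∀ s : ℝ, 0 ≤ B b b * (s * s) + 2 * (B (a k) b - ℓ b) * s + e k := by
      intro s
      have h1 := hmle (a k + s • b)
      have h2 : J (a k + s • b) = J (a k) + 2 * (B (a k) b - ℓ b) * s + B b b * (s * s) := by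
        simp only [hJ]
        simp only [hadd, hadd', hsmul, hsmul', ladd, lsmul]
        rw [hsymm b (a k)]
        ring
      linarith [haJ k]
    have := discrim_le_zero hq
    unfold discrim at this
    nlinarith

end Claimed.Agent.R315
end

/- ===== packed: Claimed.Agent.R315.Ss.PdeDefs ===== -/
section
/-!
# Row 315, paper S: the PDE interface of S, definitions (`IsFlux`, `SsT1Data`); NO sorry here

# Row 315, paper S: the PDE interface of S   (packages SS-T1, SS-QL, SS-MP, SS-BERN, SS-CPT)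

The only equations of paper S are
    `div_{h,t}(fl(σ) ∇u) = b(x, u, σ)`,   `σ = |du|²_h`,                                   (Q)
with `fl > 0`, `fl + 2σ fl' > 0` on `σ ≥ 0` (ellipticity: the eigenvalues of the flux derivative), `∂_z b > 0`.
 * S-B (S Lemma 3.4): `fl = (1+σ)^{-1/2}`, `b = 10 (z - w x)`, weight `t = w`.
 * S-C (S (5.7)):     `fl = ssFl sg a`, `b = J' σ * Φ ((z - ψ x)/η(x)) (t x)`  (`Φ` = globally smooth truncation of the pressure).
EXISTENCE (`ss_ql` in `Ss/LsPf.lean`, blueprint `Ss/Ls*.lean`): Leray-Schauder for `T v = u`, `a^{ij}(dv)∇_{ij}u - fl⟨dt,du⟩ - u = b(x,v,σ_v) - v`; the family `u = τ T u` is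
    `div_{h,t}(fl ∇u) = τ b(x,u,σ) + (1-τ) u`,                                                     (Q_τ)
so the consumers have to supply a `C¹` a priori bound for `(Q_τ)`, `0 ≤ τ ≤ 1` (any bound, it may depend on all data).

## `ss_T1` (S Section 3.1, "interior bounds of every order"), geometric form, UNIFORM constants.
ADAPTER to `Lib/Ell` (helper232: quasilinear equations `∂_i A^i(y,Du) = B(y,u,Du)`, C^{1,α} by `Lib/Dgnm` (GT 8.24 for `∂_j u`), Schauder, bootstrap):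
`A^i(y,p) = w(y) fl(G^{kl}p_k p_l) G^{ij} p_j`, `B(y,z,p) = w(y) b(y,z,G^{kl}p_k p_l)`, `w = √(det G) e^{-t}`;
`∂A^i/∂p_j = w (fl G^{ij} + 2 fl' p^i p^j)` has eigenvalues between `w min(fl, fl+2σfl') λ_min(G⁻¹)` and `w max(..) λ_max(G⁻¹)`.

## `ss_ql` (existence on closed manifolds): `Ss/LsPf.lean`; plan in `Ss/Ls.lean`.

## `ss_mp`, `ss_bern`: the two maximum principle facts.
`ss_mp`: in a chart, `ssDivC G t fl u = a^{ij} hessC_{ij} u - fl ⟨dt,du⟩`, `a^{ij} = fl G^{ij} + 2 fl' u^i u^j` (uses `rm_lapC_eq` and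
 `⟨dσ,du⟩ = 2 Hess u(∇u,∇u)`); at a local maximum of `u - v`: `du = dv`, `hessC (u-v) = ∂²(u-v) ≤ 0`, `a^{ij}` positive definite.
`ss_bern` (Bernstein; replaces the angle equation S Lemma 3.3 on closed manifolds): at a local maximum `x` of `σ` all `dσ` terms vanish and
 `⟨d(div_{h,t}(fl ∇u)), du⟩ = fl ⟨dΔu,du⟩ + fl' Hess σ(∇u,∇u) - fl Hess t(∇u,∇u)`; Bochner `⟨dΔu,du⟩ = ½Δσ - |Hess u|² - Ric(∇u,∇u)`;
 `½(fl Δσ + 2 fl' Hess σ(∇u,∇u)) ≤ 0` by ellipticity; so `⟨d(div..),du⟩ ≤ - fl (Ric + Hess t)(∇u,∇u) ≤ C fl σ`, `C` = bound of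
 `|Ric_h| + |Hess_h t|` on the compact `P`.
-/

set_option autoImplicit false
open scoped ContDiff
open Claims.C0499

namespace Claimed.Agent.R315

variable {V : Type} [NormedAddCommGroup V] [NormedSpace ℝ V]

/-- admissible flux coefficient. -/
structure IsFlux (fl : ℝ → ℝ) : Prop where
  smooth : ContDiffOn ℝ ∞ fl (Set.Ioi (-1))
  pos : ∀ σ, 0 ≤ σ → 0 < fl σ
  ell : ∀ σ, 0 ≤ σ → 0 < fl σ + 2 * σ * deriv fl σ

/-- uniformly controlled data on the ball `ball 0 R` of `E d`.  NOTE: the bounds of `b` are asked on the slightly LARGER box `|z| ≤ K+1`, `0 ≤ σ ≤ K+1` (room for the cutoff in `ss_T1`). -/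
structure SsT1Data (d : ℕ) (R lam K : ℝ) (Λ : ℕ → ℝ) (G : rm_MF d) (t : E d → ℝ)
    (b : E d → ℝ → ℝ → ℝ) : Prop where
  met : rm_Met G (Metric.ball 0 R)
  ell : ∀ y ∈ Metric.ball (0 : E d) R, ∀ v : Fin d → ℝ, lam * (v ⬝ᵥ v) ≤ v ⬝ᵥ (G y).mulVec v
  G_bd : ∀ (j : ℕ), ∀ y ∈ Metric.ball (0 : E d) R, ∀ i k : Fin d,
    ‖iteratedFDeriv ℝ j (fun w => G w i k) y‖ ≤ Λ j
  t_smooth : ContDiffOn ℝ ∞ t (Metric.ball 0 R)
  t_bd : ∀ (j : ℕ), ∀ y ∈ Metric.ball (0 : E d) R, ‖iteratedFDeriv ℝ j t y‖ ≤ Λ j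
  b_smooth : ContDiffOn ℝ ∞ (fun p : E d × ℝ × ℝ => b p.1 p.2.1 p.2.2)
    (Metric.ball 0 R ×ˢ (Set.univ ×ˢ Set.Ioi (-1 : ℝ)))
  b_bd : ∀ (j : ℕ), ∀ p ∈ Metric.ball (0 : E d) R ×ˢ (Set.Icc (-(K + 1)) (K + 1) ×ˢ Set.Icc (0 : ℝ) (K + 1)),
    ‖iteratedFDeriv ℝ j (fun p : E d × ℝ × ℝ => b p.1 p.2.1 p.2.2) p‖ ≤ Λ j

end Claimed.Agent.R315
end

/- ===== packed: Claimed.Agent.R315.Ss.Bridge ===== -/
section
/-!
# Row 315, paper S: bridge between the manifold level (`Ss/Defs.lean`) and the chart level (`Ss/ChartDefs.lean`)   (package SS-BRIDGE)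

All statements: `(ψ,U)` a parametrisation of `M`, `y ∈ U`.  Tools: `If/Pv.lean` (`if_pv_eq`, `if_gradSq_eq`, `if_gradIp_eq`, `if_scal_eq`, `if_trM_eq`, `if_metC`), the invariance of `lapC`
(`if_PullC.trHess` + `rm_lapC_eq`; ask helper274 for `if_lap_eq`), and the defining property of `tder`: `tder d M f (ψ y) (fderiv ℝ ψ y a) = fderiv ℝ (f ∘ ψ) y a`.
NOTE `gradSq n M h u ∘ ψ = gradSqC (cm h ψ) (u ∘ ψ)` ON `U` (an open set), so derivatives of both sides agree (`rm_ip_congr`, `rm_pdiff_congr_on`).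
-/

set_option autoImplicit false
set_option linter.unusedSectionVars false
open scoped ContDiff
open Claims.C0499

namespace Claimed.Agent.R315

variable {V : Type} [NormedAddCommGroup V] [NormedSpace ℝ V] [FiniteDimensional ℝ V]
variable {n : ℕ} {M : Set V} {ψ : E n → V} {U : Set (E n)}

theorem ssb_met {h : Ten V} (hh : IsMetricOn n M h) (hψ : IsParam M ψ U) : rm_Met (cm h ψ) U :=
  (if_metC hh hψ).rm

theorem ssb_lap {h : Ten V} (hh : IsMetricOn n M h) {f : V → ℝ} (hf : SmoothAlong n M f)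
    (hψ : IsParam M ψ U) {y : E n} (hy : y ∈ U) :
    lap n M h f (ψ y) = lapC (cm h ψ) (f ∘ ψ) y :=
  if_lap_eq hh hf hψ hy

theorem ssb_lap_smooth {h : Ten V} (hh : IsMetricOn n M h) {f : V → ℝ}
    (hf : SmoothAlong n M f) : SmoothAlong n M (lap n M h f) :=
  if_lap_smoothAlong hh hf

theorem ssb_dsc {h : Ten V} (hh : IsMetricOn n M h) {t : V → ℝ} (ht : SmoothAlong n M t)
    (hψ : IsParam M ψ U) {y : E n} (hy : y ∈ U) :
    Dsc n M h t (ψ y) = rm_DscC (cm h ψ) (t ∘ ψ) y :=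
  if_Dsc_eq hh ht hψ hy

theorem ssb_div {h : Ten V} (hh : IsMetricOn n M h) {t u : V → ℝ} (ht : SmoothAlong n M t)
    (hu : SmoothAlong n M u) (fl : ℝ → ℝ) (hψ : IsParam M ψ U) {y : E n} (hy : y ∈ U) :
    ssDiv n M h t fl u (ψ y) = ssDivC (cm h ψ) (t ∘ ψ) fl (u ∘ ψ) y := by
  have hσ : SmoothAlong n M (gradSq n M h u) := if_gradSq_smoothAlong hh hu
  have he : gradSq n M h u ∘ ψ =ᶠ[nhds y] gradSqC (cm h ψ) (u ∘ ψ) := by
    filter_upwards [(if_open hψ).mem_nhds hy] with w hw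
    exact if_gradSq_eq hh hu hψ hw
  unfold ssDiv ssDivC
  rw [if_gradSq_eq hh hu hψ hy, if_lap_eq hh hu hψ hy, if_gradIp_eq hh hσ hu hψ hy,
    if_gradIp_eq hh ht hu hψ hy, if_gradIpC_congr _ he Filter.EventuallyEq.rfl]

theorem ssb_dsqT {u : V → ℝ} (hu : SmoothAlong n M u) (hψ : IsParam M ψ U) {y : E n}
    (hy : y ∈ U) : cm (dsqT n M u) ψ y = ssDuDu (u ∘ ψ) y := by
  ext i j
  exact if_cm_dsqT hu hψ hy i j

/-- coordinate matrix of `h + c du²` for a scalar function `c`. -/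
theorem ssb_update {h : Ten V} {u c : V → ℝ} (hu : SmoothAlong n M u) (hψ : IsParam M ψ U)
    {y : E n} (hy : y ∈ U) :
    cm (fun x => h x + c x • dsqT n M u x) ψ y = cm h ψ y + c (ψ y) • ssDuDu (u ∘ ψ) y := by
  rw [← ssb_dsqT hu hψ hy]
  ext i j
  rfl

theorem ssb_hu {h : Ten V} (hh : IsMetricOn n M h) {u : V → ℝ} (hu : SmoothAlong n M u)
    (kap : ℝ → ℝ) (hψ : IsParam M ψ U) {y : E n} (hy : y ∈ U) :
    cm (ssHu n M h kap u) ψ y = ssHuC (cm h ψ) kap (u ∘ ψ) y := by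
  unfold ssHu ssHuC
  rw [ssb_update hu hψ hy, if_gradSq_eq hh hu hψ hy]

theorem ssb_tu {h : Ten V} (hh : IsMetricOn n M h) {t u : V → ℝ} (hu : SmoothAlong n M u)
    (bet : ℝ → ℝ) (hψ : IsParam M ψ U) {y : E n} (hy : y ∈ U) :
    ssTu n M h t bet u (ψ y) = ssTuC (cm h ψ) (t ∘ ψ) bet (u ∘ ψ) y := by
  unfold ssTu ssTuC
  rw [if_gradSq_eq hh hu hψ hy]
  rfl

/-- `MetLE` in a chart. -/
theorem ssb_metLE {g h : Ten V} (H : MetLE n M g h) (hψ : IsParam M ψ U) {y : E n} (hy : y ∈ U) :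
    (cm h ψ y - cm g ψ y).PosSemidef := H ψ U hψ y hy

/-- a statement which holds in all charts holds on `M`. -/
theorem ssb_forall (hM : IsMfd n M) {p : V → Prop}
    (H : ∀ (ψ : E n → V) (U : Set (E n)), IsParam M ψ U → ∀ y ∈ U, p (ψ y)) : ∀ x ∈ M, p x := by
  intro x hx
  obtain ⟨ψ, U, h, u, hu, rfl⟩ := hM x hx
  exact H ψ U h u hu

end Claimed.Agent.R315
end

/- ===== packed: Claimed.Agent.R315.Pk.ColDef ===== -/
section
/-!
# Row 315, packets: definition of compatible topological collars (`IsCollar`)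

`c y s` (`y ∈ L α = {y ∈ E α | u y = 0}`, `|s| < e y`) is the point of the collar with coordinates `(y, s)`:
`u (c y s) = s`, `c y 0 = y`; `rr` is the retraction, `x ↦ (rr x, u x)` is inverse to `c`; the image
is relatively open in `E α`; far out in the old tails `c` commutes with `F.drop i` and does not change
`t i`; the fibres are small (`≤ ε / 2` for `rdist M g` after `q`, `≤ 1` in the norm of `W`).
-/

set_option autoImplicit false
set_option linter.unusedSectionVars false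
open scoped ContDiff Topology
open MeasureTheory Claims.C0499

namespace Claimed.Agent.R315

variable {V W : Type} [NormedAddCommGroup V] [NormedSpace ℝ V] [NormedAddCommGroup W]
  [NormedSpace ℝ W] {ι : Type}

/-- domain of the collar coordinates over the status `α`. -/
def collarDom (E : Stat ι → Set W) (u e : W → ℝ) (α : Stat ι) : Set (W × ℝ) :=
  {p | p.1 ∈ E α ∧ u p.1 = 0 ∧ |p.2| < e p.1}

/-- the collar over the status `α`. -/
def collarIm (E : Stat ι → Set W) (u e : W → ℝ) (c : W → ℝ → W) (α : Stat ι) : Set W :=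
  (fun p : W × ℝ => c p.1 p.2) '' collarDom E u e α

/-- compatible topological collar of the walls `{u = 0}`. -/
structure IsCollar (M : Set V) (g : Ten V) (F : Frame V W ι) (E : Stat ι → Set W) (u e : W → ℝ)
    (c : W → ℝ → W) (rr : W → W) (ε : ℝ) : Prop where
  e_cc : CC F E e
  e_pos : ∀ y ∈ tot E, 0 < e y
  mem : ∀ α, ∀ p ∈ collarDom E u e α, c p.1 p.2 ∈ E α
  u_c : ∀ α, ∀ p ∈ collarDom E u e α, u (c p.1 p.2) = p.2
  zero : ∀ y ∈ tot E, u y = 0 → c y 0 = y
  cont : ∀ α, ContinuousOn (fun p : W × ℝ => c p.1 p.2) (collarDom E u e α)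
  rr_c : ∀ α, ∀ p ∈ collarDom E u e α, rr (c p.1 p.2) = p.1
  rr_cont : ∀ α, ContinuousOn rr (collarIm E u e c α)
  isOpen : ∀ α, ∀ x ∈ collarIm E u e c α, ∃ N ∈ 𝓝 x, N ∩ E α ⊆ collarIm E u e c α
  compat : ∀ i, ∀ K : Set V, IsCompact K → ∃ R : ℝ, ∀ α, ∀ p ∈ collarDom E u e α, F.q p.1 ∈ K →
    R < |F.t i p.1| → c (F.drop i p.1) p.2 = F.drop i (c p.1 p.2) ∧ F.t i (c p.1 p.2) = F.t i p.1
  small : ∀ α, ∀ p ∈ collarDom E u e α, rdist M g (F.q p.1) (F.q (c p.1 p.2)) ≤ ε / 2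
  bdd : ∀ α, ∀ p ∈ collarDom E u e α, ‖c p.1 p.2 - p.1‖ ≤ 1

end Claimed.Agent.R315
end

/- ===== packed: Claimed.Agent.R315.Pk.LinkA ===== -/
section
/-!
# Row 315, packets: the two real profiles of the map `Φ` of a split (HOST-FREE, Mathlib only)

* `pkChi ε s` : collar compression (`= s` for `|s| ≥ ε`, `= 0` for `|s| ≤ ε / 2`, continuous, odd, never changes the sign);
* `pk_bk_exists` : the inverse `bk` of the corner profile: `k a + k (bk a) = 1` (`a ≥ 0`), continuous, `bk 0 = 1`.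
  Construction: `G a = (a - cl a) - k (cl a)`, `cl a = max 0 (min a 1)`, is strictly monotone, continuous and onto, so it is an order isomorphism of `ℝ`,
  whose inverse is continuous; `bk a = G⁻¹ (k a - 1)`.
-/

set_option autoImplicit false
open scoped Topology

namespace Claimed.Agent.R315

/-- collar compression profile. -/
noncomputable def pkChi (ε s : ℝ) : ℝ :=
  max 0 (min s (2 * s - ε)) - max 0 (min (-s) (-2 * s - ε))

theorem pkChi_continuous : Continuous fun p : ℝ × ℝ => pkChi p.1 p.2 := by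
  unfold pkChi
  fun_prop

theorem pkChi_of_le {ε s : ℝ} (hε : 0 ≤ ε) (h : ε ≤ |s|) : pkChi ε s = s := by
  unfold pkChi
  rcases le_total 0 s with hs | hs
  · rw [abs_of_nonneg hs] at h
    rw [min_eq_left (by linarith), max_eq_right hs, max_eq_left (min_le_of_left_le (by linarith))]
    ring
  · rw [abs_of_nonpos hs] at h
    rw [max_eq_left (min_le_of_left_le hs), min_eq_left (by linarith), max_eq_right (by linarith)]
    ring

theorem pkChi_of_small {ε s : ℝ} (h : |s| ≤ ε / 2) : pkChi ε s = 0 := by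
  unfold pkChi
  obtain ⟨h1, h2⟩ := abs_le.1 h
  rw [max_eq_left (min_le_of_right_le (by linarith)), max_eq_left (min_le_of_right_le (by linarith))]
  ring

theorem pkChi_nonneg {ε s : ℝ} (_hε : 0 ≤ ε) (hs : 0 ≤ s) : 0 ≤ pkChi ε s ∧ pkChi ε s ≤ s := by
  unfold pkChi
  rw [max_eq_left (min_le_of_left_le (by linarith) : min (-s) (-2 * s - ε) ≤ 0), sub_zero]
  exact ⟨le_max_left _ _, max_le hs (min_le_left _ _)⟩

theorem pkChi_nonpos {ε s : ℝ} (_hε : 0 ≤ ε) (hs : s ≤ 0) : pkChi ε s ≤ 0 ∧ s ≤ pkChi ε s := by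
  unfold pkChi
  rw [max_eq_left (min_le_of_left_le hs : min s (2 * s - ε) ≤ 0), zero_sub]
  refine ⟨neg_nonpos.2 (le_max_left _ _), ?_⟩
  have : max 0 (min (-s) (-2 * s - ε)) ≤ -s := max_le (by linarith) (min_le_left _ _)
  linarith

theorem pkChi_abs_le {ε s : ℝ} (hε : 0 ≤ ε) : |pkChi ε s| ≤ |s| := by
  rcases le_total 0 s with hs | hs
  · obtain ⟨h1, h2⟩ := pkChi_nonneg hε hs
    rwa [abs_of_nonneg h1, abs_of_nonneg hs]
  · obtain ⟨h1, h2⟩ := pkChi_nonpos hε hs
    rw [abs_of_nonpos h1, abs_of_nonpos hs]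
    linarith

theorem pkChi_sign {ε s : ℝ} (hε : 0 ≤ ε) : (SignType.sign s : ℝ) * pkChi ε s = |pkChi ε s| := by
  rcases lt_trichotomy s 0 with hs | hs | hs
  · rw [sign_neg hs, abs_of_nonpos (pkChi_nonpos hε hs.le).1]
    simp
  · subst hs
    rw [pkChi_of_small (by rw [abs_zero]; linarith)]
    simp
  · rw [sign_pos hs, abs_of_nonneg (pkChi_nonneg hε hs.le).1]
    simp

/-- the clamp to `[0,1]`. -/
noncomputable def pkCl (a : ℝ) : ℝ := max 0 (min a 1)

theorem pkCl_mem (a : ℝ) : 0 ≤ pkCl a ∧ pkCl a ≤ 1 :=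
  ⟨le_max_left _ _, max_le zero_le_one (min_le_right _ _)⟩

theorem pkCl_of_mem {a : ℝ} (h0 : 0 ≤ a) (h1 : a ≤ 1) : pkCl a = a := by
  unfold pkCl
  rw [min_eq_left h1, max_eq_right h0]

theorem pkCl_mono : Monotone pkCl := fun _ _ h => max_le_max le_rfl (min_le_min h le_rfl)

theorem pkCl_sub_mono {a b : ℝ} (h : a ≤ b) : a - pkCl a ≤ b - pkCl b := by
  unfold pkCl
  rcases le_total a 1 with ha | ha <;> rcases le_total b 1 with hb | hb <;>
    rcases le_total 0 a with ha' | ha' <;> rcases le_total 0 b with hb' | hb' <;>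
    simp [*] <;> linarith

/-- **the inverse of the corner profile.** -/
theorem pk_bk_exists {k : ℝ → ℝ} (hc : Continuous k) (h0 : k 0 = 1) (hfar : ∀ a, 1 ≤ a → k a = 0)
    (hanti : StrictAntiOn k (Set.Iic 1)) :
    ∃ bk : ℝ → ℝ, Continuous bk ∧ bk 0 = 1 ∧ ∀ a, 0 ≤ a → k a + k (bk a) = 1 := by
  set G : ℝ → ℝ := fun a => (a - pkCl a) - k (pkCl a) with hG
  have hclc : Continuous pkCl := by unfold pkCl; fun_prop
  have hGc : Continuous G := (continuous_id.sub hclc).sub (hc.comp hclc)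
  have hk01 : ∀ a, 0 ≤ k (pkCl a) ∧ k (pkCl a) ≤ 1 := by
    intro a
    obtain ⟨h1, h2⟩ := pkCl_mem a
    constructor
    · rw [← hfar 1 le_rfl]
      exact hanti.antitoneOn (Set.mem_Iic.2 h2) (Set.mem_Iic.2 le_rfl) h2
    · rw [← h0]
      exact hanti.antitoneOn (Set.mem_Iic.2 zero_le_one) (Set.mem_Iic.2 h2) h1
  have hGm : StrictMono G := by
    intro a b hab
    have h1 := pkCl_sub_mono hab.le
    have h2 := pkCl_mono hab.le
    rcases h2.lt_or_eq with h3 | h3
    · have := hanti (Set.mem_Iic.2 (pkCl_mem a).2) (Set.mem_Iic.2 (pkCl_mem b).2) h3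
      simp only [hG]; linarith
    · simp only [hG]; rw [h3]; linarith
  have hlow : ∀ a, a - 2 ≤ G a := fun a => by
    have := hk01 a; have := pkCl_mem a; simp only [hG]; linarith
  have hup : ∀ a, G a ≤ a := fun a => by
    have := hk01 a; have := pkCl_mem a; simp only [hG]; linarith
  have hGs : Function.Surjective G := by
    refine hGc.surjective ?_ ?_
    · exact Filter.tendsto_atTop_mono hlow (Filter.tendsto_atTop_add_const_right _ _ Filter.tendsto_id)
    · exact Filter.tendsto_atBot_mono hup Filter.tendsto_id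
  let Φ : ℝ ≃o ℝ := hGm.orderIsoOfSurjective G hGs
  have hΦ : ∀ a, G (Φ.symm a) = a := fun a => Φ.apply_symm_apply a
  have hG0 : G 0 = -1 := by simp only [hG]; rw [pkCl_of_mem le_rfl zero_le_one, h0]; ring
  have hG1 : G 1 = 0 := by simp only [hG]; rw [pkCl_of_mem zero_le_one le_rfl, hfar 1 le_rfl]; ring
  refine ⟨fun a => Φ.symm (k a - 1), Φ.symm.continuous.comp (hc.sub continuous_const), ?_, ?_⟩
  · show Φ.symm (k 0 - 1) = 1
    apply hGm.injective
    rw [hΦ, hG1, h0]; ring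
  · intro a ha
    show k a + k (Φ.symm (k a - 1)) = 1
    set b := Φ.symm (k a - 1) with hb
    have hGb : G b = k a - 1 := hΦ _
    have hka : 0 ≤ k a ∧ k a ≤ 1 := by
      rcases le_total a 1 with h1 | h1
      · have := hk01 a; rwa [pkCl_of_mem ha h1] at this
      · rw [hfar a h1]; exact ⟨le_rfl, zero_le_one⟩
    have hb0 : 0 ≤ b := by
      rw [← hGm.le_iff_le, hG0, hGb]; linarith
    have hb1 : b ≤ 1 := by
      rw [← hGm.le_iff_le, hG1, hGb]; linarith
    have : G b = - k b := by simp only [hG]; rw [pkCl_of_mem hb0 hb1]; ring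
    linarith

end Claimed.Agent.R315
end

/- ===== packed: Claimed.Agent.R315.Pk.LinkB ===== -/
section
/-!
# Row 315, packets: the map `Φ` of a split: definitions, collar coordinates, continuity of `κ` and `m`

PACKAGE PK-LINK-B: PROVED (helper266).   NO PAPER READING NEEDED (point-set topology only).

Context: a diagram `E` (`IsDiag`: the `E α` are closed, pairwise disjoint), cut data (`IsCut`: `u`, `w` continuous on every `E α`: `IsCut.u_cont`, `IsCut.w_cont`),
a collar (`IsCollar`, Pk/ColDef.lean).   `pkCol` = union of the collars `collarIm E u e c α`.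
  `κ = pkKap` : `κ x = c (rr x) (pkChi (e (rr x) / 2) (u x))` on `pkCol`, `κ x = x` elsewhere;
  `m = pkMul` : `m x = max 1 (e (rr x) / 2 / (2 |u x|))` on `pkCol`, `m x = 1` elsewhere;
  `Φ = pkPhi` : `Φ x = (κ x, sign (u x) * w (κ x) * bk (|u (κ x)| / w (κ x)) * m x)`.

PLANS.
* `pk_col_coord`: `x = c y s`, `(y,s) ∈ collarDom`; `rr x = y` (`rr_c`), `u x = s` (`u_c`).
* `pk_mem_col_iff`: `collarIm .. β ⊆ E β` (`mem`) and the `E β` are disjoint.
* `pk_wall_mem_col`: `(x, 0) ∈ collarDom` (`e_pos`), `c x 0 = x` (`zero`), `rr_c`.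
* `pk_cases`: `by_cases x ∈ pkCol`; `|pkChi ε s| ≤ |s| < e y` (`pkChi_abs_le`).
* `pk_half_closed`: `x₀ ∉ pkHalf`.  `D = {p | p.1 ∈ E α ∩ closedBall x₀ 2, u p.1 = 0, |p.2| ≤ e p.1 / 2}` is compact (closed: `ContinuousOn.preimage_isClosed_of_isClosed` on the closed set `E α`;
    bounded: `e` is bounded on the compact `E α ∩ closedBall x₀ 2`), `D ⊆ collarDom` (`e_pos`), so `c '' D` is compact, hence closed, and does not contain `x₀`;
    `pkHalf ∩ ball x₀ 1 ⊆ c '' D` by `bdd`.   So a neighbourhood of `x₀` misses `pkHalf`.   (Or sequences.)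
* `pk_off_half`: by `pk_cases`; in the collar and off the half collar `|s| > e y / 2`, so `pkChi = s` (`pkChi_of_le`) and `e y / 2 / (2 |s|) ≤ 1`.
* `pk_kap_cont`, `pk_mul_cont`: at `x₀ ∈ collarIm α`: `collarIm α ∈ 𝓝[E α] x₀` (`isOpen`), there the formula is a composition of continuous maps (`rr_cont`, `e_cc.1 α` after `rr`, `u_cont`, `pkChi_continuous`, `cont`);
    at `x₀ ∈ E α \ collarIm α`: `x₀ ∉ pkHalf`, `(pkHalf)ᶜ` is an open neighbourhood on which `κ = id`, `m = 1` (`pk_off_half`).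
-/

set_option autoImplicit false
set_option linter.unusedSectionVars false
open scoped ContDiff Topology
open MeasureTheory Claims.C0499

namespace Claimed.Agent.R315

variable {V W : Type} [NormedAddCommGroup V] [NormedSpace ℝ V] [NormedAddCommGroup W]
  [NormedSpace ℝ W] {ι : Type}

/-- the union of the collars. -/
def pkCol (E : Stat ι → Set W) (u e : W → ℝ) (c : W → ℝ → W) : Set W :=
  ⋃ α, collarIm E u e c α

/-- the closed half collar. -/
def pkHalf (E : Stat ι → Set W) (u e : W → ℝ) (c : W → ℝ → W) (α : Stat ι) : Set W :=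
  (fun p : W × ℝ => c p.1 p.2) '' {p | p ∈ collarDom E u e α ∧ |p.2| ≤ e p.1 / 2}

open Classical in
/-- collar compression `κ`. -/
noncomputable def pkKap (E : Stat ι → Set W) (u e : W → ℝ) (c : W → ℝ → W) (rr : W → W) (x : W) : W :=
  if x ∈ pkCol E u e c then c (rr x) (pkChi (e (rr x) / 2) (u x)) else x

open Classical in
/-- the multiplier `m`. -/
noncomputable def pkMul (E : Stat ι → Set W) (u e : W → ℝ) (c : W → ℝ → W) (rr : W → W) (x : W) : ℝ :=
  if x ∈ pkCol E u e c then max 1 (e (rr x) / 2 / (2 * |u x|)) else 1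

/-- the map `Φ`. -/
noncomputable def pkPhi (E : Stat ι → Set W) (u e : W → ℝ) (c : W → ℝ → W) (rr : W → W) (w : W → ℝ)
    (bk : ℝ → ℝ) (x : W) : W × ℝ :=
  (pkKap E u e c rr x, (SignType.sign (u x) : ℝ) * w (pkKap E u e c rr x) *
    bk (|u (pkKap E u e c rr x)| / w (pkKap E u e c rr x)) * pkMul E u e c rr x)

section

variable [Fintype ι] {n : ℕ} {M : Set V} {g : Ten V} {F : Frame V W ι} {E : Stat ι → Set W}
  {u w e : W → ℝ} {k : ℝ → ℝ} {c : W → ℝ → W} {rr : W → W} {ε : ℝ}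

theorem pk_col_coord (hcol : IsCollar M g F E u e c rr ε) {α : Stat ι} {x : W}
    (hx : x ∈ collarIm E u e c α) : (rr x, u x) ∈ collarDom E u e α ∧ c (rr x) (u x) = x := by
  obtain ⟨p, hp, rfl⟩ := hx
  rw [hcol.rr_c α p hp, hcol.u_c α p hp]
  exact ⟨hp, rfl⟩

theorem pk_col_sub (hcol : IsCollar M g F E u e c rr ε) (α : Stat ι) :
    collarIm E u e c α ⊆ E α := by
  rintro _ ⟨p, hp, rfl⟩
  exact hcol.mem α p hp

theorem pk_mem_col_iff (hD : IsDiag n M F E) (hcol : IsCollar M g F E u e c rr ε) {α : Stat ι}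
    {x : W} (hx : x ∈ E α) : x ∈ pkCol E u e c ↔ x ∈ collarIm E u e c α := by
  constructor
  · intro h
    obtain ⟨β, hβ⟩ := Set.mem_iUnion.1 h
    by_cases hαβ : α = β
    · rw [hαβ]; exact hβ
    · exact absurd (pk_col_sub hcol β hβ) (Set.disjoint_left.1 (hD.disj α β hαβ) hx)
  · intro h
    exact Set.mem_iUnion.2 ⟨α, h⟩

theorem pk_wall_mem_col (hcol : IsCollar M g F E u e c rr ε) {α : Stat ι} {x : W} (hx : x ∈ E α)
    (hu : u x = 0) : x ∈ collarIm E u e c α ∧ rr x = x := by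
  have hxt : x ∈ tot E := mem_tot.2 ⟨α, hx⟩
  have hp : ((x, 0) : W × ℝ) ∈ collarDom E u e α := ⟨hx, hu, by simpa using hcol.e_pos x hxt⟩
  have hc0 : c x 0 = x := hcol.zero x hxt hu
  refine ⟨⟨(x, 0), hp, hc0⟩, ?_⟩
  have := hcol.rr_c α (x, 0) hp
  simpa [hc0] using this

/-- **the case lemma**: all values in collar coordinates. -/
theorem pk_cases (hD : IsDiag n M F E) (hcol : IsCollar M g F E u e c rr ε) {α : Stat ι} {x : W}
    (hx : x ∈ E α) :
    (x ∉ pkCol E u e c ∧ u x ≠ 0 ∧ pkKap E u e c rr x = x ∧ pkMul E u e c rr x = 1) ∨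
    (x ∈ collarIm E u e c α ∧ ∃ y s, (y, s) ∈ collarDom E u e α ∧ x = c y s ∧ rr x = y ∧ u x = s ∧
      (y, pkChi (e y / 2) s) ∈ collarDom E u e α ∧
      pkKap E u e c rr x = c y (pkChi (e y / 2) s) ∧
      u (pkKap E u e c rr x) = pkChi (e y / 2) s ∧
      pkMul E u e c rr x = max 1 (e y / 2 / (2 * |s|))) := by
  by_cases hxc : x ∈ pkCol E u e c
  · right
    have hxα := (pk_mem_col_iff hD hcol hx).1 hxc
    obtain ⟨hp, hcx⟩ := pk_col_coord hcol hxα
    have hey : 0 < e (rr x) := hcol.e_pos _ (mem_tot.2 ⟨α, hp.1⟩)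
    have hp' : (rr x, pkChi (e (rr x) / 2) (u x)) ∈ collarDom E u e α :=
      ⟨hp.1, hp.2.1, lt_of_le_of_lt (pkChi_abs_le (by positivity)) hp.2.2⟩
    have hk : pkKap E u e c rr x = c (rr x) (pkChi (e (rr x) / 2) (u x)) := by
      unfold pkKap; rw [if_pos hxc]
    refine ⟨hxα, rr x, u x, hp, hcx.symm, rfl, rfl, hp', hk, ?_, ?_⟩
    · rw [hk]; exact hcol.u_c α _ hp'
    · unfold pkMul; rw [if_pos hxc]
  · left
    refine ⟨hxc, ?_, ?_, ?_⟩
    · intro hu
      exact hxc ((pk_mem_col_iff hD hcol hx).2 (pk_wall_mem_col hcol hx hu).1)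
    · unfold pkKap; rw [if_neg hxc]
    · unfold pkMul; rw [if_neg hxc]

theorem pk_kap_mem (hD : IsDiag n M F E) (hcol : IsCollar M g F E u e c rr ε) {α : Stat ι} {x : W}
    (hx : x ∈ E α) : pkKap E u e c rr x ∈ E α := by
  rcases pk_cases hD hcol hx with ⟨-, -, h, -⟩ | ⟨-, y, s, -, -, -, -, hp', h, -, -⟩
  · rw [h]; exact hx
  · rw [h]; exact hcol.mem α _ hp'

theorem pk_half_closed [FiniteDimensional ℝ W] (hD : IsDiag n M F E) (hC : IsCut n F E u w k)
    (hcol : IsCollar M g F E u e c rr ε) (α : Stat ι) : IsClosed (pkHalf E u e c α) := by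
  rw [← isOpen_compl_iff, isOpen_iff_mem_nhds]
  intro x₀ hx₀
  set S : Set W := E α ∩ Metric.closedBall x₀ 2 with hS
  have hSc : IsCompact S := (isCompact_closedBall x₀ 2).inter_left (hD.closed α)
  have heS : ContinuousOn e S := (hcol.e_cc.1 α).mono Set.inter_subset_left
  have huS : ContinuousOn u S := (hC.u_cont hD α).mono Set.inter_subset_left
  obtain ⟨C, hC'⟩ := hSc.exists_bound_of_continuousOn heS
  set D : Set (W × ℝ) := {p | p.1 ∈ S ∧ u p.1 = 0 ∧ |p.2| ≤ e p.1 / 2} with hDdef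
  have hT : IsClosed (Prod.fst ⁻¹' S : Set (W × ℝ)) := hSc.isClosed.preimage continuous_fst
  have hf1 : ContinuousOn (fun p : W × ℝ => u p.1) (Prod.fst ⁻¹' S) :=
    huS.comp continuous_fst.continuousOn fun p hp => hp
  have hf2 : ContinuousOn (fun p : W × ℝ => e p.1 / 2 - |p.2|) (Prod.fst ⁻¹' S) :=
    ((heS.comp continuous_fst.continuousOn fun p hp => hp).div_const 2).sub
      continuous_snd.abs.continuousOn
  have hDcl : IsClosed D := by
    have e1 : D = (Prod.fst ⁻¹' S ∩ (fun p : W × ℝ => u p.1) ⁻¹' {0}) ∩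
        (Prod.fst ⁻¹' S ∩ (fun p : W × ℝ => e p.1 / 2 - |p.2|) ⁻¹' Set.Ici 0) := by
      ext p
      simp only [hDdef, Set.mem_ofPred_eq, Set.mem_inter_iff, Set.mem_preimage,
        Set.mem_singleton_iff, Set.mem_Ici, sub_nonneg]
      tauto
    rw [e1]
    exact (hf1.preimage_isClosed_of_isClosed hT isClosed_singleton).inter
      (hf2.preimage_isClosed_of_isClosed hT isClosed_Ici)
  have hDc : IsCompact D := by
    refine (hSc.prod (isCompact_Icc (a := -C) (b := C))).of_isClosed_subset hDcl ?_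
    rintro p ⟨h1, -, h3⟩
    have h4 : e p.1 ≤ C := le_trans (le_abs_self _) (hC' p.1 h1)
    have h5 : 0 ≤ e p.1 := (hcol.e_pos _ (mem_tot.2 ⟨α, h1.1⟩)).le
    exact ⟨h1, abs_le.1 (by linarith)⟩
  have hDsub : D ⊆ collarDom E u e α := by
    rintro p ⟨h1, h2, h3⟩
    have h5 : 0 < e p.1 := hcol.e_pos _ (mem_tot.2 ⟨α, h1.1⟩)
    exact ⟨h1.1, h2, by linarith⟩
  have hIm : IsClosed ((fun p : W × ℝ => c p.1 p.2) '' D) :=
    (hDc.image_of_continuousOn ((hcol.cont α).mono hDsub)).isClosed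
  have hx₀' : x₀ ∉ (fun p : W × ℝ => c p.1 p.2) '' D := by
    rintro ⟨p, hp, rfl⟩
    exact hx₀ ⟨p, ⟨hDsub hp, hp.2.2⟩, rfl⟩
  filter_upwards [hIm.isOpen_compl.mem_nhds hx₀', Metric.ball_mem_nhds x₀ one_pos] with x h1 h2
  rintro ⟨p, ⟨hp, hp2⟩, rfl⟩
  refine h1 ⟨p, ⟨⟨hp.1, ?_⟩, hp.2.1, hp2⟩, rfl⟩
  have h3 := hcol.bdd α p hp
  rw [Metric.mem_closedBall]
  rw [Metric.mem_ball] at h2
  calc dist p.1 x₀ ≤ dist p.1 (c p.1 p.2) + dist (c p.1 p.2) x₀ := dist_triangle _ _ _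
    _ ≤ 1 + 1 := by
        refine add_le_add ?_ h2.le
        rw [dist_comm, dist_eq_norm]; exact h3
    _ = 2 := by norm_num

theorem pk_off_half (hD : IsDiag n M F E) (hcol : IsCollar M g F E u e c rr ε) {α : Stat ι} {x : W}
    (hx : x ∈ E α) (hx' : x ∉ pkHalf E u e c α) :
    pkKap E u e c rr x = x ∧ pkMul E u e c rr x = 1 := by
  rcases pk_cases hD hcol hx with ⟨-, -, h1, h2⟩ | ⟨-, y, s, hp, hxc, -, -, -, h1, -, h2⟩
  · exact ⟨h1, h2⟩
  · have hey : 0 < e y := hcol.e_pos _ (mem_tot.2 ⟨α, hp.1⟩)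
    have hs : e y / 2 < |s| := by
      by_contra hcon
      exact hx' ⟨(y, s), ⟨hp, not_lt.1 hcon⟩, hxc.symm⟩
    refine ⟨?_, ?_⟩
    · rw [h1, pkChi_of_le (by positivity) hs.le, hxc]
    · rw [h2]
      apply max_eq_left
      have hs0 : 0 < |s| := lt_trans (by positivity) hs
      rw [div_le_one (by positivity)]
      linarith

theorem pk_mem_col_of {α : Stat ι} {x : W} (hx : x ∈ collarIm E u e c α) : x ∈ pkCol E u e c :=
  Set.mem_iUnion.2 ⟨α, hx⟩

theorem pk_half_sub (α : Stat ι) : pkHalf E u e c α ⊆ collarIm E u e c α := by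
  rintro _ ⟨p, hp, rfl⟩
  exact ⟨p, hp.1, rfl⟩

theorem pk_col_nhds (hcol : IsCollar M g F E u e c rr ε) {α : Stat ι} {x₀ : W}
    (hx₀ : x₀ ∈ collarIm E u e c α) : collarIm E u e c α ∈ 𝓝[E α] x₀ := by
  obtain ⟨N, hN, hsub⟩ := hcol.isOpen α x₀ hx₀
  exact mem_nhdsWithin_iff_exists_mem_nhds_inter.2 ⟨N, hN, hsub⟩

theorem pk_rr_mem (hcol : IsCollar M g F E u e c rr ε) {α : Stat ι} {x : W}
    (hx : x ∈ collarIm E u e c α) : rr x ∈ E α ∧ u (rr x) = 0 :=
  ⟨(pk_col_coord hcol hx).1.1, (pk_col_coord hcol hx).1.2.1⟩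

theorem pk_e_rr_cont (hcol : IsCollar M g F E u e c rr ε) (α : Stat ι) :
    ContinuousOn (fun x => e (rr x)) (collarIm E u e c α) :=
  (hcol.e_cc.1 α).comp (hcol.rr_cont α) fun _ hx => (pk_rr_mem hcol hx).1

theorem pk_chi_cont (hD : IsDiag n M F E) (hC : IsCut n F E u w k)
    (hcol : IsCollar M g F E u e c rr ε) (α : Stat ι) :
    ContinuousOn (fun x => pkChi (e (rr x) / 2) (u x)) (collarIm E u e c α) :=
  pkChi_continuous.comp_continuousOn (((pk_e_rr_cont hcol α).div_const 2).prodMk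
    ((hC.u_cont hD α).mono (pk_col_sub hcol α)))

theorem pk_kap_cont [FiniteDimensional ℝ W] (hD : IsDiag n M F E) (hC : IsCut n F E u w k)
    (hcol : IsCollar M g F E u e c rr ε) (α : Stat ι) :
    ContinuousOn (pkKap E u e c rr) (E α) := by
  intro x₀ hx₀
  by_cases hxc : x₀ ∈ collarIm E u e c α
  · have hN := pk_col_nhds hcol hxc
    have h1 := pk_chi_cont hD hC hcol α
    have h2 : ContinuousOn (fun x => c (rr x) (pkChi (e (rr x) / 2) (u x))) (collarIm E u e c α) := by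
      refine (hcol.cont α).comp ((hcol.rr_cont α).prodMk h1) ?_
      intro x hx
      obtain ⟨hp, -⟩ := pk_col_coord hcol hx
      have hey : 0 < e (rr x) := hcol.e_pos _ (mem_tot.2 ⟨α, hp.1⟩)
      exact ⟨hp.1, hp.2.1, lt_of_le_of_lt (pkChi_abs_le (by positivity)) hp.2.2⟩
    have h3 : ContinuousOn (pkKap E u e c rr) (collarIm E u e c α) := by
      refine h2.congr fun x hx => ?_
      unfold pkKap
      rw [if_pos (pk_mem_col_of hx)]
    exact (h3 x₀ hxc).mono_of_mem_nhdsWithin hN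
  · have hx₀' : x₀ ∉ pkHalf E u e c α := fun h => hxc (pk_half_sub α h)
    have hO := (pk_half_closed hD hC hcol α).isOpen_compl.mem_nhds hx₀'
    refine continuousWithinAt_id.congr_of_eventuallyEq ?_ (pk_off_half hD hcol hx₀ hx₀').1
    filter_upwards [mem_nhdsWithin_of_mem_nhds hO, self_mem_nhdsWithin] with x h1 h2
    exact (pk_off_half hD hcol h2 h1).1

theorem pk_mul_cont [FiniteDimensional ℝ W] (hD : IsDiag n M F E) (hC : IsCut n F E u w k)
    (hcol : IsCollar M g F E u e c rr ε) {α : Stat ι} {x₀ : W} (hx₀ : x₀ ∈ E α) (hu : u x₀ ≠ 0) :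
    ContinuousWithinAt (pkMul E u e c rr) (E α) x₀ := by
  by_cases hxc : x₀ ∈ collarIm E u e c α
  · have hN := pk_col_nhds hcol hxc
    have h1 : ContinuousWithinAt (fun x => e (rr x)) (collarIm E u e c α) x₀ :=
      (pk_e_rr_cont hcol α) x₀ hxc
    have h2 : ContinuousWithinAt u (collarIm E u e c α) x₀ :=
      ((hC.u_cont hD α).mono (pk_col_sub hcol α)) x₀ hxc
    have h3 : ContinuousWithinAt (fun x => max 1 (e (rr x) / 2 / (2 * |u x|)))
        (collarIm E u e c α) x₀ := by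
      refine continuousWithinAt_const.max ((h1.div_const 2).div (continuousWithinAt_const.mul h2.abs) ?_)
      have : 0 < |u x₀| := abs_pos.2 hu
      positivity
    have h4 : ContinuousWithinAt (pkMul E u e c rr) (collarIm E u e c α) x₀ := by
      refine h3.congr (fun x hx => ?_) ?_
      · unfold pkMul
        rw [if_pos (pk_mem_col_of hx)]
      · unfold pkMul
        rw [if_pos (pk_mem_col_of hxc)]
    exact h4.mono_of_mem_nhdsWithin hN
  · have hx₀' : x₀ ∉ pkHalf E u e c α := fun h => hxc (pk_half_sub α h)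
    have hO := (pk_half_closed hD hC hcol α).isOpen_compl.mem_nhds hx₀'
    refine (continuousWithinAt_const (b := (1 : ℝ))).congr_of_eventuallyEq ?_
      (pk_off_half hD hcol hx₀ hx₀').2
    filter_upwards [mem_nhdsWithin_of_mem_nhds hO, self_mem_nhdsWithin] with x h1 h2
    exact (pk_off_half hD hcol h2 h1).2

end

end Claimed.Agent.R315
end

/- ===== packed: Claimed.Agent.R315.Ss.ExtDefs ===== -/
section
/-!
# Row 315, paper S: closed extension of a compact region, definitions   (replaces "modify to product form near the boundary and double"); NO sorry here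

`M ⊆ E N` closed `n`-manifold, `K0 ⊆ M` compact.  CONSTRUCTION:
   `P = sseP M a R = {(x,y) ∈ M × ℝ | |x-a|² + y² = R²}` (the double of `M ∩ ball a R`),   `ι x = sseI a R x = (x, √(R² - |x-a|²))`,   `O = ball a (R/4)`,
with `K0 ⊆ ball a (R/4)` and `(a,R)` GENERIC (`SseReg`): the sphere `|x-a| = R` is nowhere tangent to `M`.
Metric on `P`: `sseH h χ = π^*h + (1-χ(x)) dy²`, `χ` an ambient bump, `= 1` on `ball a (R/4)`, `= 0` off `ball a (R/2)`.
FILES: `Ext1` (genericity = Sard by dimension count), `Ext2` (`P` is a compact manifold, `ι∘ψ` are parametrisations), `Ext3` (functions and metrics), `Ext` (assembly `ss_ext`, PROVED).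
Manifold infrastructure: `Pk/Mfd.lean` (helper29: `pk_mfd_prod`, `pk_mfd_level`, `pk_param_prod`, `pk_smoothAlong_fst`, `pk_ten_comp`, `pk_met_comp_pos`, ...), `If/Loc.lean` (helper274).
-/

set_option autoImplicit false
open scoped ContDiff
open Claims.C0499

namespace Claimed.Agent.R315

variable {N : ℕ}

/-- the double of `M ∩ ball a R`. -/
def sseP (M : Set (E N)) (a : E N) (R : ℝ) : Set (E N × ℝ) :=
  {z | z.1 ∈ M ∧ ‖z.1 - a‖ ^ 2 + z.2 ^ 2 = R ^ 2}

/-- the upper sheet. -/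
noncomputable def sseI (a : E N) (R : ℝ) (x : E N) : E N × ℝ :=
  (x, Real.sqrt (R ^ 2 - ‖x - a‖ ^ 2))

/-- the sphere `|x - a|² = c` is transversal to `M`. -/
def SseReg (n : ℕ) (M : Set (E N)) (a : E N) (c : ℝ) : Prop :=
  ∀ (ψ : E n → E N) (U : Set (E n)), IsParam M ψ U → ∀ u ∈ U, ‖ψ u - a‖ ^ 2 = c →
    fderiv ℝ (fun v => ‖ψ v - a‖ ^ 2) u ≠ 0

/-- `π^*h + (1-χ) dy²`. -/
noncomputable def sseH (h : Ten (E N)) (χ : E N → ℝ) : Ten (E N × ℝ) := fun z =>
  (h z.1).bilinearComp (ContinuousLinearMap.fst ℝ (E N) ℝ) (ContinuousLinearMap.fst ℝ (E N) ℝ) +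
    (1 - χ z.1) • (ContinuousLinearMap.snd ℝ (E N) ℝ).smulRight (ContinuousLinearMap.snd ℝ (E N) ℝ)

theorem sseH_apply (h : Ten (E N)) (χ : E N → ℝ) (z v w : E N × ℝ) :
    sseH h χ z v w = h z.1 v.1 w.1 + (1 - χ z.1) * (v.2 * w.2) := by
  simp [sseH]

end Claimed.Agent.R315
end

/- ===== packed: Claimed.Agent.R315.Ss.LsDefs ===== -/
section
/-!
# Row 315, paper S: LERAY-SCHAUDER EXISTENCE ON A CLOSED MANIFOLD, definitions (`LsAtlas`, `LsLe`, `LsH`, `LsHol`, `lsOp`, `lsJ`, `LsStr`, `LsEqC`, `LsEq`); NO sorry here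

GOAL `ls_main`: `P` a closed `d`-manifold with a finite atlas `ψ α : U α → P`, `closedBall 0 4 ⊆ U α`, `P ⊆ ⋃ ψ α '' ball 0 1`.  A *structure* `S : LsStr d m` gives in every chart smooth functions
`a^{ij}, b^i, F` of the 1-jet `q = (y, z, p)`; `a` positive definite.  For smooth `v, u` the relation `LsEq S ψ σ v u` says: in every chart, on `ball 0 4`,
      `a^{ij}(J v) ∂_i∂_j u + b^i(J v) ∂_i u - u = σ F(J v)`.
HYPOTHESES: (`hsol`) the frozen LINEAR problem `LsEq S ψ 1 v u` is solvable in smooth functions for every smooth `v`;  (`hap`) a `C²` a priori bound for the smooth solutions of `LsEq S ψ σ x x`, `0 ≤ σ ≤ 1`;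
(`hreg`) `C^{2,1/2}` solutions of the chart equation are smooth.  CONCLUSION: a smooth solution of `LsEq S ψ 1 x x`.
ONLY SMOOTH FUNCTIONS are fed into the linear solver; the only non-smooth object is the limit in `ls_limit`.
It is applied twice (`Ss/LsLin.lean`): LEVEL 1 (linear non self-adjoint operators from the self-adjoint solver `gs_solve` of `Gs/Solve.lean`), LEVEL 2 (the quasilinear equation of paper S).

NORMS AS PREDICATES: `LsLe ψ r f R`: `‖D^j (f∘ψ α)‖ ≤ R` on `closedBall 0 r`, `j ≤ 2`, all charts.  `LsHol ψ r f R`: `D²(f∘ψ α)` is Hölder-`1/2` with constant `R` on `ball 0 r`.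
-/

set_option autoImplicit false
open scoped ContDiff Topology
open Claims.C0499

namespace Claimed.Agent.R315

variable {V : Type} [NormedAddCommGroup V] [NormedSpace ℝ V]
variable {d m : ℕ}

/-- a finite atlas of a closed manifold. -/
structure LsAtlas (d : ℕ) (P : Set V) {m : ℕ} (ψ : Fin m → E d → V) (U : Fin m → Set (E d)) :
    Prop where
  par : ∀ α, IsParam P (ψ α) (U α)
  big : ∀ α, Metric.closedBall (0 : E d) 4 ⊆ U α
  cov : P ⊆ ⋃ α, ψ α '' Metric.ball 0 1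

/-- `C²` bound on the balls of radius `r` of all charts. -/
def LsLe (ψ : Fin m → E d → V) (r : ℝ) (f : V → ℝ) (R : ℝ) : Prop :=
  ∀ α, ∀ y ∈ Metric.closedBall (0 : E d) r, ∀ j ≤ 2, ‖iteratedFDeriv ℝ j (f ∘ ψ α) y‖ ≤ R

/-- Hölder-`1/2` bound of a map on a ball. -/
def LsH {F : Type} [NormedAddCommGroup F] (r : ℝ) (g : E d → F) (R : ℝ) : Prop :=
  ∀ y ∈ Metric.ball (0 : E d) r, ∀ y' ∈ Metric.ball (0 : E d) r,
    ‖g y - g y'‖ ≤ R * ‖y - y'‖ ^ (1 / 2 : ℝ)

/-- Hölder bound of the second derivatives in all charts. -/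
def LsHol (ψ : Fin m → E d → V) (r : ℝ) (f : V → ℝ) (R : ℝ) : Prop :=
  ∀ α, LsH r (iteratedFDeriv ℝ 2 (f ∘ ψ α)) R

/-- `A^{ij} ∂_i∂_j ξ + B^i ∂_i ξ - ξ`. -/
noncomputable def lsOp (A : Matrix (Fin d) (Fin d) ℝ) (B : Fin d → ℝ) (ξ : E d → ℝ) (y : E d) : ℝ :=
  ∑ i, ∑ j, A i j * rm_p2 ξ i j y + ∑ i, B i * pdiff ξ i y - ξ y

/-- the 1-jet `(y, ξ y, ∂ξ y)`. -/
noncomputable def lsJ (ξ : E d → ℝ) (y : E d) : E d × ℝ × (Fin d → ℝ) :=
  (y, ξ y, fun i => pdiff ξ i y)

/-- structure functions in the charts of an atlas. -/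
structure LsStr (d m : ℕ) where
  a : Fin m → E d × ℝ × (Fin d → ℝ) → Matrix (Fin d) (Fin d) ℝ
  b : Fin m → E d × ℝ × (Fin d → ℝ) → Fin d → ℝ
  F : Fin m → E d × ℝ × (Fin d → ℝ) → ℝ

structure LsStr.Ok (S : LsStr d m) (U : Fin m → Set (E d)) : Prop where
  a_s : ∀ α i j, ContDiffOn ℝ ∞ (fun q => S.a α q i j) (U α ×ˢ Set.univ)
  b_s : ∀ α i, ContDiffOn ℝ ∞ (fun q => S.b α q i) (U α ×ˢ Set.univ)
  F_s : ∀ α, ContDiffOn ℝ ∞ (S.F α) (U α ×ˢ Set.univ)
  a_pos : ∀ α, ∀ q ∈ U α ×ˢ (Set.univ : Set (ℝ × (Fin d → ℝ))), (S.a α q).PosDef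

/-- the chart equation on `ball 0 r`: coefficients frozen at `η`, unknown `ξ`. -/
def LsEqC (S : LsStr d m) (α : Fin m) (σ r : ℝ) (η ξ : E d → ℝ) : Prop :=
  ∀ y ∈ Metric.ball (0 : E d) r,
    lsOp (S.a α (lsJ η y)) (S.b α (lsJ η y)) ξ y = σ * S.F α (lsJ η y)

/-- the equation in all charts, on `ball 0 4`. -/
def LsEq (S : LsStr d m) (ψ : Fin m → E d → V) (σ : ℝ) (v u : V → ℝ) : Prop :=
  ∀ α, LsEqC S α σ 4 (v ∘ ψ α) (u ∘ ψ α)

end Claimed.Agent.R315
end

/- ===== packed: Claimed.Agent.R315.Ss.ResDefs ===== -/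
section
/-!
# Row 315, paper S: Sections 3.1-3.4: definitions `ssG0`, `ssUp`, `ssRicUU`, `ssHessUU`; NO sorry here

Equation (S (3.7)):  `div_{h,w}(∇u/√(1+σ)) = 10 (u - w)`,  flux `ssG0 σ = 1/√(1+σ)`, `ω = ssG0 σ`, `Ĝ = G + du² = ssHuC G (fun _ => 1) u`.
-/

set_option autoImplicit false
open scoped ContDiff Topology
open Claims.C0499

namespace Claimed.Agent.R315

variable {V : Type} [NormedAddCommGroup V] [NormedSpace ℝ V]
variable {d : ℕ}

/-- the mean curvature flux coefficient `1/√(1+σ)`. -/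
noncomputable def ssG0 (σ : ℝ) : ℝ := 1 / Real.sqrt (1 + σ)

/-- `∇u`, components. -/
noncomputable def ssUp (G : rm_MF d) (u : E d → ℝ) (y : E d) (i : Fin d) : ℝ :=
  ∑ k, (G y)⁻¹ i k * pdiff u k y

/-- `Ric(∇u,∇u)`. -/
noncomputable def ssRicUU (G : rm_MF d) (u : E d → ℝ) (y : E d) : ℝ :=
  ∑ i, ∑ j, ricciCoord G y i j * ssUp G u y i * ssUp G u y j

/-- `Hess f(∇u,∇u)`. -/
noncomputable def ssHessUU (G : rm_MF d) (f u : E d → ℝ) (y : E d) : ℝ :=
  ∑ i, ∑ j, hessC G f y i j * ssUp G u y i * ssUp G u y j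

end Claimed.Agent.R315
end

/- ===== packed: Claimed.Agent.R315.T3.Slab ===== -/
section
/-!
# Row 315, paper T (n = 3), package T3-Slab: bounded components of distance slabs (T Prop. 5.2)

Abstract form: `X` a topological space, `d : X → X → ℝ` a symmetric function with the triangle
inequality, `R` an open connected set (a component of the complement of the cut surfaces), `H` the
class of closed hypersurfaces.  `TRad d H R o r l₀ W₁ W₂` collects what the analytic part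
(weighted bubbles, T Prop. 4.2) delivers about the radial function `r` of `R`.

`t3_slab_abs` is PROVED here from `twall_inter_conn`.
-/

set_option autoImplicit false
open Set Topology

namespace Claimed.Agent.R315

variable {X : Type} [TopologicalSpace X]

/-- the radial function `r` of the region `R` with base point `o`:
* `le`  : `d(o,x) ≤ r(x)`;
* `pe`  : (path estimate) if the compact set `F` separates `o` from `x` in `R` then some `z ∈ F` has
  `d(z,x) ≤ r(x) - r(z) + ε`;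
* `bub` : (separating interfaces, T Prop. 4.2) for every level `l ≥ l₀` there are finitely many
  disjoint closed hypersurfaces `F i ⊆ R ∩ {r > l - W₁}` of `d`-diameter `≤ W₂` whose union
  separates `o` from `{r ≥ l}`. -/
structure TRad (d : X → X → ℝ) (H : Set X → Prop) (R : Set X) (o : X) (r : X → ℝ)
    (l₀ W₁ W₂ : ℝ) : Prop where
  mem : o ∈ R
  le : ∀ x ∈ R, d o x ≤ r x
  pe : ∀ F A A' : Set X, IsCompact F → F ⊆ R → IsOpen A → IsOpen A' → Disjoint A A' →
    A ∪ A' = R \ F → o ∈ A → ∀ x ∈ A', ∀ ε > 0, ∃ z ∈ F, d z x ≤ r x - r z + ε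
  bub : ∀ l, l₀ ≤ l → ∃ (m : ℕ) (F : Fin m → Set X) (Up Um : Set X),
    (∀ i, H (F i) ∧ F i ⊆ R ∧ (∀ z ∈ F i, l - W₁ < r z) ∧ ∀ z ∈ F i, ∀ z' ∈ F i, d z z' ≤ W₂) ∧
    Pairwise (Function.onFun Disjoint F) ∧ IsOpen Up ∧ IsOpen Um ∧ Disjoint Up Um ∧
    Up ∪ Um = R \ ⋃ i, F i ∧ o ∈ Up ∧ ∀ x ∈ R, l ≤ r x → x ∈ Um

/-- a set which is not preconnected, relatively to an open set: open partition with a marked
point. -/
theorem t3_split_of_not_preconnected {Y : Set X} (hY : IsOpen Y) (h : ¬ IsPreconnected Y) {o : X}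
    (ho : o ∈ Y) :
    ∃ A A' : Set X, IsOpen A ∧ IsOpen A' ∧ Disjoint A A' ∧ A ∪ A' = Y ∧ o ∈ A ∧ A'.Nonempty := by
  rw [IsPreconnected] at h
  simp only [not_forall] at h
  obtain ⟨u, v, hu, hv, hsub, hun, hvn, hne⟩ := h
  have hdis : Disjoint (Y ∩ u) (Y ∩ v) := by
    rw [Set.disjoint_left]
    intro x hx hx'
    exact hne ⟨x, hx.1, hx.2, hx'.2⟩
  have hun' : (Y ∩ u) ∪ (Y ∩ v) = Y := by
    ext x
    constructor
    · rintro (hx | hx) <;> exact hx.1
    · intro hx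
      rcases hsub hx with h1 | h1
      · exact Or.inl ⟨hx, h1⟩
      · exact Or.inr ⟨hx, h1⟩
  rcases hsub ho with h1 | h1
  · exact ⟨Y ∩ u, Y ∩ v, hY.inter hu, hY.inter hv, hdis, hun', ⟨ho, h1⟩, hvn⟩
  · exact ⟨Y ∩ v, Y ∩ u, hY.inter hv, hY.inter hu, hdis.symm, by rw [Set.union_comm]; exact hun',
      ⟨ho, h1⟩, hun⟩

/-- **Slab diameter bound** (T Proposition 5.2). -/
theorem t3_slab_abs [T2Space X] (d : X → X → ℝ) (hsymm : ∀ x y, d x y = d y x)
    (htri : ∀ x y z, d x z ≤ d x y + d y z) (H : Set X → Prop) (hH : ∀ F, H F → TSurf F)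
    {R : Set X} (hR : IsOpen R) (hRc : IsPreconnected R)
    (hsep : ∀ F, H F → F ⊆ R → ¬ IsPreconnected (R \ F))
    {o : X} {r : X → ℝ} {l₀ W₁ W₂ : ℝ} (h : TRad d H R o r l₀ W₁ W₂) (w₀ l : ℝ) (C : Set X)
    (hC : IsPreconnected C) (hCR : C ⊆ R) (hl : ∀ x ∈ C, l < r x ∧ r x < l + w₀) :
    ∀ x ∈ C, ∀ y ∈ C, d x y ≤ max (2 * (l₀ + w₀)) (2 * (w₀ + W₁) + W₂) := by
  intro x hx y hy
  rcases lt_or_ge l l₀ with hll | hll
  · -- small levels: triangle inequality through `o`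
    refine le_trans ?_ (le_max_left _ _)
    have h1 := h.le x (hCR hx)
    have h2 := h.le y (hCR hy)
    have h3 := htri x o y
    rw [hsymm x o] at h3
    have := (hl x hx).2
    have := (hl y hy).2
    linarith
  · refine le_trans ?_ (le_max_right _ _)
    obtain ⟨m, F, Up, Um, hF, hdis, hUp, hUm, hUU, hcov, hoU, hfar⟩ := h.bub l hll
    have hoF : ∀ i, o ∈ R \ F i := by
      intro i
      have : o ∈ R \ ⋃ i, F i := hcov ▸ Or.inl hoU
      exact ⟨this.1, fun hh => this.2 (mem_iUnion.mpr ⟨i, hh⟩)⟩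
    have hFc : ∀ i, IsClosed (F i) := fun i => (hH _ (hF i).1).1.isClosed
    choose A A' hA hA' hAA hAU hoA hne using fun i =>
      t3_split_of_not_preconnected (hR.sdiff (hFc i)) (hsep (F i) (hF i).1 (hF i).2.1) (hoF i)
    have hG := twall_inter_conn hR hRc F A A' (fun i => hH _ (hF i).1) (fun i => (hF i).2.1) hdis
      hA hA' hAA hAU o hoA hne
    -- `C ⊆ Um`
    have hCU : C ⊆ Um := fun z hz => hfar z (hCR hz) (hl z hz).1.le
    -- some `A' i` contains `C`
    have hex : ∃ i, C ⊆ A' i := by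
      by_contra hno
      simp only [not_exists] at hno
      have hCA : ∀ i, C ⊆ A i := by
        intro i
        have hCsub : C ⊆ A i ∪ A' i := by
          intro z hz
          rw [hAU i]
          have : z ∈ R \ ⋃ i, F i := hcov ▸ Or.inr (hCU hz)
          exact ⟨this.1, fun hh => this.2 (mem_iUnion.mpr ⟨i, hh⟩)⟩
        rcases hC.subset_or_subset (hA i) (hA' i) (hAA i) hCsub with h1 | h1
        · exact h1
        · exact absurd h1 (hno i)
      -- `G ⊆ Up`
      have hGsub : R ∩ ⋂ i, A i ⊆ Up ∪ Um := by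
        intro z hz
        rw [hcov]
        refine ⟨hz.1, ?_⟩
        intro hh
        obtain ⟨i, hi⟩ := mem_iUnion.mp hh
        have : z ∈ A i ∪ A' i := Or.inl (mem_iInter.mp hz.2 i)
        rw [hAU i] at this
        exact this.2 hi
      have hoG : o ∈ R ∩ ⋂ i, A i := ⟨h.mem, mem_iInter.mpr hoA⟩
      rcases hG.subset_or_subset hUp hUm hUU hGsub with h1 | h1
      · have hxG : x ∈ R ∩ ⋂ i, A i := ⟨hCR hx, mem_iInter.mpr fun i => hCA i hx⟩
        exact (Set.disjoint_left.mp hUU) (h1 hxG) (hCU hx)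
      · exact (Set.disjoint_left.mp hUU) hoU (h1 hoG)
    obtain ⟨i, hi⟩ := hex
    refine le_of_forall_pos_le_add ?_
    intro ε hε
    obtain ⟨z, hz, hzx⟩ := h.pe (F i) (A i) (A' i) (hH _ (hF i).1).1 (hF i).2.1 (hA i) (hA' i)
      (hAA i) (hAU i) (hoA i) x (hi hx) (ε / 2) (by positivity)
    obtain ⟨z', hz', hzy⟩ := h.pe (F i) (A i) (A' i) (hH _ (hF i).1).1 (hF i).2.1 (hA i) (hA' i)
      (hAA i) (hAU i) (hoA i) y (hi hy) (ε / 2) (by positivity)
    have e1 := (hF i).2.2.1 z hz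
    have e2 := (hF i).2.2.1 z' hz'
    have e3 := (hF i).2.2.2 z hz z' hz'
    have t1 := htri x z y
    have t2 := htri z z' y
    rw [hsymm x z] at t1
    have := (hl x hx).2
    have := (hl y hy).2
    linarith

end Claimed.Agent.R315
end

/- ===== packed: Claimed.Agent.R315.T3.Max ===== -/
section
/-!
# Row 315, paper T (n = 3), package T3-Max: the maximal family of cut surfaces (T Section 3.1)

Abstract form.  `L` is the class of cut surfaces (`TSurf`s of `d`-diameter `≤ δ₀`).  A family is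
admissible (`TAdm`) if its members are pairwise disjoint members of `L` and no finite subfamily
disconnects `X`.  `t3_max_abs` (PROVED here from `t3_fin_abs`, `twall_conn_of_sub` and Zorn's lemma):
there is an admissible family which is locally finite and such that no member of `L` contained in a
complementary component `R` has connected complement in `R`.
-/

set_option autoImplicit false
open Set Topology

namespace Claimed.Agent.R315

variable {X : Type} [TopologicalSpace X]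

/-- `R` is a connected component of the complement of the union of the family. -/
def TComp (𝒮 : Set (Set X)) (R : Set X) : Prop :=
  ∃ x ∈ (⋃₀ 𝒮)ᶜ, R = connectedComponentIn (⋃₀ 𝒮)ᶜ x

/-- admissible families of cut surfaces. -/
def TAdm (L : Set X → Prop) (𝒮 : Set (Set X)) : Prop :=
  (∀ S ∈ 𝒮, L S) ∧ 𝒮.PairwiseDisjoint id ∧
    ∀ 𝒯 : Finset (Set X), (𝒯 : Set (Set X)) ⊆ 𝒮 → IsPreconnected (⋃₀ (𝒯 : Set (Set X)))ᶜ

theorem tComp_eqns_cite : True := by
  have := @TComp.eq_1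
  have := @TAdm.eq_1
  trivial

theorem t3_finset_subset_chain {α : Type} {c : Set (Set α)} (hc : IsChain (· ⊆ ·) c)
    (hne : c.Nonempty) (T : Finset α) (hT : (T : Set α) ⊆ ⋃₀ c) : ∃ a ∈ c, (T : Set α) ⊆ a := by
  classical
  induction T using Finset.induction_on with
  | empty =>
    obtain ⟨a, ha⟩ := hne
    exact ⟨a, ha, by simp⟩
  | insert x T _ ih =>
    rw [Finset.coe_insert] at hT
    obtain ⟨a, ha, hTa⟩ := ih (fun y hy => hT (Or.inr hy))
    obtain ⟨b, hb, hxb⟩ := hT (Or.inl rfl)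
    rcases hc.total ha hb with h | h
    · refine ⟨b, hb, ?_⟩
      rw [Finset.coe_insert]
      rintro y (rfl | hy)
      · exact hxb
      · exact h (hTa hy)
    · refine ⟨a, ha, ?_⟩
      rw [Finset.coe_insert]
      rintro y (rfl | hy)
      · exact h hxb
      · exact hTa hy

/-- Zorn's lemma for admissible families. -/
theorem t3_exists_maximal [PreconnectedSpace X] (L : Set X → Prop) :
    ∃ 𝒮 : Set (Set X), Maximal (fun 𝒮 => TAdm L 𝒮) 𝒮 := by
  refine zorn_subset {𝒮 | TAdm L 𝒮} ?_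
  intro c hcS hc
  rcases c.eq_empty_or_nonempty with rfl | hne
  · refine ⟨∅, ⟨by simp, by simp, ?_⟩, by simp⟩
    intro 𝒯 h𝒯
    have : (𝒯 : Set (Set X)) = ∅ := Set.subset_empty_iff.mp h𝒯
    rw [this]
    simpa using isPreconnected_univ
  · refine ⟨⋃₀ c, ⟨?_, ?_, ?_⟩, fun s hs => Set.subset_sUnion_of_mem hs⟩
    · rintro S ⟨a, ha, hSa⟩
      exact (hcS ha).1 S hSa
    · rintro S ⟨a, ha, hSa⟩ S' ⟨b, hb, hSb⟩ hne'
      rcases hc.total ha hb with h | h
      · exact (hcS hb).2.1 (h hSa) hSb hne'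
      · exact (hcS ha).2.1 hSa (h hSb) hne'
    · intro 𝒯 h𝒯
      obtain ⟨a, ha, hTa⟩ := t3_finset_subset_chain hc hne 𝒯 h𝒯
      exact (hcS ha).2.2 𝒯 hTa

/-- admissible families of surfaces of bounded diameter are locally finite. -/
theorem t3_adm_locallyFinite [T2Space X] [LocallyCompactSpace X] [LocallyConnectedSpace X]
    (d : X → X → ℝ) (htri : ∀ x y z, d x z ≤ d x y + d y z)
    (hcont : ∀ p, ∀ w > 0, ∃ W ∈ 𝓝 p, ∀ x ∈ W, d p x ≤ w)
    (hprop : ∀ p ρ, IsCompact {x | d p x ≤ ρ})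
    (hlift : ∀ x : X, ∀ W ∈ 𝓝 x, ∃ U : Set X, IsOpen U ∧ x ∈ U ∧ U ⊆ W ∧ TLift U)
    (L : Set X → Prop) (hL : ∀ S, L S → TSurf S) (δ₀ : ℝ)
    (hLd : ∀ S, L S → ∀ x ∈ S, ∀ y ∈ S, d x y ≤ δ₀) {𝒮 : Set (Set X)} (h : TAdm L 𝒮) :
    LocallyFinite (fun S : 𝒮 => (S : Set X)) := by
  classical
  intro x
  obtain ⟨n, hn⟩ := t3_fin_abs hlift {y | d x y ≤ 1 + δ₀} (hprop x _)
  obtain ⟨W, hW, hWd⟩ := hcont x 1 one_pos
  refine ⟨W, hW, ?_⟩
  by_contra hinf
  have hinf' : ({S : 𝒮 | ((S : Set X) ∩ W).Nonempty}).Infinite := hinf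
  obtain ⟨T, hT, hcard⟩ := hinf'.exists_subset_card_eq (n + 1)
  -- the finset of underlying sets
  set 𝒯 : Finset (Set X) := T.image (fun S : 𝒮 => (S : Set X)) with h𝒯
  have hc𝒯 : 𝒯.card = n + 1 := by
    rw [h𝒯, Finset.card_image_of_injective _ Subtype.val_injective, hcard]
  have hsub : (𝒯 : Set (Set X)) ⊆ 𝒮 := by
    intro S hS
    rw [h𝒯, Finset.coe_image] at hS
    obtain ⟨S', _, rfl⟩ := hS
    exact S'.2
  have hmeet : ∀ S ∈ 𝒯, (S ∩ W).Nonempty := by
    intro S hS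
    rw [h𝒯, Finset.mem_image] at hS
    obtain ⟨S', hS', rfl⟩ := hS
    exact hT hS'
  let e := 𝒯.equivFin.symm
  have key := hn 𝒯.card (fun i => ((e i : 𝒯) : Set X)) (fun i => hL _ (h.1 _ (hsub (e i).2))) ?_ ?_ ?_
  · omega
  · intro i z hz
    obtain ⟨y, hyS, hyW⟩ := hmeet _ (e i).2
    have h1 := hWd y hyW
    have h2 := hLd _ (h.1 _ (hsub (e i).2)) y hyS z hz
    have h3 := htri x y z
    show d x z ≤ 1 + δ₀
    linarith
  · intro i j hij
    have hne : ((e i : 𝒯) : Set X) ≠ ((e j : 𝒯) : Set X) := by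
      intro hh
      exact hij (e.injective (Subtype.ext hh))
    exact h.2.1 (hsub (e i).2) (hsub (e j).2) hne
  · have : (⋃ i, ((e i : 𝒯) : Set X)) = ⋃₀ (𝒯 : Set (Set X)) := by
      ext z
      simp only [mem_iUnion, mem_sUnion, Finset.mem_coe]
      constructor
      · rintro ⟨i, hi⟩
        exact ⟨_, (e i).2, hi⟩
      · rintro ⟨S, hS, hz⟩
        exact ⟨e.symm ⟨S, hS⟩, by simpa using hz⟩
    rw [this]
    exact h.2.2 𝒯 hsub

/-- **The maximal family** (T Section 3.1). -/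
theorem t3_max_abs [T2Space X] [LocallyCompactSpace X] [LocallyConnectedSpace X]
    [PreconnectedSpace X]
    (d : X → X → ℝ) (htri : ∀ x y z, d x z ≤ d x y + d y z)
    (hcont : ∀ p, ∀ w > 0, ∃ W ∈ 𝓝 p, ∀ x ∈ W, d p x ≤ w)
    (hprop : ∀ p ρ, IsCompact {x | d p x ≤ ρ})
    (hlift : ∀ x : X, ∀ W ∈ 𝓝 x, ∃ U : Set X, IsOpen U ∧ x ∈ U ∧ U ⊆ W ∧ TLift U)
    (L : Set X → Prop) (hL : ∀ S, L S → TSurf S) (δ₀ : ℝ)
    (hLd : ∀ S, L S → ∀ x ∈ S, ∀ y ∈ S, d x y ≤ δ₀) :
    ∃ 𝒮 : Set (Set X), (∀ S ∈ 𝒮, L S) ∧ 𝒮.PairwiseDisjoint id ∧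
      LocallyFinite (fun S : 𝒮 => (S : Set X)) ∧
      ∀ R S', TComp 𝒮 R → L S' → S' ⊆ R → ¬ IsPreconnected (R \ S') := by
  classical
  obtain ⟨𝒮, hmax⟩ := t3_exists_maximal (X := X) L
  have hadm : TAdm L 𝒮 := hmax.prop
  have hlf := t3_adm_locallyFinite d htri hcont hprop hlift L hL δ₀ hLd hadm
  refine ⟨𝒮, hadm.1, hadm.2.1, hlf, ?_⟩
  rintro R S' ⟨x, hx, rfl⟩ hS' hS'R hconn
  set Y₀ : Set X := (⋃₀ 𝒮)ᶜ with hY₀
  have hclosed : IsClosed (⋃₀ 𝒮) := by
    have := hlf.isClosed_iUnion (fun S => (hL _ (hadm.1 _ S.2)).1.isClosed)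
    rwa [← Set.sUnion_eq_iUnion] at this
  have hY₀o : IsOpen Y₀ := hclosed.isOpen_compl
  have hRo : IsOpen (connectedComponentIn Y₀ x) := hY₀o.connectedComponentIn
  have hRsub : connectedComponentIn Y₀ x ⊆ Y₀ := connectedComponentIn_subset _ _
  have hS'dis : ∀ S ∈ 𝒮, Disjoint S' S := by
    intro S hS
    rw [Set.disjoint_left]
    intro z hz hzS
    exact hRsub (hS'R hz) ⟨S, hS, hzS⟩
  have hS'ne : S'.Nonempty := (hL _ hS').2.1.nonempty
  have hS'not : S' ∉ 𝒮 := by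
    intro hmem
    obtain ⟨z, hz⟩ := hS'ne
    exact (Set.disjoint_left.mp (hS'dis S' hmem)) hz hz
  -- the enlarged family is admissible
  have hadm' : TAdm L (insert S' 𝒮) := by
    refine ⟨?_, ?_, ?_⟩
    · rintro S (rfl | hS)
      · exact hS'
      · exact hadm.1 S hS
    · rintro S hS T hT hne
      rcases hS with rfl | hS <;> rcases hT with rfl | hT
      · exact absurd rfl hne
      · exact hS'dis T hT
      · exact (hS'dis S hS).symm
      · exact hadm.2.1 hS hT hne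
    · intro 𝒯 h𝒯
      by_cases hmem : S' ∈ 𝒯
      · set 𝒯₀ := 𝒯.erase S' with h𝒯₀
        have hsub₀ : (𝒯₀ : Set (Set X)) ⊆ 𝒮 := by
          intro S hS
          rw [h𝒯₀, Finset.coe_erase] at hS
          rcases h𝒯 hS.1 with h1 | h1
          · exact absurd h1 hS.2
          · exact h1
        have hYc := hadm.2.2 𝒯₀ hsub₀
        have hYo : IsOpen (⋃₀ (𝒯₀ : Set (Set X)))ᶜ := by
          have hcl : IsClosed (⋃₀ (𝒯₀ : Set (Set X))) := by
            rw [Set.sUnion_eq_biUnion]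
            exact (Finset.finite_toSet 𝒯₀).isClosed_biUnion
              (fun S hS => (hL _ (hadm.1 _ (hsub₀ hS))).1.isClosed)
          exact hcl.isOpen_compl
        have hRY : connectedComponentIn Y₀ x ⊆ (⋃₀ (𝒯₀ : Set (Set X)))ᶜ := by
          intro z hz hz'
          obtain ⟨S, hS, hzS⟩ := hz'
          exact hRsub hz ⟨S, hsub₀ hS, hzS⟩
        have := twall_conn_of_sub hYo hYc hRo hRY (hL _ hS') hS'R hconn
        have heq : (⋃₀ (𝒯 : Set (Set X)))ᶜ = (⋃₀ (𝒯₀ : Set (Set X)))ᶜ \ S' := by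
          ext z
          simp only [mem_compl_iff, mem_sUnion, Finset.mem_coe, not_exists, not_and, mem_sdiff,
            h𝒯₀, Finset.mem_erase]
          constructor
          · intro hz
            exact ⟨fun S hS => hz S hS.2, hz S' hmem⟩
          · rintro ⟨h1, h2⟩ S hS
            by_cases hSS : S = S'
            · rw [hSS]; exact h2
            · exact h1 S ⟨hSS, hS⟩
        rw [heq]
        exact this
      · refine hadm.2.2 𝒯 ?_
        intro S hS
        rcases h𝒯 hS with h1 | h1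
        · exact absurd (h1 ▸ hS) hmem
        · exact h1
  have := hmax.le_of_ge hadm' (Set.subset_insert _ _)
  exact hS'not (this (Set.mem_insert _ _))

end Claimed.Agent.R315
end

/- ===== packed: Claimed.Agent.R315.T3.Abs ===== -/
section
/-!
# Row 315, paper T (n = 3): the abstract main theorem

`t3_abs` (PROVED here from `t3_max_abs`, `t3_slab_abs`, `t3_cover_abs`): all of paper T which is not
analysis.  `X` = the manifold, `d` = Riemannian distance, `H` = closed connected two-sided smooth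
hypersurfaces, `L ⊆` cut surfaces (locally area minimising closed surfaces).  Analytic input:

* `SEP` (T Lemma 3.2): a member of `H` which does not separate its complementary region `R` produces
  a member of `L` in `R` which does not separate `R`;
* `BUB` (T Proposition 4.2 + properties of the distance function of the cut manifold): the radial
  function `r` on the complement of the cuts.
-/

set_option autoImplicit false
open Set Topology

namespace Claimed.Agent.R315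

/-- **Paper T, abstract form.** -/
theorem t3_abs {X : Type} [MetricSpace X] [ProperSpace X] [LocallyConnectedSpace X]
    [PreconnectedSpace X]
    (d : X → X → ℝ) (hsymm : ∀ x y, d x y = d y x) (htri : ∀ x y z, d x z ≤ d x y + d y z)
    (hcont : ∀ p, ∀ w > 0, ∃ W ∈ 𝓝 p, ∀ x ∈ W, d p x ≤ w)
    (hprop : ∀ p ρ, IsCompact {x | d p x ≤ ρ})
    (hlift : ∀ x : X, ∀ W ∈ 𝓝 x, ∃ U : Set X, IsOpen U ∧ x ∈ U ∧ U ⊆ W ∧ TLift U)
    (H L : Set X → Prop) (hH : ∀ F, H F → TSurf F) (hL : ∀ S, L S → TSurf S)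
    (δ₀ β l₀ W₁ W₂ : ℝ) (hβ : 0 ≤ β) (hLd : ∀ S, L S → ∀ x ∈ S, ∀ y ∈ S, d x y ≤ δ₀)
    (SEP : ∀ 𝒮 : Set (Set X), (∀ S ∈ 𝒮, L S) → 𝒮.PairwiseDisjoint id →
      LocallyFinite (fun S : 𝒮 => (S : Set X)) → ∀ R F, TComp 𝒮 R → H F → F ⊆ R →
      IsPreconnected (R \ F) → ∃ S', L S' ∧ S' ⊆ R ∧ IsPreconnected (R \ S'))
    (BUB : ∀ 𝒮 : Set (Set X), (∀ S ∈ 𝒮, L S) → 𝒮.PairwiseDisjoint id →
      LocallyFinite (fun S : 𝒮 => (S : Set X)) → ∃ r : X → ℝ, ContinuousOn r (⋃₀ 𝒮)ᶜ ∧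
      (∀ S ∈ 𝒮, ∃ W, IsOpen W ∧ S ⊆ W ∧ ∀ A ⊆ W \ ⋃₀ 𝒮, IsPreconnected A →
        ∀ x ∈ A, ∀ y ∈ A, |r x - r y| ≤ β) ∧
      ∀ R, TComp 𝒮 R → ∃ o, TRad d H R o r l₀ W₁ W₂) :
    ∃ (J : Type) (U : J → Set X), (∀ j, IsOpen (U j)) ∧ (∀ x, ∃ j, x ∈ U j) ∧ LocallyFinite U ∧
      (∀ x, ∀ s : Finset J, (∀ j ∈ s, x ∈ U j) → s.card ≤ 2) ∧
      ∀ j, ∀ x ∈ U j, ∀ y ∈ U j, d x y ≤
        max (max (2 * (l₀ + (2 * β + 4))) (2 * ((2 * β + 4) + W₁) + W₂)) (δ₀ + 2) := by
  obtain ⟨𝒮, h1, h2, h3, h4⟩ := t3_max_abs d htri hcont hprop hlift L hL δ₀ hLd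
  obtain ⟨r, hr, hosc, hrad⟩ := BUB 𝒮 h1 h2 h3
  have hclosed : IsClosed (⋃₀ 𝒮) := by
    have := h3.isClosed_iUnion (fun S => (hL _ (h1 _ S.2)).1.isClosed)
    rwa [← Set.sUnion_eq_iUnion] at this
  refine t3_cover_abs d hsymm htri hcont 𝒮 (fun S hS => hL S (h1 S hS)) h2 h3 δ₀ β _ hβ
    (fun S hS => hLd S (h1 S hS)) r hr hosc ?_
  intro l C hCY hC hl x hx y hy
  -- the component containing `C`
  set R := connectedComponentIn (⋃₀ 𝒮)ᶜ x with hR
  have hcomp : TComp 𝒮 R := ⟨x, hCY hx, rfl⟩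
  have hCR : C ⊆ R := hC.subset_connectedComponentIn hx hCY
  have hRo : IsOpen R := hclosed.isOpen_compl.connectedComponentIn
  have hRc : IsPreconnected R := isPreconnected_connectedComponentIn
  obtain ⟨o, ho⟩ := hrad R hcomp
  have hsep : ∀ F, H F → F ⊆ R → ¬ IsPreconnected (R \ F) := by
    intro F hF hFR hconn
    obtain ⟨S', hS', hS'R, hc⟩ := SEP 𝒮 h1 h2 h3 R F hcomp hF hFR hconn
    exact h4 R S' hcomp hS' hS'R hc
  exact t3_slab_abs d hsymm htri H hH hRo hRc hsep ho (2 * β + 4) l C hC hCR hl x hx y hy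

end Claimed.Agent.R315
end
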