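/- Packed by merge_tool.py (helper293): 4 modules of Claimed.Agent.R315 in one file, same declarations.
   Old modules, in this order: Sc.Part, Sc.Ms, Sc.MsA, Sc.MsB -/
import Mathlib
import Claimed.Agent.R315.Pack001

/- ===== packed: Claimed.Agent.R315.Sc.Part ===== -/
section
/-!
# Row 315, package Sc (P Appendix C), part 1: smooth quadratic partitions of unity.   Architect: helper257.

PURE MATHLIB (no team import).  All cut-offs of App. C are SMOOTH and QUADRATIC (`∑ χ_i² = 1`, IMS localisation).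

1. profiles from `τ = Real.smoothTransition`: `scC = cos (π/2 τ)` (`1` on `s ≤ 0`, `0` on `1 ≤ s`), `scG = sin (π/2 τ)`,
   `scC² + scG² = 1`; bump `scB s = scG (s+1) * scC s`, supported in `[-1,1]`, `scB² = scC(s)² - scC(s+1)²`
   (case `s ≤ 0`: `scC s = 1`; case `0 ≤ s`: `scG (s+1) = 1`, `scC (s+1) = 0`).
2. 1D lattice family `scL n k`, `k ∈ Icc (-n-1) (n+1)`: the two end pieces `scC (s+n+1)`, `scG (s-n)` and the bumps `scB (s-k)`.
   `∑ scL² = 1` EVERYWHERE (telescoping: `Finset.sum_Ioc_consecutive`-style induction on `n`), `∑ (scL')² ≤ scB1`.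
   Derivative bound: `deriv scC`, `deriv scG` are continuous and vanish off `[0,1]`, so bounded by `b`
   (`IsCompact.exists_bound_of_continuousOn`);  `(deriv scB s)² ≤ 2 b² (1_{(-1,0)} + 1_{(0,1)})`; for given `s` at most the
   indices `k = ⌊s⌋, ⌊s⌋+1` contribute (`Finset.sum_le_sum_of_subset_of_nonneg` to the pair / `Finset.sum_subset`).
3. logarithmic profile `scP W u = scC (log u / W)`: smooth on `(-1, ∞)` (`= 1` on `(-1,1)`: `Real.log_nonpos`/`log |u|`),
   `= 0` for `exp W ≤ u`; `|u * deriv (scP W) u| ≤ b / W`.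
4. mollified distance `sc_moll_dist`: `ContDiffBump` of radius `s`, `φ.normed volume ⋆ infDist · F`
   (`HasCompactSupport.contDiff_convolution_left`, `ContDiffBump.dist_normed_convolution_le`; Lipschitz: difference of the
   two convolution integrals, `∫ φ.normed = 1`).
-/

set_option autoImplicit false
open scoped ContDiff Topology
open MeasureTheory Set Metric

namespace Claimed.Agent.R315

noncomputable section

/-- `cos (π/2 τ(s))`: `1` for `s ≤ 0`, `0` for `1 ≤ s`. -/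
def scC (s : ℝ) : ℝ := Real.cos (Real.pi / 2 * Real.smoothTransition s)

/-- `sin (π/2 τ(s))`: `0` for `s ≤ 0`, `1` for `1 ≤ s`. -/
def scG (s : ℝ) : ℝ := Real.sin (Real.pi / 2 * Real.smoothTransition s)

/-- the bump supported in `[-1,1]`. -/
def scB (s : ℝ) : ℝ := scG (s + 1) * scC s

theorem scC_contDiff : ContDiff ℝ ∞ scC :=
  Real.contDiff_cos.comp (contDiff_const.mul Real.smoothTransition.contDiff)

theorem scG_contDiff : ContDiff ℝ ∞ scG :=
  Real.contDiff_sin.comp (contDiff_const.mul Real.smoothTransition.contDiff)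

theorem scB_contDiff : ContDiff ℝ ∞ scB :=
  (scG_contDiff.comp (contDiff_id.add contDiff_const)).mul scC_contDiff

theorem scC_sq_add_scG_sq (s : ℝ) : scC s ^ 2 + scG s ^ 2 = 1 := by
  unfold scC scG
  exact Real.cos_sq_add_sin_sq _

theorem scC_of_nonpos {s : ℝ} (h : s ≤ 0) : scC s = 1 := by
  simp [scC, Real.smoothTransition.zero_of_nonpos h]

theorem scC_of_one_le {s : ℝ} (h : 1 ≤ s) : scC s = 0 := by
  simp [scC, Real.smoothTransition.one_of_one_le h]

theorem scG_of_nonpos {s : ℝ} (h : s ≤ 0) : scG s = 0 := by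
  simp [scG, Real.smoothTransition.zero_of_nonpos h]

theorem scG_of_one_le {s : ℝ} (h : 1 ≤ s) : scG s = 1 := by
  simp [scG, Real.smoothTransition.one_of_one_le h]

theorem scC_abs_le (s : ℝ) : |scC s| ≤ 1 := Real.abs_cos_le_one _

theorem scG_abs_le (s : ℝ) : |scG s| ≤ 1 := Real.abs_sin_le_one _

theorem scB_sq (s : ℝ) : scB s ^ 2 = scC s ^ 2 - scC (s + 1) ^ 2 := by
  rcases le_total s 0 with h | h
  · have := scC_sq_add_scG_sq (s + 1)
    rw [scB, scC_of_nonpos h]; nlinarith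
  · rw [scB, scG_of_one_le (by linarith), scC_of_one_le (s := s + 1) (by linarith)]; ring

theorem scB_of_le {s : ℝ} (h : s ≤ -1) : scB s = 0 := by
  rw [scB, scG_of_nonpos (by linarith), zero_mul]

theorem scB_of_ge {s : ℝ} (h : 1 ≤ s) : scB s = 0 := by
  rw [scB, scC_of_one_le h, mul_zero]

/-- the 1D lattice family. -/
def scL (n : ℕ) (k : ℤ) (s : ℝ) : ℝ :=
  if k ≤ -(n : ℤ) - 1 then scC (s + n + 1) else if (n : ℤ) + 1 ≤ k then scG (s - n) else scB (s - k)

theorem scL_contDiff (n : ℕ) (k : ℤ) : ContDiff ℝ ∞ (scL n k) := by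
  unfold scL
  split_ifs
  · exact scC_contDiff.comp ((contDiff_id.add contDiff_const).add contDiff_const)
  · exact scG_contDiff.comp (contDiff_id.sub contDiff_const)
  · exact scB_contDiff.comp (contDiff_id.sub contDiff_const)

theorem scC_nonneg (s : ℝ) : 0 ≤ scC s := by
  unfold scC
  have h0 := Real.smoothTransition.nonneg s
  have h1 := Real.smoothTransition.le_one s
  have hp := Real.pi_pos
  apply Real.cos_nonneg_of_mem_Icc
  constructor <;> nlinarith

theorem scG_nonneg (s : ℝ) : 0 ≤ scG s := by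
  unfold scG
  have h0 := Real.smoothTransition.nonneg s
  have h1 := Real.smoothTransition.le_one s
  have hp := Real.pi_pos
  apply Real.sin_nonneg_of_nonneg_of_le_pi <;> nlinarith

theorem scC_le_one (s : ℝ) : scC s ≤ 1 := Real.cos_le_one _
theorem scG_le_one (s : ℝ) : scG s ≤ 1 := Real.sin_le_one _

theorem scC_deriv_zero {x : ℝ} (h : x ≤ 0 ∨ 1 ≤ x) : deriv scC x = 0 ∧ deriv scG x = 0 := by
  rcases h with h | h
  · constructor
    · apply IsLocalMax.deriv_eq_zero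
      exact Filter.Eventually.of_forall fun y => by rw [scC_of_nonpos h]; exact scC_le_one y
    · apply IsLocalMin.deriv_eq_zero
      exact Filter.Eventually.of_forall fun y => by rw [scG_of_nonpos h]; exact scG_nonneg y
  · constructor
    · apply IsLocalMin.deriv_eq_zero
      exact Filter.Eventually.of_forall fun y => by rw [scC_of_one_le h]; exact scC_nonneg y
    · apply IsLocalMax.deriv_eq_zero
      exact Filter.Eventually.of_forall fun y => by rw [scG_of_one_le h]; exact scG_le_one y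

theorem scCG_deriv_bdd : ∃ b : ℝ, 0 < b ∧ ∀ x, |deriv scC x| ≤ b ∧ |deriv scG x| ≤ b := by
  have c1 : Continuous (deriv scC) := scC_contDiff.continuous_deriv (by simp)
  have c2 : Continuous (deriv scG) := scG_contDiff.continuous_deriv (by simp)
  obtain ⟨b1, hb1⟩ := isCompact_Icc.exists_bound_of_continuousOn (s := Icc (0:ℝ) 1) c1.continuousOn
  obtain ⟨b2, hb2⟩ := isCompact_Icc.exists_bound_of_continuousOn (s := Icc (0:ℝ) 1) c2.continuousOn
  refine ⟨max (max b1 b2) 0 + 1, by positivity, fun x => ?_⟩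
  by_cases hx : x ∈ Icc (0:ℝ) 1
  · have h1 := hb1 x hx
    have h2 := hb2 x hx
    rw [Real.norm_eq_abs] at h1 h2
    constructor
    · have := le_max_left (max b1 b2) 0
      have := le_max_left b1 b2
      linarith
    · have := le_max_left (max b1 b2) 0
      have := le_max_right b1 b2
      linarith
  · have hx' : x ≤ 0 ∨ 1 ≤ x := by
      by_contra hcon
      push Not at hcon
      exact hx ⟨hcon.1.le, hcon.2.le⟩
    obtain ⟨h1, h2⟩ := scC_deriv_zero hx'
    rw [h1, h2, abs_zero]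
    have := le_max_right (max b1 b2) 0
    constructor <;> linarith

theorem scB_deriv (x : ℝ) : deriv scB x = deriv scG (x + 1) * scC x + scG (x + 1) * deriv scC x := by
  have h1 : DifferentiableAt ℝ (fun y => scG (y + 1)) x :=
    ((scG_contDiff.differentiable (by simp)).comp (differentiable_id.add_const 1)).differentiableAt
  have h2 : DifferentiableAt ℝ scC x := (scC_contDiff.differentiable (by simp)).differentiableAt
  have : scB = fun y => scG (y + 1) * scC y := rfl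
  rw [this, deriv_fun_mul h1 h2, deriv_comp_add_const]

theorem sc_tele (g : ℤ → ℝ) (a : ℤ) (m : ℕ) :
    ∑ k ∈ Finset.Icc a (a + m), (g k - g (k - 1)) = g (a + m) - g (a - 1) := by
  induction m with
  | zero => simp
  | succ m ih =>
    have : Finset.Icc a (a + ((m + 1 : ℕ) : ℤ)) = insert (a + m + 1) (Finset.Icc a (a + m)) := by
      rw [Finset.insert_Icc_right_eq_Icc_add_one (by omega)]
      push_cast; ring_nf
    rw [this, Finset.sum_insert (by simp), ih]
    push_cast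
    have : a + (m:ℤ) + 1 - 1 = a + m := by ring
    rw [this]
    have : a + ((m:ℤ) + 1) = a + m + 1 := by ring
    rw [this]; ring

theorem scL_Icc (n : ℕ) : Finset.Icc (-(n : ℤ) - 1) ((n : ℤ) + 1) =
    insert (-(n : ℤ) - 1) (insert ((n : ℤ) + 1) (Finset.Icc (-(n : ℤ)) n)) := by
  rw [Finset.insert_Icc_right_eq_Icc_add_one (by omega)]
  have := Finset.insert_Icc_left_eq_Icc_sub_one (a := -(n:ℤ)) (b := (n:ℤ) + 1) (by omega)
  rw [this]

theorem scL_sum_sq (n : ℕ) (s : ℝ) :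
    ∑ k ∈ Finset.Icc (-(n : ℤ) - 1) ((n : ℤ) + 1), scL n k s ^ 2 = 1 := by
  rw [scL_Icc, Finset.sum_insert (by simp; omega), Finset.sum_insert (by simp)]
  have h1 : scL n (-(n:ℤ) - 1) s = scC (s + n + 1) := by rw [scL, if_pos le_rfl]
  have h2 : scL n ((n:ℤ) + 1) s = scG (s - n) := by
    rw [scL, if_neg (by omega), if_pos le_rfl]
  have h3 : ∑ k ∈ Finset.Icc (-(n : ℤ)) n, scL n k s ^ 2 =
      ∑ k ∈ Finset.Icc (-(n : ℤ)) (-(n:ℤ) + (2 * n : ℕ)),
        ((fun k : ℤ => scC (s - k) ^ 2) k - (fun k : ℤ => scC (s - k) ^ 2) (k - 1)) := by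
    have e : (-(n:ℤ) + (2 * n : ℕ)) = n := by push_cast; ring
    rw [e]
    refine Finset.sum_congr rfl fun k hk => ?_
    rw [Finset.mem_Icc] at hk
    rw [scL, if_neg (by omega), if_neg (by omega), scB_sq]
    have : s - ((k - 1 : ℤ) : ℝ) = s - k + 1 := by push_cast; ring
    simp only [this]
  rw [h1, h2, h3, sc_tele]
  have e1 : s - ((-(n:ℤ) + (2 * n : ℕ) : ℤ) : ℝ) = s - n := by push_cast; ring
  have e2 : s - ((-(n:ℤ) - 1 : ℤ) : ℝ) = s + n + 1 := by push_cast; ring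
  simp only [e1, e2]
  have := scC_sq_add_scG_sq (s - n)
  linarith

theorem scL_deriv_bound {b : ℝ} (hb : ∀ x, |deriv scC x| ≤ b ∧ |deriv scG x| ≤ b) (n : ℕ) (k : ℤ)
    (s : ℝ) : deriv (scL n k) s ^ 2 ≤ 4 * b ^ 2 ∧
      (-(n:ℤ) - 1 < k → k < (n:ℤ) + 1 → 1 ≤ |s - k| → deriv (scL n k) s = 0) := by
  have hb0 : 0 ≤ b := le_trans (abs_nonneg _) (hb 0).1
  by_cases h1 : k ≤ -(n : ℤ) - 1
  · have e : scL n k = fun s => scC (s + (n + 1)) := by
      funext s; rw [scL, if_pos h1, add_assoc]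
    refine ⟨?_, fun h => absurd h1 (not_le.2 h)⟩
    rw [e, deriv_comp_add_const]
    have := (hb (s + (n + 1))).1
    have h2 := sq_abs (deriv scC (s + (n + 1)))
    nlinarith [abs_nonneg (deriv scC (s + (n + 1)))]
  · by_cases h2 : (n : ℤ) + 1 ≤ k
    · have e : scL n k = fun s => scG (s - n) := by
        funext s; rw [scL, if_neg h1, if_pos h2]
      refine ⟨?_, fun _ h => absurd h2 (not_le.2 h)⟩
      rw [e, deriv_comp_sub_const]
      have := (hb (s - n)).2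
      have h2 := sq_abs (deriv scG (s - n))
      nlinarith [abs_nonneg (deriv scG (s - n))]
    · have e : scL n k = fun s => scB (s - k) := by
        funext s; rw [scL, if_neg h1, if_neg h2]
      rw [e, deriv_comp_sub_const, scB_deriv]
      constructor
      · have a1 := (hb (s - k + 1)).2
        have a2 := (hb (s - k)).1
        have a3 := scC_abs_le (s - k)
        have a4 := scG_abs_le (s - k + 1)
        have : |deriv scG (s - k + 1) * scC (s - k) + scG (s - k + 1) * deriv scC (s - k)| ≤ 2 * b := by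
          calc _ ≤ |deriv scG (s - k + 1) * scC (s - k)| + |scG (s - k + 1) * deriv scC (s - k)| :=
                abs_add_le _ _
            _ = |deriv scG (s - k + 1)| * |scC (s - k)| + |scG (s - k + 1)| * |deriv scC (s - k)| := by
                rw [abs_mul, abs_mul]
            _ ≤ b * 1 + 1 * b := by
                gcongr
            _ = 2 * b := by ring
        have h5 := sq_abs (deriv scG (s - k + 1) * scC (s - k) + scG (s - k + 1) * deriv scC (s - k))
        nlinarith [abs_nonneg (deriv scG (s - k + 1) * scC (s - k) + scG (s - k + 1) * deriv scC (s - k))]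
      · intro _ _ hs
        rcases le_abs'.1 hs with h | h
        · rw [(scC_deriv_zero (x := s - k + 1) (Or.inl (by linarith))).2,
            scG_of_nonpos (by linarith)]; ring
        · rw [scC_of_one_le h, (scC_deriv_zero (x := s - k) (Or.inr h)).1]; ring

theorem scL_sum_deriv_sq : ∃ B : ℝ, 0 < B ∧ ∀ (n : ℕ) (s : ℝ),
    ∑ k ∈ Finset.Icc (-(n : ℤ) - 1) ((n : ℤ) + 1), deriv (scL n k) s ^ 2 ≤ B := by
  obtain ⟨b, hb0, hb⟩ := scCG_deriv_bdd
  refine ⟨5 * (4 * b ^ 2), by positivity, fun n s => ?_⟩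
  set S := Finset.Icc (-(n : ℤ) - 1) ((n : ℤ) + 1)
  set T : Finset ℤ := insert (-(n : ℤ) - 1) (insert ((n : ℤ) + 1) (Finset.Icc (⌊s⌋ - 1) (⌊s⌋ + 1)))
  have hsub : S.filter (fun k => deriv (scL n k) s ^ 2 ≠ 0) ⊆ T := by
    intro k hk
    rw [Finset.mem_filter, Finset.mem_Icc] at hk
    obtain ⟨⟨k1, k2⟩, hk0⟩ := hk
    simp only [T, Finset.mem_insert, Finset.mem_Icc]
    by_cases e1 : k = -(n:ℤ) - 1
    · exact Or.inl e1
    by_cases e2 : k = (n:ℤ) + 1
    · exact Or.inr (Or.inl e2)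
    right; right
    have hlt : |s - k| < 1 := by
      by_contra hcon
      apply hk0
      rw [(scL_deriv_bound hb n k s).2 (by omega) (by omega) (not_lt.1 hcon)]
      norm_num
    rw [abs_lt] at hlt
    have f1 := Int.floor_le s
    have f2 := Int.lt_floor_add_one s
    constructor
    · have : ((⌊s⌋ - 1 : ℤ) : ℝ) < (k : ℝ) + 1 := by push_cast; linarith
      have : (⌊s⌋ - 1 : ℤ) < k + 1 := by exact_mod_cast this
      omega
    · have : (k : ℝ) < ((⌊s⌋ + 2 : ℤ) : ℝ) := by push_cast; linarith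
      have : k < ⌊s⌋ + 2 := by exact_mod_cast this
      omega
  have hcard : T.card ≤ 5 := by
    calc T.card ≤ (insert ((n : ℤ) + 1) (Finset.Icc (⌊s⌋ - 1) (⌊s⌋ + 1))).card + 1 :=
          Finset.card_insert_le _ _
      _ ≤ ((Finset.Icc (⌊s⌋ - 1) (⌊s⌋ + 1)).card + 1) + 1 := by
          gcongr; exact Finset.card_insert_le _ _
      _ = 5 := by
          rw [Int.card_Icc]
          have : (⌊s⌋ + 1 + 1 - (⌊s⌋ - 1)).toNat = 3 := by
            have : ⌊s⌋ + 1 + 1 - (⌊s⌋ - 1) = 3 := by ring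
            rw [this]; rfl
          rw [this]
  rw [← Finset.sum_filter_ne_zero]
  calc ∑ k ∈ S.filter (fun k => deriv (scL n k) s ^ 2 ≠ 0), deriv (scL n k) s ^ 2
      ≤ (S.filter (fun k => deriv (scL n k) s ^ 2 ≠ 0)).card • (4 * b ^ 2) :=
        Finset.sum_le_card_nsmul _ _ _ fun k _ => (scL_deriv_bound hb n k s).1
    _ ≤ 5 * (4 * b ^ 2) := by
        rw [nsmul_eq_mul]
        have : ((S.filter (fun k => deriv (scL n k) s ^ 2 ≠ 0)).card : ℝ) ≤ 5 := by
          exact_mod_cast (Finset.card_le_card hsub).trans hcard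
        gcongr

/-- support of the inner pieces. -/
theorem scL_eq_zero {n : ℕ} {k : ℤ} (h1 : -(n : ℤ) - 1 < k) (h2 : k < (n : ℤ) + 1) {s : ℝ}
    (hs : 1 ≤ |s - k|) : scL n k s = 0 := by
  rw [scL, if_neg (by omega), if_neg (by omega)]
  rcases le_abs'.1 hs with h | h
  · exact scB_of_le (by linarith)
  · exact scB_of_ge h

/-- the end pieces vanish on `|s| ≤ n`. -/
theorem scL_end_eq_zero {n : ℕ} {k : ℤ} (h : k ≤ -(n : ℤ) - 1 ∨ (n : ℤ) + 1 ≤ k) {s : ℝ}
    (hs : |s| ≤ n) : scL n k s = 0 := by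
  have := abs_le.1 hs
  rcases h with h | h
  · rw [scL, if_pos h]; exact scC_of_one_le (by linarith)
  · rw [scL, if_neg (by omega), if_pos h]; exact scG_of_nonpos (by linarith)

/-- the logarithmic profile: `1` for `u ≤ 1`, `0` for `exp W ≤ u`. -/
def scP (W u : ℝ) : ℝ := scC (Real.log u / W)

/-- the complementary logarithmic profile. -/
def scQ (W u : ℝ) : ℝ := scG (Real.log u / W)

theorem scP_sq_add_scQ_sq (W u : ℝ) : scP W u ^ 2 + scQ W u ^ 2 = 1 := scC_sq_add_scG_sq _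

theorem sc_log_nonpos {u : ℝ} (h1 : -1 ≤ u) (h : u ≤ 1) : Real.log u ≤ 0 := by
  rw [← Real.log_abs]
  exact Real.log_nonpos (abs_nonneg u) (abs_le.2 ⟨h1, h⟩)

theorem scP_of_le {W u : ℝ} (hW : 0 < W) (h1 : -1 ≤ u) (h : u ≤ 1) : scP W u = 1 ∧ scQ W u = 0 := by
  have : Real.log u / W ≤ 0 := div_nonpos_of_nonpos_of_nonneg (sc_log_nonpos h1 h) hW.le
  exact ⟨scC_of_nonpos this, scG_of_nonpos this⟩

theorem scP_of_ge {W u : ℝ} (hW : 0 < W) (h : Real.exp W ≤ u) : scP W u = 0 ∧ scQ W u = 1 := by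
  have hu : 0 < u := lt_of_lt_of_le (Real.exp_pos W) h
  have : 1 ≤ Real.log u / W := by
    rw [le_div_iff₀ hW, one_mul]
    exact (Real.le_log_iff_exp_le hu).2 h
  exact ⟨scC_of_one_le this, scG_of_one_le this⟩

theorem scP_contDiffOn {W : ℝ} (hW : 0 < W) :
    ContDiffOn ℝ ∞ (scP W) (Ioi (-1)) ∧ ContDiffOn ℝ ∞ (scQ W) (Ioi (-1)) := by
  have key : ∀ x ∈ Ioi (-1 : ℝ), ContDiffAt ℝ ∞ (scP W) x ∧ ContDiffAt ℝ ∞ (scQ W) x := by
    intro x hx
    by_cases h : x < 1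
    · have hn : Ioo (-1 : ℝ) 1 ∈ 𝓝 x := Ioo_mem_nhds hx h
      constructor
      · refine (contDiffAt_const (c := (1:ℝ))).congr_of_eventuallyEq ?_
        filter_upwards [hn] with y hy
        exact (scP_of_le hW hy.1.le hy.2.le).1
      · refine (contDiffAt_const (c := (0:ℝ))).congr_of_eventuallyEq ?_
        filter_upwards [hn] with y hy
        exact (scP_of_le hW hy.1.le hy.2.le).2
    · have hx0 : x ≠ 0 := by
        intro h0; apply h; rw [h0]; norm_num
      have hl : ContDiffAt ℝ ∞ (fun u => Real.log u / W) x :=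
        (Real.contDiffAt_log.2 hx0).div_const W
      exact ⟨scC_contDiff.contDiffAt.comp x hl, scG_contDiff.contDiffAt.comp x hl⟩
  exact ⟨fun x hx => (key x hx).1.contDiffWithinAt, fun x hx => (key x hx).2.contDiffWithinAt⟩

theorem scP_deriv_le : ∃ b : ℝ, 0 < b ∧ ∀ W u : ℝ, 0 < W → -1 < u →
    (u * deriv (scP W) u) ^ 2 + (u * deriv (scQ W) u) ^ 2 ≤ b / W ^ 2 ∧
    ((u ≤ 1 ∨ Real.exp W ≤ u) → deriv (scP W) u = 0 ∧ deriv (scQ W) u = 0) := by
  obtain ⟨b, hb0, hb⟩ := scCG_deriv_bdd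
  refine ⟨2 * b ^ 2, by positivity, fun W u hW hu => ?_⟩
  by_cases h : u < 1
  · have hn : Ioo (-1 : ℝ) 1 ∈ 𝓝 u := Ioo_mem_nhds hu h
    have e1 : deriv (scP W) u = 0 := by
      have : scP W =ᶠ[𝓝 u] fun _ => (1:ℝ) := by
        filter_upwards [hn] with y hy
        exact (scP_of_le hW hy.1.le hy.2.le).1
      rw [this.deriv_eq, deriv_const]
    have e2 : deriv (scQ W) u = 0 := by
      have : scQ W =ᶠ[𝓝 u] fun _ => (0:ℝ) := by
        filter_upwards [hn] with y hy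
        exact (scP_of_le hW hy.1.le hy.2.le).2
      rw [this.deriv_eq, deriv_const]
    rw [e1, e2]
    refine ⟨?_, fun _ => ⟨rfl, rfl⟩⟩
    have : 0 ≤ 2 * b ^ 2 / W ^ 2 := by positivity
    simpa using this
  · have hu1 : 1 ≤ u := not_lt.1 h
    have hu0 : u ≠ 0 := by linarith
    have hl : HasDerivAt (fun u => Real.log u / W) (u⁻¹ / W) u :=
      (Real.hasDerivAt_log hu0).div_const W
    have d1 : HasDerivAt (scP W) (deriv scC (Real.log u / W) * (u⁻¹ / W)) u :=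
      ((scC_contDiff.differentiable (by simp)).differentiableAt.hasDerivAt).comp u hl
    have d2 : HasDerivAt (scQ W) (deriv scG (Real.log u / W) * (u⁻¹ / W)) u :=
      ((scG_contDiff.differentiable (by simp)).differentiableAt.hasDerivAt).comp u hl
    rw [d1.deriv, d2.deriv]
    constructor
    · have a1 := (hb (Real.log u / W)).1
      have a2 := (hb (Real.log u / W)).2
      have s1 : deriv scC (Real.log u / W) ^ 2 ≤ b ^ 2 := by
        rw [← sq_abs]; exact pow_le_pow_left₀ (abs_nonneg _) a1 2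
      have s2 : deriv scG (Real.log u / W) ^ 2 ≤ b ^ 2 := by
        rw [← sq_abs]; exact pow_le_pow_left₀ (abs_nonneg _) a2 2
      have e : (u * (deriv scC (Real.log u / W) * (u⁻¹ / W))) ^ 2 +
          (u * (deriv scG (Real.log u / W) * (u⁻¹ / W))) ^ 2 =
          (deriv scC (Real.log u / W) ^ 2 + deriv scG (Real.log u / W) ^ 2) / W ^ 2 := by
        field_simp
      rw [e]
      gcongr
      linarith
    · intro hcase
      have : Real.log u / W ≤ 0 ∨ 1 ≤ Real.log u / W := by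
        rcases hcase with h1 | h1
        · left
          exact div_nonpos_of_nonpos_of_nonneg (sc_log_nonpos (by linarith) h1) hW.le
        · right
          rw [le_div_iff₀ hW, one_mul]
          exact (Real.le_log_iff_exp_le (by linarith)).2 h1
      obtain ⟨z1, z2⟩ := scC_deriv_zero this
      rw [z1, z2]; simp

theorem sc_moll_dist {m : ℕ} (F : Set (EuclideanSpace ℝ (Fin m))) {s : ℝ} (hs : 0 < s) :
    ∃ l : EuclideanSpace ℝ (Fin m) → ℝ, ContDiff ℝ ∞ l ∧ (∀ x, ‖fderiv ℝ l x‖ ≤ 1) ∧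
      ∀ x, |l x - infDist x F| ≤ s := by
  classical
  let φ : ContDiffBump (0 : EuclideanSpace ℝ (Fin m)) := ⟨s / 2, s, by positivity, by linarith⟩
  let g : EuclideanSpace ℝ (Fin m) → ℝ := fun x => infDist x F
  have hgc : Continuous g := continuous_infDist_pt F
  have hgl : ∀ x y, |g x - g y| ≤ dist x y := fun x y => by
    have := (lipschitz_infDist_pt F).dist_le_mul x y
    simpa [Real.dist_eq] using this
  let l := convolution (φ.normed volume) g (ContinuousLinearMap.lsmul ℝ ℝ) volume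
  have hint : ∀ x, Integrable (fun t => φ.normed volume t * g (x - t)) volume := by
    intro x
    apply Continuous.integrable_of_hasCompactSupport
    · exact φ.continuous_normed.mul (hgc.comp (continuous_const.sub continuous_id))
    · exact φ.hasCompactSupport_normed.mul_right
  have hl : ∀ x, l x = ∫ t, φ.normed volume t * g (x - t) := fun x => rfl
  refine ⟨l, ?_, ?_, ?_⟩
  · exact φ.hasCompactSupport_normed.contDiff_convolution_left _ φ.contDiff_normed
      hgc.locallyIntegrable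
  · intro x
    have hlip : LipschitzWith 1 l := by
      apply LipschitzWith.of_dist_le_mul
      intro x y
      rw [Real.dist_eq, hl, hl, ← integral_sub (hint x) (hint y)]
      calc |∫ t, (φ.normed volume t * g (x - t) - φ.normed volume t * g (y - t))|
          ≤ ∫ t, φ.normed volume t * dist x y := by
            rw [← Real.norm_eq_abs]
            apply norm_integral_le_of_norm_le
            · exact (φ.integrable_normed).mul_const _
            · refine Filter.Eventually.of_forall fun t => ?_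
              rw [← mul_sub, norm_mul, Real.norm_eq_abs, Real.norm_eq_abs,
                abs_of_nonneg (φ.nonneg_normed t)]
              apply mul_le_mul_of_nonneg_left _ (φ.nonneg_normed t)
              have := hgl (x - t) (y - t)
              simpa using this
        _ = dist x y := by
            rw [integral_mul_const, φ.integral_normed, one_mul]
        _ = ((1 : NNReal) : ℝ) * dist x y := by simp
    simpa using norm_fderiv_le_of_lipschitz ℝ hlip (x₀ := x)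
  · intro x
    have := φ.dist_normed_convolution_le (μ := volume) (g := g) (x₀ := x) (ε := s)
      hgc.aestronglyMeasurable (fun y hy => by
        rw [Real.dist_eq]
        exact (hgl y x).trans (le_of_lt hy))
    rw [Real.dist_eq] at this
    exact this

end

end Claimed.Agent.R315
end

/- ===== packed: Claimed.Agent.R315.Sc.Ms ===== -/
section
/-!
# Row 315, package Sc (P Appendix C.2), part 2: the ABSTRACT multi-scale Hardy inequality.   Architect: helper257.   PACKAGE L-SC-MS (this file: definitions + toolkit); L-SC-MSA (`MsA.lean`: steps 1-3); L-SC-MSB (`MsB.lean`: steps 4-5).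

`ScSp m` = a space of tests `T` over the base `E m`: multiplication by smooth base functions, a quadratic form `N`, and the mass
measure `ms v` (= `v² dμ` pushed to the base).  Axioms `ScSp.Ok G ζ₀`: `N ≥ 0`; `ms v` finite with bounded support;
`ms (χ v) = χ² ms v`; IMS `∑ N(χ_i v) ≤ N v + 1.71 ∫ ∑|∇χ_i|² d(ms v)` if `∑ χ_i² = 1` and `v` lives in `G`; and the BOX inequality
`3.8 ∫ ζ⁻² d(ms v) ≤ N v`, `ζ² = dist(x - z, L)² + κ²`, `dim L ≤ m - 8`, for tests living in `G ∩ {ζ ≤ ζ₀}`.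
Three instances (`Sc/Chart*.lean`): wall, joined side, cylinder.   RESULT `sc_hardy_abs`: for a closed `(η₀, r_F)`-flat set `F`
`3.55 ∫_{δ < d} max(δ, ρ)⁻² d(ms v) ≤ N v + C |v|²`, `δ = infDist · F`, all `ρ > 0`, `d, C` depending on `m, r_F, ζ₀` only.

NOTATION `X.Low g v : ∫ g d(ms v) ≤ N v`.  `loc`: if `Low g (χ_i v)` for all `i` then `Low (g - 1.71 e) v`, `e ≥ ∑|∇χ_i|²`.

PROOF.
1. `sc_cube`: `u` lives in a cube of half side `R`, in `{δ ≤ t}`, `t ≤ R`.  If `ms u = 0` trivial.  Else take `x₀` in the a.e. set, `z ∈ F` nearest to `x₀`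
   (`IsClosed.exists_infDist_eq_dist`), `L` = flatness plane at `z`, radius `r' = L_m R`, `L_m = 2√m + 3`.  For a.e. `x`, `y ∈ F` nearest to `x`:
   `|y - z| ≤ 2t + 2√m R < r'`, so `dist(x - z, L) ≤ |x - y| + dist(y - z, L) ≤ δ(x) + η r'` (`infDist_le_infDist_add_dist`).  BOX + monotonicity of `⁻¹`.
2. `sc_scale`: induction on the set `A` of coordinates which are not yet localised (`Finset.induction_on`), claim for ALL `u`:
   `Low (3.8 w - 1.71 |A| B₁/R²) u` if for `a ∉ A` the coordinate `x_a` lives in an interval of half length `R`.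
   Step: `χ_k x = scL n k (x a / R)`, `n` with `|x a| ≤ n R` a.e. (bounded support); `‖fderiv χ_k x‖² = (deriv (scL n k) (x a/R))²/R²`
   (`χ_k = scL n k ∘ (R⁻¹ • EuclideanSpace.proj a)`, `‖proj a‖ ≤ 1`); `ae_mul`: on `ms (χ_k u)` one has `χ_k ≠ 0`, so `|x a - k R| ≤ R` (`scL_eq_zero`, `scL_end_eq_zero`).
3. `sc_cut`: `l` = `sc_moll_dist F (s/4)`, `c = scP W (l/s)`, `g = scQ W (l/s)`; `l/s ≥ -1/4`.  `δ ≤ 3s/4 → l/s ≤ 1`; `(e^W + 1/4) s ≤ δ → e^W ≤ l/s`.
   Chain rule: `fderiv c x = deriv (scP W) (l x/s) • s⁻¹ • fderiv l x`, so `|∇c|² + |∇g|² ≤ (b/W²)/l²`, and where it is `≠ 0`: `l ≥ s`, `δ ≤ l + s/4 ≤ 5l/4`.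
4. `sc_ind`: scales `s_j = 2ρ Q^j`, `Q = 2e^W`, `t_j = (e^W + 1/4) s_j` (so `t_j ≤ (5/8) s_{j+1}`).  Claim `I(j)`: every `u` living in `{δ ≤ t_j}` has
   `Low ((3.63 - 0.05·1[δ ≤ θ_j]) M⁻²) u`, `M = max(δ,ρ)`, `θ_0 = -1`, `θ_{j+1} = t_j`.
   `I(0)`: `sc_scale` with `t = t_0`, `R = K t_0`, `κ = ρ/10`: `η L_m R ≤ ρ/100`, `(δ + ρ/100)² + ρ²/100 ≤ 1.0301 M²`, `m B₁/R² ≤ m B₁ K⁻² M⁻²` (`M ≤ t_0`); `3.8/1.0301 - 0.05 ≥ 3.63`.
   `I(j) → I(j+1)`: cut `(c, g)` at scale `s_j`.  `c u` lives in `{δ ≤ t_j}`: `I(j)`.  `g u` lives in `{3s_j/4 ≤ δ ≤ t_{j+1}}`, there `M = δ`; `sc_scale` with `t = t_{j+1}`, `R = K t`, `κ = 3 s_j/40`: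
   `η L_m R ≤ 0.0075 s_j ≤ δ/100`, `κ ≤ δ/10`.  Both pieces have `Low g'`, `g' = (3.63 - 0.05·1[δ ≤ θ_j]) M⁻²`; `loc2` gives `Low (g' - 1.71 e)`, `1.71 e ≤ 0.05 M⁻² 1[3s_j/4 ≤ δ ≤ t_j]`, and `θ_j < 3 s_j/4`.
5. `sc_hardy_abs`: `W, K` large, `η₀` small (depending on `m`); `d₁ = min(r_F/(2 L_m K (e^W+1)), ζ₀/(2(e^W+1)))`, `d = 3d₁/(4Q)`, `C = max(15/d₁², 0.05/d²)`.
   `ρ ≥ d₁/2`: the integrand is `≤ 3.55 ρ⁻² ≤ C`.  `ρ < d₁/2`: `J` with `Q^J ≤ d₁/(2ρ) < Q^{J+1}` (`exists_nat_pow_near`), so `d₁/Q < s_J ≤ d₁`, `d ≤ 3 s_J/4`.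
   Cut at `s_J`: `c v`: `I(J)`; `g v` lives in `{δ ≥ 3s_J/4 ≥ d}` where `g' = 3.55·1[δ<d] M⁻² = 0` (and `g' ≤ 3.58 M⁻²` on the inner piece); error `1.71 e ≤ 0.05 δ⁻² 1[δ ≥ d] ≤ C`.
-/

set_option autoImplicit false
open scoped ContDiff Topology ENNReal
open MeasureTheory Set Metric

namespace Claimed.Agent.R315

noncomputable section

variable {m : ℕ}

/-- an abstract space of tests over the base `E m`. -/
structure ScSp (m : ℕ) where
  /-- tests -/
  T : Type
  /-- multiplication by a base function -/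
  mul : (E m → ℝ) → T → T
  /-- the quadratic form -/
  N : T → ℝ
  /-- the mass measure `v² dμ`, pushed to the base -/
  ms : T → Measure (E m)

/-- the regularised distance (squared) to the affine plane `z + L`. -/
def scZ2 (z : E m) (L : Submodule ℝ (E m)) (κ : ℝ) (x : E m) : ℝ :=
  infDist (x - z) (L : Set (E m)) ^ 2 + κ ^ 2

/-- the axioms. -/
structure ScSp.Ok (X : ScSp m) (G : Set (E m)) (ζ₀ : ℝ) : Prop where
  N_nonneg : ∀ v, 0 ≤ X.N v
  fin : ∀ v, IsFiniteMeasure (X.ms v)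
  bdd : ∀ v, ∃ R : ℝ, X.ms v {x | R < ‖x‖} = 0
  ms_mul : ∀ v (χ : E m → ℝ), ContDiff ℝ ∞ χ →
    X.ms (X.mul χ v) = (X.ms v).withDensity fun x => ENNReal.ofReal (χ x ^ 2)
  ims : ∀ v (ι : Type) (s : Finset ι) (χ : ι → E m → ℝ), (∀ᵐ x ∂(X.ms v), x ∈ G) →
    (∀ i ∈ s, ContDiff ℝ ∞ (χ i)) → (∀ x, ∑ i ∈ s, χ i x ^ 2 = 1) →
    ∑ i ∈ s, X.N (X.mul (χ i) v) ≤ X.N v + 1.71 * ∫ x, ∑ i ∈ s, ‖fderiv ℝ (χ i) x‖ ^ 2 ∂(X.ms v)
  box : ∀ v (z : E m) (L : Submodule ℝ (E m)) (κ : ℝ), Module.finrank ℝ L ≤ m - 8 → 0 < κ →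
    (∀ᵐ x ∂(X.ms v), x ∈ G ∧ scZ2 z L κ x ≤ ζ₀ ^ 2) →
    3.8 * ∫ x, (scZ2 z L κ x)⁻¹ ∂(X.ms v) ≤ X.N v

/-- `∫ g d(ms v) ≤ N v`. -/
def ScSp.Low (X : ScSp m) (g : E m → ℝ) (v : X.T) : Prop := ∫ x, g x ∂(X.ms v) ≤ X.N v

/-- bounded measurable. -/
def ScBM (g : E m → ℝ) : Prop := Measurable g ∧ ∃ C : ℝ, ∀ x, |g x| ≤ C

/-- `(η, r)`-flatness with respect to planes of dimension `≤ m - 8` (the conclusion of `Gmt.gmt_sing_flat`). -/
def ScFlat (F : Set (E m)) (η r : ℝ) : Prop :=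
  ∀ z ∈ F, ∀ r', 0 < r' → r' < r → ∃ L : Submodule ℝ (E m), Module.finrank ℝ L ≤ m - 8 ∧
    ∀ y ∈ F ∩ ball z r', infDist (y - z) (L : Set (E m)) < η * r'

/-- the constants of `Part.lean`. -/
def scB1 : ℝ := scL_sum_deriv_sq.choose

def scb : ℝ := scP_deriv_le.choose

def scLm (m : ℕ) : ℝ := 2 * Real.sqrt m + 3

/-- single scale weight. -/
def scW (F : Set (E m)) (a κ : ℝ) (x : E m) : ℝ := ((infDist x F + a) ^ 2 + κ ^ 2)⁻¹

/-- `max(δ, ρ)⁻²`. -/
def scM (F : Set (E m)) (ρ : ℝ) (x : E m) : ℝ := (max (infDist x F) ρ ^ 2)⁻¹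

variable {X : ScSp m} {G F : Set (E m)} {ζ₀ : ℝ}

/-! ### toolkit -/

theorem ScBM.integrable (h : X.Ok G ζ₀) {g : E m → ℝ} (hg : ScBM g) (v : X.T) :
    Integrable g (X.ms v) := by
  have := h.fin v
  obtain ⟨hm, C, hC⟩ := hg
  exact Integrable.of_bound hm.aestronglyMeasurable C
    (Filter.Eventually.of_forall fun x => by rw [Real.norm_eq_abs]; exact hC x)

theorem sc_meas_sq {χ : E m → ℝ} (hχ : ContDiff ℝ ∞ χ) :
    Measurable fun x => ENNReal.ofReal (χ x ^ 2) :=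
  (hχ.continuous.pow 2).measurable.ennreal_ofReal

theorem ScSp.Ok.int_mul (h : X.Ok G ζ₀) {χ : E m → ℝ} (hχ : ContDiff ℝ ∞ χ) (g : E m → ℝ) (v : X.T) :
    ∫ x, g x ∂(X.ms (X.mul χ v)) = ∫ x, χ x ^ 2 * g x ∂(X.ms v) := by
  rw [h.ms_mul v χ hχ, integral_withDensity_eq_integral_toReal_smul (sc_meas_sq hχ)
    (Filter.Eventually.of_forall fun x => ENNReal.ofReal_lt_top)]
  refine integral_congr_ae (Filter.Eventually.of_forall fun x => ?_)
  simp only [smul_eq_mul]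
  rw [ENNReal.toReal_ofReal (sq_nonneg _)]

theorem ScSp.Ok.ae_mul (h : X.Ok G ζ₀) {χ : E m → ℝ} (hχ : ContDiff ℝ ∞ χ) {v : X.T} {P : E m → Prop}
    (hP : ∀ᵐ x ∂(X.ms v), χ x ≠ 0 → P x) : ∀ᵐ x ∂(X.ms (X.mul χ v)), P x := by
  rw [h.ms_mul v χ hχ, ae_withDensity_iff (sc_meas_sq hχ)]
  filter_upwards [hP] with x hx h0
  apply hx
  intro h1
  apply h0
  rw [h1]; simp

theorem ScSp.Low.mono (h : X.Ok G ζ₀) {g g' : E m → ℝ} (hg : ScBM g) (hg' : ScBM g') {v : X.T}
    (hle : ∀ᵐ x ∂(X.ms v), g x ≤ g' x) (hl : X.Low g' v) : X.Low g v :=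
  (integral_mono_ae (hg.integrable h v) (hg'.integrable h v) hle).trans hl

theorem ScSp.Ok.low_nonpos (h : X.Ok G ζ₀) {g : E m → ℝ} {v : X.T}
    (hle : ∀ᵐ x ∂(X.ms v), g x ≤ 0) : X.Low g v :=
  (integral_nonpos_of_ae hle).trans (h.N_nonneg v)

theorem ScBM.mul {g g' : E m → ℝ} (hg : ScBM g) (hg' : ScBM g') : ScBM fun x => g x * g' x := by
  obtain ⟨m1, C1, h1⟩ := hg
  obtain ⟨m2, C2, h2⟩ := hg'
  refine ⟨m1.mul m2, C1 * C2, fun x => ?_⟩
  rw [abs_mul]
  exact mul_le_mul (h1 x) (h2 x) (abs_nonneg _) ((abs_nonneg _).trans (h1 x))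

theorem ScBM.sub {g g' : E m → ℝ} (hg : ScBM g) (hg' : ScBM g') : ScBM fun x => g x - g' x := by
  obtain ⟨m1, C1, h1⟩ := hg
  obtain ⟨m2, C2, h2⟩ := hg'
  refine ⟨m1.sub m2, C1 + C2, fun x => ?_⟩
  exact (abs_sub _ _).trans (add_le_add (h1 x) (h2 x))

theorem ScBM.const_mul {g : E m → ℝ} (hg : ScBM g) (c : ℝ) : ScBM fun x => c * g x := by
  obtain ⟨m1, C1, h1⟩ := hg
  refine ⟨m1.const_mul c, |c| * C1, fun x => ?_⟩
  rw [abs_mul]
  exact mul_le_mul_of_nonneg_left (h1 x) (abs_nonneg _)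

theorem scBM_const (c : ℝ) : ScBM (fun _ : E m => c) := ⟨measurable_const, |c|, fun _ => le_rfl⟩

/-- **IMS localisation**. -/
theorem ScSp.Ok.loc (h : X.Ok G ζ₀) {ι : Type} (s : Finset ι) (χ : ι → E m → ℝ)
    (hχ : ∀ i ∈ s, ContDiff ℝ ∞ (χ i)) (hsum : ∀ x, ∑ i ∈ s, χ i x ^ 2 = 1) {g e : E m → ℝ}
    (hg : ScBM g) (he : ScBM e) (hle : ∀ x, ∑ i ∈ s, ‖fderiv ℝ (χ i) x‖ ^ 2 ≤ e x) (v : X.T)
    (hv : ∀ᵐ x ∂(X.ms v), x ∈ G) (hlow : ∀ i ∈ s, X.Low g (X.mul (χ i) v)) :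
    X.Low (fun x => g x - 1.71 * e x) v := by
  have hsq : ∀ i ∈ s, ScBM fun x => χ i x ^ 2 := fun i hi =>
    ⟨((hχ i hi).continuous.pow 2).measurable, 1, fun x => by
      rw [abs_of_nonneg (sq_nonneg _), ← hsum x]
      exact Finset.single_le_sum (f := fun i => χ i x ^ 2) (fun j _ => sq_nonneg _) hi⟩
  have h1 : ∫ x, g x ∂(X.ms v) = ∑ i ∈ s, ∫ x, g x ∂(X.ms (X.mul (χ i) v)) := by
    rw [Finset.sum_congr rfl fun i hi => h.int_mul (hχ i hi) g v,
      ← integral_finsetSum s fun i hi => ((hsq i hi).mul hg).integrable h v]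
    refine integral_congr_ae (Filter.Eventually.of_forall fun x => ?_)
    simp only
    rw [← Finset.sum_mul, hsum x, one_mul]
  have h2 : ∑ i ∈ s, ∫ x, g x ∂(X.ms (X.mul (χ i) v)) ≤ ∑ i ∈ s, X.N (X.mul (χ i) v) :=
    Finset.sum_le_sum hlow
  have h3 := h.ims v ι s χ hv hχ hsum
  have hD : ScBM fun x => ∑ i ∈ s, ‖fderiv ℝ (χ i) x‖ ^ 2 := by
    obtain ⟨_, C, hC⟩ := he
    refine ⟨Finset.measurable_fun_sum s fun i hi =>
      ((((hχ i hi).continuous_fderiv (by simp)).norm).pow 2).measurable, C, fun x => ?_⟩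
    rw [abs_of_nonneg (Finset.sum_nonneg fun i _ => sq_nonneg _)]
    exact (hle x).trans ((le_abs_self _).trans (hC x))
  have h4 : ∫ x, ∑ i ∈ s, ‖fderiv ℝ (χ i) x‖ ^ 2 ∂(X.ms v) ≤ ∫ x, e x ∂(X.ms v) :=
    integral_mono (hD.integrable h v) (he.integrable h v) hle
  unfold ScSp.Low
  rw [integral_sub (hg.integrable h v) ((he.const_mul 1.71).integrable h v), integral_const_mul]
  linarith

/-- two pieces. -/
theorem ScSp.Ok.loc2 (h : X.Ok G ζ₀) {c g' : E m → ℝ} (hc : ContDiff ℝ ∞ c) (hg' : ContDiff ℝ ∞ g')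
    (hsum : ∀ x, c x ^ 2 + g' x ^ 2 = 1) {g e : E m → ℝ} (hg : ScBM g) (he : ScBM e)
    (hle : ∀ x, ‖fderiv ℝ c x‖ ^ 2 + ‖fderiv ℝ g' x‖ ^ 2 ≤ e x) (v : X.T)
    (hv : ∀ᵐ x ∂(X.ms v), x ∈ G) (h1 : X.Low g (X.mul c v)) (h2 : X.Low g (X.mul g' v)) :
    X.Low (fun x => g x - 1.71 * e x) v := by
  refine h.loc (Finset.univ : Finset (Fin 2)) ![c, g'] ?_ ?_ hg he ?_ v hv ?_
  · intro i _
    fin_cases i
    · exact hc
    · exact hg'
  · intro x
    simpa [Fin.sum_univ_two] using hsum x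
  · intro x
    simpa [Fin.sum_univ_two] using hle x
  · intro i _
    fin_cases i
    · exact h1
    · exact h2

theorem sc_meas_infDist (F : Set (E m)) : Measurable fun x : E m => infDist x F :=
  (continuous_infDist_pt F).measurable

/-- measurability and bounds of the weights. -/
theorem scW_bm (F : Set (E m)) (a : ℝ) {κ : ℝ} (hκ : 0 < κ) : ScBM (scW F a κ) := by
  refine ⟨((((sc_meas_infDist F).add_const a).pow_const 2).add_const _).inv, (κ ^ 2)⁻¹, fun x => ?_⟩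
  have h1 : 0 < κ ^ 2 := by positivity
  have h2 : κ ^ 2 ≤ (infDist x F + a) ^ 2 + κ ^ 2 := by nlinarith [sq_nonneg (infDist x F + a)]
  unfold scW
  rw [abs_of_nonneg (inv_nonneg.2 (h1.le.trans h2))]
  exact inv_anti₀ h1 h2

theorem scM_nonneg (F : Set (E m)) (ρ : ℝ) (x : E m) : 0 ≤ scM F ρ x := by
  unfold scM; positivity

theorem scM_le (F : Set (E m)) {ρ : ℝ} (hρ : 0 < ρ) (x : E m) : scM F ρ x ≤ (ρ ^ 2)⁻¹ := by
  unfold scM
  apply inv_anti₀ (by positivity)
  exact pow_le_pow_left₀ hρ.le (le_max_right _ _) 2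

theorem scM_bm (F : Set (E m)) {ρ : ℝ} (hρ : 0 < ρ) : ScBM (scM F ρ) := by
  refine ⟨(((sc_meas_infDist F).max measurable_const).pow_const 2).inv, (ρ ^ 2)⁻¹, fun x => ?_⟩
  rw [abs_of_nonneg (scM_nonneg F ρ x)]
  exact scM_le F hρ x

theorem scM_ite_bm (F : Set (E m)) {ρ : ℝ} (hρ : 0 < ρ) (a b θ : ℝ) :
    ScBM (fun x => (a - if infDist x F ≤ θ then b else 0) * scM F ρ x) ∧
    ScBM (fun x => if infDist x F < θ then a * scM F ρ x else 0) := by
  constructor
  · refine ScBM.mul ((scBM_const a).sub ⟨?_, |b|, fun x => ?_⟩) (scM_bm F hρ)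
    · exact Measurable.ite (measurableSet_le (sc_meas_infDist F) measurable_const) measurable_const
        measurable_const
    · simp only
      split_ifs
      · exact le_rfl
      · simp
  · obtain ⟨hm, C, hC⟩ := (scM_bm F hρ).const_mul a
    refine ⟨Measurable.ite (measurableSet_lt (sc_meas_infDist F) measurable_const) hm
      measurable_const, C, fun x => ?_⟩
    simp only
    split_ifs
    · exact hC x
    · rw [abs_zero]; exact (abs_nonneg _).trans (hC x)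

end

end Claimed.Agent.R315
end

/- ===== packed: Claimed.Agent.R315.Sc.MsA ===== -/
section
/-!
# Row 315, package Sc (P Appendix C.2), part 2a: one scale, and the cut between two scales.   Architect: helper257.   PACKAGE L-SC-MSA.

PLAN: header of `Ms.lean`, steps 1 (`sc_cube`), 2 (`sc_scale_ind`), 3 (`sc_cut`).
-/

set_option autoImplicit false
open scoped ContDiff Topology ENNReal
open MeasureTheory Set Metric

namespace Claimed.Agent.R315

noncomputable section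

variable {m : ℕ}

variable {X : ScSp m} {G F : Set (E m)} {ζ₀ : ℝ}

/-! ### one scale -/

theorem scb_spec : 0 < scb ∧ ∀ W u : ℝ, 0 < W → -1 < u →
    (u * deriv (scP W) u) ^ 2 + (u * deriv (scQ W) u) ^ 2 ≤ scb / W ^ 2 ∧
    ((u ≤ 1 ∨ Real.exp W ≤ u) → deriv (scP W) u = 0 ∧ deriv (scQ W) u = 0) :=
  scP_deriv_le.choose_spec

theorem scB1_spec : 0 < scB1 ∧ ∀ (n : ℕ) (s : ℝ),
    ∑ k ∈ Finset.Icc (-(n : ℤ) - 1) ((n : ℤ) + 1), deriv (scL n k) s ^ 2 ≤ scB1 :=
  scL_sum_deriv_sq.choose_spec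


theorem scLm_pos (m : ℕ) : 0 < scLm m := by
  unfold scLm; positivity

theorem sc_dist_cube {x y c : E m} {R : ℝ} (hR : 0 ≤ R) (hx : ∀ a, |x a - c a| ≤ R)
    (hy : ∀ a, |y a - c a| ≤ R) : dist x y ≤ 2 * Real.sqrt m * R := by
  rw [EuclideanSpace.dist_eq]
  have h1 : ∑ i, dist (x i) (y i) ^ 2 ≤ ∑ _i : Fin m, (2 * R) ^ 2 := by
    refine Finset.sum_le_sum fun i _ => ?_
    apply pow_le_pow_left₀ dist_nonneg
    rw [Real.dist_eq]
    have e : x i - y i = (x i - c i) - (y i - c i) := by ring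
    rw [e]
    calc |(x i - c i) - (y i - c i)| ≤ |x i - c i| + |y i - c i| := abs_sub _ _
      _ ≤ 2 * R := by linarith [hx i, hy i]
  calc Real.sqrt (∑ i, dist (x i) (y i) ^ 2) ≤ Real.sqrt (∑ _i : Fin m, (2 * R) ^ 2) :=
        Real.sqrt_le_sqrt h1
    _ = 2 * Real.sqrt m * R := by
        rw [Finset.sum_const, Finset.card_univ, Fintype.card_fin, nsmul_eq_mul,
          Real.sqrt_mul (by positivity), Real.sqrt_sq (by positivity)]
        ring

theorem scZ2_inv_bm (z : E m) (L : Submodule ℝ (E m)) {κ : ℝ} (hκ : 0 < κ) :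
    ScBM fun x => (scZ2 z L κ x)⁻¹ := by
  have hc : Continuous fun x : E m => infDist (x - z) (L : Set (E m)) :=
    (continuous_infDist_pt _).comp (continuous_id.sub continuous_const)
  refine ⟨((hc.measurable.pow_const 2).add_const _).inv, (κ ^ 2)⁻¹, fun x => ?_⟩
  have h1 : 0 < κ ^ 2 := by positivity
  have h2 : κ ^ 2 ≤ scZ2 z L κ x := by
    unfold scZ2; nlinarith [sq_nonneg (infDist (x - z) (L : Set (E m)))]
  rw [abs_of_nonneg (inv_nonneg.2 (h1.le.trans h2))]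
  exact inv_anti₀ h1 h2

theorem sc_cube (h : X.Ok G ζ₀) (hF : IsClosed F) (hF0 : F.Nonempty) {η rF : ℝ} (hη : 0 ≤ η)
    (hflat : ScFlat F η rF) {t R κ : ℝ} (ht : 0 < t) (htR : t ≤ R) (hκ : 0 < κ)
    (hR : scLm m * R < rF) (hζ : (t + η * (scLm m * R)) ^ 2 + κ ^ 2 ≤ ζ₀ ^ 2) (u : X.T)
    (hu : ∀ᵐ x ∂(X.ms u), x ∈ G ∧ infDist x F ≤ t) (c : E m)
    (hc : ∀ᵐ x ∂(X.ms u), ∀ a, |x a - c a| ≤ R) :
    X.Low (fun x => 3.8 * scW F (η * (scLm m * R)) κ x) u := by
  have hR0 : 0 < R := ht.trans_le htR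
  by_cases hz : X.ms u = 0
  · unfold ScSp.Low
    rw [hz]
    simpa using h.N_nonneg u
  have : (ae (X.ms u)).NeBot := ae_neBot.2 hz
  obtain ⟨x₀, ⟨-, hx₀t⟩, hx₀c⟩ := (hu.and hc).exists
  obtain ⟨z, hzF, hzd⟩ := hF.exists_infDist_eq_dist hF0 x₀
  set r' := scLm m * R with hr'
  have hr'0 : 0 < r' := mul_pos (scLm_pos m) hR0
  obtain ⟨L, hL, hLf⟩ := hflat z hzF r' hr'0 hR
  have key : ∀ x, infDist x F ≤ t → (∀ a, |x a - c a| ≤ R) →
      infDist (x - z) (L : Set (E m)) ≤ infDist x F + η * r' := by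
    intro x hxt hxc
    obtain ⟨y, hyF, hyd⟩ := hF.exists_infDist_eq_dist hF0 x
    have d1 : dist y z < r' := by
      have a1 : dist y z ≤ dist y x + dist x x₀ + dist x₀ z := dist_triangle4 _ _ _ _
      have a2 : dist x x₀ ≤ 2 * Real.sqrt m * R := sc_dist_cube hR0.le hxc hx₀c
      have a3 : dist y x ≤ t := by rw [dist_comm, ← hyd]; exact hxt
      have a4 : dist x₀ z ≤ t := by rw [← hzd]; exact hx₀t
      have : r' = 2 * Real.sqrt m * R + 3 * R := by rw [hr', scLm]; ring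
      linarith
    have d2 := hLf y ⟨hyF, mem_ball.2 d1⟩
    have d3 : infDist (x - z) (L : Set (E m)) ≤ infDist (y - z) (L : Set (E m)) + dist (x - z) (y - z) :=
      infDist_le_infDist_add_dist
    rw [dist_sub_right, ← hyd] at d3
    linarith
  have hbox := h.box u z L κ hL hκ (by
    filter_upwards [hu, hc] with x hx hxc
    refine ⟨hx.1, le_trans ?_ hζ⟩
    have k := key x hx.2 hxc
    have k0 : 0 ≤ infDist (x - z) (L : Set (E m)) := infDist_nonneg
    unfold scZ2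
    have : infDist (x - z) (L : Set (E m)) ≤ t + η * r' := by linarith [hx.2]
    nlinarith)
  unfold ScSp.Low
  rw [integral_const_mul]
  refine le_trans ?_ hbox
  apply mul_le_mul_of_nonneg_left _ (by norm_num)
  apply integral_mono_ae ((scW_bm F _ hκ).integrable h u) ((scZ2_inv_bm z L hκ).integrable h u)
  filter_upwards [hu, hc] with x hx hxc
  have k := key x hx.2 hxc
  have k0 : 0 ≤ infDist (x - z) (L : Set (E m)) := infDist_nonneg
  unfold scW scZ2
  apply inv_anti₀ (by positivity)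
  nlinarith


/-- the coordinate cut-offs. -/
def scChi (n : ℕ) (R : ℝ) (a : Fin m) (k : ℤ) (x : E m) : ℝ := scL n k (x a / R)

theorem scChi_contDiff (n : ℕ) (R : ℝ) (a : Fin m) (k : ℤ) : ContDiff ℝ ∞ (scChi n R a k) := by
  have : ContDiff ℝ ∞ fun x : E m => x a / R :=
    ((EuclideanSpace.proj a : E m →L[ℝ] ℝ).contDiff).div_const R
  exact (scL_contDiff n k).comp this

theorem scChi_fderiv_le (n : ℕ) {R : ℝ} (hR : 0 < R) (a : Fin m) (k : ℤ) (x : E m) :
    ‖fderiv ℝ (scChi n R a k) x‖ ^ 2 ≤ deriv (scL n k) (x a / R) ^ 2 / R ^ 2 := by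
  have h1 : HasFDerivAt (fun x : E m => x a / R) (R⁻¹ • (EuclideanSpace.proj a : E m →L[ℝ] ℝ)) x := by
    have := ((EuclideanSpace.proj a : E m →L[ℝ] ℝ).hasFDerivAt (x := x)).const_smul R⁻¹
    refine this.congr_of_eventuallyEq (Filter.Eventually.of_forall fun y => ?_)
    simp [div_eq_inv_mul]
  have h2 : HasDerivAt (scL n k) (deriv (scL n k) (x a / R)) (x a / R) :=
    ((scL_contDiff n k).differentiable (by simp)).differentiableAt.hasDerivAt
  have h3 := (HasDerivAt.comp_hasFDerivAt (h₂ := scL n k) x h2 h1).fderiv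
  have e : scChi n R a k = scL n k ∘ fun x : E m => x a / R := rfl
  rw [e, h3, norm_smul, norm_smul, Real.norm_eq_abs, Real.norm_eq_abs, abs_of_pos (inv_pos.2 hR)]
  have hp : ‖(EuclideanSpace.proj a : E m →L[ℝ] ℝ)‖ ≤ 1 := by
    apply ContinuousLinearMap.opNorm_le_bound _ zero_le_one
    intro y
    rw [one_mul]
    exact PiLp.norm_apply_le y a
  have hp0 := norm_nonneg (EuclideanSpace.proj a : E m →L[ℝ] ℝ)
  rw [mul_pow, sq_abs, mul_pow, div_eq_mul_inv, inv_pow]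
  apply mul_le_mul_of_nonneg_left _ (sq_nonneg _)
  have : ‖(EuclideanSpace.proj a : E m →L[ℝ] ℝ)‖ ^ 2 ≤ 1 := by nlinarith
  have hR2 : 0 ≤ (R ^ 2)⁻¹ := by positivity
  nlinarith

theorem sc_scale_ind (h : X.Ok G ζ₀) (hF : IsClosed F) (hF0 : F.Nonempty) {η rF : ℝ} (hη : 0 ≤ η)
    (hflat : ScFlat F η rF) {t R κ : ℝ} (ht : 0 < t) (htR : t ≤ R) (hκ : 0 < κ)
    (hR : scLm m * R < rF) (hζ : (t + η * (scLm m * R)) ^ 2 + κ ^ 2 ≤ ζ₀ ^ 2) (A : Finset (Fin m)) :
    ∀ u : X.T, (∀ᵐ x ∂(X.ms u), x ∈ G ∧ infDist x F ≤ t) →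
      (∀ a ∉ A, ∃ c : ℝ, ∀ᵐ x ∂(X.ms u), |x a - c| ≤ R) →
      X.Low (fun x => 3.8 * scW F (η * (scLm m * R)) κ x - 1.71 * (A.card * scB1 / R ^ 2)) u := by
  classical
  have hR0 : 0 < R := ht.trans_le htR
  induction A using Finset.induction_on with
  | empty =>
    intro u hu hc
    choose c hc using fun a => hc a (Finset.notMem_empty a)
    have := sc_cube h hF hF0 hη hflat ht htR hκ hR hζ u hu (WithLp.toLp 2 c)
      (by rw [ae_all_iff]; exact hc)
    simpa using this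
  | insert a A ha ih =>
    intro u hu hc
    obtain ⟨R', hR'⟩ := h.bdd u
    obtain ⟨n, hn⟩ := exists_nat_ge (R' / R)
    have hbd : ∀ᵐ x ∂(X.ms u), |x a / R| ≤ n := by
      have : ∀ᵐ x ∂(X.ms u), ¬ (R' < ‖x‖) := by
        rw [ae_iff]; simpa using hR'
      filter_upwards [this] with x hx
      rw [abs_div, abs_of_pos hR0, div_le_iff₀ hR0]
      have h1 : |x a| ≤ ‖x‖ := by
        have := PiLp.norm_apply_le x a
        rwa [Real.norm_eq_abs] at this
      have h2 : R' ≤ n * R := by rwa [div_le_iff₀ hR0] at hn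
      linarith [not_lt.1 hx]
    have hg : ScBM fun x => 3.8 * scW F (η * (scLm m * R)) κ x - 1.71 * (A.card * scB1 / R ^ 2) :=
      ((scW_bm F _ hκ).const_mul 3.8).sub (scBM_const _)
    have main := h.loc (Finset.Icc (-(n : ℤ) - 1) ((n : ℤ) + 1)) (scChi n R a)
      (fun k _ => scChi_contDiff n R a k) (fun x => scL_sum_sq n (x a / R)) hg
      (scBM_const (scB1 / R ^ 2)) (fun x => by
        calc ∑ k ∈ Finset.Icc (-(n : ℤ) - 1) ((n : ℤ) + 1), ‖fderiv ℝ (scChi n R a k) x‖ ^ 2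
            ≤ ∑ k ∈ Finset.Icc (-(n : ℤ) - 1) ((n : ℤ) + 1), deriv (scL n k) (x a / R) ^ 2 / R ^ 2 :=
              Finset.sum_le_sum fun k _ => scChi_fderiv_le n hR0 a k x
          _ = (∑ k ∈ Finset.Icc (-(n : ℤ) - 1) ((n : ℤ) + 1), deriv (scL n k) (x a / R) ^ 2) / R ^ 2 := by
              rw [Finset.sum_div]
          _ ≤ scB1 / R ^ 2 := by
              gcongr
              exact scB1_spec.2 n _) u (hu.mono fun x hx => hx.1) (fun k hk => by
        apply ih (X.mul (scChi n R a k) u)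
        · exact h.ae_mul (scChi_contDiff n R a k) (hu.mono fun x hx _ => hx)
        · intro b hb
          by_cases hba : b = a
          · subst hba
            refine ⟨k * R, h.ae_mul (scChi_contDiff n R b k) ?_⟩
            filter_upwards [hbd] with x hx hne
            rw [Finset.mem_Icc] at hk
            by_cases hend : k ≤ -(n : ℤ) - 1 ∨ (n : ℤ) + 1 ≤ k
            · exact absurd (scL_end_eq_zero hend hx) hne
            · push Not at hend
              have hlt : |x b / R - k| < 1 := by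
                by_contra hcon
                exact hne (scL_eq_zero hend.1 hend.2 (not_lt.1 hcon))
              have e : x b - k * R = (x b / R - k) * R := by field_simp
              rw [e, abs_mul, abs_of_pos hR0]
              nlinarith [abs_nonneg (x b / R - k)]
          · obtain ⟨c, hc'⟩ := hc b (by
              rw [Finset.mem_insert]; push Not; exact ⟨hba, hb⟩)
            exact ⟨c, h.ae_mul (scChi_contDiff n R a k) (hc'.mono fun x hx _ => hx)⟩)
    have e : (fun x => 3.8 * scW F (η * (scLm m * R)) κ x -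
        1.71 * (((insert a A : Finset (Fin m)).card : ℝ) * scB1 / R ^ 2)) =
        fun x => 3.8 * scW F (η * (scLm m * R)) κ x - 1.71 * (A.card * scB1 / R ^ 2) -
          1.71 * (scB1 / R ^ 2) := by
      funext x
      rw [Finset.card_insert_of_notMem ha]
      push_cast
      ring
    rw [e]
    exact main


/-- the single scale inequality. -/
theorem sc_scale (h : X.Ok G ζ₀) (hF : IsClosed F) (hF0 : F.Nonempty) {η rF : ℝ} (hη : 0 ≤ η)
    (hflat : ScFlat F η rF) {t R κ : ℝ} (ht : 0 < t) (htR : t ≤ R) (hκ : 0 < κ)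
    (hR : scLm m * R < rF) (hζ : (t + η * (scLm m * R)) ^ 2 + κ ^ 2 ≤ ζ₀ ^ 2) (u : X.T)
    (hu : ∀ᵐ x ∂(X.ms u), x ∈ G ∧ infDist x F ≤ t) :
    X.Low (fun x => 3.8 * scW F (η * (scLm m * R)) κ x - 1.71 * (m * scB1 / R ^ 2)) u := by
  have := sc_scale_ind h hF hF0 hη hflat ht htR hκ hR hζ Finset.univ u hu
    (fun a ha => absurd (Finset.mem_univ a) ha)
  simpa using this

/-! ### the cut between two scales -/

theorem sc_cut (F : Set (E m)) {W s : ℝ} (hW : 0 < W) (hs : 0 < s) :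
    ∃ c g : E m → ℝ, ContDiff ℝ ∞ c ∧ ContDiff ℝ ∞ g ∧ (∀ x, c x ^ 2 + g x ^ 2 = 1) ∧
      (∀ x, infDist x F ≤ 3 / 4 * s → g x = 0) ∧
      (∀ x, (Real.exp W + 1 / 4) * s ≤ infDist x F → c x = 0) ∧
      (∀ x, ‖fderiv ℝ c x‖ ^ 2 + ‖fderiv ℝ g x‖ ^ 2 ≤ 25 / 16 * scb / W ^ 2 * (infDist x F ^ 2)⁻¹) ∧
      ∀ x, (infDist x F ≤ 3 / 4 * s ∨ (Real.exp W + 1 / 4) * s ≤ infDist x F) →
        fderiv ℝ c x = 0 ∧ fderiv ℝ g x = 0 := by
  obtain ⟨l, hl, hl1, hl2⟩ := sc_moll_dist F (s := s / 4) (by positivity)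
  have hu : ∀ x, -1 < l x / s := by
    intro x
    have h1 := abs_le.1 (hl2 x)
    have h2 : 0 ≤ infDist x F := infDist_nonneg
    rw [lt_div_iff₀ hs]
    linarith [h1.1]
  have hls : ContDiff ℝ ∞ fun x => l x / s := hl.div_const s
  have hfd : ∀ x, HasFDerivAt (fun x => l x / s) (s⁻¹ • fderiv ℝ l x) x := by
    intro x
    have := ((hl.differentiable (by simp)) x).hasFDerivAt.const_smul s⁻¹
    refine this.congr_of_eventuallyEq (Filter.Eventually.of_forall fun y => ?_)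
    simp [div_eq_inv_mul]
  have hdP : ∀ x, DifferentiableAt ℝ (scP W) (l x / s) := fun x =>
    (((scP_contDiffOn hW).1.contDiffAt (Ioi_mem_nhds (hu x))).differentiableAt (by simp))
  have hdQ : ∀ x, DifferentiableAt ℝ (scQ W) (l x / s) := fun x =>
    (((scP_contDiffOn hW).2.contDiffAt (Ioi_mem_nhds (hu x))).differentiableAt (by simp))
  have fP : ∀ x, fderiv ℝ (fun x => scP W (l x / s)) x =
      deriv (scP W) (l x / s) • (s⁻¹ • fderiv ℝ l x) := fun x =>
    (HasDerivAt.comp_hasFDerivAt (h₂ := scP W) x (hdP x).hasDerivAt (hfd x)).fderiv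
  have fQ : ∀ x, fderiv ℝ (fun x => scQ W (l x / s)) x =
      deriv (scQ W) (l x / s) • (s⁻¹ • fderiv ℝ l x) := fun x =>
    (HasDerivAt.comp_hasFDerivAt (h₂ := scQ W) x (hdQ x).hasDerivAt (hfd x)).fderiv
  have hle1 : ∀ x, infDist x F ≤ 3 / 4 * s → l x / s ≤ 1 := by
    intro x hx
    rw [div_le_one hs]
    linarith [(abs_le.1 (hl2 x)).2]
  have hge1 : ∀ x, (Real.exp W + 1 / 4) * s ≤ infDist x F → Real.exp W ≤ l x / s := by
    intro x hx
    rw [le_div_iff₀ hs]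
    linarith [(abs_le.1 (hl2 x)).1]
  have hzero : ∀ x, (l x / s ≤ 1 ∨ Real.exp W ≤ l x / s) →
      fderiv ℝ (fun x => scP W (l x / s)) x = 0 ∧ fderiv ℝ (fun x => scQ W (l x / s)) x = 0 := by
    intro x hx
    obtain ⟨z1, z2⟩ := (scb_spec.2 W (l x / s) hW (hu x)).2 hx
    rw [fP, fQ, z1, z2]
    simp
  refine ⟨fun x => scP W (l x / s), fun x => scQ W (l x / s), ?_, ?_, fun x => scP_sq_add_scQ_sq _ _,
    ?_, ?_, ?_, ?_⟩
  · rw [contDiff_iff_contDiffAt]
    intro x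
    exact ContDiffAt.comp (g := scP W) (f := fun x => l x / s) x
      ((scP_contDiffOn hW).1.contDiffAt (Ioi_mem_nhds (hu x))) hls.contDiffAt
  · rw [contDiff_iff_contDiffAt]
    intro x
    exact ContDiffAt.comp (g := scQ W) (f := fun x => l x / s) x
      ((scP_contDiffOn hW).2.contDiffAt (Ioi_mem_nhds (hu x))) hls.contDiffAt
  · intro x hx
    exact (scP_of_le hW (hu x).le (hle1 x hx)).2
  · intro x hx
    exact (scP_of_ge hW (hge1 x hx)).1
  · intro x
    have hrhs : 0 ≤ 25 / 16 * scb / W ^ 2 * (infDist x F ^ 2)⁻¹ := by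
      have := scb_spec.1
      positivity
    by_cases hc : l x / s ≤ 1 ∨ Real.exp W ≤ l x / s
    · obtain ⟨z1, z2⟩ := hzero x hc
      rw [z1, z2]; simpa using hrhs
    · push Not at hc
      have h1 : s < l x := by
        have := hc.1
        rwa [lt_div_iff₀ hs, one_mul] at this
      have hlpos : 0 < l x := hs.trans h1
      have hδ : infDist x F ≤ 5 / 4 * l x := by linarith [(abs_le.1 (hl2 x)).1]
      have hδ0 : 0 < infDist x F := by linarith [(abs_le.1 (hl2 x)).2]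
      have key := (scb_spec.2 W (l x / s) hW (hu x)).1
      rw [fP, fQ, norm_smul, norm_smul, norm_smul, norm_smul, Real.norm_eq_abs, Real.norm_eq_abs,
        Real.norm_eq_abs, abs_of_pos (inv_pos.2 hs)]
      set a := deriv (scP W) (l x / s)
      set b := deriv (scQ W) (l x / s)
      set N := ‖fderiv ℝ l x‖
      have hN0 : 0 ≤ N := norm_nonneg _
      have hN : N ≤ 1 := hl1 x
      have hN2 : N ^ 2 ≤ 1 := by nlinarith
      have e1 : (|a| * (s⁻¹ * N)) ^ 2 + (|b| * (s⁻¹ * N)) ^ 2 =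
          ((l x / s * a) ^ 2 + (l x / s * b) ^ 2) * (N ^ 2 * (l x ^ 2)⁻¹) := by
        rw [mul_pow |a|, mul_pow |b|, sq_abs, sq_abs]
        field_simp
      rw [e1]
      have hinv : (l x ^ 2)⁻¹ ≤ 25 / 16 * (infDist x F ^ 2)⁻¹ := by
        rw [← div_eq_mul_inv, le_div_iff₀ (by positivity), inv_mul_le_iff₀ (by positivity)]
        nlinarith
      have hW2 : 0 ≤ scb / W ^ 2 := by
        have := scb_spec.1
        positivity
      calc ((l x / s * a) ^ 2 + (l x / s * b) ^ 2) * (N ^ 2 * (l x ^ 2)⁻¹)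
          ≤ scb / W ^ 2 * (1 * (25 / 16 * (infDist x F ^ 2)⁻¹)) := by
            apply mul_le_mul key _ (by positivity) hW2
            apply mul_le_mul hN2 hinv (by positivity) (by norm_num)
        _ = 25 / 16 * scb / W ^ 2 * (infDist x F ^ 2)⁻¹ := by ring
  · intro x hx
    apply hzero x
    rcases hx with h | h
    · exact Or.inl (hle1 x h)
    · exact Or.inr (hge1 x h)


end

end Claimed.Agent.R315
end

/- ===== packed: Claimed.Agent.R315.Sc.MsB ===== -/
section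
/-!
# Row 315, package Sc (P Appendix C.2), part 2b: all scales; THE ABSTRACT HARDY INEQUALITY.   Architect: helper257.   PACKAGE L-SC-MSB.

PLAN: header of `Ms.lean`, steps 4 (`sc_ind_zero`, `sc_ind_ann`, `sc_ind`), 5 (`sc_cst`, `sc_hardy_abs`).
-/

set_option autoImplicit false
open scoped ContDiff Topology ENNReal
open MeasureTheory Set Metric

namespace Claimed.Agent.R315

noncomputable section

variable {m : ℕ}

variable {X : ScSp m} {G F : Set (E m)} {ζ₀ : ℝ}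

/-! ### all scales -/

/-- `s_j = 2ρ (2e^W)^j`. -/
def scS (W ρ : ℝ) (j : ℕ) : ℝ := 2 * ρ * (2 * Real.exp W) ^ j

/-- `t_j = (e^W + 1/4) s_j`. -/
def scT (W ρ : ℝ) (j : ℕ) : ℝ := (Real.exp W + 1 / 4) * scS W ρ j

/-- `θ_0 = -1`, `θ_{j+1} = t_j`. -/
def scTh (W ρ : ℝ) : ℕ → ℝ
  | 0 => -1
  | j + 1 => scT W ρ j

/-- the admissible constants. -/
structure ScCst (m : ℕ) (W K η : ℝ) : Prop where
  W1 : 1 ≤ W
  K1 : 1 ≤ K
  η0 : 0 < η
  hK : 1.71 * (m * scB1 / K ^ 2) ≤ 0.05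
  hW : 1.71 * (25 / 16 * scb / W ^ 2) ≤ 0.05
  hη : η * (scLm m * K * (Real.exp W + 1 / 4) * (2 * Real.exp W)) ≤ 0.0075

/-- [L-SC-M7] -/
theorem sc_cst (m : ℕ) : ∃ W K η : ℝ, ScCst m W K η := by
  have hb := scb_spec.1
  have hB := scB1_spec.1
  have hm : (0:ℝ) ≤ m := Nat.cast_nonneg m
  set W : ℝ := 1 + 54 * scb with hW
  set K : ℝ := 1 + 35 * (m * scB1) with hK
  have hW1 : 1 ≤ W := by rw [hW]; linarith
  have hK1 : 1 ≤ K := by rw [hK]; nlinarith
  have hD : 0 < scLm m * K * (Real.exp W + 1 / 4) * (2 * Real.exp W) := by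
    have := scLm_pos m
    have := Real.exp_pos W
    positivity
  refine ⟨W, K, 0.0075 / (scLm m * K * (Real.exp W + 1 / 4) * (2 * Real.exp W)), hW1, hK1,
    by positivity, ?_, ?_, ?_⟩
  · have hK2 : K ≤ K ^ 2 := by nlinarith
    have : 0 < K ^ 2 := by positivity
    rw [← mul_div_assoc, div_le_iff₀ this]
    nlinarith
  · have hW2 : W ≤ W ^ 2 := by nlinarith
    have : 0 < W ^ 2 := by positivity
    rw [← mul_div_assoc, div_le_iff₀ this]
    nlinarith
  · rw [div_mul_cancel₀ _ hD.ne']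

/-- one piece: `u` lives in `{δ ≤ t}`, and `σ ≤ max(δ,ρ) ≤ t` there. -/
theorem sc_piece (h : X.Ok G ζ₀) (hF : IsClosed F) (hF0 : F.Nonempty) {W K η rF ρ : ℝ}
    (hc : ScCst m W K η) (hflat : ScFlat F η rF) (hρ : 0 < ρ) {t σ : ℝ} (hσ : 0 < σ) (hσt : σ ≤ t)
    (hρt : ρ ≤ t) (ha : η * (scLm m * (K * t)) ≤ 0.01 * σ) (h1 : scLm m * K * t < rF)
    (h2 : 2 * t ≤ ζ₀) (u : X.T)
    (hu : ∀ᵐ x ∂(X.ms u), x ∈ G ∧ infDist x F ≤ t ∧ σ ≤ max (infDist x F) ρ) :
    X.Low (fun x => 3.63 * scM F ρ x) u := by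
  have ht : 0 < t := hσ.trans_le hσt
  have hK0 : 0 < K := lt_of_lt_of_le one_pos hc.K1
  have hκ : 0 < 0.1 * σ := by positivity
  have ha0 : 0 ≤ η * (scLm m * (K * t)) := by
    have := scLm_pos m
    have := hc.η0
    positivity
  have hs := sc_scale h hF hF0 hc.η0.le hflat ht (R := K * t) (by nlinarith [hc.K1]) hκ
    (by rw [← mul_assoc]; exact h1) (by
      have : 0 ≤ ζ₀ := by linarith
      nlinarith) u (hu.mono fun x hx => ⟨hx.1, hx.2.1⟩)
  refine ScSp.Low.mono h ((scM_bm F hρ).const_mul 3.63)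
    (((scW_bm F _ hκ).const_mul 3.8).sub (scBM_const _)) ?_ hs
  filter_upwards [hu] with x hx
  obtain ⟨-, hxt, hxσ⟩ := hx
  set δ := infDist x F
  have hδ0 : 0 ≤ δ := infDist_nonneg
  set M := max δ ρ with hM
  have hM0 : 0 < M := lt_of_lt_of_le hρ (le_max_right _ _)
  have hδM : δ ≤ M := le_max_left _ _
  have hMt : M ≤ t := max_le hxt hρt
  set a := η * (scLm m * (K * t))
  have hD : (δ + a) ^ 2 + (0.1 * σ) ^ 2 ≤ 1.0301 * M ^ 2 := by
    have e1 : δ + a ≤ 1.01 * M := by linarith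
    have e2 : 0.1 * σ ≤ 0.1 * M := by linarith
    have e3 : (δ + a) ^ 2 ≤ (1.01 * M) ^ 2 := pow_le_pow_left₀ (by positivity) e1 2
    have e4 : (0.1 * σ) ^ 2 ≤ (0.1 * M) ^ 2 := pow_le_pow_left₀ (by positivity) e2 2
    nlinarith
  have hD0 : 0 < (δ + a) ^ 2 + (0.1 * σ) ^ 2 := by positivity
  have hW1 : (1.0301 * M ^ 2)⁻¹ ≤ scW F a (0.1 * σ) x := by
    unfold scW
    exact inv_anti₀ hD0 hD
  have hE : 1.71 * (m * scB1 / (K * t) ^ 2) ≤ 0.05 * (M ^ 2)⁻¹ := by
    have e1 : 1.71 * (m * scB1 / (K * t) ^ 2) = 1.71 * (m * scB1 / K ^ 2) * (t ^ 2)⁻¹ := by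
      field_simp
    rw [e1]
    have e2 : (t ^ 2)⁻¹ ≤ (M ^ 2)⁻¹ := inv_anti₀ (by positivity) (pow_le_pow_left₀ hM0.le hMt 2)
    have e3 : 0 ≤ (t ^ 2)⁻¹ := by positivity
    calc 1.71 * (m * scB1 / K ^ 2) * (t ^ 2)⁻¹ ≤ 0.05 * (t ^ 2)⁻¹ :=
          mul_le_mul_of_nonneg_right hc.hK e3
      _ ≤ 0.05 * (M ^ 2)⁻¹ := by linarith
  have hsM : scM F ρ x = (M ^ 2)⁻¹ := rfl
  rw [hsM]
  have e5 : (1.0301 * M ^ 2)⁻¹ = (1.0301 : ℝ)⁻¹ * (M ^ 2)⁻¹ := by rw [mul_inv]
  have e6 : 0 ≤ (M ^ 2)⁻¹ := by positivity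
  have e7 : (3.68 : ℝ) ≤ 3.8 * (1.0301 : ℝ)⁻¹ := by norm_num
  nlinarith


theorem sc_exp_ge {W : ℝ} (hW : 0 ≤ W) : 1 ≤ Real.exp W := Real.one_le_exp hW

theorem scS_pos (W : ℝ) {ρ : ℝ} (hρ : 0 < ρ) (j : ℕ) : 0 < scS W ρ j := by
  have := Real.exp_pos W
  unfold scS; positivity

theorem scS_succ (W ρ : ℝ) (j : ℕ) : scS W ρ (j + 1) = scS W ρ j * (2 * Real.exp W) := by
  unfold scS; rw [pow_succ]; ring

theorem scS_ge {W : ℝ} (hW : 0 ≤ W) {ρ : ℝ} (hρ : 0 < ρ) (j : ℕ) : 2 * ρ ≤ scS W ρ j := by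
  have h1 : (1:ℝ) ≤ (2 * Real.exp W) ^ j := one_le_pow₀ (by linarith [sc_exp_ge hW])
  unfold scS
  nlinarith

theorem scS_le_scT {W : ℝ} (hW : 0 ≤ W) {ρ : ℝ} (hρ : 0 < ρ) (j : ℕ) : scS W ρ j ≤ scT W ρ j := by
  have := scS_pos W hρ j
  have := sc_exp_ge hW
  unfold scT; nlinarith

theorem scT_succ (W ρ : ℝ) (j : ℕ) : scT W ρ (j + 1) = scT W ρ j * (2 * Real.exp W) := by
  unfold scT; rw [scS_succ]; ring

theorem scT_le_succ {W : ℝ} (hW : 0 ≤ W) {ρ : ℝ} (hρ : 0 < ρ) (j : ℕ) :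
    scT W ρ j ≤ scT W ρ (j + 1) := by
  have h1 := scS_pos W hρ j
  have h2 := sc_exp_ge hW
  have h3 : 0 < scT W ρ j := lt_of_lt_of_le h1 (scS_le_scT hW hρ j)
  rw [scT_succ]; nlinarith

/-- `θ_j < 3/4 s_j`. -/
theorem scTh_lt {W : ℝ} (hW : 0 ≤ W) {ρ : ℝ} (hρ : 0 < ρ) (j : ℕ) :
    scTh W ρ j < 3 / 4 * scS W ρ j := by
  cases j with
  | zero =>
    have := scS_pos W hρ 0
    show (-1 : ℝ) < _
    linarith
  | succ j =>
    show scT W ρ j < _
    have h1 := scS_pos W hρ j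
    have h2 := sc_exp_ge hW
    rw [scS_succ]; unfold scT; nlinarith

/-- [L-SC-M8] base of the induction. -/
theorem sc_ind_zero (h : X.Ok G ζ₀) (hF : IsClosed F) (hF0 : F.Nonempty) {W K η rF ρ : ℝ}
    (hc : ScCst m W K η) (hflat : ScFlat F η rF) (hρ : 0 < ρ)
    (h1 : scLm m * K * scT W ρ 0 < rF) (h2 : 2 * scT W ρ 0 ≤ ζ₀) (u : X.T)
    (hu : ∀ᵐ x ∂(X.ms u), x ∈ G ∧ infDist x F ≤ scT W ρ 0) :
    X.Low (fun x => 3.63 * scM F ρ x) u := by
  have hW0 : 0 ≤ W := by linarith [hc.W1]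
  have he := sc_exp_ge hW0
  have hρt : ρ ≤ scT W ρ 0 := by
    have := scS_ge hW0 hρ 0
    have := scS_le_scT hW0 hρ 0
    linarith
  refine sc_piece h hF hF0 hc hflat hρ hρ hρt hρt ?_ h1 h2 u
    (hu.mono fun x hx => ⟨hx.1, hx.2, le_max_right _ _⟩)
  have e : η * (scLm m * (K * scT W ρ 0)) * Real.exp W =
      η * (scLm m * K * (Real.exp W + 1 / 4) * (2 * Real.exp W)) * ρ := by
    unfold scT scS; ring
  have h3 : η * (scLm m * (K * scT W ρ 0)) * Real.exp W ≤ 0.0075 * ρ := by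
    rw [e]; exact mul_le_mul_of_nonneg_right hc.hη hρ.le
  have h4 : 0 ≤ η * (scLm m * (K * scT W ρ 0)) := by
    have := scLm_pos m
    have := hc.η0
    have : 0 < K := lt_of_lt_of_le one_pos hc.K1
    have : 0 < scT W ρ 0 := hρ.trans_le hρt
    positivity
  nlinarith

/-- [L-SC-M9] annular pieces. -/
theorem sc_ind_ann (h : X.Ok G ζ₀) (hF : IsClosed F) (hF0 : F.Nonempty) {W K η rF ρ : ℝ}
    (hc : ScCst m W K η) (hflat : ScFlat F η rF) (hρ : 0 < ρ) (j : ℕ)
    (h1 : scLm m * K * scT W ρ (j + 1) < rF) (h2 : 2 * scT W ρ (j + 1) ≤ ζ₀) (u : X.T)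
    (hu : ∀ᵐ x ∂(X.ms u), x ∈ G ∧ 3 / 4 * scS W ρ j ≤ infDist x F ∧ infDist x F ≤ scT W ρ (j + 1)) :
    X.Low (fun x => 3.63 * scM F ρ x) u := by
  have hW0 : 0 ≤ W := by linarith [hc.W1]
  have he := sc_exp_ge hW0
  have hs := scS_pos W hρ j
  have hst : scS W ρ j ≤ scT W ρ (j + 1) := (scS_le_scT hW0 hρ j).trans (scT_le_succ hW0 hρ j)
  have hρs := scS_ge hW0 hρ j
  refine sc_piece h hF hF0 hc hflat hρ (σ := 3 / 4 * scS W ρ j) (by positivity) (by linarith)
    (by linarith) ?_ h1 h2 u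
    (hu.mono fun x hx => ⟨hx.1, hx.2.2, hx.2.1.trans (le_max_left _ _)⟩)
  have e : η * (scLm m * (K * scT W ρ (j + 1))) =
      η * (scLm m * K * (Real.exp W + 1 / 4) * (2 * Real.exp W)) * scS W ρ j := by
    unfold scT; rw [scS_succ]; ring
  rw [e]
  have := mul_le_mul_of_nonneg_right hc.hη hs.le
  linarith


/-- the error of a cut: `A δ⁻²` on the band `a < δ < b`. -/
def scEr (F : Set (E m)) (A a b : ℝ) (x : E m) : ℝ :=
  if a < infDist x F ∧ infDist x F < b then A * (infDist x F ^ 2)⁻¹ else 0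

theorem scEr_le (F : Set (E m)) {A a : ℝ} (hA : 0 ≤ A) (ha : 0 < a) (b : ℝ) (x : E m) :
    0 ≤ scEr F A a b x ∧ scEr F A a b x ≤ A * (a ^ 2)⁻¹ := by
  unfold scEr
  split_ifs with hx
  · refine ⟨by positivity, mul_le_mul_of_nonneg_left ?_ hA⟩
    exact inv_anti₀ (by positivity) (pow_le_pow_left₀ ha.le hx.1.le 2)
  · exact ⟨le_rfl, by positivity⟩

theorem scEr_bm (F : Set (E m)) {A a : ℝ} (hA : 0 ≤ A) (ha : 0 < a) (b : ℝ) :
    ScBM (scEr F A a b) := by
  refine ⟨Measurable.ite ((measurableSet_lt measurable_const (sc_meas_infDist F)).inter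
    (measurableSet_lt (sc_meas_infDist F) measurable_const))
    (((sc_meas_infDist F).pow_const 2).inv.const_mul A) measurable_const, A * (a ^ 2)⁻¹, fun x => ?_⟩
  rw [abs_of_nonneg (scEr_le F hA ha b x).1]
  exact (scEr_le F hA ha b x).2

/-- `sc_cut`, repackaged. -/
theorem sc_cut' (F : Set (E m)) {W s : ℝ} (hW : 0 < W) (hs : 0 < s) :
    ∃ c g : E m → ℝ, ContDiff ℝ ∞ c ∧ ContDiff ℝ ∞ g ∧ (∀ x, c x ^ 2 + g x ^ 2 = 1) ∧
      (∀ x, g x ≠ 0 → 3 / 4 * s < infDist x F) ∧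
      (∀ x, c x ≠ 0 → infDist x F < (Real.exp W + 1 / 4) * s) ∧
      (∀ x, ‖fderiv ℝ c x‖ ^ 2 + ‖fderiv ℝ g x‖ ^ 2 ≤
        scEr F (25 / 16 * scb / W ^ 2) (3 / 4 * s) ((Real.exp W + 1 / 4) * s) x) := by
  obtain ⟨c, g, hc, hg, hsum, hg0, hc0, hle, hz⟩ := sc_cut F hW hs
  refine ⟨c, g, hc, hg, hsum, fun x hx => ?_, fun x hx => ?_, fun x => ?_⟩
  · by_contra hcon
    exact hx (hg0 x (not_lt.1 hcon))
  · by_contra hcon
    exact hx (hc0 x (not_lt.1 hcon))
  · unfold scEr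
    split_ifs with hx
    · exact hle x
    · have : infDist x F ≤ 3 / 4 * s ∨ (Real.exp W + 1 / 4) * s ≤ infDist x F := by
        by_contra hcon
        push Not at hcon
        exact hx hcon
      obtain ⟨e1, e2⟩ := hz x this
      rw [e1, e2]; simp

/-- [L-SC-M10] the induction over the scales. -/
theorem sc_ind (h : X.Ok G ζ₀) (hF : IsClosed F) (hF0 : F.Nonempty) {W K η rF ρ : ℝ}
    (hc : ScCst m W K η) (hflat : ScFlat F η rF) (hρ : 0 < ρ) (j : ℕ)
    (h1 : scLm m * K * scT W ρ j < rF) (h2 : 2 * scT W ρ j ≤ ζ₀) :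
    ∀ u : X.T, (∀ᵐ x ∂(X.ms u), x ∈ G ∧ infDist x F ≤ scT W ρ j) →
      X.Low (fun x => (3.63 - if infDist x F ≤ scTh W ρ j then 0.05 else 0) * scM F ρ x) u := by
  have hW0 : 0 ≤ W := by linarith [hc.W1]
  have hWp : 0 < W := by linarith [hc.W1]
  have hK0 : 0 < K := lt_of_lt_of_le one_pos hc.K1
  induction j with
  | zero =>
    intro u hu
    have := sc_ind_zero h hF hF0 hc hflat hρ h1 h2 u hu
    convert this using 3 with x
    have : ¬ infDist x F ≤ scTh W ρ 0 := by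
      have h0 : (0:ℝ) ≤ infDist x F := infDist_nonneg
      show ¬ infDist x F ≤ -1
      linarith
    rw [if_neg this, sub_zero]
  | succ j ih =>
    intro u hu
    have hT := scT_le_succ hW0 hρ j
    have hLK : 0 < scLm m * K := mul_pos (scLm_pos m) hK0
    have ih' := ih (lt_of_le_of_lt (mul_le_mul_of_nonneg_left hT hLK.le) h1) (by linarith)
    have hs := scS_pos W hρ j
    obtain ⟨c, g, hcc, hgc, hsum, hg0, hc0, hle⟩ := sc_cut' F hWp hs
    have hA : 0 ≤ 25 / 16 * scb / W ^ 2 := by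
      have := scb_spec.1
      positivity
    have hs34 : 0 < 3 / 4 * scS W ρ j := by positivity
    have hbm0 := (scM_ite_bm F hρ 3.63 0.05 (scTh W ρ j)).1
    have hbm1 := (scM_ite_bm F hρ 3.63 0.05 (scTh W ρ (j + 1))).1
    have hEr := scEr_bm F hA hs34 ((Real.exp W + 1 / 4) * scS W ρ j)
    have hlow := h.loc2 hcc hgc hsum hbm0 hEr hle u (hu.mono fun x hx => hx.1) ?_ ?_
    · refine ScSp.Low.mono h hbm1 (hbm0.sub (hEr.const_mul 1.71)) ?_ hlow
      refine Filter.Eventually.of_forall fun x => ?_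
      have hM0 := scM_nonneg F ρ x
      have hth := scTh_lt hW0 hρ j
      show (3.63 - if infDist x F ≤ scT W ρ j then 0.05 else 0) * scM F ρ x ≤
        (3.63 - if infDist x F ≤ scTh W ρ j then 0.05 else 0) * scM F ρ x - 1.71 *
          scEr F (25 / 16 * scb / W ^ 2) (3 / 4 * scS W ρ j) (scT W ρ j) x
      by_cases hx1 : infDist x F ≤ 3 / 4 * scS W ρ j
      · have hx2 : infDist x F ≤ scT W ρ j := by
          have := scS_le_scT hW0 hρ j
          linarith
        have hE : scEr F (25 / 16 * scb / W ^ 2) (3 / 4 * scS W ρ j) (scT W ρ j) x = 0 :=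
          if_neg (fun hh => absurd hh.1 (not_lt.2 hx1))
        rw [if_pos hx2, hE]
        split_ifs <;> nlinarith
      · push Not at hx1
        have hx3 : ¬ infDist x F ≤ scTh W ρ j := by
          push Not; linarith
        rw [if_neg hx3]
        by_cases hx2 : infDist x F < scT W ρ j
        · have hE : scEr F (25 / 16 * scb / W ^ 2) (3 / 4 * scS W ρ j) (scT W ρ j) x =
              25 / 16 * scb / W ^ 2 * (infDist x F ^ 2)⁻¹ := if_pos ⟨hx1, hx2⟩
          rw [if_pos hx2.le, hE]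
          have hMe : scM F ρ x = (infDist x F ^ 2)⁻¹ := by
            unfold scM
            rw [max_eq_left]
            have := scS_ge hW0 hρ j
            linarith
          rw [hMe] at hM0 ⊢
          have := mul_le_mul_of_nonneg_right hc.hW hM0
          nlinarith
        · have hE : scEr F (25 / 16 * scb / W ^ 2) (3 / 4 * scS W ρ j) (scT W ρ j) x = 0 :=
            if_neg (fun hh => hx2 hh.2)
          rw [hE]
          split_ifs <;> nlinarith
    · refine ih' _ (h.ae_mul hcc ?_)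
      filter_upwards [hu] with x hx hcx
      exact ⟨hx.1, (hc0 x hcx).le⟩
    · have := sc_ind_ann h hF hF0 hc hflat hρ j h1 h2 (X.mul g u) (h.ae_mul hgc (by
        filter_upwards [hu] with x hx hgx
        exact ⟨hx.1, (hg0 x hgx).le, hx.2⟩))
      refine ScSp.Low.mono h hbm0 ((scM_bm F hρ).const_mul 3.63) ?_ this
      refine Filter.Eventually.of_forall fun x => ?_
      have hM0 := scM_nonneg F ρ x
      split_ifs <;> nlinarith


/-- the core of `sc_hardy_abs`, in `Low` form. -/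
theorem sc_hardy_low (h : X.Ok G ζ₀) (hF : IsClosed F) (hF0 : F.Nonempty) {W K η rF ρ d₁ : ℝ}
    (hc : ScCst m W K η) (hflat : ScFlat F η rF) (hρ : 0 < ρ) (hd₁ : 0 < d₁)
    (h1 : scLm m * K * ((Real.exp W + 1 / 4) * d₁) < rF) (h2 : 2 * ((Real.exp W + 1 / 4) * d₁) ≤ ζ₀)
    (v : X.T) (hv : ∀ᵐ x ∂(X.ms v), x ∈ G) :
    X.Low (fun x => (if infDist x F < 3 * d₁ / (4 * (2 * Real.exp W)) then 3.55 * scM F ρ x else 0) -
      (15 / d₁ ^ 2 + 0.05 / (3 * d₁ / (4 * (2 * Real.exp W))) ^ 2)) v := by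
  have hW0 : 0 ≤ W := by linarith [hc.W1]
  have hWp : 0 < W := by linarith [hc.W1]
  have hK0 : 0 < K := lt_of_lt_of_le one_pos hc.K1
  have he := sc_exp_ge hW0
  set Q : ℝ := 2 * Real.exp W with hQ
  have hQ1 : 1 < Q := by rw [hQ]; linarith
  have hQ0 : 0 < Q := by linarith
  set d : ℝ := 3 * d₁ / (4 * Q) with hd
  have hd0 : 0 < d := by rw [hd]; positivity
  have hbm := (scM_ite_bm F hρ 3.55 0 d).2
  by_cases hρd : d₁ / 2 ≤ ρ
  · apply h.low_nonpos
    refine Filter.Eventually.of_forall fun x => ?_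
    have hM0 := scM_nonneg F ρ x
    have hM1 := scM_le F hρ x
    have e1 : (ρ ^ 2)⁻¹ ≤ ((d₁ / 2) ^ 2)⁻¹ :=
      inv_anti₀ (by positivity) (pow_le_pow_left₀ (by positivity) hρd 2)
    have e2 : ((d₁ / 2) ^ 2)⁻¹ = 4 / d₁ ^ 2 := by field_simp; norm_num
    have e3 : 0 < 1 / d₁ ^ 2 := by positivity
    have e4 : 4 / d₁ ^ 2 = 4 * (1 / d₁ ^ 2) := by ring
    have e5 : 15 / d₁ ^ 2 = 15 * (1 / d₁ ^ 2) := by ring
    have e6 : 0 ≤ 0.05 / d ^ 2 := by positivity
    split_ifs <;> nlinarith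
  · push Not at hρd
    have hx1 : 1 ≤ d₁ / (2 * ρ) := by
      rw [le_div_iff₀ (by positivity)]; linarith
    obtain ⟨J, hJ1, hJ2⟩ := exists_nat_pow_near hx1 hQ1
    have hsJ : scS W ρ J ≤ d₁ := by
      rw [le_div_iff₀ (by positivity)] at hJ1
      unfold scS; linarith
    have hsJ2 : d₁ < scS W ρ J * Q := by
      rw [div_lt_iff₀ (by positivity), pow_succ] at hJ2
      unfold scS; linarith
    have hs := scS_pos W hρ J
    have hds : d < 3 / 4 * scS W ρ J := by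
      rw [hd, div_lt_iff₀ (by positivity)]
      nlinarith
    have hTJ : scT W ρ J ≤ (Real.exp W + 1 / 4) * d₁ := by
      unfold scT
      exact mul_le_mul_of_nonneg_left hsJ (by positivity)
    have hLK : 0 < scLm m * K := mul_pos (scLm_pos m) hK0
    have hind := sc_ind h hF hF0 hc hflat hρ J
      (lt_of_le_of_lt (mul_le_mul_of_nonneg_left hTJ hLK.le) h1) (by linarith)
    obtain ⟨c, g, hcc, hgc, hsum, hg0, hc0, hle⟩ := sc_cut' F hWp hs
    have hA : 0 ≤ 25 / 16 * scb / W ^ 2 := by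
      have := scb_spec.1
      positivity
    have hs34 : 0 < 3 / 4 * scS W ρ J := by positivity
    have hEr := scEr_bm F hA hs34 ((Real.exp W + 1 / 4) * scS W ρ J)
    have hlow := h.loc2 hcc hgc hsum hbm hEr hle v hv ?_ ?_
    · refine ScSp.Low.mono h (hbm.sub (scBM_const _)) (hbm.sub (hEr.const_mul 1.71)) ?_ hlow
      refine Filter.Eventually.of_forall fun x => ?_
      have e1 := (scEr_le F hA hs34 ((Real.exp W + 1 / 4) * scS W ρ J) x).2
      have e2 : ((3 / 4 * scS W ρ J) ^ 2)⁻¹ ≤ (d ^ 2)⁻¹ :=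
        inv_anti₀ (by positivity) (pow_le_pow_left₀ hd0.le hds.le 2)
      have e3 : 0 ≤ (d ^ 2)⁻¹ := by positivity
      have e4 : 0.05 / d ^ 2 = 0.05 * (d ^ 2)⁻¹ := by ring
      have e5 : 0 ≤ 15 / d₁ ^ 2 := by positivity
      have e6 := mul_le_mul_of_nonneg_right hc.hW e3
      have e7 := mul_le_mul_of_nonneg_left e2 hA
      rw [e4]
      nlinarith
    · refine ScSp.Low.mono h hbm (scM_ite_bm F hρ 3.63 0.05 (scTh W ρ J)).1 ?_
        (hind _ (h.ae_mul hcc ?_))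
      · refine Filter.Eventually.of_forall fun x => ?_
        have hM0 := scM_nonneg F ρ x
        split_ifs <;> nlinarith
      · filter_upwards [hv] with x hx hcx
        exact ⟨hx, (hc0 x hcx).le⟩
    · apply h.low_nonpos
      refine h.ae_mul hgc (Filter.Eventually.of_forall fun x hgx => ?_)
      have := hg0 x hgx
      rw [if_neg (by push Not; linarith)]

/-- [L-SC-M11] **THE ABSTRACT HARDY INEQUALITY**. -/
theorem sc_hardy_abs (m : ℕ) : ∃ η₀ : ℝ, 0 < η₀ ∧ ∀ rF ζ₀ : ℝ, 0 < rF → 0 < ζ₀ →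
    ∃ d C : ℝ, 0 < d ∧ 0 < C ∧ ∀ (X : ScSp m) (G F : Set (E m)), X.Ok G ζ₀ → IsClosed F →
      F.Nonempty → ScFlat F η₀ rF → ∀ v : X.T, (∀ᵐ x ∂(X.ms v), x ∈ G) → ∀ ρ : ℝ, 0 < ρ →
      3.55 * ∫ x in {x | infDist x F < d}, scM F ρ x ∂(X.ms v) ≤
        X.N v + C * (X.ms v univ).toReal := by
  obtain ⟨W, K, η, hc⟩ := sc_cst m
  refine ⟨η, hc.η0, fun rF ζ₀ hrF hζ₀ => ?_⟩
  have hW0 : 0 ≤ W := by linarith [hc.W1]
  have hK0 : 0 < K := lt_of_lt_of_le one_pos hc.K1
  have he := sc_exp_ge hW0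
  have hLK : 0 < scLm m * K := mul_pos (scLm_pos m) hK0
  set d₁ : ℝ := min (rF / (2 * (scLm m * K) * (Real.exp W + 1))) (ζ₀ / (2 * (Real.exp W + 1))) with hd₁
  have hd₁0 : 0 < d₁ := by
    rw [hd₁]; apply lt_min <;> positivity
  have h1 : scLm m * K * ((Real.exp W + 1 / 4) * d₁) < rF := by
    have e1 : d₁ ≤ rF / (2 * (scLm m * K) * (Real.exp W + 1)) := min_le_left _ _
    rw [le_div_iff₀ (by positivity)] at e1
    have e2 : 0 < scLm m * K * d₁ := by positivity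
    nlinarith
  have h2 : 2 * ((Real.exp W + 1 / 4) * d₁) ≤ ζ₀ := by
    have e1 : d₁ ≤ ζ₀ / (2 * (Real.exp W + 1)) := min_le_right _ _
    rw [le_div_iff₀ (by positivity)] at e1
    nlinarith
  refine ⟨3 * d₁ / (4 * (2 * Real.exp W)), 15 / d₁ ^ 2 + 0.05 / (3 * d₁ / (4 * (2 * Real.exp W))) ^ 2,
    by positivity, by positivity, fun X G F h hF hF0 hflat v hv ρ hρ => ?_⟩
  have hl := sc_hardy_low h hF hF0 hc hflat hρ hd₁0 h1 h2 v hv
  set d : ℝ := 3 * d₁ / (4 * (2 * Real.exp W)) with hd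
  have hbm := (scM_ite_bm F hρ 3.55 0 d).2
  have := h.fin v
  unfold ScSp.Low at hl
  rw [integral_sub (hbm.integrable h v) (integrable_const _), integral_const] at hl
  have hind : (fun x => if infDist x F < d then 3.55 * scM F ρ x else 0) =
      indicator {x | infDist x F < d} (fun x => 3.55 * scM F ρ x) := by
    funext x
    simp [indicator_apply]
  rw [hind, integral_indicator (measurableSet_lt (sc_meas_infDist F) measurable_const),
    integral_const_mul] at hl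
  simp only [smul_eq_mul, Measure.real] at hl
  linarith


end

end Claimed.Agent.R315
end
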