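/- Packed by merge_tool.py (helper293): 6 modules of Claimed.Agent.R315 in one file, same declarations.
   Old modules, in this order: Pk.InitB, Pk.DimB, Pk.LinkC, Pk.LinkD, Pk.Link, If.Iso -/
import Claimed.Agent.R315.Pk.InitA
import Claimed.Agent.R315.Pk.DimA
import Claimed.Agent.R315.Pk.ColD
import Mathlib
import Claimed.Agent.R315.Pack004
import Claimed.Agent.R315.Pack011
import Claimed.Agent.R315.Pack002

/- ===== packed: Claimed.Agent.R315.Pk.InitB ===== -/
section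
/-!
# Row 315, stage zero (P Lemma 6.1), part B: a label from a 1-Lipschitz function; assembly

PACKAGE PK-INIT-B (one owner; ~600 lines; no paper).  `pk_init_pf` has literally the statement of `pk_init` (`Pk/Out.lean`).
NO smoothing of distance functions is needed: `LabelOk.slope` is a Lipschitz slope.

PLANS.
* `pk_label_of_dist`: all fields of `LabelOk` for `F = Frame.base V`, `E = fun _ => M` (`tot E = M`, `Compat` is vacuous: `i : Empty`;
  `hits α = 0`).  `mu_cc`: `pkY_continuous ∘ d`.  `slope`: `μ z` finite means `2 < d z < 2 + T` (`pkY_eq_top/bot`); `pkY_slope` with `ε/1`, `N = d ⁻¹' (interval)`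
  (as a neighbourhood within `M`: `mem_nhdsWithin_iff_exists_mem_nhds_inter`), `|d y - d y'| ≤ rdist`; `y²/2 ≤ a y²`.
  `pot_sc`: constants (`if_smoothAlong_const`).  `up_open`: `{d < 1}` relatively open.  `up_pole`: `z ∈ closure ({d<1} ∩ M)`, `z ∈ M` ⇒ `d z ≤ 1` ⇒ `d < 2` near `z`.
* `pk_init_sep`: `C ⊆ M` preconnected, disjoint from `Un` (resp. `Up`).  If `C = ∅` trivial.  `z₀ ∈ C`, `ρ = rdist M h o`; choose `k : ℤ` with
  `s* = 2Pk + P > ρ z₀` (resp. `2Pk`).  `ρ '' C` is preconnected (`IsPreconnected.image`, `IsRd.cont`), hence `OrdConnected`; if some `y ∈ C` had `ρ y ≥ s*` then `s* ∈ ρ '' C`,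
  a point of `C` in `Un` (`pkTri_odd`: `tri s* = P = T + 4 > T + 3`), contradiction.  So `C ⊆ {y ∈ M | ρ y ≤ s*}`: compact (`IsProperOn M h`).
* `pk_init_pf`: `o ∈ M` (connected ⇒ nonempty).  `dfun none = pkTri (pkT pst0 + 4) ∘ rdist M h o`, `dfun (some i) = pkDistTo M h (C.inn i)`;
  `P = ⟨fun _ => M, h, θ, fun j z => pkY (pst j) (dfun j z), fun j _ => pst j, fun j => {z | dfun j z < 1}, fun j => {z | pkT (pst j) + 3 < dfun j z}⟩`.
  `IsRd M h` (`if_isRd`), `IsProperOn M h` (`if_proper_of_le`).  `Inv`: `diag`, `met`, `dr_sc`: fields with `i : Empty` are vacuous, `Stat Empty` is a subsingleton,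
  `hits α = 0`; `proper`: `IsPreconnected.connectedComponentIn`; `label`: `pk_label_of_dist` (`pkA 0 = .6`; `forced_un` from `PkInit.wide` + `le_pkDistTo`; `x i ∈ inn i`);
  `passive`: contained in `{none} ∪ some '' {i | ∃ y ∈ K ∩ M, y ∉ out i}` (`PkInit.locfin`); `curv`: `potSum univ z = pst0 + ∑' pst i ≤ 1/20`
  (`tsum` over `Option`: `Summable.tsum_eq_add_tsum_ite`/`tsum_option`-style, summability from `H.ok.pst_sum`), `.25 + 1.12/20 = .306 ≤ .4`.
-/

set_option autoImplicit false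
set_option linter.unusedSectionVars false
open scoped ContDiff Topology
open MeasureTheory Claims.C0499

namespace Claimed.Agent.R315

variable {V : Type} [NormedAddCommGroup V] [NormedSpace ℝ V]

theorem pk_exists_nhd_of_continuousOn {M : Set V} {d : V → ℝ} (hdc : ContinuousOn d M) {z : V}
    (hz : z ∈ M) {O : Set ℝ} (hO : IsOpen O) (hzO : d z ∈ O) :
    ∃ N ∈ 𝓝 z, ∀ y ∈ N ∩ M, d y ∈ O := by
  have h1 : d ⁻¹' O ∈ 𝓝[M] z := (hdc z hz) (hO.mem_nhds hzO)
  obtain ⟨N, hN, hsub⟩ := mem_nhdsWithin_iff_exists_mem_nhds_inter.1 h1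
  exact ⟨N, hN, fun y hy => hsub hy⟩

/-- **a label from a 1-Lipschitz function.** -/
theorem pk_label_of_dist [FiniteDimensional ℝ V] (B : Base V) (P : PData V Empty B.J)
    (hE : P.E = fun _ => B.M) (j : B.J) (d : V → ℝ) (hdc : ContinuousOn d B.M)
    (hdl : ∀ x ∈ B.M, ∀ y ∈ B.M, |d x - d y| ≤ rdist B.M P.h x y) (hp : 0 < B.pst j)
    (hmu : P.mu j = fun z => pkY (B.pst j) (d z)) (hpot : P.pot j = fun _ => B.pst j)
    (hUp : P.Up j = {z | d z < 1}) (hUn : P.Un j = {z | pkT (B.pst j) + 3 < d z})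
    (hinn : ∀ z ∈ B.M, z ∈ B.inn j → d z < 1)
    (hout : ∀ z ∈ B.M, z ∈ B.out j → pkT (B.pst j) + 3 < d z) {a : ℝ} (ha : 1 / 2 ≤ a) :
    LabelOk B (Frame.base V) P a j := by
  have hEα : ∀ α, P.E α = B.M := fun α => by rw [hE]
  have htot : ∀ z, z ∈ tot P.E → z ∈ B.M := fun z hz => by
    obtain ⟨α, hα⟩ := mem_tot.1 hz
    rwa [hEα] at hα
  have hT := pkT_pos hp
  have hmuz : ∀ z, P.mu j z = pkY (B.pst j) (d z) := fun z => by rw [hmu]
  refine ⟨⟨fun α => ?_, fun i => i.elim⟩, ?_, ⟨fun α => ?_, fun i => i.elim⟩, ?_, ?_, ?_,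
    fun i => i.elim, fun i => i.elim, ?_, ?_, ?_, ?_⟩
  · rw [hEα, hmu]
    exact (pkY_continuous hp).comp_continuousOn hdc
  · intro α z hz h1 h2 ε hε
    rw [hEα] at hz ⊢
    rw [hmuz, Ne, pkY_eq_top hp, not_le] at h1
    rw [hmuz, Ne, pkY_eq_bot hp, not_le] at h2
    obtain ⟨δ, hδ, hsl⟩ := pkY_slope hp h1 h2 hε
    obtain ⟨N, hN, hNd⟩ := pk_exists_nhd_of_continuousOn hdc hz (Metric.isOpen_ball (x := d z)
      (ε := δ)) (Metric.mem_ball_self hδ)
    refine ⟨N, hN, fun y hy y' hy' => ?_⟩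
    have e1 : |d y - d z| < δ := by
      have := hNd y hy
      rwa [Metric.mem_ball, Real.dist_eq] at this
    have e2 : |d y' - d z| < δ := by
      have := hNd y' hy'
      rwa [Metric.mem_ball, Real.dist_eq] at this
    have h3 := hsl (d y) (d y') e1 e2
    have h4 := hdl y hy.2 y' hy'.2
    simp only [hmuz, hpot]
    set Y := (pkY (B.pst j) (d z)).toReal with hY
    have h5 : 0 ≤ (Y ^ 2 / 2 + B.pst j) / 2 + ε := by positivity
    have h6 : (Y ^ 2 / 2 + B.pst j) / 2 + ε ≤ (a * Y ^ 2 + B.pst j) / 2 + ε := by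
      have : Y ^ 2 / 2 ≤ a * Y ^ 2 := by nlinarith [sq_nonneg Y]
      linarith
    calc _ ≤ ((Y ^ 2 / 2 + B.pst j) / 2 + ε) * |d y - d y'| := h3
      _ ≤ ((Y ^ 2 / 2 + B.pst j) / 2 + ε) * rdist B.M P.h y y' :=
        mul_le_mul_of_nonneg_left h4 h5
      _ ≤ _ := mul_le_mul_of_nonneg_right h6 ((abs_nonneg _).trans h4)
  · rw [hpot]
    exact if_smoothAlong_of_contDiff contDiff_const
  · intro z _
    rw [hpot]
  · intro α z hz
    rw [hEα] at hz ⊢
    rw [hUp] at hz ⊢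
    obtain ⟨N, hN, hNd⟩ := pk_exists_nhd_of_continuousOn hdc hz.2 isOpen_Iio hz.1
    exact ⟨N, hN, fun y hy => hNd y hy⟩
  · intro α z hz
    rw [hEα] at hz ⊢
    rw [hUn] at hz ⊢
    obtain ⟨N, hN, hNd⟩ := pk_exists_nhd_of_continuousOn hdc hz.2 isOpen_Ioi hz.1
    exact ⟨N, hN, fun y hy => hNd y hy⟩
  · intro α z hz hcl
    rw [hEα] at hz hcl ⊢
    have h1 : d z ∈ closure (d '' (P.Up j ∩ B.M)) :=
      ((hdc z hz).mono Set.inter_subset_right).mem_closure_image hcl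
    have h2 : closure (d '' (P.Up j ∩ B.M)) ⊆ Set.Iic 1 := by
      refine closure_minimal ?_ isClosed_Iic
      rintro _ ⟨y, hy, rfl⟩
      have h5 : y ∈ P.Up j := hy.1
      rw [hUp] at h5
      have h6 : d y < 1 := h5
      exact h6.le
    have h3 : d z < 2 := lt_of_le_of_lt (h2 h1) (by norm_num)
    obtain ⟨N, hN, hNd⟩ := pk_exists_nhd_of_continuousOn hdc hz isOpen_Iio h3
    exact ⟨N, hN, fun y hy => by rw [hmuz, pkY_eq_top hp]; exact le_of_lt (hNd y hy)⟩
  · intro α z hz hcl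
    rw [hEα] at hz hcl ⊢
    have h1 : d z ∈ closure (d '' (P.Un j ∩ B.M)) :=
      ((hdc z hz).mono Set.inter_subset_right).mem_closure_image hcl
    have h2 : closure (d '' (P.Un j ∩ B.M)) ⊆ Set.Ici (pkT (B.pst j) + 3) := by
      refine closure_minimal ?_ isClosed_Ici
      rintro _ ⟨y, hy, rfl⟩
      have h5 : y ∈ P.Un j := hy.1
      rw [hUn] at h5
      have h6 : pkT (B.pst j) + 3 < d y := h5
      exact h6.le
    have h3 : 2 + pkT (B.pst j) < d z := lt_of_lt_of_le (by linarith) (h2 h1)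
    obtain ⟨N, hN, hNd⟩ := pk_exists_nhd_of_continuousOn hdc hz isOpen_Ioi h3
    exact ⟨N, hN, fun y hy => by rw [hmuz, pkY_eq_bot hp]; exact le_of_lt (hNd y hy)⟩
  · intro z hz hq
    rw [hUp]
    exact hinn z (htot z hz) hq
  · intro z hz hq
    rw [hUn]
    exact hout z (htot z hz) hq

/-- **alternating plateaus**: separation + confinement for the radial label. -/
theorem pk_init_sep {M : Set V} {h : Ten V} (hR : IsRd M h) (hpr : IsProperOn M h) {o : V}
    (ho : o ∈ M) {T : ℝ} (hT : 0 < T) {C : Set V} (hC : C ⊆ M) (hpre : IsPreconnected C)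
    (hdis : Disjoint C {z | T + 3 < pkTri (T + 4) (rdist M h o z)} ∨
      Disjoint C {z | pkTri (T + 4) (rdist M h o z) < 1}) :
    ∃ K : Set V, IsCompact K ∧ ∀ y ∈ C, y ∈ K := by
  rcases C.eq_empty_or_nonempty with rfl | ⟨z₀, hz₀⟩
  · exact ⟨∅, isCompact_empty, fun y hy => hy.elim⟩
  set ρ : V → ℝ := rdist M h o with hρ
  have hP : 0 < T + 4 := by linarith
  have himg : IsPreconnected (ρ '' C) := hpre.image ρ ((hR.cont o ho).mono hC)
  -- a lattice point beyond `ρ z₀`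
  obtain ⟨k, hk⟩ : ∃ k : ℤ, ρ z₀ < 2 * (T + 4) * k := by
    obtain ⟨k, hk⟩ := exists_int_gt (ρ z₀ / (2 * (T + 4)))
    refine ⟨k, ?_⟩
    rw [div_lt_iff₀ (by linarith)] at hk
    linarith
  have key : ∀ s : ℝ, ρ z₀ < s → (∀ x ∈ C, ρ x ≠ s) → ∀ y ∈ C, y ∈ {y | y ∈ M ∧ ρ y ≤ s} := by
    intro s hs hne y hy
    refine ⟨hC hy, ?_⟩
    by_contra hcon
    have h1 : s ∈ ρ '' C := himg.Icc_subset ⟨z₀, hz₀, rfl⟩ ⟨y, hy, rfl⟩
      ⟨hs.le, (not_le.1 hcon).le⟩
    obtain ⟨x, hx, hxs⟩ := h1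
    exact hne x hx hxs
  rcases hdis with hdis | hdis
  · refine ⟨_, hpr o ho (2 * (T + 4) * k + (T + 4)), key _ (by linarith) fun x hx hxs => ?_⟩
    refine Set.disjoint_left.1 hdis hx ?_
    show T + 3 < pkTri (T + 4) (ρ x)
    rw [hxs, pkTri_odd hP]
    linarith
  · refine ⟨_, hpr o ho (2 * (T + 4) * k), key _ hk fun x hx hxs => ?_⟩
    refine Set.disjoint_left.1 hdis hx ?_
    show pkTri (T + 4) (ρ x) < 1
    rw [hxs, pkTri_even]
    norm_num

theorem pk_tsum_option {I : Type} {f : Option I → ℝ} (hf : Summable f) :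
    ∑' j, f j = f none + ∑' i, f (some i) := by
  classical
  rw [hf.tsum_eq_add_tsum_ite none]
  congr 1
  symm
  have := (Option.some_injective I).tsum_eq (f := fun n : Option I => ite (n = none) 0 (f n))
    (by
      intro n hn
      rcases n with _ | i
      · simp at hn
      · exact ⟨i, rfl⟩)
  rw [← this]
  simp

theorem pk_hits_empty (α : Stat Empty) : hits α = 0 := by simp [hits]

theorem pk_rdist_lip {M : Set V} {h : Ten V} (hR : IsRd M h) {o x y : V} (ho : o ∈ M)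
    (hx : x ∈ M) (hy : y ∈ M) : |rdist M h o x - rdist M h o y| ≤ rdist M h x y := by
  have h1 := hR.tri o ho y hy x hx
  have h2 := hR.tri o ho x hx y hy
  rw [hR.symm y hy x hx] at h1
  exact abs_le.2 ⟨by linarith, by linarith⟩

/-- **Initialisation** (P Lemma 6.1). -/
theorem pk_init_pf [FiniteDimensional ℝ V] (C : Cen V) (h : Ten V) (θ : V → ℝ)
    (H : PkInit C h θ) :
    ∃ P : PData V Empty C.base.J, P.E = (fun _ => C.M) ∧
      Inv C.base (Frame.base V) P Set.univ 0 1 ∧ SepConf (Frame.base V) P (none : Option C.I) := by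
  classical
  obtain ⟨o, ho⟩ := H.ok.conn.nonempty
  have ho : o ∈ C.M := ho
  have hMfd : IsMfd C.n C.M := H.ok.mfd
  have hconn : IsConnected C.M := H.ok.conn
  have hRd : IsRd C.M h := if_isRd hMfd hconn H.h_met
  have hpr : IsProperOn C.M h := if_proper_of_le hMfd hconn.isPreconnected
    (if_isMetricOn_iff.1 H.ok.met).1 (if_isMetricOn_iff.1 H.h_met).1 H.h_ge H.ok.proper
  have hpst : ∀ j, 0 < C.base.pst j := H.ok.pst_pos
  have hp0 : 0 < C.pst0 := hpst none
  set dfun : Option C.I → V → ℝ := fun j => j.elim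
    (fun z => pkTri (pkT C.pst0 + 4) (rdist C.M h o z)) (fun i => pkDistTo C.M h (C.inn i))
    with hdfun
  let P : PData V Empty C.base.J := ⟨fun _ => C.M, h, θ,
    fun j z => pkY (C.base.pst j) (dfun j z), fun j _ => C.base.pst j, fun j => {z | dfun j z < 1},
    fun j => {z | pkT (C.base.pst j) + 3 < dfun j z}⟩
  have hinnsub : ∀ i, C.inn i ⊆ C.M := fun i y hy => hy.1
  have hD0 : 0 ≤ C.D := by linarith [H.D1]
  have hgRd : IsRd C.M C.g := if_isRd hMfd hconn H.ok.met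
  have hinnne : ∀ i, (C.inn i).Nonempty := fun i =>
    ⟨C.x i, H.x_mem i, by rw [hgRd.self _ (H.x_mem i)]; exact hD0⟩
  have hlip : ∀ j, ∀ x ∈ C.M, ∀ y ∈ C.M, |dfun j x - dfun j y| ≤ rdist C.M h x y := by
    rintro (_ | i) x hx y hy
    · exact (pkTri_lip _ _ _).trans (pk_rdist_lip hRd ho hx hy)
    · exact pkDistTo_lip hRd (hinnsub i) (hinnne i) hx hy
  have hfar : ∀ i, ∀ z ∈ C.out i, 10 + pkT (C.pst i) ≤ dfun (some i) z := fun i z hz =>
    le_pkDistTo (hinnne i) fun y hy => (H.wide i y hy z hz).le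
  have hTpos : ∀ j, 0 < pkT (C.base.pst j) := fun j => pkT_pos (hpst j)
  have hn : ∀ α : Stat Empty, C.base.n - hits α = C.n := fun α => by
    rw [pk_hits_empty]; rfl
  have htot : ∀ z, z ∈ tot P.E → z ∈ C.M := fun z hz => by
    obtain ⟨α, hα⟩ := mem_tot.1 hz
    exact hα
  refine ⟨P, rfl, ⟨?_, ?_, ?_, ?_, ?_, ?_, le_rfl, ?_⟩, ?_⟩
  · -- diag
    refine ⟨fun _ => H.ok.closed, fun α => by rw [hn]; exact hMfd, fun α β hne =>
      absurd (funext fun e => e.elim) hne, fun α z hz => hz, fun α z _ i => i.elim,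
      fun α z _ i => i.elim, fun α z _ i => i.elim, fun i => i.elim⟩
  · exact ⟨fun α => by rw [hn]; exact H.h_met, fun i => i.elim, fun α z _ i => i.elim⟩
  · intro α z hz
    have hz' : z ∈ C.M := hz
    show IsProperOn (connectedComponentIn C.M z) h
    rw [hconn.isPreconnected.connectedComponentIn hz']
    exact hpr
  · exact ⟨fun α => by rw [hn]; exact H.dr_smooth, fun i => i.elim⟩
  · intro j _
    refine pk_label_of_dist C.base P rfl j (dfun j) (pk_continuousOn_of_lip hRd (hlip j)) (hlip j)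
      (hpst j) rfl rfl rfl rfl ?_ ?_ (by unfold pkA; norm_num)
    · rcases j with _ | i
      · intro z _ hz
        exact hz.elim
      · intro z _ hz
        show pkDistTo C.M h (C.inn i) z < 1
        rw [pkDistTo_of_mem hRd (hinnsub i) hz]
        norm_num
    · rcases j with _ | i
      · intro z _ hz
        exact hz.elim
      · intro z _ hz
        have := hfar i z hz
        show pkT (C.pst i) + 3 < dfun (some i) z
        linarith
  · -- passive
    intro K hK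
    refine ((H.locfin K hK).image some |>.insert none).subset ?_
    rintro (_ | i) ⟨_, z, hz, hq, hnp⟩
    · exact Set.mem_insert _ _
    · refine Set.mem_insert_of_mem _ ⟨i, ⟨z, ⟨hq, htot z hz⟩, fun hout => hnp ?_⟩, rfl⟩
      have h1 := hfar i z hout
      have h2 : 0 < pkT (C.pst i) := hTpos (some i)
      refine ⟨?_, ?_, ?_, ?_⟩
      · show pkY (C.pst i) (dfun (some i) z) = ⊥
        have hpi : 0 < C.pst i := hpst (some i)
        rw [pkY_eq_bot hpi]
        linarith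
      · show pkT (C.pst i) + 3 < dfun (some i) z
        linarith
      · show ¬ dfun (some i) z < 1
        linarith
      · show C.pst i = 1 * C.pst i
        rw [one_mul]
  · -- curvature
    intro α z hz _
    rw [hn]
    have h1 : P.potSum Set.univ z = C.pst0 + ∑' i, C.pst i := by
      unfold PData.potSum
      simp only [Set.indicator_univ]
      exact pk_tsum_option H.ok.pst_sum
    rw [h1]
    have h2 := H.pst_le
    have h3 := H.curv z hz
    unfold pkL pkB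
    show _ ≤ Dsc C.n C.M h θ z
    linarith
  · -- separation
    intro α Cs hCs hpre hdis
    have hT0 : 0 < pkT C.pst0 := hTpos none
    obtain ⟨K, hK, hKC⟩ := pk_init_sep hRd hpr ho hT0 hCs hpre hdis
    exact ⟨K, hK, fun y hy => hKC y hy⟩

end Claimed.Agent.R315
end

/- ===== packed: Claimed.Agent.R315.Pk.DimB ===== -/
section
/-!
# Row 315, no one-dimensional packets (P Lemma 6.5), part B: Riccati inequality and assembly

PACKAGE PK-DIM1-B: PROVED (helper29), sorry-free.  `pk_dim1_pf` has literally the statement of `pk_dim1` (`Pk/Out.lean`).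

PLANS.
* `pk_arc_Dsc`: `if_Dsc_eq` (`If/Lap.lean`) in the parametrisation `ψ u = γ (u 0)`.  `cm h ψ u = 1` (1×1 matrix) for ALL `u` of the open domain
  (`fderiv ψ u (eb 0) = deriv γ (u 0)`), so all `pdiff` of its entries vanish there: `christoffel = 0` on the domain, `scalarCoord = 0` (unfold the definitions of
  `Claims.C0499` in `Claimed/Prelude/Def_0499.lean`; all sums are over `Fin 1`: `Fin.sum_univ_one`/`simp`); `det = 1`, `G⁻¹ = 1`: `lapC G f u = pdiff (pdiff f 0) 0 u`, `gradSqC G f u = (pdiff f 0 u)²`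
  (the identities are needed in a neighbourhood for the outer `pdiff`: `Filter.EventuallyEq.fderiv_eq`); `pdiff (F ∘ (· 0)) 0 u = deriv F (u 0)`.
* `pk_riccati`: `A s = arctan (φ s / √λ)`, `A' = √λ φ'/(λ + φ²) ≥ √λ/2`; mean value theorem on `[0,L]`
  (`Convex.mul_sub_le_image_sub_of_le_deriv` or `image_sub_le..`): `A L - A 0 ≥ √λ L/2`; `|arctan| < π/2`.
* `pk_dim1_pf`: suppose `z ∈ P.E α`.  `B.n - hits α = 1`.  `X = P.E α`, `λ = 1/8`.  For all `y ∈ X`: `1/8 ≤ Dsc 1 X P.h P.dr y` by `H.curv` (`Cnt rem 0 y` with the empty finset; `pkL s ≥ 1/8`, `pkB s > 0`,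
  `potSum ≥ 0`: `tsum_nonneg`, `Set.indicator_nonneg`-style, `(H.label j hj).pot_ge` and `hB.pst_pos`).  `L = 2π/√λ + 1`, `γ` from `pk_larc_exists` (`H.proper`).  `f = P.dr ∘ γ`, `φ = deriv f`; near every `s ∈ [0,L]`
  `γ` is an arc, `f` is smooth there (`H.dr_sc.1 α` in the param), `pk_arc_Dsc`.  `pk_riccati` gives `L ≤ 2π/√λ`: contradiction.
-/

set_option autoImplicit false
set_option linter.unusedSectionVars false
open scoped ContDiff Topology
open MeasureTheory Claims.C0499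

namespace Claimed.Agent.R315

variable {V W : Type} [NormedAddCommGroup V] [NormedSpace ℝ V] [NormedAddCommGroup W]
  [NormedSpace ℝ W]

theorem pk_fderiv_line {Y : Type} [NormedAddCommGroup Y] [NormedSpace ℝ Y] {γ : ℝ → Y} {w : E 1}
    (hγ : DifferentiableAt ℝ γ (w 0)) :
    fderiv ℝ (fun u : E 1 => γ (u 0)) w (eb 0) = deriv γ (w 0) := by
  have h1 : HasFDerivAt (fun u : E 1 => u 0) (EuclideanSpace.proj (0 : Fin 1) : E 1 →L[ℝ] ℝ) w :=
    (EuclideanSpace.proj (0 : Fin 1) : E 1 →L[ℝ] ℝ).hasFDerivAt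
  have h2 := hγ.hasFDerivAt.comp w h1
  have h3 : fderiv ℝ (fun u : E 1 => γ (u 0)) w = _ := h2.fderiv
  rw [h3]
  simp

theorem pk_scalarCoord_one (G : E 1 → Matrix (Fin 1) (Fin 1) ℝ) (u : E 1) : scalarCoord G u = 0 := by
  simp [scalarCoord, ricciCoord, riemannCoord]

/-- smoothness of a function along an arc. -/
theorem pk_arc_smooth {X : Set W} {h : Ten W} {γ : ℝ → W} {a b : ℝ} (hγ : IsArc X h γ a b)
    {θ : W → ℝ} (hθ : SmoothAlong 1 X θ) : ContDiffOn ℝ ∞ (fun s => θ (γ s)) (Set.Ioo a b) := by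
  have h1 := hθ _ _ hγ.1
  have h2 : ContDiff ℝ ∞ (fun s : ℝ => s • (eb 0 : E 1)) := contDiff_id.smul contDiff_const
  have h3 : ContDiffOn ℝ ∞ ((θ ∘ fun u : E 1 => γ (u 0)) ∘ fun s : ℝ => s • (eb 0 : E 1))
      (Set.Ioo a b) := h1.comp h2.contDiffOn (fun s hs => by
    show (s • (eb 0 : E 1)) 0 ∈ Set.Ioo a b
    simpa using hs)
  refine h3.congr fun s _ => ?_
  simp

/-- the drift scalar curvature of a 1-manifold in an arclength parameter. -/
theorem pk_arc_Dsc [FiniteDimensional ℝ W] {X : Set W} {h : Ten W} (hh : IsMetricOn 1 X h)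
    {γ : ℝ → W} {a b : ℝ} (hγ : IsArc X h γ a b) {θ : W → ℝ} (hθ : SmoothAlong 1 X θ) {s : ℝ}
    (hs : s ∈ Set.Ioo a b) :
    Dsc 1 X h θ (γ s) = 2 * deriv (deriv fun x => θ (γ x)) s - (deriv (fun x => θ (γ x)) s) ^ 2 := by
  set ψ : E 1 → W := fun u => γ (u 0) with hψ
  set U : Set (E 1) := {u | u 0 ∈ Set.Ioo a b} with hU
  set Fn : ℝ → ℝ := fun x => θ (γ x) with hFn
  have hUo : IsOpen U := hγ.1.1
  set u₀ : E 1 := s • (eb 0 : E 1) with hu₀
  have hu0 : u₀ 0 = s := by simp [hu₀]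
  have hu₀U : u₀ ∈ U := by show u₀ 0 ∈ Set.Ioo a b; rw [hu0]; exact hs
  have hγs : ContDiffOn ℝ ∞ γ (Set.Ioo a b) := hγ.contDiffOn
  have hγd : ∀ x ∈ Set.Ioo a b, DifferentiableAt ℝ γ x := fun x hx =>
    (hγs.contDiffAt (isOpen_Ioo.mem_nhds hx)).differentiableAt (by simp)
  have hFs : ContDiffOn ℝ ∞ Fn (Set.Ioo a b) := pk_arc_smooth hγ hθ
  have hFd : ∀ x ∈ Set.Ioo a b, DifferentiableAt ℝ Fn x := fun x hx =>
    (hFs.contDiffAt (isOpen_Ioo.mem_nhds hx)).differentiableAt (by simp)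
  have hF's : ContDiffOn ℝ ∞ (deriv Fn) (Set.Ioo a b) :=
    ((contDiffOn_infty_iff_deriv_of_isOpen isOpen_Ioo).1 hFs).2
  have hF'd : ∀ x ∈ Set.Ioo a b, DifferentiableAt ℝ (deriv Fn) x := fun x hx =>
    (hF's.contDiffAt (isOpen_Ioo.mem_nhds hx)).differentiableAt (by simp)
  -- the coordinate matrix is `1`
  have hG : ∀ w ∈ U, cm h ψ w = 1 := by
    intro w hw
    ext i j
    obtain rfl : i = 0 := Subsingleton.elim _ _
    obtain rfl : j = 0 := Subsingleton.elim _ _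
    simp only [cm, Matrix.of_apply, Matrix.one_apply_eq]
    rw [hψ, pk_fderiv_line (hγd _ hw)]
    exact hγ.2 _ hw
  have hp1 : ∀ w ∈ U, pdiff (θ ∘ ψ) 0 w = deriv Fn (w 0) := fun w hw =>
    pk_fderiv_line (γ := Fn) (hFd _ hw)
  have hgs : gradSqC (cm h ψ) (θ ∘ ψ) u₀ = (deriv Fn s) ^ 2 := by
    simp only [gradSqC, Finset.univ_unique, Fin.default_eq_zero, Finset.sum_singleton]
    rw [hG u₀ hu₀U, hp1 u₀ hu₀U, hu0]
    simp [sq]
  have hlap : lapC (cm h ψ) (θ ∘ ψ) u₀ = deriv (deriv Fn) s := by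
    simp only [lapC, Finset.univ_unique, Fin.default_eq_zero, Finset.sum_singleton]
    have he : (fun w => Real.sqrt (cm h ψ w).det * ((cm h ψ w)⁻¹ 0 0 * pdiff (θ ∘ ψ) 0 w))
        =ᶠ[𝓝 u₀] fun w : E 1 => deriv Fn (w 0) := by
      filter_upwards [hUo.mem_nhds hu₀U] with w hw
      rw [hG w hw, hp1 w hw]
      simp
    have h5 : pdiff (fun w => Real.sqrt (cm h ψ w).det * ((cm h ψ w)⁻¹ 0 0 * pdiff (θ ∘ ψ) 0 w))
        0 u₀ = deriv (deriv Fn) s := by
      rw [pdiff, he.fderiv_eq]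
      have := pk_fderiv_line (γ := deriv Fn) (w := u₀) (by rw [hu0]; exact hF'd s hs)
      rw [hu0] at this
      exact this
    rw [h5, hG u₀ hu₀U]
    simp
  have hmain := if_Dsc_eq hh hθ hγ.1 hu₀U
  have hψu : ψ u₀ = γ s := by simp only [hψ]; rw [hu0]
  rw [← hψu]
  show Dsc 1 X h θ (ψ u₀) = _
  rw [hmain, pk_scalarCoord_one, hgs, hlap]
  ring

/-- the Riccati inequality `2 φ' ≥ λ + φ²` has no solution on a long interval. -/
theorem pk_riccati {φ φ' : ℝ → ℝ} {L lam : ℝ} (hlam : 0 < lam) (hL : 0 ≤ L)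
    (hd : ∀ s ∈ Set.Icc 0 L, HasDerivAt φ (φ' s) s)
    (hineq : ∀ s ∈ Set.Icc 0 L, lam + φ s ^ 2 ≤ 2 * φ' s) : L ≤ 2 * Real.pi / Real.sqrt lam := by
  set r := Real.sqrt lam with hr
  have hr0 : 0 < r := Real.sqrt_pos.2 hlam
  have hr2 : r ^ 2 = lam := Real.sq_sqrt hlam.le
  set A : ℝ → ℝ := fun s => Real.arctan (φ s / r) with hA
  have hAd : ∀ s ∈ Set.Icc 0 L, HasDerivAt A (1 / (1 + (φ s / r) ^ 2) * (φ' s / r)) s := fun s hs =>
    ((hd s hs).div_const r).arctan
  have hge : ∀ s ∈ Set.Icc 0 L, r / 2 ≤ 1 / (1 + (φ s / r) ^ 2) * (φ' s / r) := by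
    intro s hs
    have h1 := hineq s hs
    have h2 : 1 / (1 + (φ s / r) ^ 2) * (φ' s / r) = r * φ' s / (lam + φ s ^ 2) := by
      rw [← hr2]
      field_simp
    rw [h2, div_le_div_iff₀ (by norm_num) (by positivity)]
    nlinarith
  have hmv := Convex.mul_sub_le_image_sub_of_le_deriv (convex_Icc 0 L) (f := A) (C := r / 2)
    (fun s hs => (hAd s hs).continuousAt.continuousWithinAt)
    (fun s hs => ((hAd s (interior_subset hs)).differentiableAt).differentiableWithinAt)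
    (fun s hs => by rw [(hAd s (interior_subset hs)).deriv]; exact hge s (interior_subset hs))
    0 ⟨le_rfl, hL⟩ L ⟨hL, le_rfl⟩ hL
  have h3 : A L < Real.pi / 2 := Real.arctan_lt_pi_div_two _
  have h4 : -(Real.pi / 2) < A 0 := Real.neg_pi_div_two_lt_arctan _
  rw [le_div_iff₀ hr0]
  linarith

/-- **No one-dimensional packets** (P Lemma 6.5). -/
theorem pk_dim1_pf [FiniteDimensional ℝ V] [FiniteDimensional ℝ W] {ι : Type} [Fintype ι]
    (B : Base V) (hB : B.Ok) (F : Frame V W ι) (P : PData W ι B.J) (rem : Set B.J) (s c : ℝ)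
    (H : Inv B F P rem s c) (hs : s ≤ 1) (α : Stat ι) (hα : hits α + 1 = B.n) : P.E α = ∅ := by
  by_contra hne
  obtain ⟨z, hz⟩ := Set.nonempty_iff_ne_empty.2 hne
  have hd1 : B.n - hits α = 1 := by omega
  have hX : IsMfd 1 (P.E α) := by have := H.diag.mfd α; rwa [hd1] at this
  have hh : IsMetricOn 1 (P.E α) P.h := by have := H.met.met α; rwa [hd1] at this
  have hθ : SmoothAlong 1 (P.E α) P.dr := by have := H.dr_sc.1 α; rwa [hd1] at this
  have hcurv : ∀ y ∈ P.E α, (1 / 8 : ℝ) ≤ Dsc 1 (P.E α) P.h P.dr y := by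
    intro y hy
    have h1 := H.curv α y hy ⟨∅, by simp, by simp [hd1]⟩
    rw [hd1] at h1
    have h2 : 0 ≤ P.potSum rem y := by
      unfold PData.potSum
      refine tsum_nonneg fun j => ?_
      by_cases hj : j ∈ rem
      · rw [Set.indicator_of_mem hj]
        exact (hB.pst_pos j).le.trans ((H.label j hj).pot_ge y (mem_tot.2 ⟨α, hy⟩))
      · rw [Set.indicator_of_notMem hj]
    have h3 : (1 / 8 : ℝ) ≤ pkL s := by unfold pkL; linarith
    have h4 : 0 ≤ pkB s := by unfold pkB; linarith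
    have h5 := mul_nonneg h4 h2
    linarith
  set L : ℝ := 2 * Real.pi / Real.sqrt (1 / 8) + 1 with hL
  have hL0 : 0 ≤ L := by positivity
  obtain ⟨γ, hγ, -⟩ := pk_larc_exists hX hh hz (H.proper α z hz) L hL0
  set Fn : ℝ → ℝ := fun x => P.dr (γ x) with hFn
  have key : ∀ t ∈ Set.Icc 0 L, HasDerivAt (deriv Fn) (deriv (deriv Fn) t) t ∧
      (1 / 8 : ℝ) + deriv Fn t ^ 2 ≤ 2 * deriv (deriv Fn) t := by
    intro t ht
    obtain ⟨ε, hε, harc⟩ := hγ t ht
    have htI : t ∈ Set.Ioo (t - ε) (t + ε) := ⟨by linarith, by linarith⟩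
    have hFs : ContDiffOn ℝ ∞ Fn (Set.Ioo (t - ε) (t + ε)) := pk_arc_smooth harc hθ
    have hF's : ContDiffOn ℝ ∞ (deriv Fn) (Set.Ioo (t - ε) (t + ε)) :=
      ((contDiffOn_infty_iff_deriv_of_isOpen isOpen_Ioo).1 hFs).2
    refine ⟨((hF's.contDiffAt (isOpen_Ioo.mem_nhds htI)).differentiableAt (by simp)).hasDerivAt, ?_⟩
    have h1 := pk_arc_Dsc hh harc hθ htI
    have h2 := hcurv _ (harc.mem htI)
    rw [h1] at h2
    linarith
  have := pk_riccati (φ := deriv Fn) (φ' := deriv (deriv Fn)) (by norm_num : (0 : ℝ) < 1 / 8) hL0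
    (fun t ht => (key t ht).1) (fun t ht => (key t ht).2)
  rw [hL] at this
  linarith

end Claimed.Agent.R315
end

/- ===== packed: Claimed.Agent.R315.Pk.LinkC ===== -/
section
/-!
# Row 315, packets: the map `Φ` of a split: T1 (status), T3 (displacement), T2 (continuity of pull-backs)

PACKAGE PK-LINK-C: PROVED (helper266).   NO PAPER READING NEEDED.   Black boxes: Pk/LinkA.lean, Pk/LinkB.lean (`pk_cases` is the main tool).
`bk` is any function with `Continuous bk`, `bk 0 = 1`, `k a + k (bk a) = 1` for `a ≥ 0` (`pk_bk_exists`).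

PLANS.
* `pk_mul_or`: `pk_cases`; in the collar with `ε₁ = e y / 2`: if `ε₁ / 2 ≤ |s|` then `ε₁ / (2 |s|) ≤ 1`, otherwise `pkChi ε₁ s = 0` (`pkChi_of_small`).
* `pk_sign_kap`: `pk_cases`, `pkChi_sign`; off the collar `sign (u x) * u x = |u x|`.
* `pk_phi_status` (T1).  `u x = 0`: `Φ x = (x, 0)` (`pk_wall_mem_col`, `pkChi _ 0 = 0`, `zero`): left alternative of `splitE`.   `u x ≠ 0`, `σ = sign (u x)`, `σ² = 1`: right alternative with
     `σ u(κx)/w = a := |u (κ x)| / w (κ x) ≥ 0`, `σ Φ₂ / w = bk a * m`; `pk_mul_or`: `m = 1`: `hbk`;   `u (κ x) = 0`, `m ≥ 1`: `k 0 + k (1 * m) = 1 + 0` (`IsCorner.zero`, `IsCorner.far`).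
     (`(α.ext σ) none = σ`, `fun i => (α.ext σ) (some i) = α` hold by `rfl`.)
* `pk_phi_disp` (T3).  `F.ext.q (Φ z) = F.q (κ z)` (`rfl`).  Off the collar `if_rdist_self`.  In the collar `small` twice, `if_rdist_symm`, `if_rdist_tri` (`if_join_of_connected`; `hD.q_mem`).
* `pk_phi_cont_off`: `Φ` is continuous within `E α` at points with `u x₀ ≠ 0`: `pk_kap_cont`, `pk_kap_mem`, `w_cont`, `u_cont` after `κ`, `hbkc`, `pk_mul_cont`; `sign (u x)` is eventually constant.
* `pk_phi_wall`: `x₀ ∈ collarIm α`, `rr x₀ = x₀`; within `E α`: `collarIm α` is a neighbourhood, `e (rr x) → e x₀ > 0`, `w (rr x) → w x₀ > 0`, `u x → 0`.   Eventually `|u x| ≤ e (rr x) / 4`, so `pkChi = 0`,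
     `κ x = c (rr x) 0 = rr x`, `u (κ x) = 0`, `bk 0 = 1`, `Φ₂ x = sign (u x) w (rr x) max 1 (e (rr x) / (4 |u x|))`, `|Φ₂ x| ≥ w (rr x) e (rr x) / (4 |u x|) > R` eventually.
* `pk_pull_cont` (T2, continuity).   At `u x₀ ≠ 0`: `σ = sign (u x₀)`; `S = {x ∈ E α | sign (u x) = σ} ∈ 𝓝[E α] x₀`, `Φ` maps `S` to `splitE .. (α.ext σ)` (T1): compose.
     At `u x₀ = 0`: `K = closedBall (F.q x₀) 1`, `R` from `hφ.2 none K`; by `pk_phi_wall` eventually `φ (Φ x) = φ (rr x, 0)` (`Frame.ext_drop_none`, `Frame.ext_t_none`, `Frame.ext_q`; `Φ x ∈ tot` by T1);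
     `x ↦ (rr x, 0)` is continuous within `collarIm α` with values in the wall `splitE .. (α.ext 0)`.
-/

set_option autoImplicit false
set_option linter.unusedSectionVars false
open scoped ContDiff Topology
open MeasureTheory Claims.C0499

namespace Claimed.Agent.R315

variable {V W : Type} [NormedAddCommGroup V] [NormedSpace ℝ V] [NormedAddCommGroup W]
  [NormedSpace ℝ W] {ι : Type}

variable [Fintype ι] {n : ℕ} {M : Set V} {g : Ten V} {F : Frame V W ι} {E : Stat ι → Set W}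
  {u w e : W → ℝ} {k bk : ℝ → ℝ} {c : W → ℝ → W} {rr : W → W} {ε : ℝ}

theorem pk_mul_or (hD : IsDiag n M F E) (hcol : IsCollar M g F E u e c rr ε) {α : Stat ι} {x : W}
    (hx : x ∈ E α) :
    pkMul E u e c rr x = 1 ∨ (u (pkKap E u e c rr x) = 0 ∧ 1 ≤ pkMul E u e c rr x) := by
  rcases pk_cases hD hcol hx with ⟨-, -, -, h2⟩ | ⟨-, y, s, hp, -, -, -, -, -, hu, h2⟩
  · exact Or.inl h2
  · have hey : 0 < e y := hcol.e_pos _ (mem_tot.2 ⟨α, hp.1⟩)
    by_cases hs : e y / 2 / 2 ≤ |s|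
    · left
      rw [h2]
      apply max_eq_left
      have hs0 : 0 < |s| := lt_of_lt_of_le (by positivity) hs
      rw [div_le_one (by positivity)]
      linarith
    · right
      refine ⟨?_, ?_⟩
      · rw [hu]; exact pkChi_of_small (not_le.1 hs).le
      · rw [h2]; exact le_max_left _ _

theorem pk_sign_kap (hD : IsDiag n M F E) (hcol : IsCollar M g F E u e c rr ε) {α : Stat ι} {x : W}
    (hx : x ∈ E α) :
    (SignType.sign (u x) : ℝ) * u (pkKap E u e c rr x) = |u (pkKap E u e c rr x)| := by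
  rcases pk_cases hD hcol hx with ⟨-, -, h1, -⟩ | ⟨-, y, s, hp, -, -, hus, -, -, hu, -⟩
  · rw [h1]; exact sign_mul_self _
  · have hey : 0 < e y := hcol.e_pos _ (mem_tot.2 ⟨α, hp.1⟩)
    rw [hu, hus]; exact pkChi_sign (by positivity)

/-- **T1.** -/
theorem pk_phi_status (hD : IsDiag n M F E) (hC : IsCut n F E u w k)
    (hcol : IsCollar M g F E u e c rr ε) (hbk0 : bk 0 = 1)
    (hbk : ∀ a, 0 ≤ a → k a + k (bk a) = 1) {α : Stat ι} {x : W} (hx : x ∈ E α) :
    pkPhi E u e c rr w bk x ∈ splitE E u w k (α.ext (SignType.sign (u x))) := by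
  have hκ := pk_kap_mem hD hcol hx
  have hw : 0 < w (pkKap E u e c rr x) := hC.w_pos _ (mem_tot.2 ⟨α, hκ⟩)
  have hs := pk_sign_kap hD hcol hx
  by_cases hu : u x = 0
  · have hsz : SignType.sign (u x) = 0 := by rw [hu, sign_zero]
    rw [hsz] at hs ⊢
    have hs' : u (pkKap E u e c rr x) = 0 := by
      have : |u (pkKap E u e c rr x)| = 0 := by rw [← hs]; simp
      exact abs_eq_zero.1 this
    refine ⟨hκ, Or.inl ⟨rfl, hs', ?_⟩⟩
    show (SignType.sign (u x) : ℝ) * _ * _ * _ = 0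
    rw [hsz]; simp
  · set σ := SignType.sign (u x) with hσ
    have hσ0 : σ ≠ 0 := by rw [hσ]; exact sign_ne_zero.2 hu
    have hσ2 : (σ : ℝ) * (σ : ℝ) = 1 := by
      rcases signType_cast_cases σ hσ0 with ⟨-, h⟩ | ⟨-, h⟩ <;> rw [h] <;> norm_num
    refine ⟨hκ, Or.inr ⟨hσ0, ?_⟩⟩
    show k ((σ : ℝ) * u (pkKap E u e c rr x) / w (pkKap E u e c rr x)) +
      k ((σ : ℝ) * ((σ : ℝ) * w (pkKap E u e c rr x) *
        bk (|u (pkKap E u e c rr x)| / w (pkKap E u e c rr x)) * pkMul E u e c rr x) /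
          w (pkKap E u e c rr x)) = 1
    rw [hs]
    have e1 : (σ : ℝ) * ((σ : ℝ) * w (pkKap E u e c rr x) *
        bk (|u (pkKap E u e c rr x)| / w (pkKap E u e c rr x)) * pkMul E u e c rr x) /
          w (pkKap E u e c rr x) =
        bk (|u (pkKap E u e c rr x)| / w (pkKap E u e c rr x)) * pkMul E u e c rr x := by
      rw [div_eq_iff hw.ne']
      calc _ = ((σ : ℝ) * (σ : ℝ)) * (w (pkKap E u e c rr x) *
            bk (|u (pkKap E u e c rr x)| / w (pkKap E u e c rr x)) * pkMul E u e c rr x) := by ring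
        _ = _ := by rw [hσ2]; ring
    rw [e1]
    rcases pk_mul_or hD hcol hx with hm | ⟨hu0, hm⟩
    · rw [hm, mul_one]; exact hbk _ (by positivity)
    · rw [hu0, abs_zero, zero_div, hbk0, one_mul, hC.corner.zero, hC.corner.far _ hm, add_zero]

/-- **T3.** -/
theorem pk_phi_disp [FiniteDimensional ℝ V] (hM : IsMfd n M) (hconn : IsConnected M)
    (hg : IsMetricOn n M g) (hD : IsDiag n M F E) (hcol : IsCollar M g F E u e c rr ε)
    (hε : 0 < ε) {z : W} (hz : z ∈ tot E) :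
    rdist M g (F.q z) (F.ext.q (pkPhi E u e c rr w bk z)) ≤ ε := by
  obtain ⟨α, hα⟩ := mem_tot.1 hz
  show rdist M g (F.q z) (F.q (pkKap E u e c rr z)) ≤ ε
  have hgT : IsTenOn n M g := fun ψ U h => (hg ψ U h).1
  rcases pk_cases hD hcol hα with ⟨-, -, h1, -⟩ | ⟨-, y, s, hp, hzc, -, -, hp', h1, -, -⟩
  · rw [h1, if_rdist_self g (hD.q_mem α z hα)]; exact hε.le
  · have a1 : rdist M g (F.q y) (F.q (c y s)) ≤ ε / 2 := hcol.small α (y, s) hp
    have a2 : rdist M g (F.q y) (F.q (c y (pkChi (e y / 2) s))) ≤ ε / 2 := hcol.small α _ hp'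
    rw [h1, hzc]
    have hy : F.q y ∈ M := hD.q_mem α y hp.1
    have hz' : F.q (c y s) ∈ M := hD.q_mem α _ (hcol.mem α _ hp)
    have hk' : F.q (c y (pkChi (e y / 2) s)) ∈ M := hD.q_mem α _ (hcol.mem α _ hp')
    have j := fun {a b : V} (ha : a ∈ M) (hb : b ∈ M) =>
      if_join_of_connected hM hconn.isPreconnected ha hb
    have := if_rdist_tri hM hgT (j hz' hy) (j hy hk')
    rw [if_rdist_symm M g (F.q (c y s)) (F.q y)] at this
    linarith

theorem pk_sign_event (hD : IsDiag n M F E) (hC : IsCut n F E u w k) {α : Stat ι} {x₀ : W}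
    (hx₀ : x₀ ∈ E α) (hu : u x₀ ≠ 0) :
    ∀ᶠ x in 𝓝[E α] x₀, SignType.sign (u x) = SignType.sign (u x₀) := by
  have hc : ContinuousWithinAt u (E α) x₀ := hC.u_cont hD α x₀ hx₀
  rcases lt_or_gt_of_ne hu with h | h
  · filter_upwards [hc.eventually (gt_mem_nhds h)] with x hx
    rw [sign_neg hx, sign_neg h]
  · filter_upwards [hc.eventually (lt_mem_nhds h)] with x hx
    rw [sign_pos hx, sign_pos h]

theorem pk_phi_cont_off [FiniteDimensional ℝ W] (hD : IsDiag n M F E) (hC : IsCut n F E u w k)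
    (hcol : IsCollar M g F E u e c rr ε) (hbkc : Continuous bk) {α : Stat ι} {x₀ : W}
    (hx₀ : x₀ ∈ E α) (hu : u x₀ ≠ 0) :
    ContinuousWithinAt (pkPhi E u e c rr w bk) (E α) x₀ := by
  have hκ : ContinuousWithinAt (pkKap E u e c rr) (E α) x₀ := pk_kap_cont hD hC hcol α x₀ hx₀
  have hmaps : Set.MapsTo (pkKap E u e c rr) (E α) (E α) := fun x hx => pk_kap_mem hD hcol hx
  have hwκ : ContinuousWithinAt (fun x => w (pkKap E u e c rr x)) (E α) x₀ :=
    (hC.w_cont hD α _ (hmaps hx₀)).comp hκ hmaps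
  have huκ : ContinuousWithinAt (fun x => u (pkKap E u e c rr x)) (E α) x₀ :=
    (hC.u_cont hD α _ (hmaps hx₀)).comp hκ hmaps
  have hw0 : w (pkKap E u e c rr x₀) ≠ 0 := (hC.w_pos _ (mem_tot.2 ⟨α, hmaps hx₀⟩)).ne'
  have hsign : ContinuousWithinAt (fun x => (SignType.sign (u x) : ℝ)) (E α) x₀ := by
    refine (continuousWithinAt_const (b := (SignType.sign (u x₀) : ℝ))).congr_of_eventuallyEq ?_ rfl
    filter_upwards [pk_sign_event hD hC hx₀ hu] with x hx
    rw [hx]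
  have hb : ContinuousWithinAt (fun x => bk (|u (pkKap E u e c rr x)| / w (pkKap E u e c rr x)))
      (E α) x₀ := hbkc.continuousAt.comp_continuousWithinAt (huκ.abs.div hwκ hw0)
  exact hκ.prodMk (((hsign.mul hwκ).mul hb).mul (pk_mul_cont hD hC hcol hx₀ hu))

theorem pk_phi_wall (hD : IsDiag n M F E) (hC : IsCut n F E u w k)
    (hcol : IsCollar M g F E u e c rr ε) (hbk0 : bk 0 = 1) {α : Stat ι} {x₀ : W}
    (hx₀ : x₀ ∈ E α) (hu : u x₀ = 0) (R : ℝ) :
    ∀ᶠ x in 𝓝[E α] x₀, x ∈ collarIm E u e c α ∧ (pkPhi E u e c rr w bk x).1 = rr x ∧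
      (u x = 0 → (pkPhi E u e c rr w bk x).2 = 0) ∧
      (u x ≠ 0 → R < |(pkPhi E u e c rr w bk x).2|) := by
  obtain ⟨hx₀c, hrr⟩ := pk_wall_mem_col hcol hx₀ hu
  have hN := pk_col_nhds hcol hx₀c
  have he : ContinuousWithinAt (fun x => e (rr x)) (E α) x₀ :=
    ((pk_e_rr_cont hcol α) x₀ hx₀c).mono_of_mem_nhdsWithin hN
  have hwr : ContinuousWithinAt (fun x => w (rr x)) (E α) x₀ :=
    (((hC.w_cont hD α).comp (hcol.rr_cont α) fun _ hx => (pk_rr_mem hcol hx).1) x₀
      hx₀c).mono_of_mem_nhdsWithin hN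
  have hu' : ContinuousWithinAt (fun x => |u x|) (E α) x₀ := (hC.u_cont hD α x₀ hx₀).abs
  have he0 : 0 < e x₀ := hcol.e_pos _ (mem_tot.2 ⟨α, hx₀⟩)
  have hw0 : 0 < w x₀ := hC.w_pos _ (mem_tot.2 ⟨α, hx₀⟩)
  set δ : ℝ := min (e x₀ / 8) (w x₀ * e x₀ / (16 * (|R| + 1))) with hδ
  have hδ0 : 0 < δ := by
    have : 0 < |R| + 1 := by positivity
    exact lt_min (by positivity) (by positivity)
  have ev1 : ∀ᶠ x in 𝓝[E α] x₀, e x₀ / 2 < e (rr x) :=
    he.eventually (lt_mem_nhds (by simp only [hrr]; linarith))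
  have ev2 : ∀ᶠ x in 𝓝[E α] x₀, w x₀ / 2 < w (rr x) :=
    hwr.eventually (lt_mem_nhds (by simp only [hrr]; linarith))
  have ev3 : ∀ᶠ x in 𝓝[E α] x₀, |u x| < δ :=
    hu'.eventually (gt_mem_nhds (by simp only [hu, abs_zero]; exact hδ0))
  filter_upwards [hN, self_mem_nhdsWithin, ev1, ev2, ev3] with x hxc hxE h1 h2 h3
  rcases pk_cases hD hcol hxE with ⟨hn, -⟩ | ⟨-, y, s, hp, -, hy, hs, -, hk, huk, hm⟩
  · exact absurd (pk_mem_col_of hxc) hn
  · rw [hy] at h1 h2
    rw [hs] at h3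
    have hchi : pkChi (e y / 2) s = 0 := by
      apply pkChi_of_small
      have : δ ≤ e x₀ / 8 := min_le_left _ _
      linarith
    have hky : pkKap E u e c rr x = y := by
      rw [hk, hchi]; exact hcol.zero y (mem_tot.2 ⟨α, hp.1⟩) hp.2.1
    have huk0 : u (pkKap E u e c rr x) = 0 := by rw [huk, hchi]
    refine ⟨hxc, by rw [hy]; exact hky, ?_, ?_⟩
    · intro hux
      show (SignType.sign (u x) : ℝ) * _ * _ * _ = 0
      rw [hux, sign_zero]; simp
    · intro hux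
      show R < |(SignType.sign (u x) : ℝ) * w (pkKap E u e c rr x) *
        bk (|u (pkKap E u e c rr x)| / w (pkKap E u e c rr x)) * pkMul E u e c rr x|
      rw [huk0, abs_zero, zero_div, hbk0, mul_one, hky, hm]
      have hs0 : 0 < |s| := by rw [← hs]; exact abs_pos.2 hux
      have hwy : 0 < w y := by linarith
      have hσ : |(SignType.sign (u x) : ℝ)| = 1 := by
        rcases signType_cast_cases _ (sign_ne_zero.2 hux) with ⟨-, h⟩ | ⟨-, h⟩ <;> rw [h] <;> simp
      rw [abs_mul, abs_mul, hσ, one_mul, abs_of_pos hwy,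
        abs_of_pos (lt_of_lt_of_le one_pos (le_max_left _ _))]
      have hR1 : 0 < |R| + 1 := by positivity
      have hA : R < e y / 2 / (2 * |s|) * w y := by
        rw [div_mul_eq_mul_div, lt_div_iff₀ (by positivity)]
        have hδ2 : δ ≤ w x₀ * e x₀ / (16 * (|R| + 1)) := min_le_right _ _
        have h4 : (|R| + 1) * (2 * δ) ≤ w x₀ * e x₀ / 8 := by
          calc (|R| + 1) * (2 * δ) ≤ (|R| + 1) * (2 * (w x₀ * e x₀ / (16 * (|R| + 1)))) := by
                gcongr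
            _ = w x₀ * e x₀ / 8 := by field_simp; ring
        have h5 : R * (2 * |s|) ≤ (|R| + 1) * (2 * δ) := by
          have : R ≤ |R| + 1 := by linarith [le_abs_self R]
          calc R * (2 * |s|) ≤ (|R| + 1) * (2 * |s|) := by gcongr
            _ ≤ (|R| + 1) * (2 * δ) := by gcongr
        have h6 : w x₀ * e x₀ / 8 < e y / 2 * w y := by nlinarith
        linarith
      calc R < e y / 2 / (2 * |s|) * w y := hA
        _ ≤ w y * max 1 (e y / 2 / (2 * |s|)) := by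
            rw [mul_comm]
            exact mul_le_mul_of_nonneg_left (le_max_right _ _) hwy.le

/-- **T2, continuity.** -/
theorem pk_pull_cont [FiniteDimensional ℝ V] [FiniteDimensional ℝ W] (hD : IsDiag n M F E)
    (hC : IsCut n F E u w k) (hcol : IsCollar M g F E u e c rr ε) (hbkc : Continuous bk)
    (hbk0 : bk 0 = 1) (hbk : ∀ a, 0 ≤ a → k a + k (bk a) = 1) {X : Type} [TopologicalSpace X]
    {φ : W × ℝ → X} (hφ : CC F.ext (splitE E u w k) φ) (α : Stat ι) :
    ContinuousOn (φ ∘ pkPhi E u e c rr w bk) (E α) := by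
  intro x₀ hx₀
  by_cases hu : u x₀ = 0
  · obtain ⟨hx₀c, hrr⟩ := pk_wall_mem_col hcol hx₀ hu
    have hN := pk_col_nhds hcol hx₀c
    have hK : IsCompact (Metric.closedBall (F.q x₀) 1) := isCompact_closedBall _ _
    obtain ⟨R, hR⟩ := hφ.2 none _ hK
    have ev := pk_phi_wall (bk := bk) hD hC hcol hbk0 hx₀ hu R
    have hrrc : ContinuousWithinAt rr (E α) x₀ :=
      (hcol.rr_cont α x₀ hx₀c).mono_of_mem_nhdsWithin hN
    have hq : ∀ᶠ x in 𝓝[E α] x₀, F.q (rr x) ∈ Metric.closedBall (F.q x₀) 1 := by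
      have hc : ContinuousWithinAt (fun x => F.q (rr x)) (E α) x₀ :=
        F.q.continuous.continuousAt.comp_continuousWithinAt hrrc
      refine hc.eventually ?_
      simp only [hrr]
      exact Metric.closedBall_mem_nhds _ one_pos
    have hev : (φ ∘ pkPhi E u e c rr w bk) =ᶠ[𝓝[E α] x₀] fun x => φ (rr x, 0) := by
      filter_upwards [ev, hq, self_mem_nhdsWithin] with x ⟨h1, h2, h3, h4⟩ h5 hxE
      show φ (pkPhi E u e c rr w bk x) = φ (rr x, 0)
      by_cases hux : u x = 0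
      · congr 1
        exact Prod.ext h2 (h3 hux)
      · have h6 := hR (pkPhi E u e c rr w bk x)
          (mem_tot.2 ⟨_, pk_phi_status hD hC hcol hbk0 hbk hxE⟩)
          (by rw [Frame.ext_q, h2]; exact h5) (by rw [Frame.ext_t_none]; exact h4 hux)
        rw [Frame.ext_drop_none, h2] at h6
        exact h6.symm
    have hmaps : Set.MapsTo (fun x => ((rr x, 0) : W × ℝ)) (collarIm E u e c α)
        (splitE E u w k (α.ext 0)) := by
      intro x hx
      obtain ⟨h1, h2⟩ := pk_rr_mem hcol hx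
      exact ⟨h1, Or.inl ⟨rfl, h2, rfl⟩⟩
    have hin : ContinuousWithinAt (fun x => ((rr x, 0) : W × ℝ)) (collarIm E u e c α) x₀ :=
      (hcol.rr_cont α x₀ hx₀c).prodMk continuousWithinAt_const
    have hφc : ContinuousWithinAt φ (splitE E u w k (α.ext 0))
        ((fun x => ((rr x, 0) : W × ℝ)) x₀) := hφ.1 (α.ext 0) _ (hmaps hx₀c)
    have hc : ContinuousWithinAt (fun x => φ (rr x, 0)) (E α) x₀ :=
      (ContinuousWithinAt.comp (g := φ) (f := fun x => ((rr x, 0) : W × ℝ)) hφc hin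
        hmaps).mono_of_mem_nhdsWithin hN
    exact hc.congr_of_eventuallyEq hev (hev.self_of_nhdsWithin hx₀)
  · set σ := SignType.sign (u x₀) with hσ
    set S : Set W := {x | x ∈ E α ∧ SignType.sign (u x) = σ} with hS
    have hSn : S ∈ 𝓝[E α] x₀ := by
      filter_upwards [pk_sign_event hD hC hx₀ hu, self_mem_nhdsWithin] with x h1 h2
      exact ⟨h2, h1⟩
    have hΦ : ContinuousWithinAt (pkPhi E u e c rr w bk) S x₀ :=
      (pk_phi_cont_off hD hC hcol hbkc hx₀ hu).mono fun x hx => hx.1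
    have hmaps : Set.MapsTo (pkPhi E u e c rr w bk) S (splitE E u w k (α.ext σ)) := by
      intro x hx
      have := pk_phi_status hD hC hcol hbk0 hbk hx.1
      rwa [hx.2] at this
    exact ((hφ.1 (α.ext σ) _ (hmaps ⟨hx₀, rfl⟩)).comp hΦ hmaps).mono_of_mem_nhdsWithin hSn

end Claimed.Agent.R315
end

/- ===== packed: Claimed.Agent.R315.Pk.LinkD ===== -/
section
/-!
# Row 315, packets: the map `Φ` of a split: T2 (compatibility of pull-backs)

PACKAGE PK-LINK-D: PROVED (helper266).   Black boxes: Pk/LinkB.lean (`pk_cases`, `pk_col_coord`, `pk_mem_col_iff`), Pk/LinkC.lean (`pk_phi_status`), Pk/Geom.lean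
(`IsDiag.exists_tail`, `IsDiag.sign_mul`, `IsDiag.ne_zero_of_t_ne`, `Frame.q_drop`, `Frame.t_drop_self`, `Frame.drop_add_smul`, `Frame.drop_of_t_eq_zero`), Pk/Split.lean (`Frame.ext_drop_some`, `Frame.ext_q`, `Frame.ext_t_some`).

THRESHOLDS.   `K` compact, `i` fixed.   `K₂ = Metric.cthickening (2 * ‖F.q‖) K` is compact, and `F.q y ∈ K₂` whenever `F.q z ∈ K`, `‖y - z‖ ≤ 2`.
   `R₀` = a common threshold (`pk_thr`) of `Compat` for `u`, `w`, `e` at `(i, K₂)`, of `hcol.compat i K₂`, of `hD.exists_tail` for `K₂`;     `R = R₀ + 2 ‖F.t i‖`   (`|F.t i y| ≥ |F.t i z| - ‖F.t i‖ ‖y - z‖`).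
Let `z ∈ E α`, `F.q z ∈ K`, `R < |F.t i z|`.   Then `α i ≠ 0`, `β = α.face i`, `F.drop i z ∈ E β`.
* `pk_far` (last part).  `drop z = c y' s`, `(y', s) ∈ collarDom β`.   `y = y' + t i z • e i`: `t i y' = 0`, `t i y = t i z`, `drop y = y'`, `y - z = y' - drop z`, norm `≤ 1`.
     Tail: `y ∈ E α`.   `u y = u y' = 0`, `e y = e y'`: `(y, s) ∈ collarDom α`.   `hcol.compat`: `drop (c y s) = c y' s = drop z`, `t i (c y s) = t i y = t i z`, so `c y s = z`.
* `pk_phi_drop`.   Off the collar: `κ = id`, `m = 1` at `z` and at `drop z`; `u`, `w` are compatible at `z`.     In the collar, `s' = pkChi (e y / 2) s`: `κ (drop z) = c (drop y) s' = drop (c y s') = drop (κ z)`, `t i (κ z) = t i y = t i z`,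
     `m (drop z) = m z`, `u`, `w` compatible at `κ z` (`‖κ z - z‖ ≤ 2`).   `Frame.ext_drop_some`.
* `pk_pull_compat`.   `R' = max` (threshold of `pk_phi_drop` for `K`) (threshold of `hφ (some i) K₂`).
-/

set_option autoImplicit false
set_option linter.unusedSectionVars false
open scoped ContDiff Topology
open MeasureTheory Claims.C0499

namespace Claimed.Agent.R315

variable {V W : Type} [NormedAddCommGroup V] [NormedSpace ℝ V] [NormedAddCommGroup W]
  [NormedSpace ℝ W] {ι : Type}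

variable [Fintype ι] {n : ℕ} {M : Set V} {g : Ten V} {F : Frame V W ι} {E : Stat ι → Set W}
  {u w e : W → ℝ} {k bk : ℝ → ℝ} {c : W → ℝ → W} {rr : W → W} {ε : ℝ}

theorem pk_kap_near (hD : IsDiag n M F E) (hcol : IsCollar M g F E u e c rr ε) {z : W}
    (hz : z ∈ tot E) : ‖pkKap E u e c rr z - z‖ ≤ 2 := by
  obtain ⟨α, hα⟩ := mem_tot.1 hz
  rcases pk_cases hD hcol hα with ⟨-, -, h1, -⟩ | ⟨-, y, s, hp, hzc, -, -, hp', h1, -, -⟩
  · rw [h1]; simp
  · have a1 : ‖c y s - y‖ ≤ 1 := hcol.bdd α (y, s) hp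
    have a2 : ‖c y (pkChi (e y / 2) s) - y‖ ≤ 1 := hcol.bdd α _ hp'
    rw [h1, hzc]
    calc ‖c y (pkChi (e y / 2) s) - c y s‖
        = ‖(c y (pkChi (e y / 2) s) - y) - (c y s - y)‖ := by congr 1; abel
      _ ≤ ‖c y (pkChi (e y / 2) s) - y‖ + ‖c y s - y‖ := norm_sub_le _ _
      _ ≤ 2 := by linarith

/-- one threshold for all compatibilities over `K`. -/
theorem pk_thr (hD : IsDiag n M F E) (hC : IsCut n F E u w k)
    (hcol : IsCollar M g F E u e c rr ε) (i : ι) {K : Set V} (hK : IsCompact K) :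
    ∃ R : ℝ, 0 ≤ R ∧
      (∀ z ∈ tot E, F.q z ∈ K → R < |F.t i z| →
        u (F.drop i z) = u z ∧ w (F.drop i z) = w z ∧ e (F.drop i z) = e z) ∧
      (∀ α, ∀ p ∈ collarDom E u e α, F.q p.1 ∈ K → R < |F.t i p.1| →
        c (F.drop i p.1) p.2 = F.drop i (c p.1 p.2) ∧ F.t i (c p.1 p.2) = F.t i p.1) ∧
      (∀ α : Stat ι, α i ≠ 0 → ∀ z : W, F.q z ∈ K → R < (α i : ℝ) * F.t i z →
        (z ∈ E α ↔ F.drop i z ∈ E (α.face i))) := by
  obtain ⟨R1, h1⟩ := hC.u_sc.2 i K hK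
  obtain ⟨R2, h2⟩ := hC.w_sc.2 i K hK
  obtain ⟨R3, h3⟩ := hcol.e_cc.2 i K hK
  obtain ⟨R4, h4⟩ := hcol.compat i K hK
  obtain ⟨R5, h5⟩ := hD.exists_tail hK
  have a1 := le_abs_self R1
  have a2 := le_abs_self R2
  have a3 := le_abs_self R3
  have a4 := le_abs_self R4
  have a5 := le_abs_self R5
  have b1 := abs_nonneg R1
  have b2 := abs_nonneg R2
  have b3 := abs_nonneg R3
  have b4 := abs_nonneg R4
  have b5 := abs_nonneg R5
  refine ⟨|R1| + |R2| + |R3| + |R4| + |R5|, by positivity, ?_, ?_, ?_⟩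
  · intro z hz hq hR
    exact ⟨h1 z hz hq (by linarith), h2 z hz hq (by linarith), h3 z hz hq (by linarith)⟩
  · intro α p hp hq hR
    exact h4 α p hp hq (by linarith)
  · intro α hα z hq hR
    exact h5 i α hα z hq (by linarith)

/-- far out: everything near `z` is compatible, and the collar is invariant under `F.drop i`. -/
theorem pk_far [FiniteDimensional ℝ V] (hD : IsDiag n M F E) (hC : IsCut n F E u w k)
    (hcol : IsCollar M g F E u e c rr ε) (i : ι) {K : Set V} (hK : IsCompact K) :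
    ∃ R : ℝ, ∀ α, ∀ z ∈ E α, F.q z ∈ K → R < |F.t i z| →
      (∀ x ∈ E α, ‖x - z‖ ≤ 2 → F.drop i x ∈ E (α.face i) ∧ u (F.drop i x) = u x ∧
        w (F.drop i x) = w x ∧ e (F.drop i x) = e x) ∧
      (∀ p ∈ collarDom E u e α, ‖p.1 - z‖ ≤ 2 →
        c (F.drop i p.1) p.2 = F.drop i (c p.1 p.2) ∧ F.t i (c p.1 p.2) = F.t i p.1) ∧
      (F.drop i z ∈ pkCol E u e c → z ∈ collarIm E u e c α) := by
  set K₂ := Metric.cthickening (2 * ‖F.q‖) K with hK₂def
  have hK₂ : IsCompact K₂ := hK.cthickening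
  obtain ⟨R₀, hR₀, hA, hB, hT⟩ := pk_thr hD hC hcol i hK₂
  refine ⟨R₀ + 2 * ‖F.t i‖, ?_⟩
  intro α z hz hq hR
  have hnt : 0 ≤ ‖F.t i‖ := norm_nonneg _
  have hqn : ∀ x : W, ‖x - z‖ ≤ 2 → F.q x ∈ K₂ := by
    intro x hx
    refine Metric.mem_cthickening_of_dist_le _ (F.q z) _ _ hq ?_
    rw [dist_eq_norm, ← map_sub]
    calc ‖F.q (x - z)‖ ≤ ‖F.q‖ * ‖x - z‖ := F.q.le_opNorm _
      _ ≤ ‖F.q‖ * 2 := by gcongr
      _ = 2 * ‖F.q‖ := mul_comm _ _
  have htn : ∀ x : W, ‖x - z‖ ≤ 2 → R₀ < |F.t i x| := by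
    intro x hx
    have h1 : |F.t i (x - z)| ≤ ‖F.t i‖ * 2 := by
      calc |F.t i (x - z)| = ‖F.t i (x - z)‖ := (Real.norm_eq_abs _).symm
        _ ≤ ‖F.t i‖ * ‖x - z‖ := (F.t i).le_opNorm _
        _ ≤ ‖F.t i‖ * 2 := by gcongr
    have h2 : F.t i z = F.t i x - F.t i (x - z) := by rw [map_sub]; ring
    have h3 : |F.t i z| ≤ |F.t i x| + |F.t i (x - z)| := by
      rw [h2]; exact abs_sub _ _
    linarith
  have hα : α i ≠ 0 := hD.ne_zero_of_t_ne hz (by
    intro h; rw [h, abs_zero] at hR; linarith)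
  have hdm : ∀ x ∈ E α, ‖x - z‖ ≤ 2 → F.drop i x ∈ E (α.face i) := fun x hxE hx =>
    (hT α hα x (hqn x hx) (by rw [hD.sign_mul hxE i]; exact htn x hx)).1 hxE
  refine ⟨?_, ?_, ?_⟩
  · intro x hxE hx
    obtain ⟨h1, h2, h3⟩ := hA x (mem_tot.2 ⟨α, hxE⟩) (hqn x hx) (htn x hx)
    exact ⟨hdm x hxE hx, h1, h2, h3⟩
  · intro p hp hx
    exact hB α p hp (hqn _ hx) (htn _ hx)
  · intro hcolz
    have hdz : F.drop i z ∈ E (α.face i) := hdm z hz (by simp)
    obtain ⟨⟨y', s⟩, hp, hc⟩ := (pk_mem_col_iff hD hcol hdz).1 hcolz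
    simp only at hc
    have hβi : (α.face i) i = 0 := (α.isFace_face hα).2.1
    have hty' : F.t i y' = 0 := hD.t_hit _ y' hp.1 i hβi
    set y := y' + F.t i z • F.e i with hy
    have hty : F.t i y = F.t i z := by
      simp [hy, hty', F.t_e]
    have hdy : F.drop i y = y' := by
      rw [hy, F.drop_add_smul, F.drop_of_t_eq_zero hty']
    have hyz : ‖y - z‖ ≤ 2 := by
      have h1 : y - z = -(c y' s - y') := by
        rw [hc, hy, Frame.drop]; abel
      have h2 : ‖c y' s - y'‖ ≤ 1 := hcol.bdd _ (y', s) hp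
      rw [h1, norm_neg]; linarith
    have hyE : y ∈ E α := by
      refine (hT α hα y (hqn y hyz) ?_).2 (by rw [hdy]; exact hp.1)
      rw [hty, hD.sign_mul hz i]; linarith
    obtain ⟨h1, -, h3⟩ := hA y (mem_tot.2 ⟨α, hyE⟩) (hqn y hyz) (htn y hyz)
    rw [hdy] at h1 h3
    have hpy : (y, s) ∈ collarDom E u e α :=
      ⟨hyE, by rw [← h1]; exact hp.2.1, by rw [← h3]; exact hp.2.2⟩
    obtain ⟨h4, h5⟩ := hB α (y, s) hpy (hqn y hyz) (htn y hyz)
    simp only at h4 h5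
    refine ⟨(y, s), hpy, ?_⟩
    show c y s = z
    have h6 : c y s = F.drop i (c y s) + F.t i (c y s) • F.e i := by
      simp [Frame.drop]
    rw [h6, ← h4, hdy, hc, h5, hty]
    simp [Frame.drop]

/-- far out `Φ` commutes with `F.drop i`. -/
theorem pk_phi_drop [FiniteDimensional ℝ V] (hD : IsDiag n M F E) (hC : IsCut n F E u w k)
    (hcol : IsCollar M g F E u e c rr ε) (i : ι) {K : Set V} (hK : IsCompact K) :
    ∃ R : ℝ, ∀ z ∈ tot E, F.q z ∈ K → R < |F.t i z| →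
      pkPhi E u e c rr w bk (F.drop i z) = F.ext.drop (some i) (pkPhi E u e c rr w bk z) ∧
      F.t i (pkKap E u e c rr z) = F.t i z := by
  obtain ⟨R, hR⟩ := pk_far hD hC hcol i hK
  refine ⟨R, ?_⟩
  intro z hz hq hlt
  obtain ⟨α, hα⟩ := mem_tot.1 hz
  obtain ⟨hA, hB, hCc⟩ := hR α z hα hq hlt
  rw [Frame.ext_drop_some]
  by_cases hzc : z ∈ pkCol E u e c
  · have hzα := (pk_mem_col_iff hD hcol hα).1 hzc
    obtain ⟨hp, hcz⟩ := pk_col_coord hcol hzα
    set y := rr z with hy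
    set s := u z with hs
    have hyz : ‖y - z‖ ≤ 2 := by
      have h2 : ‖c y s - y‖ ≤ 1 := hcol.bdd _ (y, s) hp
      rw [hcz] at h2
      rw [norm_sub_rev]; linarith
    obtain ⟨b1, b2⟩ := hB (y, s) hp hyz
    simp only at b1 b2
    rw [hcz] at b1 b2
    obtain ⟨a1, a2, -, a4⟩ := hA y hp.1 hyz
    have hpd : (F.drop i y, s) ∈ collarDom E u e (α.face i) :=
      ⟨a1, by rw [a2]; exact hp.2.1, by rw [a4]; exact hp.2.2⟩
    have hdc : F.drop i z ∈ collarIm E u e c (α.face i) := ⟨(F.drop i y, s), hpd, b1⟩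
    have hrd : rr (F.drop i z) = F.drop i y := by
      rw [← b1]; exact hcol.rr_c _ (F.drop i y, s) hpd
    have hud : u (F.drop i z) = s := by
      rw [← b1]; exact hcol.u_c _ (F.drop i y, s) hpd
    have hey : 0 < e y := hcol.e_pos _ (mem_tot.2 ⟨α, hp.1⟩)
    have hp' : (y, pkChi (e y / 2) s) ∈ collarDom E u e α :=
      ⟨hp.1, hp.2.1, lt_of_le_of_lt (pkChi_abs_le (by positivity)) hp.2.2⟩
    obtain ⟨d1, d2⟩ := hB _ hp' hyz
    simp only at d1 d2
    have hkz : pkKap E u e c rr z = c y (pkChi (e y / 2) s) := by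
      unfold pkKap; rw [if_pos hzc]
    have hkd : pkKap E u e c rr (F.drop i z) = F.drop i (pkKap E u e c rr z) := by
      rw [hkz, ← d1]
      unfold pkKap
      rw [if_pos (pk_mem_col_of hdc), hrd, hud, a4]
    have hmd : pkMul E u e c rr (F.drop i z) = pkMul E u e c rr z := by
      unfold pkMul
      rw [if_pos (pk_mem_col_of hdc), if_pos hzc, hrd, hud, a4]
    have htk : F.t i (pkKap E u e c rr z) = F.t i z := by rw [hkz, d2, b2]
    obtain ⟨-, e2, e3, -⟩ := hA _ (pk_kap_mem hD hcol hα) (pk_kap_near hD hcol hz)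
    refine ⟨?_, htk⟩
    unfold pkPhi
    simp only
    rw [hkd, hmd, e2, e3, hud]
  · have hdc : F.drop i z ∉ pkCol E u e c := fun h => hzc (pk_mem_col_of (hCc h))
    obtain ⟨-, a2, a3, -⟩ := hA z hα (by simp)
    have hkz : pkKap E u e c rr z = z := by unfold pkKap; rw [if_neg hzc]
    have hkd : pkKap E u e c rr (F.drop i z) = F.drop i z := by unfold pkKap; rw [if_neg hdc]
    have hmz : pkMul E u e c rr z = 1 := by unfold pkMul; rw [if_neg hzc]
    have hmd : pkMul E u e c rr (F.drop i z) = 1 := by unfold pkMul; rw [if_neg hdc]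
    refine ⟨?_, by rw [hkz]⟩
    unfold pkPhi
    simp only
    rw [hkd, hkz, hmd, hmz, a2, a3]

/-- **T2, compatibility.** -/
theorem pk_pull_compat [FiniteDimensional ℝ V] (hD : IsDiag n M F E) (hC : IsCut n F E u w k)
    (hcol : IsCollar M g F E u e c rr ε) (hbk0 : bk 0 = 1)
    (hbk : ∀ a, 0 ≤ a → k a + k (bk a) = 1) {X : Type} {φ : W × ℝ → X}
    (hφ : Compat F.ext (splitE E u w k) φ) : Compat F E (φ ∘ pkPhi E u e c rr w bk) := by
  intro i K hK
  obtain ⟨R1, h1⟩ := pk_phi_drop (bk := bk) hD hC hcol i hK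
  obtain ⟨R2, h2⟩ := hφ (some i) (Metric.cthickening (2 * ‖F.q‖) K) hK.cthickening
  refine ⟨max R1 R2, ?_⟩
  intro z hz hq hlt
  obtain ⟨α, hα⟩ := mem_tot.1 hz
  obtain ⟨a1, a2⟩ := h1 z hz hq (lt_of_le_of_lt (le_max_left _ _) hlt)
  show φ (pkPhi E u e c rr w bk (F.drop i z)) = φ (pkPhi E u e c rr w bk z)
  rw [a1]
  refine h2 _ (mem_tot.2 ⟨_, pk_phi_status hD hC hcol hbk0 hbk hα⟩) ?_ ?_
  · show F.q (pkKap E u e c rr z) ∈ _
    refine Metric.mem_cthickening_of_dist_le _ (F.q z) _ _ hq ?_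
    rw [dist_eq_norm, ← map_sub]
    calc ‖F.q (pkKap E u e c rr z - z)‖ ≤ ‖F.q‖ * ‖pkKap E u e c rr z - z‖ := F.q.le_opNorm _
      _ ≤ ‖F.q‖ * 2 := by gcongr; exact pk_kap_near hD hcol hz
      _ = 2 * ‖F.q‖ := mul_comm _ _
  · show R2 < |F.t i (pkKap E u e c rr z)|
    rw [a2]
    exact lt_of_le_of_lt (le_max_right _ _) hlt

end Claimed.Agent.R315
end

/- ===== packed: Claimed.Agent.R315.Pk.Link ===== -/
section
/-!
# Row 315, packets: collars and the map `Φ` of a split (`Link`)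

`Link` (T1 status, T2 pull-back of `CC` functions is `CC`, T3 displacement) is the only place where
a collar of the wall `L α = {y ∈ E α | u y = 0}` is needed, and only as a HOMEOMORPHISM.

## `IsCollar`
`c y s` (`y ∈ L α`, `|s| < e y`) is the point of the collar with coordinates `(y, s)`:
`u (c y s) = s`, `c y 0 = y`; `rr` is the retraction, `x ↦ (rr x, u x)` is inverse to `c`; the image
is relatively open in `E α`; far out in the old tails `c` commutes with `F.drop i` and does not change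
`t i`; the fibres are small (`≤ ε / 2` for `rdist M g` after `q`, `≤ 1` in the norm of `W`).

## Construction of `Φ` from a collar (plan of `pk_split_link`)
Put `ε₁ x = e (rr x) / 2`, `pkChi ε₁ s = max 0 (min s (2 s - ε₁)) - max 0 (min (-s) (-2 s - ε₁))`
(`= s` for `|s| ≥ ε₁`, `= 0` for `|s| ≤ ε₁ / 2`, continuous, odd, same sign as `s` or zero).
* `κ x = c (rr x) (pkChi (ε₁ x) (u x))` on the collar `O α`, `κ x = x` off the collar.
  `κ` is continuous on `E α`: `E α` is covered by the relatively open sets `O α` and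
  `E α \ C₁`, `C₁ = c '' {|s| ≤ e y / 2}`, which is closed in `E α` (bounded fibres + continuity of `c`
  + `L α` closed + `e` continuous), and `κ = id` on `O α \ C₁`.
* `bk a` = the solution `b ∈ [0,1]` of `k a + k b = 1` (`a ≥ 0`): continuous, `bk 0 = 1`, `bk a = 0` for
  `a ≥ 1` (inverse of the strictly antitone continuous `k` on `[0,1]`).
* `m x = max 1 (ε₁ x / (2 |u x|))` on the collar (`u x ≠ 0`), `m x = 1` off the collar.
* `Φ x = (κ x, sign (u x) * w (κ x) * bk (|u (κ x)| / w (κ x)) * m x)`, `Φ x = (x, 0)` if `u x = 0`.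
T1: if `|u x| ≥ ε₁ / 2` then `m = 1` and `k a + k (bk a) = 1`; otherwise `u (κ x) = 0`, `bk 0 = 1`, `m ≥ 1`,
`k 0 + k m = 1`.
T2, continuity at `x₀ ∈ E α`: if `u x₀ ≠ 0`, `Φ` is continuous within `E α` at `x₀` with values in one side.
If `u x₀ = 0`: near `x₀` we have `κ x = rr x ∈ L α` and `|Φ x .2| = w ε₁ / (2 |u x|) → ∞`, so
`φ (Φ x) = φ (rr x, 0)` by `Compat` of `φ` for the index `none` over the compact
`closedBall (q x₀) 1`; `x ↦ (rr x, 0)` is continuous into the wall.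
T2, compatibility: far out `Φ (F.drop i z) = F.ext.drop (some i) (Φ z)` (all ingredients commute with
`drop i`), `‖κ z - z‖ ≤ 1` controls `q (κ z)` (compact thickening of `K`) and `t i (κ z)`.
T3: `z` and `κ z` lie in the same fibre of the collar.
-/

set_option autoImplicit false
set_option linter.unusedSectionVars false
open scoped ContDiff Topology
open MeasureTheory Claims.C0499

namespace Claimed.Agent.R315

variable {V W : Type} [NormedAddCommGroup V] [NormedSpace ℝ V] [NormedAddCommGroup W]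
  [NormedSpace ℝ W] {ι : Type}

/-- **Existence of compatible collars** (P Lemma A.1, last paragraph).
PLAN (flow of `X = grad_h u / |grad_h u|²_h`): `X` is a `W`-valued function, smooth along every `E α` near
the wall, tangent, compatible, with `du (X) = 1`.  Extend it to a smooth field `f` on an open
`Ω ⊆ W` (extension lemma, IF); flow lines of `f` which start on the closed submanifold `E α` stay on
it; `c y s = fl f Ω s y`, `rr x = fl f Ω (- u x) x` (`R316/Base/ODE`: `isOpen_dom`, `contDiffOn_fl`, group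
law, uniqueness).  Compatibility: `s ↦ c (drop i y) s + t i y • e i` is a flow line in `E α`, uniqueness.
Width `e = e₀ ∘ q`: all requirements hold for `|s| < δ_K` uniformly over `q ⁻¹' K`
(`IsDiag.tail_induction`, compact truncations), then `pk_tol`. -/
theorem pk_collar [FiniteDimensional ℝ V] [FiniteDimensional ℝ W] [Fintype ι] {n : ℕ} {M : Set V}
    {g : Ten V} (hM : IsMfd n M) (hMc : IsClosed M) (hconn : IsConnected M)
    (hg : IsMetricOn n M g) (hpr : IsProperOn M g) {F : Frame V W ι} {E : Stat ι → Set W}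
    (hD : IsDiag n M F E) {h : Ten W} (hh : IsPMetric n F E h) {u w : W → ℝ} {k : ℝ → ℝ}
    (hC : IsCut n F E u w k) {ε : ℝ} (hε : 0 < ε) :
    ∃ (e : W → ℝ) (c : W → ℝ → W) (rr : W → W), IsCollar M g F E u e c rr ε :=
  pk_collar_pf hM hMc hconn hg hpr hD hh hC hε

/-- **`Link` from a collar.** -/
theorem pk_split_link [FiniteDimensional ℝ V] [FiniteDimensional ℝ W] [Fintype ι] (B : Base V)
    (hB : B.Ok) {F : Frame V W ι} {E : Stat ι → Set W} (hD : IsDiag B.n B.M F E) {u w : W → ℝ}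
    {k : ℝ → ℝ} (hC : IsCut B.n F E u w k) {e : W → ℝ} {c : W → ℝ → W} {rr : W → W} {ε : ℝ}
    (hε : 0 < ε) (hcol : IsCollar B.M B.g F E u e c rr ε) :
    ∃ Φ : W → W × ℝ, Link B F E (splitE E u w k) u Φ ε := by
  obtain ⟨bk, hbkc, hbk0, hbk⟩ := pk_bk_exists hC.corner.smooth.continuous hC.corner.zero
    hC.corner.far hC.corner.strictAntiOn
  refine ⟨pkPhi E u e c rr w bk, ⟨fun α => hC.u_cont hD α, hC.u_sc.2⟩, ?_, ?_, ?_, ?_⟩
  · intro α z hz
    exact pk_phi_status hD hC hcol hbk0 hbk hz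
  · intro X _ φ hφ
    exact ⟨fun α => pk_pull_cont hD hC hcol hbkc hbk0 hbk hφ α,
      pk_pull_compat hD hC hcol hbk0 hbk hφ.2⟩
  · intro z hz
    exact pk_phi_disp hB.mfd hB.conn hB.met hD hcol hε hz
  · rintro α' ⟨z, hz⟩
    exact ⟨z.1, mem_splitE_fst hz⟩

/-- **The split**: diagram, confinement of the new packets, metric and link. -/
theorem pk_split [FiniteDimensional ℝ V] [FiniteDimensional ℝ W] [Fintype ι] (B : Base V)
    (hB : B.Ok) {F : Frame V W ι} {E : Stat ι → Set W} (hD : IsDiag B.n B.M F E) {h : Ten W}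
    (hh : IsPMetric B.n F E h) {u w : W → ℝ} {k : ℝ → ℝ} (hC : IsCut B.n F E u w k) {ε : ℝ}
    (hε : 0 < ε) :
    IsDiag B.n B.M F.ext (splitE E u w k) ∧ IsPMetric B.n F.ext (splitE E u w k) (extTen h) ∧
      ∃ Φ : W → W × ℝ, Link B F E (splitE E u w k) u Φ ε := by
  obtain ⟨e, c, rr, hcol⟩ := pk_collar hB.mfd hB.closed hB.conn hB.met hB.proper hD hh hC hε
  exact ⟨pk_split_diag hD hC, pk_split_metric hD hh, pk_split_link B hB hD hC hε hcol⟩

end Claimed.Agent.R315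
end

/- ===== packed: Claimed.Agent.R315.If.Iso ===== -/
section
/-!
# Row 315 (S0571), interface, part 28: local isometries / isometric copies (prefix `if_`)

`if_LocIso d M h P H ι`: every point of `M` lies in a parametrisation `(ψ,U)` of `M` such that
`(ι ∘ ψ, U)` is a parametrisation of `P` and `cm H (ι ∘ ψ) = cm h ψ` on `U`.
(Open embeddings, isometric copies, coverings `ι = fst : X → M`, ...)

Then `scal`, `lap`, `gradIp`, `gradSq`, `Dsc` correspond: `lap d P H F (ι x) = lap d M h (F ∘ ι) x`, ...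
`if_LocIso.of_forall` (all small parametrisations are mapped to parametrisations),
`if_locIso_pullL` (`ι` linear, `h = ι^* H`).
Owner: helper274.
-/

set_option autoImplicit false
set_option linter.unusedSectionVars false

open scoped Topology ContDiff
open Claims.C0499 Set Function Filter

namespace Claimed.Agent.R315

variable {d : ℕ}
variable {V : Type} [NormedAddCommGroup V] [NormedSpace ℝ V] [FiniteDimensional ℝ V]
variable {V' : Type} [NormedAddCommGroup V'] [NormedSpace ℝ V'] [FiniteDimensional ℝ V']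
variable {F : Type} [NormedAddCommGroup F] [NormedSpace ℝ F]

/-- `ι` is locally an isometry of `(M,h)` onto open pieces of `(P,H)` -/
def if_LocIso (d : ℕ) (M : Set V) (h : Ten V) (P : Set V') (H : Ten V') (ι : V → V') : Prop :=
  ∀ x ∈ M, ∃ (ψ : E d → V) (U : Set (E d)), IsParam M ψ U ∧ x ∈ ψ '' U ∧ IsParam P (ι ∘ ψ) U ∧
    ∀ u ∈ U, cm H (ι ∘ ψ) u = cm h ψ u

variable {M : Set V} {h : Ten V} {P : Set V'} {H : Ten V'} {ι : V → V'}

theorem if_cm_eventuallyEq_of_eqOn {G G' : E d → Matrix (Fin d) (Fin d) ℝ} {U : Set (E d)}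
    (hU : IsOpen U) {u : E d} (hu : u ∈ U) (he : ∀ w ∈ U, G w = G' w) : G =ᶠ[𝓝 u] G' := by
  filter_upwards [hU.mem_nhds hu] with w hw
  exact he w hw

namespace if_LocIso

theorem mapsTo (hι : if_LocIso d M h P H ι) : MapsTo ι M P := by
  intro x hx
  obtain ⟨ψ, U, -, ⟨u, hu, rfl⟩, h2, -⟩ := hι x hx
  exact if_mem h2 hu

theorem mfd (hι : if_LocIso d M h P H ι) : IsMfd d M := by
  intro x hx
  obtain ⟨ψ, U, h1, hmem, -, -⟩ := hι x hx
  exact ⟨ψ, U, h1, hmem⟩

theorem smooth (hι : if_LocIso d M h P H ι) {f : V' → F} (hf : SmoothAlong d P f) :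
    SmoothAlong d M (f ∘ ι) := by
  refine if_smoothAlong_of_atlas fun x hx => ?_
  obtain ⟨ψ, U, h1, hmem, h2, -⟩ := hι x hx
  exact ⟨ψ, U, h1, hmem, hf (ι ∘ ψ) U h2⟩

theorem metric (hι : if_LocIso d M h P H ι) (hH : IsMetricOn d P H) : IsMetricOn d M h := by
  refine if_isMetricOn_of_atlas fun x hx => ?_
  obtain ⟨ψ, U, h1, hmem, h2, h3⟩ := hι x hx
  refine ⟨ψ, U, h1, hmem, fun i j => ?_, fun u hu => ?_⟩
  · exact ((hH _ U h2).1 i j).congr fun u hu => by rw [h3 u hu]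
  · rw [← h3 u hu]
    exact (hH _ U h2).2 u hu

theorem scal (hι : if_LocIso d M h P H ι) (hH : IsMetricOn d P H) {x : V} (hx : x ∈ M) :
    scal d P H (ι x) = Claimed.Agent.R315.scal d M h x := by
  obtain ⟨ψ, U, h1, ⟨u, hu, rfl⟩, h2, h3⟩ := hι x hx
  rw [if_scal_eq (hι.metric hH) h1 hu]
  have := if_scal_eq hH h2 hu
  rw [comp_apply] at this
  rw [this]
  exact if_scalar_congr (if_cm_eventuallyEq_of_eqOn (if_open h1) hu h3)

theorem lap (hι : if_LocIso d M h P H ι) (hH : IsMetricOn d P H) {f : V' → ℝ}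
    (hf : SmoothAlong d P f) {x : V} (hx : x ∈ M) :
    lap d P H f (ι x) = Claimed.Agent.R315.lap d M h (f ∘ ι) x := by
  obtain ⟨ψ, U, h1, ⟨u, hu, rfl⟩, h2, h3⟩ := hι x hx
  rw [if_lap_eq (hι.metric hH) (hι.smooth hf) h1 hu]
  have := if_lap_eq hH hf h2 hu
  rw [comp_apply] at this
  rw [this]
  exact if_lapC_congr (if_cm_eventuallyEq_of_eqOn (if_open h1) hu h3) EventuallyEq.rfl

theorem gradIp (hι : if_LocIso d M h P H ι) (hH : IsMetricOn d P H) {f k : V' → ℝ}
    (hf : SmoothAlong d P f) (hk : SmoothAlong d P k) {x : V} (hx : x ∈ M) :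
    gradIp d P H f k (ι x) = Claimed.Agent.R315.gradIp d M h (f ∘ ι) (k ∘ ι) x := by
  obtain ⟨ψ, U, h1, ⟨u, hu, rfl⟩, h2, h3⟩ := hι x hx
  rw [if_gradIp_eq (hι.metric hH) (hι.smooth hf) (hι.smooth hk) h1 hu]
  have := if_gradIp_eq hH hf hk h2 hu
  rw [comp_apply] at this
  rw [this]
  exact if_gradIpC_congr₂ (h3 u hu) EventuallyEq.rfl EventuallyEq.rfl

theorem gradSq (hι : if_LocIso d M h P H ι) (hH : IsMetricOn d P H) {f : V' → ℝ}
    (hf : SmoothAlong d P f) {x : V} (hx : x ∈ M) :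
    gradSq d P H f (ι x) = Claimed.Agent.R315.gradSq d M h (f ∘ ι) x := hι.gradIp hH hf hf hx

theorem Dsc (hι : if_LocIso d M h P H ι) (hH : IsMetricOn d P H) {t : V' → ℝ}
    (ht : SmoothAlong d P t) {x : V} (hx : x ∈ M) :
    Dsc d P H t (ι x) = Claimed.Agent.R315.Dsc d M h (t ∘ ι) x := by
  unfold Claimed.Agent.R315.Dsc
  rw [hι.scal hH hx, hι.lap hH ht hx, hι.gradSq hH ht hx]

/-- all parametrisations of `M` are mapped to parametrisations of `P` -/
theorem of_forall (hM : IsMfd d M)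
    (h1 : ∀ (ψ : E d → V) (U : Set (E d)), IsParam M ψ U → IsParam P (ι ∘ ψ) U)
    (h2 : ∀ (ψ : E d → V) (U : Set (E d)), IsParam M ψ U → ∀ u ∈ U, cm H (ι ∘ ψ) u = cm h ψ u) :
    if_LocIso d M h P H ι := by
  intro x hx
  obtain ⟨ψ, U, hp, hmem⟩ := hM x hx
  exact ⟨ψ, U, hp, hmem, h1 ψ U hp, h2 ψ U hp⟩

end if_LocIso

/-- the form of `ss_ext`: parametrisations of `M` with image in the open set `O` -/
theorem if_locIso_of_open {O : Set V} (hM : IsMfd d M) (hO : IsOpen O)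
    (h1 : ∀ (ψ : E d → V) (U : Set (E d)), IsParam M ψ U → ψ '' U ⊆ O → IsParam P (ι ∘ ψ) U)
    (h2 : ∀ (ψ : E d → V) (U : Set (E d)), IsParam M ψ U → ψ '' U ⊆ O → ∀ u ∈ U,
      cm H (ι ∘ ψ) u = cm h ψ u) : if_LocIso d (M ∩ O) h P H ι :=
  if_LocIso.of_forall (if_mfd_inter hM hO)
    (fun ψ U hp => h1 ψ U ((if_param_inter_iff hO).1 hp).1 ((if_param_inter_iff hO).1 hp).2)
    fun ψ U hp => h2 ψ U ((if_param_inter_iff hO).1 hp).1 ((if_param_inter_iff hO).1 hp).2

theorem if_cm_pullL (L : V →L[ℝ] V') (H : Ten V') {ψ : E d → V} {u : E d}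
    (hψ : DifferentiableAt ℝ ψ u) : cm H (L ∘ ψ) u = cm (if_pullL L H) ψ u := by
  have h1 : fderiv ℝ (L ∘ ψ) u = L.comp (fderiv ℝ ψ u) :=
    (L.hasFDerivAt.comp u hψ.hasFDerivAt).fderiv
  ext i j
  show H (L (ψ u)) (fderiv ℝ (L ∘ ψ) u (eb i)) (fderiv ℝ (L ∘ ψ) u (eb j)) = _
  rw [h1]
  rfl

/-- linear maps which are locally parametrisation preserving (graphs, coverings `fst : X → M`) -/
theorem if_locIso_pullL (L : V →L[ℝ] V') (H : Ten V')
    (h1 : ∀ x ∈ M, ∃ (ψ : E d → V) (U : Set (E d)), IsParam M ψ U ∧ x ∈ ψ '' U ∧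
      IsParam P (L ∘ ψ) U) : if_LocIso d M (if_pullL L H) P H L := by
  intro x hx
  obtain ⟨ψ, U, hp, hmem, hp'⟩ := h1 x hx
  exact ⟨ψ, U, hp, hmem, hp', fun u hu => if_cm_pullL L H (if_differentiableAt hp hu)⟩

end Claimed.Agent.R315
end
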