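/- Packed by merge_tool.py (helper293): 6 modules of Claimed.Agent.R315 in one file, same declarations.
   Old modules, in this order: CxCore, CxCube, If.Net, Ss.Need, Ss.Ext, If.Good -/
import Mathlib
import Claimed.Agent.R315.Ss.Ext1
import Claimed.Agent.R315.Ss.Ext3
import Claimed.Agent.R315.Pack006
import Claimed.Agent.R315.Pack002
import Claimed.Agent.R315.Pack004

/- ===== packed: Claimed.Agent.R315.CxCore ===== -/
section
/-!
# Row 315 (S0571), package DESIGN-CX, part 1: from a partition of unity of bounded multiplicity to the conclusion of S0571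

helper209.  Sorry free.  `cx_of_family` : a locally finite family of continuous functions `φ j ≥ 0` on `M` with `∑ φ j = 1` and at most `k + 1` nonzero members at each
point gives a geometric simplicial complex `K` (the `k`-skeleton of the simplex spanned by a linearly independent family `e j` in a normed space) and
`f = ∑ φ j • e j` with all the properties asked in S0571, and `f x = f x'` forces `φ j x = φ j x'` for all `j`.
-/

set_option autoImplicit false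

namespace Claimed.Agent.R315

open Set Filter Topology

/-- the `k`-skeleton of the (infinite) simplex spanned by a linearly independent family -/
noncomputable def cxSkel {V J : Type} [AddCommGroup V] [Module ℝ V] (e : J → V) (he : LinearIndependent ℝ e) (k : ℕ) :
    Geometry.SimplicialComplex ℝ V :=
  Geometry.SimplicialComplex.ofErase {s : Finset V | (s : Set V) ⊆ range e ∧ s.card ≤ k + 1}
    (fun _ hs => he.affineIndependent.range.mono hs.1)
    (fun _ _ hts hs => ⟨(Finset.coe_subset.mpr hts).trans hs.1, (Finset.card_le_card hts).trans hs.2⟩)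
    (by
      classical
      intro s hs t ht
      apply subset_of_eq
      rw [AffineIndependent.convexHull_inter (R := ℝ) (s := s ∪ t)]
      · apply he.affineIndependent.range.mono
        rw [Finset.coe_union]
        exact union_subset hs.1 ht.1
      · exact Finset.subset_union_left
      · exact Finset.subset_union_right)

theorem mem_cxSkel_faces {V J : Type} [AddCommGroup V] [Module ℝ V] (e : J → V) (he : LinearIndependent ℝ e) (k : ℕ)
    (s : Finset V) : s ∈ (cxSkel e he k).faces ↔ ((s : Set V) ⊆ range e ∧ s.card ≤ k + 1) ∧ s ≠ ∅ := by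
  show s ∈ {s : Finset V | (s : Set V) ⊆ range e ∧ s.card ≤ k + 1} \ {∅} ↔ _
  rfl

theorem cx_core {E : Type} [TopologicalSpace E] {V : Type} [NormedAddCommGroup V] [NormedSpace ℝ V] {J : Type}
    (e : J → V) (he : LinearIndependent ℝ e) (M : Set E) (k : ℕ) (φ : J → E → ℝ)
    (hcont : ∀ j, ContinuousOn (φ j) M) (hnn : ∀ j, ∀ x ∈ M, 0 ≤ φ j x)
    (hlf : ∀ x ∈ M, ∃ W ∈ 𝓝 x, {j | ∃ y ∈ W ∩ M, φ j y ≠ 0}.Finite)
    (hsum : ∀ x ∈ M, ∑ᶠ j, φ j x = 1)
    (hmult : ∀ x ∈ M, ∀ s : Finset J, (∀ j ∈ s, φ j x ≠ 0) → s.card ≤ k + 1) :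
    ∃ (K : Geometry.SimplicialComplex ℝ V) (f : E → V),
      (∀ s ∈ K.faces, s.card ≤ k + 1) ∧ ContinuousOn f M ∧ (∀ x ∈ M, f x ∈ K.space) ∧
      (∀ x ∈ M, ∃ W ∈ 𝓝 x, ∃ S : Finset (Finset V), ↑S ⊆ K.faces ∧
        f '' (W ∩ M) ⊆ ⋃ s ∈ S, convexHull ℝ (s : Set V)) ∧
      ∀ x ∈ M, ∀ x' ∈ M, f x = f x' → ∀ j, φ j x = φ j x' := by
  classical
  -- finite supports
  have hfin : ∀ x ∈ M, {j | φ j x ≠ 0}.Finite := by
    intro x hx
    obtain ⟨W, hW, hWf⟩ := hlf x hx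
    exact hWf.subset fun j hj => ⟨x, ⟨mem_of_mem_nhds hW, hx⟩, hj⟩
  let f : E → V := fun x => ∑ᶠ j, φ j x • e j
  -- `f` as a finite sum over any finite set containing the support
  have hf : ∀ x, ∀ t : Finset J, {j | φ j x ≠ 0} ⊆ t → f x = ∑ j ∈ t, φ j x • e j := by
    intro x t ht
    refine finsum_eq_sum_of_support_subset _ ?_
    intro j hj
    apply ht
    intro h0
    apply hj
    simp [h0]
  have hs1 : ∀ x, ∀ t : Finset J, {j | φ j x ≠ 0} ⊆ t → ∑ᶠ j, φ j x = ∑ j ∈ t, φ j x := by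
    intro x t ht
    exact finsum_eq_sum_of_support_subset _ ht
  -- the carrier face of a point
  have hface : ∀ x (hx : x ∈ M), ((hfin x hx).toFinset.image e) ∈ (cxSkel e he k).faces ∧
      f x ∈ convexHull ℝ (((hfin x hx).toFinset.image e : Finset V) : Set V) := by
    intro x hx
    set t := (hfin x hx).toFinset with ht
    have htsub : {j | φ j x ≠ 0} ⊆ t := by
      intro j hj; simpa [ht] using hj
    have hsum1 : ∑ j ∈ t, φ j x = 1 := by rw [← hs1 x t htsub]; exact hsum x hx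
    constructor
    · rw [mem_cxSkel_faces]
      refine ⟨⟨?_, ?_⟩, ?_⟩
      · intro v hv
        simp only [Finset.coe_image, mem_image] at hv
        obtain ⟨j, _, rfl⟩ := hv
        exact ⟨j, rfl⟩
      · refine Finset.card_image_le.trans (hmult x hx t ?_)
        intro j hj
        simpa [ht] using hj
      · intro hemp
        rw [Finset.image_eq_empty] at hemp
        rw [hemp] at hsum1
        simp at hsum1
    · rw [hf x t htsub]
      refine (convex_convexHull ℝ _).sum_mem (fun j _ => hnn j x hx) hsum1 ?_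
      intro j hj
      apply subset_convexHull
      simp only [Finset.coe_image, mem_image]
      exact ⟨j, hj, rfl⟩
  refine ⟨cxSkel e he k, f, ?_, ?_, ?_, ?_, ?_⟩
  · intro s hs
    exact ((mem_cxSkel_faces e he k s).mp hs).1.2
  · intro x hx
    obtain ⟨W, hW, hWf⟩ := hlf x hx
    have hg : ContinuousWithinAt (fun y => ∑ j ∈ hWf.toFinset, φ j y • e j) M x := by
      refine tendsto_finsetSum _ fun j _ => ?_
      exact ((hcont j) x hx).smul continuousWithinAt_const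
    have heq : ∀ y ∈ W ∩ M, f y = ∑ j ∈ hWf.toFinset, φ j y • e j := by
      intro y hy
      apply hf
      intro j hj
      simp only [Finite.coe_toFinset, mem_ofPred_eq]
      exact ⟨y, hy, hj⟩
    refine hg.congr_of_eventuallyEq ?_ (heq x ⟨mem_of_mem_nhds hW, hx⟩)
    filter_upwards [inter_mem (mem_nhdsWithin_of_mem_nhds hW) self_mem_nhdsWithin] with y hy
    exact heq y hy
  · intro x hx
    exact Geometry.SimplicialComplex.mem_space_iff.mpr ⟨_, (hface x hx).1, (hface x hx).2⟩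
  · intro x hx
    obtain ⟨W, hW, hWf⟩ := hlf x hx
    refine ⟨W, hW, (hWf.toFinset.powerset.image fun t => t.image e).filter (fun s => s ∈ (cxSkel e he k).faces), ?_, ?_⟩
    · intro s hs
      simp only [Finset.coe_filter, mem_ofPred_eq] at hs
      exact hs.2
    · rintro _ ⟨y, hy, rfl⟩
      refine mem_iUnion₂.mpr ⟨_, ?_, (hface y hy.2).2⟩
      simp only [Finset.mem_filter, Finset.mem_image, Finset.mem_powerset]
      refine ⟨⟨(hfin y hy.2).toFinset, ?_, rfl⟩, (hface y hy.2).1⟩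
      intro j hj
      simp only [Finite.mem_toFinset, mem_ofPred_eq] at hj ⊢
      exact ⟨y, hy, hj⟩
  · intro x hx x' hx' hxx' j
    set t := (hfin x hx).toFinset ∪ (hfin x' hx').toFinset with ht
    have h1 : {j | φ j x ≠ 0} ⊆ t := by
      intro j hj; simp only [ht, Finset.coe_union, Finite.coe_toFinset]; exact Or.inl hj
    have h2 : {j | φ j x' ≠ 0} ⊆ t := by
      intro j hj; simp only [ht, Finset.coe_union, Finite.coe_toFinset]; exact Or.inr hj
    have h3 : ∑ j ∈ t, (φ j x - φ j x') • e j = 0 := by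
      simp only [sub_smul, Finset.sum_sub_distrib]
      rw [← hf x t h1, ← hf x' t h2, hxx', sub_self]
    have h4 := linearIndependent_iff'.mp he t (fun j => φ j x - φ j x') h3
    by_cases hj : j ∈ t
    · exact sub_eq_zero.mp (h4 j hj)
    · have a1 : φ j x = 0 := by
        by_contra h; exact hj (h1 h)
      have a2 : φ j x' = 0 := by
        by_contra h; exact hj (h2 h)
      rw [a1, a2]

/-- a normed space with a linearly independent family indexed by an arbitrary type -/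
theorem exists_normed_indep (J : Type) : ∃ (V : Type) (_ : NormedAddCommGroup V) (_ : NormedSpace ℝ V) (e : J → V),
    LinearIndependent ℝ e := by
  classical
  refine ⟨lp (fun _ : J => ℝ) 2, inferInstance, inferInstance, fun j => lp.single 2 j (1 : ℝ), ?_⟩
  rw [linearIndependent_iff']
  intro s g hg i hi
  have h := congrArg (fun v : lp (fun _ : J => ℝ) 2 => v i) hg
  simp only [lp.coeFn_sum, Finset.sum_apply, lp.coeFn_smul, Pi.smul_apply, lp.single_apply, lp.coeFn_zero,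
    Pi.zero_apply] at h
  simpa [Pi.single_apply, hi] using h

/-- **From a family of functions to the complex** (no normalisation required): `φ j ≥ 0` continuous on `M`, locally finite, somewhere positive at each point, at most `k + 1`
nonzero at each point. -/
theorem cx_of_family {E : Type} [TopologicalSpace E] {J : Type} (M : Set E) (k : ℕ) (φ : J → E → ℝ)
    (hcont : ∀ j, ContinuousOn (φ j) M) (hnn : ∀ j, ∀ x ∈ M, 0 ≤ φ j x)
    (hlf : ∀ x ∈ M, ∃ W ∈ 𝓝 x, {j | ∃ y ∈ W ∩ M, φ j y ≠ 0}.Finite)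
    (hpos : ∀ x ∈ M, ∃ j, φ j x ≠ 0)
    (hmult : ∀ x ∈ M, ∀ s : Finset J, (∀ j ∈ s, φ j x ≠ 0) → s.card ≤ k + 1) :
    ∃ (V : Type) (_ : NormedAddCommGroup V) (_ : NormedSpace ℝ V) (K : Geometry.SimplicialComplex ℝ V) (f : E → V),
      (∀ s ∈ K.faces, s.card ≤ k + 1) ∧ ContinuousOn f M ∧ (∀ x ∈ M, f x ∈ K.space) ∧
      (∀ x ∈ M, ∃ W ∈ 𝓝 x, ∃ S : Finset (Finset V), ↑S ⊆ K.faces ∧
        f '' (W ∩ M) ⊆ ⋃ s ∈ S, convexHull ℝ (s : Set V)) ∧
      ∀ x ∈ M, ∀ x' ∈ M, f x = f x' → ∀ j, (φ j x ≠ 0 ↔ φ j x' ≠ 0) := by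
  classical
  obtain ⟨V, i1, i2, e, he⟩ := exists_normed_indep J
  let σ : E → ℝ := fun x => ∑ᶠ j, φ j x
  have hfin : ∀ x ∈ M, {j | φ j x ≠ 0}.Finite := by
    intro x hx
    obtain ⟨W, hW, hWf⟩ := hlf x hx
    exact hWf.subset fun j hj => ⟨x, ⟨mem_of_mem_nhds hW, hx⟩, hj⟩
  have hσ : ∀ x, ∀ t : Finset J, {j | φ j x ≠ 0} ⊆ t → σ x = ∑ j ∈ t, φ j x := by
    intro x t ht
    exact finsum_eq_sum_of_support_subset _ ht
  have hσpos : ∀ x ∈ M, 0 < σ x := by
    intro x hx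
    obtain ⟨j, hj⟩ := hpos x hx
    rw [hσ x (hfin x hx).toFinset (by simp)]
    refine Finset.sum_pos' (fun i _ => hnn i x hx) ⟨j, by simpa using hj, lt_of_le_of_ne (hnn j x hx) (Ne.symm hj)⟩
  have hσcont : ContinuousOn σ M := by
    intro x hx
    obtain ⟨W, hW, hWf⟩ := hlf x hx
    have hg : ContinuousWithinAt (fun y => ∑ j ∈ hWf.toFinset, φ j y) M x :=
      tendsto_finsetSum _ fun j _ => (hcont j) x hx
    have heq : ∀ y ∈ W ∩ M, σ y = ∑ j ∈ hWf.toFinset, φ j y := by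
      intro y hy
      apply hσ
      intro j hj
      simp only [Finite.coe_toFinset, mem_ofPred_eq]
      exact ⟨y, hy, hj⟩
    refine hg.congr_of_eventuallyEq ?_ (heq x ⟨mem_of_mem_nhds hW, hx⟩)
    filter_upwards [inter_mem (mem_nhdsWithin_of_mem_nhds hW) self_mem_nhdsWithin] with y hy
    exact heq y hy
  have hne : ∀ j, ∀ x ∈ M, (φ j x / σ x ≠ 0 ↔ φ j x ≠ 0) := by
    intro j x hx
    rw [Ne, div_eq_zero_iff, not_or]
    exact ⟨fun h => h.1, fun h => ⟨h, (hσpos x hx).ne'⟩⟩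
  obtain ⟨K, f, h1, h2, h3, h4, h5⟩ := cx_core e he M k (fun j x => φ j x / σ x)
    (fun j => (hcont j).div hσcont fun x hx => (hσpos x hx).ne')
    (fun j x hx => div_nonneg (hnn j x hx) (hσpos x hx).le)
    (by
      intro x hx
      obtain ⟨W, hW, hWf⟩ := hlf x hx
      refine ⟨W, hW, hWf.subset ?_⟩
      rintro j ⟨y, hy, hj⟩
      exact ⟨y, hy, (hne j y hy.2).mp hj⟩)
    (by
      intro x hx
      have : ∑ᶠ j, φ j x / σ x = (∑ᶠ j, φ j x) / σ x := by
        simp only [div_eq_mul_inv]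
        rw [finsum_mul]
      rw [this]
      exact div_self (hσpos x hx).ne')
    (by
      intro x hx s hs
      exact hmult x hx s fun j hj => (hne j x hx).mp (hs j hj))
  refine ⟨V, i1, i2, K, f, h1, h2, h3, h4, ?_⟩
  intro x hx x' hx' hxx' j
  have := h5 x hx x' hx' hxx' j
  rw [← hne j x hx, ← hne j x' hx', this]

/-- **From an open cover of bounded multiplicity to the complex.**  `U j` relatively open in `M`, covering `M`, locally finite on `M`, at most `k + 1` members through each point.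
Two points with the same image lie in exactly the same members of the cover. -/
theorem cx_of_cover {E : Type} [MetricSpace E] {J : Type} (M : Set E) (k : ℕ) (U : J → Set E)
    (hopen : ∀ j, ∀ x ∈ U j ∩ M, ∃ W ∈ 𝓝 x, W ∩ M ⊆ U j)
    (hcov : ∀ x ∈ M, ∃ j, x ∈ U j)
    (hlf : ∀ x ∈ M, ∃ W ∈ 𝓝 x, {j | (U j ∩ (W ∩ M)).Nonempty}.Finite)
    (hmult : ∀ x ∈ M, ∀ s : Finset J, (∀ j ∈ s, x ∈ U j) → s.card ≤ k + 1) :
    ∃ (V : Type) (_ : NormedAddCommGroup V) (_ : NormedSpace ℝ V) (K : Geometry.SimplicialComplex ℝ V) (f : E → V),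
      (∀ s ∈ K.faces, s.card ≤ k + 1) ∧ ContinuousOn f M ∧ (∀ x ∈ M, f x ∈ K.space) ∧
      (∀ x ∈ M, ∃ W ∈ 𝓝 x, ∃ S : Finset (Finset V), ↑S ⊆ K.faces ∧
        f '' (W ∩ M) ⊆ ⋃ s ∈ S, convexHull ℝ (s : Set V)) ∧
      ∀ x ∈ M, ∀ x' ∈ M, f x = f x' → ∀ j, (x ∈ U j ↔ x' ∈ U j) := by
  classical
  let φ : J → E → ℝ := fun j x => if M \ U j = ∅ then 1 else Metric.infDist x (M \ U j)
  have hφ : ∀ j, ∀ x ∈ M, (φ j x ≠ 0 ↔ x ∈ U j) := by
    intro j x hx
    by_cases hemp : M \ U j = ∅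
    · have hxU : x ∈ U j := by
        by_contra h
        have : x ∈ M \ U j := ⟨hx, h⟩
        rw [hemp] at this
        exact this
      simp [φ, hemp, hxU]
    · have hne : (M \ U j).Nonempty := nonempty_iff_ne_empty.mpr hemp
      simp only [φ, hemp, if_false]
      constructor
      · intro h
        by_contra hxU
        exact h (Metric.infDist_zero_of_mem ⟨hx, hxU⟩)
      · intro hxU
        obtain ⟨W, hW, hWU⟩ := hopen j x ⟨hxU, hx⟩
        obtain ⟨ε, hε, hball⟩ := Metric.mem_nhds_iff.mp hW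
        have : ε ≤ Metric.infDist x (M \ U j) := by
          rw [Metric.le_infDist hne]
          intro y hy
          by_contra hlt
          rw [not_le] at hlt
          exact hy.2 (hWU ⟨hball (by rwa [Metric.mem_ball, dist_comm]), hy.1⟩)
        linarith
  obtain ⟨V, i1, i2, K, f, h1, h2, h3, h4, h5⟩ := cx_of_family M k φ
    (by
      intro j
      by_cases hemp : M \ U j = ∅
      · simp only [φ, hemp, if_true]; exact continuousOn_const
      · simp only [φ, hemp, if_false]; exact (Metric.continuous_infDist_pt _).continuousOn)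
    (by
      intro j x _
      by_cases hemp : M \ U j = ∅
      · simp [φ, hemp]
      · simp only [φ, hemp, if_false]; exact Metric.infDist_nonneg)
    (by
      intro x hx
      obtain ⟨W, hW, hWf⟩ := hlf x hx
      refine ⟨W, hW, hWf.subset ?_⟩
      rintro j ⟨y, hy, hj⟩
      exact ⟨y, (hφ j y hy.2).mp hj, hy⟩)
    (by
      intro x hx
      obtain ⟨j, hj⟩ := hcov x hx
      exact ⟨j, (hφ j x hx).mpr hj⟩)
    (by
      intro x hx s hs
      exact hmult x hx s fun j hj => (hφ j x hx).mp (hs j hj))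
  refine ⟨V, i1, i2, K, f, h1, h2, h3, h4, ?_⟩
  intro x hx x' hx' hxx' j
  rw [← hφ j x hx, ← hφ j x' hx']
  exact h5 x hx x' hx' hxx' j

end Claimed.Agent.R315
end

/- ===== packed: Claimed.Agent.R315.CxCube ===== -/
section
/-!
# Row 315 (S0571), package DESIGN-CX, part 2: from walls to the complex (Sec 7.2, 7.3 of paper P, `reconstruction.tex`)

helper209.  SORRY FREE.  `cx_of_coords`, `cx_of_walls` and the three output theorems `out_cover`, `out_coords`, `out_walls` (frozen conclusion of S0571 verbatim, `k + 1 = n - 1`).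
Pure metric topology on top of `CxCore.lean`.

Compared with the paper: NO staircase triangulation, NO cubical complex, NO star refinements.  By `cx_of_cover` it is enough to exhibit a locally finite relatively open cover of multiplicity `≤ k + 1`.

## `cx_of_coords` (replaces Sec 7.3).  Index type `J = Finset I`,
   `U S = {x | S.Nonempty ∧ (∀ i ∈ S, 0 < t i x) ∧ ∀ i ∈ S, ∀ j ∉ S, t j x < t i x}`      ("`S` is a strict superlevel set of the coordinate vector").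
 * relatively open: near `x ∈ M` only a finite set `A` of coordinates is active (`hlf`); `U S` is cut out near `x` by the finitely many open conditions `0 < t i`, `t j < t i` (`i ∈ S`, `j ∈ A \ S`);
   for `j ∉ A ∪ S`, `t j y = 0 < t i y`.
 * cover: `S = {i | t i x = 1}` (finite, nonempty by `hone`).
 * locally finite: `y ∈ U S ∩ W ∩ M` forces `S ⊆ A`.
 * multiplicity: let `Z = {i | t i x = 1}`, `F = {i | 0 < t i x < 1}` (`F.card ≤ k` by `hfrac`).  If `x ∈ U S` then `Z ⊆ S ⊆ Z ∪ F`; if `x ∈ U S ∩ U S'` then `S ⊆ S'` or `S' ⊆ S`.  Hence `S ↦ (S ∩ F).card` is injective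
   with values in `{0, …, k}` (`Finset.card_le_card_of_injOn` into `Finset.range (k+1)`).
 * fibres: `x ∈ U Z`, so `x' ∈ U Z`, so `0 < t i x'` for `i ∈ Z`.

## `cx_of_walls` (replaces Lemma 7.2 and (7.10)).  `Wl i = P i ∩ N i ∩ M` (closed), `δ i = tdist (Wl i)`,
   `e x = ⨅ J : Finset I, (if J.card = k + 1 then ∑ i ∈ J, δ i x else 1)`.
 * `e` is `(k+1)`-Lipschitz (an infimum of `(k+1)`-Lipschitz functions `≥ 0`; the index type is nonempty), hence continuous;
 * `0 < e x` for `x ∈ M`: by `hlf` and closedness there is `r ∈ (0,1]` such that `ball x r` meets only the walls through `x` (finitely many walls meet a neighbourhood; those not containing `x` are at positive distance), and at most `k` walls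
   pass through `x` (`hmult`); so every `J` with `k + 1` elements contains `i` with `r ≤ δ i x`;
 * `T i = {x | δ i x < e x / (k+1)} ∩ G i` is open, contains `Wl i`, and at most `k` of the `T i` contain a given point (if `δ i x < e x / (k+1)` for all `i ∈ J`, `J.card = k+1`, then `∑ i ∈ J, δ i x < e x ≤ ∑ i ∈ J, δ i x`);
 * `Cp i = (P i ∩ M) \ T i`, `Cm i = (N i ∩ M) \ T i` are closed, disjoint, and cover `M \ T i`;  `t i x = tdist (Cm i) x / (tdist (Cm i) x + tdist (Cp i) x)`;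
   on `M`: `t i x = 1 ↔ x ∈ Cp i`, `t i x = 0 ↔ x ∈ Cm i`, fractional only on `T i`; `t i y ≠ 0 → y ∈ P i ∪ G i`.  Apply `cx_of_coords`.
-/

set_option autoImplicit false

namespace Claimed.Agent.R315

open Set Filter Topology

/-- the cover by strict superlevel sets of the coordinate vector -/
def cxcU {E I : Type} (t : I → E → ℝ) (S : Finset I) : Set E :=
  {x | S.Nonempty ∧ (∀ i ∈ S, 0 < t i x) ∧ ∀ i ∈ S, ∀ j, j ∉ S → t j x < t i x}

theorem cxc_chain {E I : Type} {t : I → E → ℝ} {S S' : Finset I} {x : E} (h : x ∈ cxcU t S) (h' : x ∈ cxcU t S') :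
    S ⊆ S' ∨ S' ⊆ S := by
  by_contra hcon
  rw [not_or] at hcon
  obtain ⟨i, hiS, hiS'⟩ := Finset.not_subset.mp hcon.1
  obtain ⟨j, hjS', hjS⟩ := Finset.not_subset.mp hcon.2
  have h1 := h.2.2 i hiS j hjS
  have h2 := h'.2.2 j hjS' i hiS'
  linarith

theorem cxc_top {E I : Type} {t : I → E → ℝ} {S : Finset I} {x : E} (h : x ∈ cxcU t S) (hle : ∀ i, t i x ≤ 1) {i : I}
    (hi : t i x = 1) : i ∈ S := by
  by_contra hiS
  obtain ⟨j, hj⟩ := h.1
  have := h.2.2 j hj i hiS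
  have := hle j
  linarith

theorem cxc_open {E : Type} [MetricSpace E] {I : Type} (M : Set E) (t : I → E → ℝ)
    (hcont : ∀ i, ContinuousOn (t i) M)
    (hlf : ∀ x ∈ M, ∃ W ∈ 𝓝 x, {i | ∃ y ∈ W ∩ M, t i y ≠ 0}.Finite) (S : Finset I) (x : E) (hx : x ∈ cxcU t S ∩ M) :
    ∃ W ∈ 𝓝 x, W ∩ M ⊆ cxcU t S := by
  classical
  obtain ⟨hxS, hxM⟩ := hx
  obtain ⟨W0, hW0, hA⟩ := hlf x hxM
  rw [← mem_nhdsWithin_iff_exists_mem_nhds_inter]
  have e1 : ∀ᶠ y in 𝓝[M] x, ∀ i ∈ S, 0 < t i y := by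
    rw [Filter.eventually_all_finset]
    intro i hi
    exact (hcont i x hxM).eventually (lt_mem_nhds (hxS.2.1 i hi))
  have e2 : ∀ᶠ y in 𝓝[M] x, ∀ i ∈ S, ∀ j ∈ hA.toFinset, j ∉ S → t j y < t i y := by
    rw [Filter.eventually_all_finset]
    intro i hi
    rw [Filter.eventually_all_finset]
    intro j _
    by_cases hjS : j ∈ S
    · exact Filter.Eventually.of_forall fun y h => absurd hjS h
    · have := (hcont j x hxM).eventually_lt (hcont i x hxM) (hxS.2.2 i hi j hjS)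
      exact this.mono fun y hy _ => hy
  have e3 : ∀ᶠ y in 𝓝[M] x, y ∈ W0 ∩ M :=
    Filter.inter_mem (mem_nhdsWithin_of_mem_nhds hW0) self_mem_nhdsWithin
  filter_upwards [e1, e2, e3] with y h1 h2 h3
  refine ⟨hxS.1, h1, ?_⟩
  intro i hi j hj
  by_cases hjA : j ∈ hA.toFinset
  · exact h2 i hi j hjA hj
  · have : t j y = 0 := by
      by_contra hne
      exact hjA (hA.mem_toFinset.mpr ⟨y, h3, hne⟩)
    rw [this]
    exact h1 i hi

/-- the four cover properties of the strict superlevel sets -/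
theorem cxc_cover {E : Type} [MetricSpace E] {I : Type} (M : Set E) (k : ℕ) (t : I → E → ℝ)
    (hcont : ∀ i, ContinuousOn (t i) M) (h01 : ∀ i, ∀ x ∈ M, 0 ≤ t i x ∧ t i x ≤ 1)
    (hlf : ∀ x ∈ M, ∃ W ∈ 𝓝 x, {i | ∃ y ∈ W ∩ M, t i y ≠ 0}.Finite)
    (hone : ∀ x ∈ M, ∃ i, t i x = 1)
    (hfrac : ∀ x ∈ M, ∀ s : Finset I, (∀ i ∈ s, 0 < t i x ∧ t i x < 1) → s.card ≤ k) :
    (∀ S, ∀ x ∈ cxcU t S ∩ M, ∃ W ∈ 𝓝 x, W ∩ M ⊆ cxcU t S) ∧
    (∀ x ∈ M, ∃ Z : Finset I, x ∈ cxcU t Z ∧ ∀ i ∈ Z, t i x = 1) ∧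
    (∀ x ∈ M, ∃ W ∈ 𝓝 x, {S | (cxcU t S ∩ (W ∩ M)).Nonempty}.Finite) ∧
    (∀ x ∈ M, ∀ s : Finset (Finset I), (∀ S ∈ s, x ∈ cxcU t S) → s.card ≤ k + 1) := by
  classical
  refine ⟨cxc_open M t hcont hlf, ?_, ?_, ?_⟩
  · intro x hx
    obtain ⟨W0, hW0, hA⟩ := hlf x hx
    refine ⟨hA.toFinset.filter fun i => t i x = 1, ⟨?_, ?_, ?_⟩, ?_⟩
    · obtain ⟨i, hi⟩ := hone x hx
      refine ⟨i, Finset.mem_filter.mpr ⟨hA.mem_toFinset.mpr ⟨x, ⟨mem_of_mem_nhds hW0, hx⟩, ?_⟩, hi⟩⟩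
      rw [hi]; exact one_ne_zero
    · intro i hi
      rw [(Finset.mem_filter.mp hi).2]; exact one_pos
    · intro i hi j hj
      rw [(Finset.mem_filter.mp hi).2]
      refine lt_of_le_of_ne (h01 j x hx).2 ?_
      intro hj1
      refine hj (Finset.mem_filter.mpr ⟨hA.mem_toFinset.mpr ⟨x, ⟨mem_of_mem_nhds hW0, hx⟩, ?_⟩, hj1⟩)
      rw [hj1]; exact one_ne_zero
    · intro i hi
      exact (Finset.mem_filter.mp hi).2
  · intro x hx
    obtain ⟨W0, hW0, hA⟩ := hlf x hx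
    refine ⟨W0, hW0, (Finset.finite_toSet hA.toFinset.powerset).subset ?_⟩
    rintro S ⟨y, hyS, hy⟩
    rw [Finset.mem_coe, Finset.mem_powerset]
    intro i hi
    exact hA.mem_toFinset.mpr ⟨y, hy, (hyS.2.1 i hi).ne'⟩
  · intro x hx s hs
    have hle : ∀ i, t i x ≤ 1 := fun i => (h01 i x hx).2
    have key : s.card ≤ (Finset.range (k + 1)).card := by
      refine Finset.card_le_card_of_injOn (fun S => (S.filter fun i => t i x < 1).card) ?_ ?_
      · intro S hS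
        rw [Finset.mem_coe, Finset.mem_range, Nat.lt_succ_iff]
        refine hfrac x hx _ ?_
        intro i hi
        obtain ⟨hiS, hi1⟩ := Finset.mem_filter.mp hi
        exact ⟨(hs S hS).2.1 i hiS, hi1⟩
      · -- injectivity
        have aux : ∀ S ∈ s, ∀ S' ∈ s, S ⊆ S' →
            (S.filter fun i => t i x < 1).card = (S'.filter fun i => t i x < 1).card → S = S' := by
          intro S hS S' hS' hsub hcard
          refine Finset.Subset.antisymm hsub ?_
          have hf : (S.filter fun i => t i x < 1) = (S'.filter fun i => t i x < 1) :=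
            Finset.eq_of_subset_of_card_le (Finset.filter_subset_filter _ hsub) hcard.ge
          intro i hi
          by_cases hi1 : t i x < 1
          · have : i ∈ S'.filter fun i => t i x < 1 := Finset.mem_filter.mpr ⟨hi, hi1⟩
            rw [← hf] at this
            exact (Finset.mem_filter.mp this).1
          · exact cxc_top (hs S hS) hle (le_antisymm (hle i) (not_lt.mp hi1))
        intro S hS S' hS' hcard
        rcases cxc_chain (hs S hS) (hs S' hS') with hsub | hsub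
        · exact aux S hS S' hS' hsub hcard
        · exact (aux S' hS' S hS hsub hcard.symm).symm
    simpa using key

/-- **From coordinates to the complex.**  Continuous coordinates `t i : M → [0,1]` with locally finite supports; at each point some coordinate equals `1` and at most `k` are fractional. -/
theorem cx_of_coords {E : Type} [MetricSpace E] {I : Type} (M : Set E) (k : ℕ) (t : I → E → ℝ)
    (hcont : ∀ i, ContinuousOn (t i) M) (h01 : ∀ i, ∀ x ∈ M, 0 ≤ t i x ∧ t i x ≤ 1)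
    (hlf : ∀ x ∈ M, ∃ W ∈ 𝓝 x, {i | ∃ y ∈ W ∩ M, t i y ≠ 0}.Finite)
    (hone : ∀ x ∈ M, ∃ i, t i x = 1)
    (hfrac : ∀ x ∈ M, ∀ s : Finset I, (∀ i ∈ s, 0 < t i x ∧ t i x < 1) → s.card ≤ k) :
    ∃ (V : Type) (_ : NormedAddCommGroup V) (_ : NormedSpace ℝ V) (K : Geometry.SimplicialComplex ℝ V) (f : E → V),
      (∀ s ∈ K.faces, s.card ≤ k + 1) ∧ ContinuousOn f M ∧ (∀ x ∈ M, f x ∈ K.space) ∧
      (∀ x ∈ M, ∃ W ∈ 𝓝 x, ∃ S : Finset (Finset V), ↑S ⊆ K.faces ∧
        f '' (W ∩ M) ⊆ ⋃ s ∈ S, convexHull ℝ (s : Set V)) ∧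
      ∀ x ∈ M, ∀ x' ∈ M, f x = f x' → ∃ i, t i x = 1 ∧ 0 < t i x' := by
  obtain ⟨c1, htop, c3, c4⟩ := cxc_cover M k t hcont h01 hlf hone hfrac
  obtain ⟨V, i1, i2, K, f, h1, h2, h3, h4, h5⟩ := cx_of_cover M k (cxcU t) c1
    (fun x hx => (htop x hx).imp fun _ h => h.1) c3 c4
  refine ⟨V, i1, i2, K, f, h1, h2, h3, h4, ?_⟩
  intro x hx x' hx' hxx'
  obtain ⟨Z, hZ, hZ1⟩ := htop x hx
  have hZ' : x' ∈ cxcU t Z := (h5 x hx x' hx' hxx' Z).mp hZ
  obtain ⟨i, hi⟩ := hZ.1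
  exact ⟨i, hZ1 i hi, hZ'.2.1 i hi⟩

/-- truncated distance to a set, `= 1` for the empty set -/
noncomputable def tdist {E : Type} [MetricSpace E] (C : Set E) (x : E) : ℝ := by
  classical exact if C = ∅ then 1 else min 1 (Metric.infDist x C)

theorem tdist_nonneg {E : Type} [MetricSpace E] (C : Set E) (x : E) : 0 ≤ tdist C x := by
  unfold tdist
  split_ifs
  · exact zero_le_one
  · exact le_min zero_le_one Metric.infDist_nonneg

theorem tdist_le_one {E : Type} [MetricSpace E] (C : Set E) (x : E) : tdist C x ≤ 1 := by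
  unfold tdist
  split_ifs
  · exact le_rfl
  · exact min_le_left _ _

theorem tdist_lipschitz {E : Type} [MetricSpace E] (C : Set E) (x y : E) : tdist C x ≤ tdist C y + dist x y := by
  unfold tdist
  split_ifs
  · linarith [dist_nonneg (x := x) (y := y)]
  · have h1 : Metric.infDist x C ≤ Metric.infDist y C + dist x y := Metric.infDist_le_infDist_add_dist
    have h2 := dist_nonneg (x := x) (y := y)
    rcases le_total 1 (Metric.infDist y C) with h | h
    · rw [min_eq_left h]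
      linarith [min_le_left 1 (Metric.infDist x C)]
    · rw [min_eq_right h]
      linarith [min_le_right 1 (Metric.infDist x C)]

theorem continuous_tdist {E : Type} [MetricSpace E] (C : Set E) : Continuous (tdist C) := by
  unfold tdist
  split_ifs
  · exact continuous_const
  · exact continuous_const.min (Metric.continuous_infDist_pt C)

theorem tdist_eq_zero_iff {E : Type} [MetricSpace E] {C : Set E} (hC : IsClosed C) (x : E) : tdist C x = 0 ↔ x ∈ C := by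
  unfold tdist
  split_ifs with h
  · simp [h]
  · have hne : C.Nonempty := nonempty_iff_ne_empty.mpr h
    rw [hC.mem_iff_infDist_zero hne]
    constructor
    · intro h0
      rcases le_total 1 (Metric.infDist x C) with h' | h'
      · rw [min_eq_left h'] at h0; exact absurd h0 one_ne_zero
      · rwa [min_eq_right h'] at h0
    · intro h0
      rw [h0]; exact min_eq_right zero_le_one

/-- if the ball of radius `r ≤ 1` around `x` misses `C` then `r ≤ tdist C x` -/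
theorem le_tdist {E : Type} [MetricSpace E] {C : Set E} {x : E} {r : ℝ} (hr : r ≤ 1) (h : Disjoint (Metric.ball x r) C) :
    r ≤ tdist C x := by
  unfold tdist
  split_ifs with hC
  · exact hr
  · have hne : C.Nonempty := nonempty_iff_ne_empty.mpr hC
    refine le_min hr ?_
    rw [Metric.le_infDist hne]
    intro y hy
    by_contra hlt
    rw [not_le] at hlt
    exact Set.disjoint_left.mp h (by rwa [Metric.mem_ball, dist_comm]) hy

/-- the auxiliary functions whose infimum is the thickening radius -/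
noncomputable def cxwF {E I : Type} (k : ℕ) (δ : I → E → ℝ) (J : Finset I) (x : E) : ℝ :=
  if J.card = k + 1 then ∑ i ∈ J, δ i x else 1

/-- the thickening radius -/
noncomputable def cxwE {E I : Type} (k : ℕ) (δ : I → E → ℝ) (x : E) : ℝ := ⨅ J : Finset I, cxwF k δ J x

theorem cxwF_nonneg {E I : Type} (k : ℕ) (δ : I → E → ℝ) (h0 : ∀ i x, 0 ≤ δ i x) (J : Finset I) (x : E) :
    0 ≤ cxwF k δ J x := by
  unfold cxwF
  split_ifs
  · exact Finset.sum_nonneg fun i _ => h0 i x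
  · exact zero_le_one

theorem cxwE_le {E I : Type} (k : ℕ) (δ : I → E → ℝ) (h0 : ∀ i x, 0 ≤ δ i x) (J : Finset I) (x : E) :
    cxwE k δ x ≤ cxwF k δ J x :=
  ciInf_le ⟨0, by rintro _ ⟨J, rfl⟩; exact cxwF_nonneg k δ h0 J x⟩ J

theorem cxwF_lip {E : Type} [MetricSpace E] {I : Type} (k : ℕ) (δ : I → E → ℝ)
    (hl : ∀ i x y, δ i x ≤ δ i y + dist x y) (J : Finset I) (x y : E) :
    cxwF k δ J x ≤ cxwF k δ J y + ((k : ℝ) + 1) * dist x y := by
  unfold cxwF
  split_ifs with h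
  · calc ∑ i ∈ J, δ i x ≤ ∑ i ∈ J, (δ i y + dist x y) := Finset.sum_le_sum fun i _ => hl i x y
      _ = ∑ i ∈ J, δ i y + ((k : ℝ) + 1) * dist x y := by
        rw [Finset.sum_add_distrib, Finset.sum_const, h, nsmul_eq_mul]; push_cast; ring
  · have := dist_nonneg (x := x) (y := y)
    have : 0 ≤ ((k : ℝ) + 1) * dist x y := by positivity
    linarith

theorem continuous_cxwE {E : Type} [MetricSpace E] {I : Type} (k : ℕ) (δ : I → E → ℝ) (h0 : ∀ i x, 0 ≤ δ i x)
    (hl : ∀ i x y, δ i x ≤ δ i y + dist x y) : Continuous (cxwE k δ) := by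
  have : LipschitzWith ((k : NNReal) + 1) (cxwE k δ) := by
    refine LipschitzWith.of_le_add_mul _ ?_
    intro x y
    have : cxwE k δ x - ((k : ℝ) + 1) * dist x y ≤ cxwE k δ y := by
      refine le_ciInf fun J => ?_
      have h1 := cxwE_le k δ h0 J x
      have h2 := cxwF_lip k δ hl J x y
      linarith
    push_cast
    linarith
  exact this.continuous

theorem cxwE_mult {E I : Type} (k : ℕ) (δ : I → E → ℝ) (h0 : ∀ i x, 0 ≤ δ i x) (x : E) (s : Finset I)
    (hs : ∀ i ∈ s, δ i x < cxwE k δ x / ((k : ℝ) + 1)) : s.card ≤ k := by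
  by_contra hcon
  rw [not_le] at hcon
  obtain ⟨J, hJs, hJ⟩ := Finset.exists_subset_card_eq (Nat.succ_le_of_lt hcon)
  have hne : J.Nonempty := by
    rw [← Finset.card_pos, hJ]; exact Nat.succ_pos k
  have h1 : ∑ i ∈ J, δ i x < ∑ _i ∈ J, cxwE k δ x / ((k : ℝ) + 1) :=
    Finset.sum_lt_sum_of_nonempty hne fun i hi => hs i (hJs hi)
  rw [Finset.sum_const, hJ, nsmul_eq_mul] at h1
  have h2 : ((k + 1 : ℕ) : ℝ) * (cxwE k δ x / ((k : ℝ) + 1)) = cxwE k δ x := by
    have : ((k : ℝ) + 1) ≠ 0 := by positivity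
    push_cast
    field_simp
  rw [h2] at h1
  have h3 := cxwE_le k δ h0 J x
  unfold cxwF at h3
  rw [if_pos hJ] at h3
  linarith

theorem cxwE_pos {E I : Type} (k : ℕ) (δ : I → E → ℝ) (h0 : ∀ i x, 0 ≤ δ i x) (x : E) (r : ℝ) (hr : 0 < r) (hr1 : r ≤ 1)
    (h : ∀ s : Finset I, (∀ i ∈ s, δ i x < r) → s.card ≤ k) : 0 < cxwE k δ x := by
  refine lt_of_lt_of_le hr (le_ciInf fun J => ?_)
  unfold cxwF
  split_ifs with hJ
  · by_contra hcon
    rw [not_le] at hcon
    have : J.card ≤ k := by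
      refine h J fun i hi => lt_of_le_of_lt ?_ hcon
      exact Finset.single_le_sum (f := fun i => δ i x) (fun j _ => h0 j x) hi
    omega
  · exact hr1

/-- **From walls to coordinates** (Lemma 7.2 and (7.10) of paper P). -/
theorem cxw_coords {E : Type} [MetricSpace E] {I : Type} (M : Set E) (hM : IsClosed M) (k : ℕ) (P N G : I → Set E)
    (hP : ∀ i, IsClosed (P i)) (hN : ∀ i, IsClosed (N i)) (hG : ∀ i, IsOpen (G i))
    (hPN : ∀ i, M ⊆ P i ∪ N i) (hW : ∀ i, P i ∩ N i ∩ M ⊆ G i)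
    (hlf : ∀ x ∈ M, ∃ U ∈ 𝓝 x, {i | ((P i ∪ G i) ∩ (U ∩ M)).Nonempty}.Finite)
    (hmult : ∀ x ∈ M, ∀ s : Finset I, (∀ i ∈ s, x ∈ P i ∩ N i) → s.card ≤ k)
    (hcov : ∀ x ∈ M, ∃ i, x ∈ P i ∧ x ∉ G i) :
    ∃ t : I → E → ℝ, (∀ i, ContinuousOn (t i) M) ∧ (∀ i, ∀ x ∈ M, 0 ≤ t i x ∧ t i x ≤ 1) ∧
      (∀ x ∈ M, ∃ W ∈ 𝓝 x, {i | ∃ y ∈ W ∩ M, t i y ≠ 0}.Finite) ∧ (∀ x ∈ M, ∃ i, t i x = 1) ∧
      (∀ x ∈ M, ∀ s : Finset I, (∀ i ∈ s, 0 < t i x ∧ t i x < 1) → s.card ≤ k) ∧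
      (∀ i, ∀ y ∈ M, t i y ≠ 0 → y ∈ P i ∪ G i) ∧ (∀ i, ∀ y ∈ M, t i y = 1 → y ∈ P i) := by
  classical
  set Wl : I → Set E := fun i => P i ∩ N i ∩ M with hWl
  have hWlc : ∀ i, IsClosed (Wl i) := fun i => ((hP i).inter (hN i)).inter hM
  set δ : I → E → ℝ := fun i => tdist (Wl i) with hδ
  have h0 : ∀ i x, 0 ≤ δ i x := fun i x => tdist_nonneg _ x
  have hl : ∀ i x y, δ i x ≤ δ i y + dist x y := fun i x y => tdist_lipschitz _ x y
  set e : E → ℝ := cxwE k δ with he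
  have hec : Continuous e := continuous_cxwE k δ h0 hl
  have hk : (0 : ℝ) < (k : ℝ) + 1 := by positivity
  -- positivity of `e` on `M`
  have hepos : ∀ x ∈ M, 0 < e x := by
    intro x hx
    obtain ⟨U, hU, hA⟩ := hlf x hx
    obtain ⟨ε, hε, hball⟩ := Metric.mem_nhds_iff.mp hU
    have ev1 : ∀ᶠ r in 𝓝[>] (0 : ℝ), ∀ i ∈ hA.toFinset, x ∉ Wl i → r ≤ δ i x := by
      rw [Filter.eventually_all_finset]
      intro i _
      by_cases hxi : x ∈ Wl i
      · exact Filter.Eventually.of_forall fun r h => absurd hxi h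
      · have hpos : 0 < δ i x := lt_of_le_of_ne (h0 i x) fun h => hxi ((tdist_eq_zero_iff (hWlc i) x).mp h.symm)
        have : ∀ᶠ r in 𝓝 (0 : ℝ), r ≤ δ i x := eventually_le_nhds hpos
        exact (this.filter_mono nhdsWithin_le_nhds).mono fun r hr _ => hr
    have ev2 : ∀ᶠ r in 𝓝[>] (0 : ℝ), r ≤ min ε 1 :=
      (eventually_le_nhds (lt_min hε one_pos)).filter_mono nhdsWithin_le_nhds
    have ev3 : ∀ᶠ r in 𝓝[>] (0 : ℝ), 0 < r := self_mem_nhdsWithin
    obtain ⟨r, hr1, hr2, hr3⟩ := (ev1.and (ev2.and ev3)).exists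
    have hall : ∀ i, x ∉ Wl i → r ≤ δ i x := by
      intro i hxi
      by_cases hiA : i ∈ hA.toFinset
      · exact hr1 i hiA hxi
      · refine le_tdist (hr2.trans (min_le_right _ _)) ?_
        rw [Set.disjoint_left]
        intro y hy hyW
        refine hiA (hA.mem_toFinset.mpr ⟨y, Or.inl hyW.1.1, hball ?_, hyW.2⟩)
        exact Metric.ball_subset_ball (hr2.trans (min_le_left _ _)) hy
    refine cxwE_pos k δ h0 x r hr3 (hr2.trans (min_le_right _ _)) ?_
    intro s hs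
    refine hmult x hx s fun i hi => ?_
    by_contra hcon
    have : x ∉ Wl i := fun h => hcon h.1
    exact absurd (hs i hi) (not_lt.mpr (hall i this))
  -- the thickened walls
  set T : I → Set E := fun i => {x | δ i x < e x / ((k : ℝ) + 1)} ∩ G i with hT
  have hTo : ∀ i, IsOpen (T i) := fun i =>
    (isOpen_lt (continuous_tdist _) (hec.div_const _)).inter (hG i)
  have hWT : ∀ i, Wl i ⊆ T i := by
    intro i x hx
    refine ⟨?_, hW i hx⟩
    have : δ i x = 0 := (tdist_eq_zero_iff (hWlc i) x).mpr hx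
    show δ i x < e x / ((k : ℝ) + 1)
    rw [this]
    exact div_pos (hepos x hx.2) hk
  have hTm : ∀ x, ∀ s : Finset I, (∀ i ∈ s, x ∈ T i) → s.card ≤ k := fun x s hs =>
    cxwE_mult k δ h0 x s fun i hi => (hs i hi).1
  set Cp : I → Set E := fun i => (P i ∩ M) \ T i with hCp
  set Cm : I → Set E := fun i => (N i ∩ M) \ T i with hCm
  have hCpc : ∀ i, IsClosed (Cp i) := fun i => ((hP i).inter hM).sdiff (hTo i)
  have hCmc : ∀ i, IsClosed (Cm i) := fun i => ((hN i).inter hM).sdiff (hTo i)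
  have hdisj : ∀ i x, x ∈ Cp i → x ∈ Cm i → False := fun i x h1 h2 =>
    h1.2 (hWT i ⟨⟨h1.1.1, h2.1.1⟩, h1.1.2⟩)
  have hden : ∀ i x, 0 < tdist (Cm i) x + tdist (Cp i) x := by
    intro i x
    have a := tdist_nonneg (Cm i) x
    have b := tdist_nonneg (Cp i) x
    rcases a.lt_or_eq with a' | a'
    · linarith
    rcases b.lt_or_eq with b' | b'
    · linarith
    exact (hdisj i x ((tdist_eq_zero_iff (hCpc i) x).mp b'.symm) ((tdist_eq_zero_iff (hCmc i) x).mp a'.symm)).elim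
  set t : I → E → ℝ := fun i x => tdist (Cm i) x / (tdist (Cm i) x + tdist (Cp i) x) with ht
  have ht1 : ∀ i x, t i x = 1 ↔ x ∈ Cp i := by
    intro i x
    rw [← tdist_eq_zero_iff (hCpc i) x]
    show tdist (Cm i) x / (tdist (Cm i) x + tdist (Cp i) x) = 1 ↔ _
    rw [div_eq_one_iff_eq (hden i x).ne']
    constructor <;> intro h <;> linarith
  have ht0 : ∀ i x, t i x = 0 ↔ x ∈ Cm i := by
    intro i x
    rw [← tdist_eq_zero_iff (hCmc i) x]
    show tdist (Cm i) x / (tdist (Cm i) x + tdist (Cp i) x) = 0 ↔ _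
    rw [div_eq_zero_iff]
    constructor
    · rintro (h | h)
      · exact h
      · exact absurd h (hden i x).ne'
    · exact Or.inl
  have htnn : ∀ i x, 0 ≤ t i x := fun i x => div_nonneg (tdist_nonneg _ x) (hden i x).le
  have htsupp : ∀ i, ∀ y ∈ M, t i y ≠ 0 → y ∈ P i ∪ G i := by
    intro i y hy hne
    have hnot : y ∉ Cm i := fun h => hne ((ht0 i y).mpr h)
    by_cases hyT : y ∈ T i
    · exact Or.inr hyT.2
    · rcases hPN i hy with h | h
      · exact Or.inl h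
      · exact absurd ⟨⟨h, hy⟩, hyT⟩ hnot
  refine ⟨t, ?_, ?_, ?_, ?_, ?_, htsupp, fun i y _ h => ((ht1 i y).mp h).1.1⟩
  · exact fun i => (Continuous.div (continuous_tdist _) ((continuous_tdist _).add (continuous_tdist _))
      fun x => (hden i x).ne').continuousOn
  · exact fun i x _ => ⟨htnn i x, (div_le_one (hden i x)).mpr (by linarith [tdist_nonneg (Cp i) x])⟩
  · intro x hx
    obtain ⟨U, hU, hA⟩ := hlf x hx
    refine ⟨U, hU, hA.subset ?_⟩
    rintro i ⟨y, hy, hne⟩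
    exact ⟨y, htsupp i y hy.2 hne, hy⟩
  · intro x hx
    obtain ⟨i, hiP, hiG⟩ := hcov x hx
    exact ⟨i, (ht1 i x).mpr ⟨⟨hiP, hx⟩, fun h => hiG h.2⟩⟩
  · intro x hx s hs
    refine hTm x s fun i hi => ?_
    by_contra hxT
    rcases hPN i hx with h | h
    · exact (hs i hi).2.ne ((ht1 i x).mpr ⟨⟨h, hx⟩, hxT⟩)
    · exact (hs i hi).1.ne' ((ht0 i x).mpr ⟨⟨h, hx⟩, hxT⟩)

/-- **From walls to the complex** (the abstract form of Proposition 7.1 => Theorem 1.1 in paper P).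
`P i`, `N i`: the two closed sides of the `i`-th wall `P i ∩ N i`; `G i`: an open set in which the wall may be thickened.  At most `k` walls through each point; every point lies on the positive side of some label,
outside of its `G i`.  Points with the same image lie in a common `P i ∪ G i`. -/
theorem cx_of_walls {E : Type} [MetricSpace E] {I : Type} (M : Set E) (hM : IsClosed M) (k : ℕ) (P N G : I → Set E)
    (hP : ∀ i, IsClosed (P i)) (hN : ∀ i, IsClosed (N i)) (hG : ∀ i, IsOpen (G i))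
    (hPN : ∀ i, M ⊆ P i ∪ N i) (hW : ∀ i, P i ∩ N i ∩ M ⊆ G i)
    (hlf : ∀ x ∈ M, ∃ U ∈ 𝓝 x, {i | ((P i ∪ G i) ∩ (U ∩ M)).Nonempty}.Finite)
    (hmult : ∀ x ∈ M, ∀ s : Finset I, (∀ i ∈ s, x ∈ P i ∩ N i) → s.card ≤ k)
    (hcov : ∀ x ∈ M, ∃ i, x ∈ P i ∧ x ∉ G i) :
    ∃ (V : Type) (_ : NormedAddCommGroup V) (_ : NormedSpace ℝ V) (K : Geometry.SimplicialComplex ℝ V) (f : E → V),
      (∀ s ∈ K.faces, s.card ≤ k + 1) ∧ ContinuousOn f M ∧ (∀ x ∈ M, f x ∈ K.space) ∧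
      (∀ x ∈ M, ∃ W ∈ 𝓝 x, ∃ S : Finset (Finset V), ↑S ⊆ K.faces ∧
        f '' (W ∩ M) ⊆ ⋃ s ∈ S, convexHull ℝ (s : Set V)) ∧
      ∀ x ∈ M, ∀ x' ∈ M, f x = f x' → ∃ i, x ∈ P i ∪ G i ∧ x' ∈ P i ∪ G i := by
  obtain ⟨t, t1, t2, t3, t4, t5, t6, t7⟩ := cxw_coords M hM k P N G hP hN hG hPN hW hlf hmult hcov
  obtain ⟨V, i1, i2, K, f, h1, h2, h3, h4, h5⟩ := cx_of_coords M k t t1 t2 t3 t4 t5
  refine ⟨V, i1, i2, K, f, h1, h2, h3, h4, ?_⟩
  intro x hx x' hx' hxx'
  obtain ⟨i, hi1, hi2⟩ := h5 x hx x' hx' hxx'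
  exact ⟨i, Or.inl (t7 i x hx hi1), t6 i x' hx' hi2.ne'⟩

/-! ## The three output theorems (interface for the analytic parts) -/

section Out

variable {V₀ : Type} [NormedAddCommGroup V₀] [NormedSpace ℝ V₀]

/-- The conclusion of S0571 for `(M, g)`: a continuous map to a simplicial complex all of whose faces have at most `m` vertices (dimension `≤ m - 1`), locally with values in finitely many faces,
whose fibres have `rdist`-diameter `≤ C`.  For `V₀ = E N`, `m = n - 1` this is the frozen conclusion verbatim (`rdist` is `riemDist` by `rfl`). -/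
def HasWidth (M : Set V₀) (g : Ten V₀) (m : ℕ) (C : ℝ) : Prop :=
  ∃ (V : Type) (_ : NormedAddCommGroup V) (_ : NormedSpace ℝ V) (K : Geometry.SimplicialComplex ℝ V) (f : V₀ → V),
    (∀ s ∈ K.faces, s.card ≤ m) ∧ ContinuousOn f M ∧ (∀ x ∈ M, f x ∈ K.space) ∧
    (∀ x ∈ M, ∃ W ∈ nhds x, ∃ S : Finset (Finset V), ↑S ⊆ K.faces ∧
      f '' (W ∩ M) ⊆ ⋃ s ∈ S, convexHull ℝ (s : Set V)) ∧
    ∀ x ∈ M, ∀ x' ∈ M, f x = f x' → rdist M g x x' ≤ C

theorem HasWidth.mono {M : Set V₀} {g : Ten V₀} {m m' : ℕ} {C C' : ℝ} (h : HasWidth M g m C) (hm : m ≤ m') (hC : C ≤ C') :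
    HasWidth M g m' C' := by
  obtain ⟨V, i1, i2, K, f, h1, h2, h3, h4, h5⟩ := h
  exact ⟨V, i1, i2, K, f, fun s hs => (h1 s hs).trans hm, h2, h3, h4, fun x hx x' hx' e => (h5 x hx x' hx' e).trans hC⟩

/-- `HasWidth` for `V₀ = E N` is the frozen conclusion of S0571. -/
theorem hasWidth_iff_frozen {N : ℕ} (M : Set (E N)) (g : Ten (E N)) (m : ℕ) (C : ℝ) :
    HasWidth M g m C ↔
    ∃ (V : Type) (_ : NormedAddCommGroup V) (_ : NormedSpace ℝ V)
        (K : Geometry.SimplicialComplex ℝ V) (f : EuclideanSpace ℝ (Fin N) → V),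
        (∀ s ∈ K.faces, s.card ≤ m) ∧ ContinuousOn f M ∧ (∀ x ∈ M, f x ∈ K.space) ∧
        (∀ x ∈ M, ∃ W ∈ nhds x, ∃ S : Finset (Finset V), ↑S ⊆ K.faces ∧
          f '' (W ∩ M) ⊆ ⋃ s ∈ S, convexHull ℝ (s : Set V)) ∧
        ∀ x ∈ M, ∀ x' ∈ M, f x = f x' → Claims.C0499.riemDist M g x x' ≤ C := Iff.rfl

/-- **OUT-a.**  A locally finite relatively open cover of `M` of multiplicity `≤ k + 1` by sets of `rdist`-diameter `≤ C`. -/
theorem out_cover (M : Set V₀) (g : Ten V₀) (k : ℕ) (C : ℝ) {J : Type} (U : J → Set V₀)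
    (hopen : ∀ j, ∀ x ∈ U j ∩ M, ∃ W ∈ 𝓝 x, W ∩ M ⊆ U j)
    (hcov : ∀ x ∈ M, ∃ j, x ∈ U j)
    (hlf : ∀ x ∈ M, ∃ W ∈ 𝓝 x, {j | (U j ∩ (W ∩ M)).Nonempty}.Finite)
    (hmult : ∀ x ∈ M, ∀ s : Finset J, (∀ j ∈ s, x ∈ U j) → s.card ≤ k + 1)
    (hdiam : ∀ j, ∀ x ∈ U j ∩ M, ∀ x' ∈ U j ∩ M, rdist M g x x' ≤ C) :
    HasWidth M g (k + 1) C := by
  obtain ⟨V, i1, i2, K, f, h1, h2, h3, h4, h5⟩ := cx_of_cover M k U hopen hcov hlf hmult
  refine ⟨V, i1, i2, K, f, h1, h2, h3, h4, ?_⟩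
  intro x hx x' hx' e
  obtain ⟨j, hj⟩ := hcov x hx
  exact hdiam j x ⟨hj, hx⟩ x' ⟨(h5 x hx x' hx' e j).mp hj, hx'⟩

/-- The trivial case: `M` has `rdist`-diameter `≤ C`. -/
theorem out_bounded (M : Set V₀) (g : Ten V₀) (C : ℝ) (hdiam : ∀ x ∈ M, ∀ x' ∈ M, rdist M g x x' ≤ C) :
    HasWidth M g 1 C := by
  refine out_cover M g 0 C (J := Unit) (fun _ => Set.univ) (fun _ x _ => ⟨Set.univ, Filter.univ_mem, fun _ _ => trivial⟩)
    (fun _ _ => ⟨(), trivial⟩) (fun _ _ => ⟨Set.univ, Filter.univ_mem, Set.toFinite _⟩) ?_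
    (fun _ x hx x' hx' => hdiam x hx.2 x' hx'.2)
  intro x _ s _
  exact (Finset.card_le_univ s).trans (by simp)

/-- **OUT-b.**  Sign coordinates `a i : M → [0,1]` as in Theorem 2.1 of paper S (= Proposition 7.1 + (7.14) of paper P): continuous, locally finite supports, at every point some `a i = 1` and at most `k` are
fractional; `a i x > 0` forces `q x` to be `2 D`-close to the centre `c i`, and `q` moves points by at most `1`.  (`q` need not be continuous here.)  The metric properties of `rdist` are hypotheses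
(package IF). -/
theorem out_coords (M : Set V₀) (g : Ten V₀) (k : ℕ) (D : ℝ) {I : Type} (a : I → V₀ → ℝ) (q : V₀ → V₀) (c : I → V₀)
    (hsymm : ∀ x ∈ M, ∀ y ∈ M, rdist M g x y = rdist M g y x)
    (htri : ∀ x ∈ M, ∀ y ∈ M, ∀ z ∈ M, rdist M g x z ≤ rdist M g x y + rdist M g y z)
    (hc : ∀ i, c i ∈ M) (hqM : ∀ x ∈ M, q x ∈ M) (hq : ∀ x ∈ M, rdist M g x (q x) ≤ 1)
    (hcont : ∀ i, ContinuousOn (a i) M) (h01 : ∀ i, ∀ x ∈ M, 0 ≤ a i x ∧ a i x ≤ 1)
    (hlf : ∀ x ∈ M, ∃ W ∈ 𝓝 x, {i | ∃ y ∈ W ∩ M, a i y ≠ 0}.Finite)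
    (hone : ∀ x ∈ M, ∃ i, a i x = 1)
    (hfrac : ∀ x ∈ M, ∀ s : Finset I, (∀ i ∈ s, 0 < a i x ∧ a i x < 1) → s.card ≤ k)
    (hball : ∀ i, ∀ x ∈ M, 0 < a i x → rdist M g (c i) (q x) ≤ 2 * D) :
    HasWidth M g (k + 1) (4 * D + 2) := by
  obtain ⟨V, i1, i2, K, f, h1, h2, h3, h4, h5⟩ := cx_of_coords M k a hcont h01 hlf hone hfrac
  refine ⟨V, i1, i2, K, f, h1, h2, h3, h4, ?_⟩
  intro x hx x' hx' e
  obtain ⟨i, hi1, hi2⟩ := h5 x hx x' hx' e
  have b1 := hball i x hx (by rw [hi1]; exact one_pos)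
  have b2 := hball i x' hx' hi2
  have t1 := htri x hx (q x) (hqM x hx) x' hx'
  have t2 := htri (q x) (hqM x hx) (c i) (hc i) x' hx'
  have t3 := htri (c i) (hc i) (q x') (hqM x' hx') x' hx'
  have s1 := hsymm (q x) (hqM x hx) (c i) (hc i)
  have s2 := hsymm (q x') (hqM x' hx') x' hx'
  have q1 := hq x hx
  have q2 := hq x' hx'
  linarith

/-- **OUT-c.**  Closed sides `P i`, `N i` of walls `P i ∩ N i`, at most `k` walls through a point, thickening regions `G i`; the sets `P i ∪ G i` have `rdist`-diameter `≤ C`. -/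
theorem out_walls (M : Set V₀) (hM : IsClosed M) (g : Ten V₀) (k : ℕ) (C : ℝ) {I : Type} (P N G : I → Set V₀)
    (hP : ∀ i, IsClosed (P i)) (hN : ∀ i, IsClosed (N i)) (hG : ∀ i, IsOpen (G i))
    (hPN : ∀ i, M ⊆ P i ∪ N i) (hW : ∀ i, P i ∩ N i ∩ M ⊆ G i)
    (hlf : ∀ x ∈ M, ∃ U ∈ 𝓝 x, {i | ((P i ∪ G i) ∩ (U ∩ M)).Nonempty}.Finite)
    (hmult : ∀ x ∈ M, ∀ s : Finset I, (∀ i ∈ s, x ∈ P i ∩ N i) → s.card ≤ k)
    (hcov : ∀ x ∈ M, ∃ i, x ∈ P i ∧ x ∉ G i)
    (hdiam : ∀ i, ∀ x ∈ (P i ∪ G i) ∩ M, ∀ x' ∈ (P i ∪ G i) ∩ M, rdist M g x x' ≤ C) :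
    HasWidth M g (k + 1) C := by
  obtain ⟨V, i1, i2, K, f, h1, h2, h3, h4, h5⟩ := cx_of_walls M hM k P N G hP hN hG hPN hW hlf hmult hcov
  refine ⟨V, i1, i2, K, f, h1, h2, h3, h4, ?_⟩
  intro x hx x' hx' e
  obtain ⟨i, hi, hi'⟩ := h5 x hx x' hx' e
  exact hdiam i x ⟨hi, hx⟩ x' ⟨hi', hx'⟩

/-! ### The same in the language of `HasCover` (`Top/Defs.lean`) -/

/-- relatively open members are enough for `HasCover` -/
theorem hasCover_of_rel (M : Set V₀) (g : Ten V₀) (k : ℕ) (C : ℝ) {J : Type} (U : J → Set V₀)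
    (hopen : ∀ j, ∀ x ∈ U j ∩ M, ∃ W ∈ 𝓝 x, W ∩ M ⊆ U j)
    (hcov : ∀ x ∈ M, ∃ j, x ∈ U j)
    (hlf : ∀ x ∈ M, ∃ W ∈ 𝓝 x, {j | (U j ∩ (W ∩ M)).Nonempty}.Finite)
    (hmult : ∀ x ∈ M, ∀ s : Finset J, (∀ j ∈ s, x ∈ U j) → s.card ≤ k)
    (hdiam : ∀ j, ∀ x ∈ U j ∩ M, ∀ x' ∈ U j ∩ M, rdist M g x x' ≤ C) :
    HasCover k M g C := by
  have hsub : ∀ j, ∀ x ∈ M, x ∈ ⋃₀ {O | IsOpen O ∧ O ∩ M ⊆ U j} → x ∈ U j := by
    rintro j x hx ⟨O, ⟨_, hO⟩, hxO⟩
    exact hO ⟨hxO, hx⟩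
  refine ⟨J, fun j => ⋃₀ {O | IsOpen O ∧ O ∩ M ⊆ U j}, fun j => isOpen_sUnion fun O hO => hO.1, ?_, ?_, ?_, ?_⟩
  · intro x hx
    obtain ⟨j, hj⟩ := hcov x hx
    obtain ⟨W, hW, hWU⟩ := hopen j x ⟨hj, hx⟩
    refine Set.mem_iUnion.mpr ⟨j, interior W, ⟨isOpen_interior, ?_⟩, mem_interior_iff_mem_nhds.mpr hW⟩
    exact fun y hy => hWU ⟨interior_subset hy.1, hy.2⟩
  · intro x hx
    obtain ⟨W, hW, hf⟩ := hlf x hx
    refine ⟨W, hW, hf.subset ?_⟩
    rintro j ⟨y, ⟨hyU, hyW⟩, hyM⟩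
    exact ⟨y, hsub j y hyM hyU, hyW, hyM⟩
  · intro x hx s hs
    exact hmult x hx s fun j hj => hsub j x hx (hs j hj)
  · intro j x hx y hy
    exact hdiam j x ⟨hsub j x hx.1 hx.2, hx.1⟩ y ⟨hsub j y hy.1 hy.2, hy.1⟩

/-- `HasCover` gives `HasWidth`. -/
theorem HasCover.hasWidth {M : Set V₀} {g : Ten V₀} {k : ℕ} {C : ℝ} (h : HasCover (k + 1) M g C) :
    HasWidth M g (k + 1) C := by
  obtain ⟨J, U, h1, h2, h3, h4, h5⟩ := h
  refine out_cover M g k C U (fun j x hx => ⟨U j, (h1 j).mem_nhds hx.1, Set.inter_subset_left⟩)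
    (fun x hx => Set.mem_iUnion.mp (h2 hx)) ?_ h4 (fun j x hx x' hx' => h5 j x ⟨hx.2, hx.1⟩ x' ⟨hx'.2, hx'.1⟩)
  intro x hx
  obtain ⟨W, hW, hf⟩ := h3 x hx
  refine ⟨W, hW, hf.subset ?_⟩
  rintro j ⟨y, hyU, hyW, hyM⟩
  exact ⟨y, ⟨hyU, hyW⟩, hyM⟩

/-- **OUT-b, cover form.** -/
theorem hasCover_of_coords (M : Set V₀) (g : Ten V₀) (k : ℕ) (D : ℝ) {I : Type} (a : I → V₀ → ℝ) (q : V₀ → V₀) (c : I → V₀)
    (hsymm : ∀ x ∈ M, ∀ y ∈ M, rdist M g x y = rdist M g y x)
    (htri : ∀ x ∈ M, ∀ y ∈ M, ∀ z ∈ M, rdist M g x z ≤ rdist M g x y + rdist M g y z)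
    (hc : ∀ i, c i ∈ M) (hqM : ∀ x ∈ M, q x ∈ M) (hq : ∀ x ∈ M, rdist M g x (q x) ≤ 1)
    (hcont : ∀ i, ContinuousOn (a i) M) (h01 : ∀ i, ∀ x ∈ M, 0 ≤ a i x ∧ a i x ≤ 1)
    (hlf : ∀ x ∈ M, ∃ W ∈ 𝓝 x, {i | ∃ y ∈ W ∩ M, a i y ≠ 0}.Finite)
    (hone : ∀ x ∈ M, ∃ i, a i x = 1)
    (hfrac : ∀ x ∈ M, ∀ s : Finset I, (∀ i ∈ s, 0 < a i x ∧ a i x < 1) → s.card ≤ k)
    (hball : ∀ i, ∀ x ∈ M, 0 < a i x → rdist M g (c i) (q x) ≤ 2 * D) :
    HasCover (k + 1) M g (4 * D + 2) := by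
  obtain ⟨c1, htop, c3, c4⟩ := cxc_cover M k a hcont h01 hlf hone hfrac
  refine hasCover_of_rel M g (k + 1) _ (cxcU a) c1 (fun x hx => (htop x hx).imp fun _ h => h.1) c3 c4 ?_
  rintro S x ⟨hxS, hx⟩ x' ⟨hxS', hx'⟩
  obtain ⟨i, hi⟩ := hxS.1
  have b1 := hball i x hx (hxS.2.1 i hi)
  have b2 := hball i x' hx' (hxS'.2.1 i hi)
  have t1 := htri x hx (q x) (hqM x hx) x' hx'
  have t2 := htri (q x) (hqM x hx) (c i) (hc i) x' hx'
  have t3 := htri (c i) (hc i) (q x') (hqM x' hx') x' hx'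
  have s1 := hsymm (q x) (hqM x hx) (c i) (hc i)
  have s2 := hsymm (q x') (hqM x' hx') x' hx'
  have q1 := hq x hx
  have q2 := hq x' hx'
  linarith

/-- **OUT-b', cover form**: coordinates whose supports have bounded diameter. -/
theorem hasCover_of_coords' (M : Set V₀) (g : Ten V₀) (k : ℕ) (C : ℝ) {I : Type} (a : I → V₀ → ℝ)
    (hcont : ∀ i, ContinuousOn (a i) M) (h01 : ∀ i, ∀ x ∈ M, 0 ≤ a i x ∧ a i x ≤ 1)
    (hlf : ∀ x ∈ M, ∃ W ∈ 𝓝 x, {i | ∃ y ∈ W ∩ M, a i y ≠ 0}.Finite)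
    (hone : ∀ x ∈ M, ∃ i, a i x = 1)
    (hfrac : ∀ x ∈ M, ∀ s : Finset I, (∀ i ∈ s, 0 < a i x ∧ a i x < 1) → s.card ≤ k)
    (hdiam : ∀ i, ∀ x ∈ M, ∀ x' ∈ M, 0 < a i x → 0 < a i x' → rdist M g x x' ≤ C) :
    HasCover (k + 1) M g C := by
  obtain ⟨c1, htop, c3, c4⟩ := cxc_cover M k a hcont h01 hlf hone hfrac
  refine hasCover_of_rel M g (k + 1) _ (cxcU a) c1 (fun x hx => (htop x hx).imp fun _ h => h.1) c3 c4 ?_
  rintro S x ⟨hxS, hx⟩ x' ⟨hxS', hx'⟩
  obtain ⟨i, hi⟩ := hxS.1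
  exact hdiam i x hx x' hx' (hxS.2.1 i hi) (hxS'.2.1 i hi)

/-- **OUT-c, cover form.** -/
theorem hasCover_of_walls (M : Set V₀) (hM : IsClosed M) (g : Ten V₀) (k : ℕ) (C : ℝ) {I : Type} (P N G : I → Set V₀)
    (hP : ∀ i, IsClosed (P i)) (hN : ∀ i, IsClosed (N i)) (hG : ∀ i, IsOpen (G i))
    (hPN : ∀ i, M ⊆ P i ∪ N i) (hW : ∀ i, P i ∩ N i ∩ M ⊆ G i)
    (hlf : ∀ x ∈ M, ∃ U ∈ 𝓝 x, {i | ((P i ∪ G i) ∩ (U ∩ M)).Nonempty}.Finite)
    (hmult : ∀ x ∈ M, ∀ s : Finset I, (∀ i ∈ s, x ∈ P i ∩ N i) → s.card ≤ k)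
    (hcov : ∀ x ∈ M, ∃ i, x ∈ P i ∧ x ∉ G i)
    (hdiam : ∀ i, ∀ x ∈ (P i ∪ G i) ∩ M, ∀ x' ∈ (P i ∪ G i) ∩ M, rdist M g x x' ≤ C) :
    HasCover (k + 1) M g C := by
  obtain ⟨t, t1, t2, t3, t4, t5, t6, _⟩ := cxw_coords M hM k P N G hP hN hG hPN hW hlf hmult hcov
  refine hasCover_of_coords' M g k C t t1 t2 t3 t4 t5 ?_
  intro i x hx x' hx' h h'
  exact hdiam i x ⟨t6 i x hx h.ne', hx⟩ x' ⟨t6 i x' hx' h'.ne', hx'⟩

/-- **CX (level 1 statement of `Top/Main.lean`)**: a good cover gives the simplicial complex and the map. -/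
theorem cx_main {n N : ℕ} (hn : 3 ≤ n) (M : Set (E N)) (g : Ten (E N)) (C : ℝ)
    (_hM : IsClosed M) (hc : HasCover (n - 1) M g C) :
    ∃ (V : Type) (_ : NormedAddCommGroup V) (_ : NormedSpace ℝ V)
      (K : Geometry.SimplicialComplex ℝ V) (f : E N → V),
      (∀ s ∈ K.faces, s.card ≤ n - 1) ∧ ContinuousOn f M ∧ (∀ x ∈ M, f x ∈ K.space) ∧
      (∀ x ∈ M, ∃ W ∈ nhds x, ∃ S : Finset (Finset V), ↑S ⊆ K.faces ∧
        f '' (W ∩ M) ⊆ ⋃ s ∈ S, convexHull ℝ (s : Set V)) ∧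
      ∀ x ∈ M, ∀ x' ∈ M, f x = f x' → Claims.C0499.riemDist M g x x' ≤ C := by
  obtain ⟨k, hk⟩ : ∃ k, n - 1 = k + 1 := ⟨n - 2, by omega⟩
  rw [hk] at hc ⊢
  exact hc.hasWidth

end Out

end Claimed.Agent.R315
end

/- ===== packed: Claimed.Agent.R315.If.Net ===== -/
section
/-!
# Row 315 (S0571), interface, part 25: small balls, separated nets, locally constant limits (prefix `if_`)

* `if_exists_nhds_rdist_lt`: `∃ O ∈ 𝓝 x, ∀ y ∈ M ∩ O, rdist M g x y < ε`;
* `if_sep_finite`: an `r`-separated subset of `M` meets every compact subset of `M` in a finite set;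
* `if_exists_maximal_sep`: maximal `r`-separated sets;
* `if_net`: countable `r`-nets in a proper `(M,g)` with local finiteness of balls of any radius;
* `if_limit`: a locally eventually constant sequence has a limit.
Owner: helper274.
-/

set_option autoImplicit false
set_option linter.unusedSectionVars false

open scoped Topology ContDiff
open Claims.C0499 Set Function Filter

namespace Claimed.Agent.R315

variable {d : ℕ}
variable {V : Type} [NormedAddCommGroup V] [NormedSpace ℝ V]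
variable {M : Set V} {g : Ten V}

/-- a sequence which is locally eventually constant on `M` has a limit. -/
theorem if_limit {X : Type} (F : ℕ → V → X)
    (H : ∀ x ∈ M, ∃ O ∈ 𝓝 x, ∃ k0 : ℕ, ∀ k ≥ k0, ∀ y ∈ M ∩ O, F k y = F k0 y) :
    ∃ G : V → X, ∀ x ∈ M, ∃ O ∈ 𝓝 x, ∃ k0 : ℕ, ∀ k ≥ k0, ∀ y ∈ M ∩ O, G y = F k y := by
  choose! O hO K hK using H
  refine ⟨fun y => F (K y) y, fun x hx => ⟨O x, hO x hx, K x, fun k hk y hy => ?_⟩⟩
  have h1 := hK y hy.1 (max (K y) k) (le_max_left _ _) y ⟨hy.1, mem_of_mem_nhds (hO y hy.1)⟩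
  have h2 := hK x hx (max (K y) k) (hk.trans (le_max_right _ _)) y hy
  have h3 := hK x hx k hk y hy
  show F (K y) y = F k y
  rw [← h1, h2, h3]

variable [FiniteDimensional ℝ V]

theorem if_exists_nhds_rdist_lt (hM : IsMfd d M) (hc : IsPreconnected M) (hg : IsTenOn d M g)
    {x : V} (hx : x ∈ M) {ε : ℝ} (hε : 0 < ε) : ∃ O ∈ 𝓝 x, ∀ y ∈ M ∩ O, rdist M g x y < ε := by
  have h1 : ContinuousWithinAt (rdist M g x) M x := if_rdist_continuousOn hM hc hg hx x hx
  have h2 : ∀ᶠ y in 𝓝[M] x, rdist M g x y < ε := by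
    refine h1.eventually_lt continuousWithinAt_const ?_
    rw [if_rdist_self g hx]
    exact hε
  obtain ⟨O, hO, h3⟩ := mem_nhdsWithin_iff_exists_mem_nhds_inter.1 h2
  exact ⟨O, hO, fun y hy => h3 ⟨hy.2, hy.1⟩⟩

/-- a separated set meets a compact subset of `M` in a finite set -/
theorem if_sep_finite (hM : IsMfd d M) (hc : IsPreconnected M) (hg : IsTenOn d M g) {S K : Set V}
    {r : ℝ} (hr : 0 < r) (hS : S ⊆ M) (hsep : ∀ s ∈ S, ∀ s' ∈ S, s ≠ s' → r ≤ rdist M g s s')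
    (hK : IsCompact K) (hKM : K ⊆ M) : (S ∩ K).Finite := by
  have j := fun {a b : V} (ha : a ∈ M) (hb : b ∈ M) => if_join_of_connected hM hc ha hb
  choose! O hO hlt using fun z (hz : z ∈ M) =>
    if_exists_nhds_rdist_lt hM hc hg hz (half_pos hr)
  obtain ⟨t, htK, hcov⟩ := hK.elim_nhds_subcover O fun z hz => hO z (hKM hz)
  have hsub : S ∩ K ⊆ ⋃ z ∈ t, S ∩ O z := by
    rintro s ⟨hs, hsK⟩
    obtain ⟨z, hz, hsz⟩ := mem_iUnion₂.1 (hcov hsK)
    exact mem_iUnion₂.2 ⟨z, hz, hs, hsz⟩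
  refine (t.finite_toSet.biUnion fun z hz => ?_).subset hsub
  have hzM : z ∈ M := hKM (htK z hz)
  refine Set.Subsingleton.finite ?_
  rintro s ⟨hs, hsO⟩ s' ⟨hs', hsO'⟩
  by_contra hne
  have h1 := hsep s hs s' hs' hne
  have h2 := hlt z hzM s ⟨hS hs, hsO⟩
  have h3 := hlt z hzM s' ⟨hS hs', hsO'⟩
  have h4 := if_rdist_tri hM hg (j (hS hs) hzM) (j hzM (hS hs'))
  rw [if_rdist_symm M g s z] at h4
  linarith

omit [FiniteDimensional ℝ V] in
/-- maximal separated sets -/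
theorem if_exists_maximal_sep (M : Set V) (g : Ten V) (r : ℝ) :
    ∃ S ⊆ M, (∀ s ∈ S, ∀ s' ∈ S, s ≠ s' → r ≤ rdist M g s s') ∧
      ∀ y ∈ M, y ∉ S → ∃ s ∈ S, rdist M g s y < r := by
  obtain ⟨S, hS⟩ := zorn_subset
    {S : Set V | S ⊆ M ∧ ∀ s ∈ S, ∀ s' ∈ S, s ≠ s' → r ≤ rdist M g s s'} (by
      intro C hC hchain
      refine ⟨⋃₀ C, ⟨sUnion_subset fun A hA => (hC hA).1, ?_⟩, fun A hA => subset_sUnion_of_mem hA⟩
      rintro s ⟨A, hA, hs⟩ s' ⟨A', hA', hs'⟩ hne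
      rcases hchain.total hA hA' with h | h
      · exact (hC hA').2 s (h hs) s' hs' hne
      · exact (hC hA).2 s hs s' (h hs') hne)
  refine ⟨S, hS.prop.1, hS.prop.2, fun y hy hyS => ?_⟩
  by_contra hcon
  push Not at hcon
  have hmem : insert y S ∈
      {S : Set V | S ⊆ M ∧ ∀ s ∈ S, ∀ s' ∈ S, s ≠ s' → r ≤ rdist M g s s'} := by
    refine ⟨insert_subset hy hS.prop.1, ?_⟩
    rintro s (rfl | hs) s' (rfl | hs') hne
    · exact absurd rfl hne
    · rw [if_rdist_symm]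
      exact hcon s' hs'
    · exact hcon s hs
    · exact hS.prop.2 s hs s' hs' hne
  exact hyS (hS.le_of_ge hmem (subset_insert y S) (mem_insert y S))

/-- maximal `r`-separated nets; local finiteness of the balls of any fixed radius. -/
theorem if_net (hM : IsMfd d M) (hc : IsConnected M) (hg : IsTenOn d M g) (hp : IsProperOn M g)
    {r : ℝ} (hr : 0 < r) :
    ∃ (ι : Type) (_ : Countable ι) (x : ι → V), (∀ i, x i ∈ M) ∧
      (∀ i j, i ≠ j → r ≤ rdist M g (x i) (x j)) ∧ (∀ y ∈ M, ∃ i, rdist M g (x i) y ≤ r) ∧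
      ∀ R : ℝ, ∀ y ∈ M, ∃ O ∈ 𝓝 y,
        {i | ({z | z ∈ M ∧ rdist M g (x i) z ≤ R} ∩ O).Nonempty}.Finite := by
  have hpc := hc.isPreconnected
  have j := fun {a b : V} (ha : a ∈ M) (hb : b ∈ M) => if_join_of_connected hM hpc ha hb
  obtain ⟨S, hSM, hsep, hmax⟩ := if_exists_maximal_sep M g r
  have hfin : ∀ p ∈ M, ∀ R : ℝ, (S ∩ {y | y ∈ M ∧ rdist M g p y ≤ R}).Finite := fun p hp' R =>
    if_sep_finite hM hpc hg hr hSM hsep (hp p hp' R) fun y hy => hy.1
  obtain ⟨p, hpM⟩ := hc.nonempty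
  have hcount : S.Countable := by
    have : S ⊆ ⋃ n : ℕ, S ∩ {y | y ∈ M ∧ rdist M g p y ≤ n} := by
      intro s hs
      obtain ⟨n, hn⟩ := exists_nat_ge (rdist M g p s)
      exact mem_iUnion.2 ⟨n, hs, hSM hs, hn⟩
    exact (countable_iUnion fun n : ℕ => (hfin p hpM n).countable).mono this
  refine ⟨S, hcount.to_subtype, Subtype.val, fun i => hSM i.2, fun i i' hne =>
    hsep _ i.2 _ i'.2 fun h => hne (Subtype.ext h), fun y hy => ?_, fun R y hy => ?_⟩
  · by_cases hyS : y ∈ S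
    · exact ⟨⟨y, hyS⟩, by rw [if_rdist_self g hy]; exact hr.le⟩
    · obtain ⟨s, hs, hlt⟩ := hmax y hy hyS
      exact ⟨⟨s, hs⟩, hlt.le⟩
  · obtain ⟨O, hO, hlt⟩ := if_exists_nhds_rdist_lt hM hpc hg hy one_pos
    refine ⟨O, hO, ?_⟩
    have hf := hfin y hy (R + 1)
    refine Set.Finite.of_finite_image (f := Subtype.val) (hf.subset ?_) Subtype.val_injective.injOn
    rintro _ ⟨i, ⟨z, ⟨hzM, hz⟩, hzO⟩, rfl⟩
    refine ⟨i.2, hSM i.2, ?_⟩
    have h1 := hlt z ⟨hzM, hzO⟩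
    have h2 := if_rdist_tri hM hg (j hy hzM) (j hzM (hSM i.2))
    rw [if_rdist_symm M g z i.1] at h2
    linarith

end Claimed.Agent.R315
end

/- ===== packed: Claimed.Agent.R315.Ss.Need ===== -/
section
/-!
# Row 315, paper S: general facts about the Core model which the bookkeeping of S needs   (packages SS-NEED-A..E)

ALL PROVED (helper274): one-liners from `If/Germ`, `If/Scale`, `If/Net`, `If/DistTop`, `If/Lip`.
Everything here is independent of paper S.  If IF (helper274, `R315/If*`) or RIEM (helper39, `R315/Rm*`) has the fact, the proof is one line.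
(The general versions, usually with weaker hypotheses, are the `if_*` lemmas quoted in the proofs.)

A. germ locality and pointwise facts (`ssn_*_local`, `ssn_*_congr`): unfold `pv`; for a parametrisation `(ψ,U)`, `ψ u = x`, `O ∈ 𝓝 x`: `ψ ⁻¹' O ∩ U ∈ 𝓝 u`,
   so the coordinate matrices / functions agree near `u`; `pdiff`, `christoffel`, `scalarCoord`, `lapC` depend only on germs (`Filter.EventuallyEq.fderiv`).
B. scaling `c • g`: `cm (c • g) ψ = c • cm g ψ`; `christoffel` invariant, `scalarCoord (c•G) = c⁻¹ scalarCoord G`, `lapC (c•G) = c⁻¹ lapC G`, `gradSqC (c•G) = c⁻¹ gradSqC G`;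
   `pv` of `c⁻¹ Φ` (`Real.sSup_smul_of_nonneg` or invariance `if_pv_eq`).
C. traces: `G0, H` positive definite, `H - G0` positive semidefinite ⇒ `0 ≤ tr(H⁻¹ G0) ≤ n`.
D. `rdist`: metric space API, continuity, monotonicity (IfDist).
E. nets, properness.
-/

set_option autoImplicit false
set_option linter.unusedVariables false
open scoped ContDiff
open MeasureTheory Claims.C0499

namespace Claimed.Agent.R315

variable {V : Type} [NormedAddCommGroup V] [NormedSpace ℝ V]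

/-! ## A. locality -/

theorem ssn_metric_local {n : ℕ} {M : Set V} {h : Ten V}
    (H : ∀ x ∈ M, ∃ O ∈ nhds x, ∃ h' : Ten V, IsMetricOn n M h' ∧ ∀ y ∈ M ∩ O, h y = h' y) :
    IsMetricOn n M h :=
  if_isMetricOn_local H

theorem ssn_smooth_local {n : ℕ} {M : Set V} {t : V → ℝ}
    (H : ∀ x ∈ M, ∃ O ∈ nhds x, ∃ t' : V → ℝ, SmoothAlong n M t' ∧ ∀ y ∈ M ∩ O, t y = t' y) :
    SmoothAlong n M t :=
  if_smoothAlong_local H

theorem ssn_dsc_congr {n : ℕ} {M : Set V} {h h' : Ten V} {t t' : V → ℝ} {x : V} {O : Set V}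
    (hO : O ∈ nhds x) (H : ∀ y ∈ M ∩ O, h y = h' y ∧ t y = t' y) :
    Dsc n M h t x = Dsc n M h' t' x :=
  if_Dsc_congr hO (fun y hy => (H y hy).1) fun y hy => (H y hy).2

theorem ssn_trM_congr {n : ℕ} {M : Set V} {h h' k k' : Ten V} {x : V} (H : h x = h' x)
    (H' : k x = k' x) : trM n M h k x = trM n M h' k' x :=
  if_trM_congr H H'

theorem ssn_metLE_pointwise {n : ℕ} {M : Set V} {g h : Ten V}
    (H : ∀ x ∈ M, ∃ h' : Ten V, MetLE n M g h' ∧ h x = h' x) : MetLE n M g h :=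
  if_metLE_pointwise H

theorem ssn_metLE_refl {n : ℕ} {M : Set V} (g : Ten V) : MetLE n M g g :=
  if_metLE_refl g

theorem ssn_metLE_trans {n : ℕ} {M : Set V} {g h k : Ten V} (h1 : MetLE n M g h)
    (h2 : MetLE n M h k) : MetLE n M g k :=
  if_metLE_trans h1 h2

/-- a sequence of pairs which is locally eventually constant on `M` has a limit. -/
theorem ssn_limit {X : Type} {M : Set V} (F : ℕ → V → X)
    (H : ∀ x ∈ M, ∃ O ∈ nhds x, ∃ k0 : ℕ, ∀ k ≥ k0, ∀ y ∈ M ∩ O, F k y = F k0 y) :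
    ∃ G : V → X, ∀ x ∈ M, ∃ O ∈ nhds x, ∃ k0 : ℕ, ∀ k ≥ k0, ∀ y ∈ M ∩ O, G y = F k y :=
  if_limit F H

/-! ## B. scaling -/

theorem ssn_metric_smul {n : ℕ} {M : Set V} {g : Ten V} {c : ℝ} (hc : 0 < c)
    (hg : IsMetricOn n M g) : IsMetricOn n M (c • g) :=
  if_isMetricOn_smul hc hg

theorem ssn_metLE_smul {n : ℕ} {M : Set V} {g h : Ten V} {c : ℝ} (hc : 0 ≤ c)
    (H : MetLE n M g h) : MetLE n M (c • g) (c • h) :=
  if_metLE_smul hc H

theorem ssn_dsc_smul [FiniteDimensional ℝ V] {n : ℕ} {M : Set V} {g : Ten V} {t : V → ℝ} {c : ℝ}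
    (hc : 0 < c) (hM : IsMfd n M) (hg : IsMetricOn n M g) (ht : SmoothAlong n M t) {x : V}
    (hx : x ∈ M) : Dsc n M (c • g) t x = c⁻¹ * Dsc n M g t x :=
  if_Dsc_smul hc g t x

theorem ssn_rdist_smul {M : Set V} {g : Ten V} {c : ℝ} (hc : 0 ≤ c) (x y : V) :
    rdist M (c • g) x y = Real.sqrt c * rdist M g x y :=
  if_rdist_smul hc M g x y

/-! ## C. traces -/

theorem ssn_trM_self [FiniteDimensional ℝ V] {n : ℕ} {M : Set V} {g : Ten V} (hM : IsMfd n M)
    (hg : IsMetricOn n M g) {x : V} (hx : x ∈ M) : trM n M g g x = n :=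
  if_trM_self hM hg hx

theorem ssn_trM_bounds [FiniteDimensional ℝ V] {n : ℕ} {M : Set V} {g h : Ten V}
    (hM : IsMfd n M) (hg : IsMetricOn n M g) (hh : IsMetricOn n M h) (hle : MetLE n M g h) {x : V}
    (hx : x ∈ M) : 0 ≤ trM n M h g x ∧ trM n M h g x ≤ n :=
  ⟨if_trM_nonneg hM hh (fun ψ U h u hu => ((hg ψ U h).2 u hu).posSemidef) hx,
    if_trM_le hM hh hle hx⟩

/-! ## D. the distance -/

theorem ssn_rdist_nonneg {M : Set V} {g : Ten V} (x y : V) : 0 ≤ rdist M g x y :=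
  if_rdist_nonneg M g x y

theorem ssn_rdist_self [FiniteDimensional ℝ V] {M : Set V} {g : Ten V} {x : V} (hx : x ∈ M) :
    rdist M g x x = 0 :=
  if_rdist_self g hx

theorem ssn_rdist_comm [FiniteDimensional ℝ V] {M : Set V} {g : Ten V} (x y : V) :
    rdist M g x y = rdist M g y x :=
  if_rdist_symm M g x y

theorem ssn_rdist_triangle [FiniteDimensional ℝ V] {n : ℕ} {M : Set V} {g : Ten V}
    (hM : Carrier n M) (hg : IsMetricOn n M g) {x y z : V} (hx : x ∈ M) (hy : y ∈ M)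
    (hz : z ∈ M) : rdist M g x z ≤ rdist M g x y + rdist M g y z :=
  if_rdist_tri hM.mfd (if_isMetricOn_iff.1 hg).1
    (if_join_of_connected hM.mfd hM.conn.isPreconnected hx hy)
    (if_join_of_connected hM.mfd hM.conn.isPreconnected hy hz)

theorem ssn_rdist_continuousOn [FiniteDimensional ℝ V] {n : ℕ} {M : Set V} {g : Ten V}
    (hM : Carrier n M) (hg : IsMetricOn n M g) :
    ContinuousOn (fun p : V × V => rdist M g p.1 p.2) (M ×ˢ M) :=
  if_rdist_continuousOn₂ hM.mfd hM.conn.isPreconnected (if_isMetricOn_iff.1 hg).1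

theorem ssn_rdist_pos [FiniteDimensional ℝ V] {n : ℕ} {M : Set V} {g : Ten V}
    (hM : Carrier n M) (hg : IsMetricOn n M g) {x y : V} (hx : x ∈ M) (hy : y ∈ M)
    (hxy : x ≠ y) : 0 < rdist M g x y :=
  if_rdist_pos hM.mfd hM.conn.isPreconnected hg hx hy hxy

theorem ssn_rdist_mono [FiniteDimensional ℝ V] {n : ℕ} {M : Set V} {g h : Ten V}
    (hM : IsMfd n M) (hg : IsMetricOn n M g) (hh : IsMetricOn n M h) (hle : MetLE n M g h)
    (x y : V) : rdist M g x y ≤ rdist M h x y :=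
  if_rdist_mono hM (if_isMetricOn_iff.1 hg).1 (if_isMetricOn_iff.1 hh).1 hle x y

/-! ## E. properness, nets -/

theorem ssn_proper_of_le [FiniteDimensional ℝ V] {n : ℕ} {M : Set V} {g h : Ten V}
    (hM : Carrier n M) (hg : IsMetricOn n M g) (hh : IsMetricOn n M h) (hle : MetLE n M g h)
    (hp : IsProperOn M g) : IsProperOn M h :=
  if_proper_of_le hM.mfd hM.conn.isPreconnected (if_isMetricOn_iff.1 hg).1
    (if_isMetricOn_iff.1 hh).1 hle hp

theorem ssn_proper_smul {M : Set V} {g : Ten V} {c : ℝ} (hc : 0 < c) (hp : IsProperOn M g) :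
    IsProperOn M (c • g) :=
  if_proper_smul hc hp

/-- maximal `r`-separated nets; local finiteness of the balls of any fixed radius. -/
theorem ssn_net [FiniteDimensional ℝ V] {n : ℕ} {M : Set V} {g : Ten V} (hM : Carrier n M)
    (hg : IsMetricOn n M g) (hp : IsProperOn M g) {r : ℝ} (hr : 0 < r) :
    ∃ (ι : Type) (_ : Countable ι) (x : ι → V), (∀ i, x i ∈ M) ∧
      (∀ i j, i ≠ j → r ≤ rdist M g (x i) (x j)) ∧ (∀ y ∈ M, ∃ i, rdist M g (x i) y ≤ r) ∧
      ∀ R : ℝ, ∀ y ∈ M, ∃ O ∈ nhds y,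
        {i | ({z | z ∈ M ∧ rdist M g (x i) z ≤ R} ∩ O).Nonempty}.Finite :=
  if_net hM.mfd hM.conn (if_isMetricOn_iff.1 hg).1 hp hr

end Claimed.Agent.R315
end

/- ===== packed: Claimed.Agent.R315.Ss.Ext ===== -/
section
/-!
# Row 315, paper S: closed extension of a compact region: ASSEMBLY `ss_ext` (PROVED from `Ext1`, `Ext2`, `Ext3`; see `ExtDefs.lean`)
-/

set_option autoImplicit false
open scoped ContDiff
open Claims.C0499

namespace Claimed.Agent.R315

/-- closed extension of a neighbourhood of a compact set. -/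
theorem ss_ext {n N : ℕ} (M : Set (E N)) (hM : IsMfd n M) (hcl : IsClosed M) (K0 : Set (E N))
    (hK : IsCompact K0) (hKM : K0 ⊆ M) :
    ∃ (P : Set (E N × ℝ)) (ι : E N → E N × ℝ) (O : Set (E N)) (χ : E N → ℝ),
      IsMfd n P ∧ IsCompact P ∧ (∀ p ∈ P, p.1 ∈ M) ∧ IsOpen O ∧ K0 ⊆ O ∧
      (∀ x ∈ M ∩ O, ι x ∈ P ∧ (ι x).1 = x) ∧
      (∀ (ψ : E n → E N) (U : Set (E n)), IsParam M ψ U → ψ '' U ⊆ O → IsParam P (ι ∘ ψ) U) ∧
      (∀ x, 0 ≤ χ x ∧ χ x ≤ 1) ∧ (∀ x ∈ O, χ x = 1) ∧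
      (∀ f : E N → ℝ, SmoothAlong n M f → SmoothAlong n P (fun p => χ p.1 * f p.1)) ∧
      (∀ h : Ten (E N), IsMetricOn n M h → ∃ H : Ten (E N × ℝ), IsMetricOn n P H ∧
        ∀ (ψ : E n → E N) (U : Set (E n)), IsParam M ψ U → ψ '' U ⊆ O → ∀ u ∈ U,
          cm H (ι ∘ ψ) u = cm h ψ u) ∧
      (∀ F : E N × ℝ → ℝ, SmoothAlong n P F → ∃ f : E N → ℝ, SmoothAlong n M f ∧
        ∀ x ∈ M ∩ O, f x = F (ι x)) := by
  obtain ⟨a, R, hR, hK0, hreg⟩ := sse_generic hM hK
  obtain ⟨χ, hχ⟩ := sse_bump a hR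
  have h4 : Metric.ball a (R / 4) ⊆ Metric.ball a R := Metric.ball_subset_ball (by linarith)
  refine ⟨sseP M a R, sseI a R, Metric.ball a (R / 4), χ, sse_mfd hM hR hreg,
    sse_compact hcl a R, fun p hp => hp.1, Metric.isOpen_ball, hK0,
    fun x hx => ⟨sse_mem hx.1 (h4 hx.2), rfl⟩,
    fun ψ U hψ hs => sse_param hψ (hs.trans h4), hχ.mem, hχ.one,
    fun f hf => sse_push hM hχ hf,
    fun h hh => ⟨sseH h χ, sse_met hM hR hχ hh, fun ψ U hψ hs u hu => sse_cm hR hχ h hψ hs hu⟩,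
    fun F hF => ⟨_, sse_pull hM hR hχ hF, fun x hx => ?_⟩⟩
  rw [hχ.one x hx.2, one_mul]

end Claimed.Agent.R315
end

/- ===== packed: Claimed.Agent.R315.If.Good ===== -/
section
/-!
# Row 315 (S0571), interface, part 10: the frozen hypotheses give `Good n M g`

Owner: helper274.
-/

set_option autoImplicit false
set_option linter.unusedSectionVars false

open scoped Topology ContDiff Matrix ENNReal NNReal
open Claims.C0499 Set MeasureTheory MeasureTheory.Measure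

namespace Claimed.Agent.R315

/-- the spectral hypothesis in terms of the Hausdorff measure -/
theorem if_spectral_of_hausdorff {n N : ℕ} {M : Set (E N)} {g : Ten (E N)} (hM : IsMfd n M)
    (hg : IsMetricOn n M g)
    (h6 : ∀ φ : E N → ℝ, ContDiff ℝ ∞ φ → HasCompactSupport φ →
        ∫ x in M, φ x ^ 2 * if_dens n M g x ∂μH[(n : ℝ)] ≤
          ∫ x in M, (4 * gradSq n M g φ x + scal n M g x * φ x ^ 2) * if_dens n M g x
            ∂μH[(n : ℝ)]) : Spectral n M g := by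
  intro φ hφ hφc
  rw [if_integral_vol hM hg, if_integral_vol hM hg, if_setIntegral_muHE, if_setIntegral_muHE]
  refine mul_le_mul_of_nonneg_left ?_ (NNReal.coe_nonneg _)
  simp only [mul_comm (if_dens n M g _)]
  exact h6 φ hφ hφc

/-- IF: the frozen hypotheses give the internal standing hypotheses. -/
theorem if_good {n N : ℕ} (M : Set (E N)) (g : Ten (E N))
    (h1 : IsProperSubmanifold n M) (h2 : IsConnected M) (h3 : ContDiff ℝ ∞ g)
    (h4 : ∀ (ψ : E n → E N) (U : Set (E n)), IsLocalParam M ψ U → ∀ u ∈ U,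
      (coordMetric g ψ u).PosDef)
    (h5 : ∀ x ∈ M, ∀ R : ℝ, IsCompact {y | y ∈ M ∧ riemDist M g x y ≤ R})
    (h6 : ∀ φ : E N → ℝ, ContDiff ℝ ∞ φ → HasCompactSupport φ →
        ∫ x in M, φ x ^ 2 *
            paramValue M (fun ψ u => Real.sqrt ((coordMetric g ψ u).det /
              (Matrix.of fun i j : Fin n => inner ℝ (fderiv ℝ ψ u (EuclideanSpace.single i 1))
                (fderiv ℝ ψ u (EuclideanSpace.single j 1))).det)) x ∂μH[(n : ℝ)] ≤
          ∫ x in M, paramValue M (fun ψ u =>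
              (4 * ∑ i : Fin n, ∑ j : Fin n, (coordMetric g ψ u)⁻¹ i j *
                  pdiff (φ ∘ ψ) i u * pdiff (φ ∘ ψ) j u +
                scalarCoord (coordMetric g ψ) u * φ (ψ u) ^ 2) *
              Real.sqrt ((coordMetric g ψ u).det /
                (Matrix.of fun i j : Fin n => inner ℝ (fderiv ℝ ψ u (EuclideanSpace.single i 1))
                  (fderiv ℝ ψ u (EuclideanSpace.single j 1))).det)) x ∂μH[(n : ℝ)]) :
    Good n M g := by
  have hM : IsMfd n M := h1.2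
  have hg : IsMetricOn n M g :=
    if_isMetricOn_iff.2 ⟨if_isTenOn_of_near (if_smoothNear_of_contDiff h3), h4⟩
  refine ⟨hM, h1.1, h2, hg, h5, if_spectral_of_hausdorff hM hg fun φ hφ hφc => ?_⟩
  have hφs : SmoothAlong n M φ := if_smoothAlong_of_contDiff hφ
  have hMm : MeasurableSet M := if_measurableSet hM
  refine (h6 φ hφ hφc).trans (le_of_eq ?_)
  refine setIntegral_congr_fun hMm fun x hx => ?_
  obtain ⟨ψ, U, h, u, hu, rfl⟩ := hM x hx
  have hInv : if_Inv (d := n) M fun ψ u =>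
      (4 * gradSqC (cm g ψ) (φ ∘ ψ) u + scalarCoord (cm g ψ) u * φ (ψ u) ^ 2) *
        Real.sqrt ((cm g ψ u).det / (cm (if_euc (E N)) ψ u).det) := by
    intro ψ ψ' U U' u u' h h' hu hu' he
    have a := if_inv_gradSq hg hφs ψ ψ' U U' u u' h h' hu hu' he
    have b := if_inv_scal hg ψ ψ' U U' u u' h h' hu hu' he
    have c := if_inv_dens g ψ ψ' U U' u u' h h' hu hu' he
    simp only at a b c ⊢
    rw [a, b, c, he]
  have e := if_pv_eq hInv h hu
  refine Eq.trans e ?_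
  rw [if_dens_eq g h hu, if_gradSq_eq hg hφs h hu, if_scal_eq hg h hu]

end Claimed.Agent.R315
end
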